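import Vale.Agent.P154H.Msg

set_option maxRecDepth 100000

/-!
The subdivision for `d = 10`.
-/

namespace Vale.Agent.P154H.Tm.D10

/-- A row. -/
def Ra : Row := Row.mk 0 175158 0 868797 1572468 0 1751580 0 8687970 0 0 15724680 0 992 0 821760 0 9187668

/-- A row. -/
def Rb : Row := Row.mk 0 1469331800064 0 7287997464576 13190817644544 0 14199676102800 0 69977771654709 0 0 126291628630016 0 8321499136 0 6893422510080 0 75027245092590
/-- A row. -/
def Q0 : Row := Row.mk 0 0 0 0 0 0 7473408 0 0 0 0 0 0 0 0 0 0 5346279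

/-- A row. -/
def Q1 : Row := Row.mk 0 0 0 0 0 0 0 0 296549376 0 0 0 0 0 0 0 0 173207163

/-- A row. -/
def Q2 : Row := Row.mk 0 0 0 0 0 0 0 0 0 0 1024 0 0 0 0 0 0 2643

/-- A row. -/
def Q3 : Row := Row.mk 0 358723584 0 1779296256 3220414464 0 3456992064 0 17021445600 0 0 30651536832 0 2031616 0 0 0 18453864831

/-- A row. -/
def Q4 : Row := Row.mk 0 358723584 0 1779296256 3220414464 0 3434296128 0 16879852416 0 0 30363778112 0 2031616 0 0 0 18399226515

/-- A row. -/
def Q5 : Row := Row.mk 0 179361792 0 889648128 1610207232 0 1703217984 0 8354621744 0 0 15011992192 0 1015808 0 0 0 9155570685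

/-- A row. -/
def Q6 : Row := Row.mk 0 358723584 0 1779296256 3220414464 0 3372243072 0 16512709984 0 0 29623888576 0 2031616 0 0 0 18229143027

/-- A row. -/
def Q7 : Row := Row.mk 0 358723584 0 1779296256 3220414464 0 3329700672 0 16278680832 0 0 29153592704 0 2031616 0 0 0 18107728707

/-- A row. -/
def Q8 : Row := Row.mk 0 179361792 0 889648128 1610207232 0 1643419136 0 7999869872 0 0 14301399872 0 1015808 0 0 0 8978657835

/-- A row. -/
def Q9 : Row := Row.mk 0 22420224 0 111206016 201275904 0 202034168 0 980287420 0 0 1747454576 0 126976 0 0 0 1114542015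

/-- A row. -/
def Q10 : Row := Row.mk 0 179361792 0 889648128 1610207232 0 1582240896 0 7654294864 0 0 13604994464 0 1015808 0 0 0 8809580547

/-- A row. -/
def Q11 : Row := Row.mk 0 358723584 0 1779296256 3220414464 0 3094452352 0 14883704288 0 0 26341535232 0 2031616 0 0 0 17461891257

/-- A row. -/
def Q12 : Row := Row.mk 0 179361792 0 889648128 1610207232 0 1506931008 0 7188289104 0 0 12669688832 0 1015808 0 0 0 8590708707

/-- A row. -/
def Q13 : Row := Row.mk 0 179361792 0 889648128 1610207232 0 1456633856 0 6899432208 0 0 12095621952 0 1015808 0 0 0 8427224241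

/-- A row. -/
def Q14 : Row := Row.mk 0 179361792 0 889648128 1610207232 0 1405353824 0 6580179456 0 0 11442521536 0 1015808 0 0 0 8312531409

/-- A row. -/
def Q15 : Row := Row.mk 0 22420224 0 111206016 201275904 0 168132856 0 775963772 0 0 1338271708 0 126976 0 0 0 1012780323

/-- A row. -/
def Q16 : Row := Row.mk 0 358723584 0 1779296256 3220414464 0 2525970816 0 11589567712 0 0 19769911360 0 2031616 0 0 0 15675984489

/-- A row. -/
def Q17 : Row := Row.mk 0 44840448 0 222412032 402551808 0 297521568 0 1343104116 0 0 2245190040 0 253952 0 0 0 1944731763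

/-- A row. -/
def Q18 : Row := Row.mk 0 179361792 0 889648128 1610207232 0 1107761824 0 4881678464 0 0 8001016576 0 1015808 0 0 0 7512875187

/-- A row. -/
def Q19 : Row := Row.mk 0 358723584 0 1779296256 3220414464 0 2023383744 0 8775652416 0 0 13919489856 0 2031616 0 0 0 14709791469

/-- A row. -/
def Q20 : Row := Row.mk 0 179361792 0 889648128 1610207232 0 928848384 0 3902916784 0 0 5878879072 0 1015808 0 0 0 7378801587

/-- A row. -/
def Q21 : Row := Row.mk 0 358723584 0 1779296256 3220414464 0 1692965504 0 6974349248 0 0 9462815680 0 2031616 0 0 0 15867225621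


/-- The data. -/
def P : Pb where
  lp := 0
  ln := 22786611987162171
  ab := 3298534883328
  r1 := [Ra, Rb]
  r2 := [Q0, Q1, Q2, Q3, Q4, Q5, Q6, Q7, Q8, Q9, Q10, Q11, Q12, Q13, Q14, Q15, Q16, Q17, Q18, Q19, Q20, Q21]

/-- Part of the subdivision. -/
def t0 : LT := (LT.b (LT.a (LT.l 4699 3614 4239 4239) (LT.l 4699 3615 4239 4239)) (LT.a LT.z1 (LT.b (LT.a LT.z1 (LT.b (LT.l 4695 3621 4239 4237) LT.z1)) LT.z1)))

theorem c0 : chk P t0 0 292057776128 0 584115552256 = true := by decide +kernel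

theorem b0 {lam : ℝ} (hlam : |(S : ℝ) * lam - ((P.lp : ℝ) - P.ln)| ≤ ((1 : ℕ) : ℝ)) : BoxS lam P 0 292057776128 0 584115552256 :=
  chk_sound hlam t0 0 292057776128 0 584115552256 (by norm_num) (by norm_num) c0

/-- Part of the subdivision. -/
def t1 : LT := (LT.a (LT.b (LT.a (LT.l 4696 3621 4237 4239) (LT.l 4683 3645 4229 4239)) (LT.a (LT.l 4696 3621 4237 4239) (LT.l 4683 3645 4229 4239))) (LT.b (LT.a (LT.l 4636 3722 4199 4239) (LT.b (LT.l 4475 3899 4101 4239) (LT.a (LT.l 4536 3844 4137 4239) (LT.l 4390 3962 4052 4239)))) (LT.a (LT.b (LT.l 4636 3722 4199 4239) (LT.l 4635 3723 4199 4239)) (LT.b (LT.a (LT.l 4536 3844 4137 4239) (LT.l 4390 3962 4052 4239)) (LT.a (LT.l 4535 3844 4137 4239) (LT.b (LT.l 4389 3962 4052 4239) (LT.a (LT.l 4435 3930 4079 4239) (LT.l 4332 3997 4021 4239))))))))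

theorem c1 : chk P t1 584115552256 292057776128 0 292057776128 = true := by decide +kernel

theorem b1 {lam : ℝ} (hlam : |(S : ℝ) * lam - ((P.lp : ℝ) - P.ln)| ≤ ((1 : ℕ) : ℝ)) : BoxS lam P 584115552256 292057776128 0 292057776128 :=
  chk_sound hlam t1 584115552256 292057776128 0 292057776128 (by norm_num) (by norm_num) c1

/-- Part of the subdivision. -/
def t2 : LT := (LT.b (LT.a (LT.b (LT.l 4693 3627 4237 4237) (LT.l 4680 3651 4237 4229)) (LT.b (LT.l 4680 3651 4229 4237) (LT.l 4666 3674 4229 4229))) (LT.a LT.z1 (LT.b (LT.a LT.z1 (LT.b (LT.l 4629 3732 4224 4210) LT.z1)) LT.z1)))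

theorem c2 : chk P t2 584115552256 146028888064 584115552256 292057776128 = true := by decide +kernel

theorem b2 {lam : ℝ} (hlam : |(S : ℝ) * lam - ((P.lp : ℝ) - P.ln)| ≤ ((1 : ℕ) : ℝ)) : BoxS lam P 584115552256 146028888064 584115552256 292057776128 :=
  chk_sound hlam t2 584115552256 146028888064 584115552256 292057776128 (by norm_num) (by norm_num) c2

/-- Part of the subdivision. -/
def t3 : LT := (LT.a (LT.b (LT.a (LT.l 4650 3701 4210 4237) (LT.l 4608 3760 4184 4237)) (LT.a (LT.l 4636 3722 4210 4229) (LT.b (LT.l 4599 3772 4184 4232) (LT.l 4585 3789 4184 4224)))) (LT.b (LT.a (LT.b (LT.l 4533 3846 4137 4238) (LT.l 4529 3850 4137 4236)) (LT.b (LT.a (LT.l 4433 3932 4079 4238) (LT.l 4329 3998 4021 4238)) (LT.a (LT.l 4429 3935 4079 4236) (LT.l 4324 4001 4021 4236)))) (LT.a (LT.b (LT.a (LT.l 4546 3833 4151 4232) (LT.l 4493 3884 4120 4232)) (LT.a (LT.l 4531 3849 4151 4224) (LT.l 4477 3897 4120 4224))) (LT.b (LT.a (LT.l 4420 3941 4079 4232) (LT.l 4313 4007 4021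 4232)) (LT.a (LT.l 4402 3954 4079 4224) (LT.l 4292 4018 4021 4224))))))

theorem c3 : chk P t3 876173328384 146028888064 584115552256 146028888064 = true := by decide +kernel

theorem b3 {lam : ℝ} (hlam : |(S : ℝ) * lam - ((P.lp : ℝ) - P.ln)| ≤ ((1 : ℕ) : ℝ)) : BoxS lam P 876173328384 146028888064 584115552256 146028888064 :=
  chk_sound hlam t3 876173328384 146028888064 584115552256 146028888064 (by norm_num) (by norm_num) c3

/-- Part of the subdivision. -/
def t4 : LT := (LT.b (LT.a (LT.b (LT.a (LT.l 4612 3756 4214 4210) (LT.l 4595 3777 4205 4210)) (LT.a LT.z1 (LT.b (LT.l 4564 3814 4205 4192) LT.z1))) (LT.b (LT.a (LT.l 4573 3803 4192 4210) (LT.b (LT.l 4552 3827 4174 4214) (LT.l 4534 3846 4174 4205))) (LT.a (LT.b (LT.l 4541 3838 4192 4192) (LT.a LT.z1 (LT.l 4502 3876 4188 4174))) (LT.b (LT.a (LT.l 4518 3861 4179 4192) (LT.l 4500 3878 4169 4192)) (LT.a (LT.b (LT.l 4495 3882 4179 4179) (LT.l 4475 3899 4179 4169)) (LT.b (LT.l 4475 3899 4169 4179) (LT.l 4456 3915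 4169 4169))))))) (LT.a LT.z1 (LT.b (LT.a LT.z1 (LT.b (LT.a LT.z1 (LT.b (LT.l 4433 3932 4169 4158) LT.z1)) LT.z1)) LT.z1)))

theorem c4 : chk P t4 876173328384 73014444032 876173328384 146028888064 = true := by decide +kernel

theorem b4 {lam : ℝ} (hlam : |(S : ℝ) * lam - ((P.lp : ℝ) - P.ln)| ≤ ((1 : ℕ) : ℝ)) : BoxS lam P 876173328384 73014444032 876173328384 146028888064 :=
  chk_sound hlam t4 876173328384 73014444032 876173328384 146028888064 (by norm_num) (by norm_num) c4

/-- Part of the subdivision. -/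
def t5 : LT := (LT.b (LT.a (LT.b (LT.l 4511 3867 4151 4214) (LT.l 4492 3885 4151 4205)) (LT.b (LT.l 4456 3915 4120 4214) (LT.l 4435 3931 4120 4205))) (LT.a (LT.b (LT.a (LT.l 4478 3896 4158 4192) (LT.l 4453 3917 4144 4192)) (LT.a (LT.b (LT.l 4453 3917 4158 4179) (LT.l 4433 3932 4158 4169)) (LT.b (LT.l 4427 3936 4144 4179) (LT.a (LT.l 4413 3946 4148 4169) (LT.l 4398 3956 4141 4169))))) (LT.b (LT.a (LT.l 4423 3939 4129 4192) (LT.l 4388 3963 4111 4192)) (LT.a (LT.b (LT.l 4396 3958 4129 4179) (LT.l 4373 3972 4129 4169)) (LT.b (LT.l 4359 3981 4111 4179) (LT.l 4335 3995 4111 4169))))))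

theorem c5 : chk P t5 1022202216448 36507222016 876173328384 73014444032 = true := by decide +kernel

theorem b5 {lam : ℝ} (hlam : |(S : ℝ) * lam - ((P.lp : ℝ) - P.ln)| ≤ ((1 : ℕ) : ℝ)) : BoxS lam P 1022202216448 36507222016 876173328384 73014444032 :=
  chk_sound hlam t5 1022202216448 36507222016 876173328384 73014444032 (by norm_num) (by norm_num) c5

/-- Part of the subdivision. -/
def t6 : LT := (LT.b (LT.a (LT.b (LT.l 4378 3969 4079 4214) (LT.l 4354 3984 4079 4205)) (LT.b (LT.l 4263 4032 4021 4214) (LT.a (LT.l 4269 4029 4038 4205) LT.z2))) (LT.a (LT.b (LT.a (LT.l 4346 3989 4090 4192) (LT.l 4294 4016 4066 4192)) (LT.a (LT.b (LT.l 4314 4006 4090 4179) (LT.l 4289 4019 4090 4169)) (LT.b (LT.l 4260 4033 4066 4179) (LT.l 4232 4045 4066 4169)))) (LT.b (LT.a (LT.l 4231 4046 4038 4192) LT.z2) (LT.a (LT.b (LT.l 4194 4061 4038 4179) LT.z2) LT.z2))))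

theorem c6 : chk P t6 1095216660480 36507222016 876173328384 73014444032 = true := by decide +kernel

theorem b6 {lam : ℝ} (hlam : |(S : ℝ) * lam - ((P.lp : ℝ) - P.ln)| ≤ ((1 : ℕ) : ℝ)) : BoxS lam P 1095216660480 36507222016 876173328384 73014444032 :=
  chk_sound hlam t6 1095216660480 36507222016 876173328384 73014444032 (by norm_num) (by norm_num) c6

/-- Part of the subdivision. -/
def t7 : LT := (LT.b (LT.a (LT.b (LT.a (LT.l 4415 3945 4161 4158) (LT.l 4402 3954 4154 4158)) (LT.a LT.z1 (LT.l 4374 3972 4154 4144))) (LT.b (LT.a (LT.l 4388 3963 4148 4158) (LT.l 4373 3973 4141 4158)) (LT.a (LT.b (LT.l 4367 3976 4148 4148) (LT.l 4351 3986 4148 4141)) (LT.b (LT.l 4351 3986 4141 4148) (LT.l 4334 3995 4141 4141))))) (LT.a LT.z1 (LT.b (LT.a LT.z1 (LT.b (LT.l 4317 4005 4141 4133) LT.z1)) LT.z1)))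

theorem c7 : chk P t7 1022202216448 18253611008 1022202216448 36507222016 = true := by decide +kernel

theorem b7 {lam : ℝ} (hlam : |(S : ℝ) * lam - ((P.lp : ℝ) - P.ln)| ≤ ((1 : ℕ) : ℝ)) : BoxS lam P 1022202216448 18253611008 1022202216448 36507222016 :=
  chk_sound hlam t7 1022202216448 18253611008 1022202216448 36507222016 (by norm_num) (by norm_num) c7

/-- Part of the subdivision. -/
def t8 : LT := (LT.a (LT.b (LT.a (LT.l 4356 3983 4133 4158) (LT.l 4338 3993 4125 4158)) (LT.a (LT.b (LT.l 4333 3996 4133 4148) (LT.l 4317 4005 4133 4141)) (LT.b (LT.l 4314 4006 4125 4148) (LT.l 4297 4015 4125 4141)))) (LT.b (LT.a (LT.l 4318 4004 4116 4158) (LT.l 4296 4016 4106 4158)) (LT.a (LT.l 4285 4021 4116 4144) (LT.l 4262 4032 4106 4144))))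

theorem c8 : chk P t8 1058709438464 18253611008 1022202216448 18253611008 = true := by decide +kernel

theorem b8 {lam : ℝ} (hlam : |(S : ℝ) * lam - ((P.lp : ℝ) - P.ln)| ≤ ((1 : ℕ) : ℝ)) : BoxS lam P 1058709438464 18253611008 1022202216448 18253611008 :=
  chk_sound hlam t8 1058709438464 18253611008 1022202216448 18253611008 (by norm_num) (by norm_num) c8

/-- Part of the subdivision. -/
def t9 : LT := (LT.a (LT.b (LT.a (LT.b (LT.l 4298 4014 4133 4133) (LT.l 4278 4024 4133 4125)) (LT.b (LT.l 4278 4024 4125 4133) (LT.l 4257 4034 4125 4125))) (LT.a LT.z1 (LT.b (LT.l 4234 4044 4125 4116) LT.z1))) (LT.b (LT.a (LT.b (LT.l 4256 4035 4116 4133) (LT.l 4234 4044 4116 4125)) (LT.b (LT.l 4232 4046 4106 4133) (LT.a (LT.l 4216 4052 4109 4125) (LT.l 4202 4058 4104 4125)))) (LT.a (LT.b (LT.a (LT.l 4217 4052 4118 4116) (LT.l 4204 4057 4113 4116)) (LT.a LT.z1 (LT.b (LT.l 4185 4065 4113 4109) LT.z1))) (LT.b (LT.a (LT.b (LT.l 4198 4060 4109 4118) (LT.l 4185 4065 4109 4113)) (LT.b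 (LT.l 4184 4065 4104 4118) (LT.l 4171 4070 4104 4113))) (LT.a (LT.b (LT.l 4171 4070 4109 4109) (LT.a LT.z1 (LT.l 4153 4077 4107 4104))) (LT.b (LT.a (LT.l 4160 4074 4105 4109) (LT.l 4153 4077 4102 4109)) (LT.a (LT.b (LT.l 4150 4078 4105 4105) (LT.l 4142 4081 4105 4102)) (LT.b (LT.l 4142 4081 4102 4105) (LT.l 4135 4083 4102 4102)))))))))

theorem c9 : chk P t9 1058709438464 18253611008 1058709438464 18253611008 = true := by decide +kernel

theorem b9 {lam : ℝ} (hlam : |(S : ℝ) * lam - ((P.lp : ℝ) - P.ln)| ≤ ((1 : ℕ) : ℝ)) : BoxS lam P 1058709438464 18253611008 1058709438464 18253611008 :=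
  chk_sound hlam t9 1058709438464 18253611008 1058709438464 18253611008 (by norm_num) (by norm_num) c9

/-- Part of the subdivision. -/
def t10 : LT := (LT.a LT.z1 (LT.b (LT.a LT.z1 (LT.b (LT.a LT.z1 (LT.b (LT.a LT.z1 (LT.b (LT.a LT.z1 (LT.b (LT.a LT.z1 (LT.l 4125 4087 4102 4100)) LT.z1)) LT.z1)) LT.z1)) LT.z1)) LT.z1))

theorem c10 : chk P t10 1022202216448 36507222016 1095216660480 36507222016 = true := by decide +kernel

theorem b10 {lam : ℝ} (hlam : |(S : ℝ) * lam - ((P.lp : ℝ) - P.ln)| ≤ ((1 : ℕ) : ℝ)) : BoxS lam P 1022202216448 36507222016 1095216660480 36507222016 :=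
  chk_sound hlam t10 1022202216448 36507222016 1095216660480 36507222016 (by norm_num) (by norm_num) c10

/-- Part of the subdivision. -/
def t11 : LT := (LT.a (LT.b (LT.a (LT.l 4272 4028 4096 4158) (LT.l 4245 4040 4084 4158)) (LT.a (LT.b (LT.l 4246 4040 4096 4148) (LT.l 4226 4048 4096 4141)) (LT.b (LT.l 4218 4052 4084 4148) (LT.l 4197 4060 4084 4141)))) (LT.b (LT.a (LT.l 4215 4053 4072 4158) (LT.l 4182 4066 4059 4158)) (LT.a (LT.b (LT.l 4187 4064 4072 4148) (LT.l 4165 4072 4072 4141)) LT.z2)))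

theorem c11 : chk P t11 1095216660480 18253611008 1022202216448 18253611008 = true := by decide +kernel

theorem b11 {lam : ℝ} (hlam : |(S : ℝ) * lam - ((P.lp : ℝ) - P.ln)| ≤ ((1 : ℕ) : ℝ)) : BoxS lam P 1095216660480 18253611008 1022202216448 18253611008 :=
  chk_sound hlam t11 1095216660480 18253611008 1022202216448 18253611008 (by norm_num) (by norm_num) c11

/-- Part of the subdivision. -/
def t12 : LT := (LT.a (LT.b (LT.l 4205 4057 4096 4133) (LT.a (LT.l 4189 4063 4098 4125) (LT.b (LT.l 4180 4067 4093 4127) (LT.l 4167 4071 4093 4122)))) (LT.b (LT.l 4175 4069 4084 4133) (LT.a (LT.b (LT.l 4165 4073 4087 4127) (LT.l 4152 4077 4087 4122)) (LT.l 4142 4081 4082 4125))))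

theorem c12 : chk P t12 1095216660480 9126805504 1058709438464 9126805504 = true := by decide +kernel

theorem b12 {lam : ℝ} (hlam : |(S : ℝ) * lam - ((P.lp : ℝ) - P.ln)| ≤ ((1 : ℕ) : ℝ)) : BoxS lam P 1095216660480 9126805504 1058709438464 9126805504 :=
  chk_sound hlam t12 1095216660480 9126805504 1058709438464 9126805504 (by norm_num) (by norm_num) c12

/-- Part of the subdivision. -/
def t13 : LT := (LT.a (LT.b (LT.l 4169 4071 4098 4118) (LT.a (LT.l 4160 4074 4100 4113) (LT.l 4152 4077 4097 4113))) (LT.b (LT.l 4154 4076 4093 4118) (LT.a (LT.l 4144 4080 4094 4113) (LT.l 4136 4083 4092 4113))))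

theorem c13 : chk P t13 1095216660480 4563402752 1076963049472 4563402752 = true := by decide +kernel

theorem b13 {lam : ℝ} (hlam : |(S : ℝ) * lam - ((P.lp : ℝ) - P.ln)| ≤ ((1 : ℕ) : ℝ)) : BoxS lam P 1095216660480 4563402752 1076963049472 4563402752 :=
  chk_sound hlam t13 1095216660480 4563402752 1076963049472 4563402752 (by norm_num) (by norm_num) c13

/-- Part of the subdivision. -/
def t14 : LT := (LT.b (LT.a (LT.b (LT.l 4149 4078 4100 4110) (LT.l 4142 4081 4100 4107)) (LT.b (LT.l 4141 4081 4097 4110) (LT.l 4134 4083 4097 4107))) (LT.a (LT.b (LT.l 4134 4083 4100 4105) (LT.a (LT.l 4129 4085 4100 4102) (LT.l 4125 4087 4099 4102))) (LT.b (LT.a (LT.l 4128 4085 4098 4105) (LT.l 4124 4087 4096 4105)) (LT.a (LT.b (LT.l 4123 4087 4098 4103) (LT.l 4119 4089 4098 4102)) (LT.b (LT.l 4119 4089 4096 4103) (LT.l 4115 4090 4096 4102))))))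

theorem c14 : chk P t14 1095216660480 2281701376 1086089854976 4563402752 = true := by decide +kernel

theorem b14 {lam : ℝ} (hlam : |(S : ℝ) * lam - ((P.lp : ℝ) - P.ln)| ≤ ((1 : ℕ) : ℝ)) : BoxS lam P 1095216660480 2281701376 1086089854976 4563402752 :=
  chk_sound hlam t14 1095216660480 2281701376 1086089854976 4563402752 (by norm_num) (by norm_num) c14

/-- Part of the subdivision. -/
def t15 : LT := (LT.b (LT.a (LT.b (LT.l 4134 4084 4094 4110) (LT.l 4126 4086 4094 4107)) (LT.b (LT.l 4125 4086 4092 4110) (LT.l 4118 4089 4092 4107))) (LT.a (LT.b (LT.a (LT.l 4120 4088 4095 4105) (LT.l 4116 4089 4094 4105)) (LT.a (LT.b (LT.l 4115 4090 4095 4103) (LT.l 4111 4091 4095 4102)) (LT.b (LT.l 4110 4091 4094 4103) (LT.l 4106 4093 4094 4102)))) (LT.b (LT.l 4110 4092 4092 4105) (LT.a (LT.b (LT.l 4106 4093 4092 4103) (LT.l 4102 4094 4092 4102)) LT.z2))))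

theorem c15 : chk P t15 1099780063232 2281701376 1086089854976 4563402752 = true := by decide +kernel

theorem b15 {lam : ℝ} (hlam : |(S : ℝ) * lam - ((P.lp : ℝ) - P.ln)| ≤ ((1 : ℕ) : ℝ)) : BoxS lam P 1099780063232 2281701376 1086089854976 4563402752 :=
  chk_sound hlam t15 1099780063232 2281701376 1086089854976 4563402752 (by norm_num) (by norm_num) c15

/-- Part of the subdivision. -/
def t16 : LT := (LT.b (LT.a (LT.b (LT.l 4138 4082 4087 4118) (LT.l 4124 4087 4087 4113)) (LT.b (LT.l 4121 4088 4082 4118) LT.z2)) (LT.a (LT.b (LT.a (LT.b (LT.l 4117 4089 4089 4110) (LT.l 4109 4092 4089 4107)) LT.z2) LT.z2) LT.z2))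

theorem c16 : chk P t16 1104343465984 4563402752 1076963049472 9126805504 = true := by decide +kernel

theorem b16 {lam : ℝ} (hlam : |(S : ℝ) * lam - ((P.lp : ℝ) - P.ln)| ≤ ((1 : ℕ) : ℝ)) : BoxS lam P 1104343465984 4563402752 1076963049472 9126805504 :=
  chk_sound hlam t16 1104343465984 4563402752 1076963049472 9126805504 (by norm_num) (by norm_num) c16

/-- Part of the subdivision. -/
def t17 : LT := (LT.b (LT.a (LT.b (LT.l 4141 4081 4072 4133) LT.z2) LT.z2) LT.z2)

theorem c17 : chk P t17 1113470271488 9126805504 1058709438464 18253611008 = true := by decide +kernel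

theorem b17 {lam : ℝ} (hlam : |(S : ℝ) * lam - ((P.lp : ℝ) - P.ln)| ≤ ((1 : ℕ) : ℝ)) : BoxS lam P 1113470271488 9126805504 1058709438464 18253611008 :=
  chk_sound hlam t17 1113470271488 9126805504 1058709438464 18253611008 (by norm_num) (by norm_num) c17

/-- Part of the subdivision. -/
def t18 : LT := LT.z2

theorem c18 : chk P t18 1131723882496 18253611008 1022202216448 36507222016 = true := by decide +kernel

theorem b18 {lam : ℝ} (hlam : |(S : ℝ) * lam - ((P.lp : ℝ) - P.ln)| ≤ ((1 : ℕ) : ℝ)) : BoxS lam P 1131723882496 18253611008 1022202216448 36507222016 :=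
  chk_sound hlam t18 1131723882496 18253611008 1022202216448 36507222016 (by norm_num) (by norm_num) c18

/-- Part of the subdivision. -/
def t19 : LT := (LT.b (LT.a (LT.b (LT.l 4123 4087 4100 4100) (LT.l 4119 4089 4100 4099)) (LT.b (LT.l 4119 4089 4099 4100) (LT.a (LT.l 4116 4090 4099 4099) (LT.l 4114 4090 4099 4099)))) (LT.a LT.z1 (LT.b (LT.a LT.z1 (LT.b (LT.l 4111 4091 4099 4098) LT.z1)) LT.z1)))

theorem c19 : chk P t19 1095216660480 1140850688 1095216660480 2281701376 = true := by decide +kernel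

theorem b19 {lam : ℝ} (hlam : |(S : ℝ) * lam - ((P.lp : ℝ) - P.ln)| ≤ ((1 : ℕ) : ℝ)) : BoxS lam P 1095216660480 1140850688 1095216660480 2281701376 :=
  chk_sound hlam t19 1095216660480 1140850688 1095216660480 2281701376 (by norm_num) (by norm_num) c19

/-- Part of the subdivision. -/
def t20 : LT := (LT.a (LT.b (LT.l 4115 4090 4098 4100) (LT.a (LT.l 4112 4091 4098 4099) (LT.b (LT.l 4111 4091 4097 4099) (LT.l 4109 4092 4097 4099)))) (LT.b (LT.a (LT.l 4112 4091 4097 4100) (LT.l 4110 4092 4096 4100)) (LT.a (LT.b (LT.l 4109 4092 4097 4099) (LT.l 4107 4093 4097 4099)) (LT.b (LT.l 4107 4093 4096 4099) (LT.l 4105 4093 4096 4099)))))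

theorem c20 : chk P t20 1097498361856 1140850688 1095216660480 1140850688 = true := by decide +kernel

theorem b20 {lam : ℝ} (hlam : |(S : ℝ) * lam - ((P.lp : ℝ) - P.ln)| ≤ ((1 : ℕ) : ℝ)) : BoxS lam P 1097498361856 1140850688 1095216660480 1140850688 :=
  chk_sound hlam t20 1097498361856 1140850688 1095216660480 1140850688 (by norm_num) (by norm_num) c20

/-- Part of the subdivision. -/
def t21 : LT := (LT.b (LT.a (LT.b (LT.l 4109 4092 4098 4098) (LT.l 4107 4093 4098 4097)) (LT.b (LT.l 4107 4093 4097 4098) (LT.a (LT.l 4105 4093 4098 4097) (LT.l 4104 4093 4097 4097)))) (LT.a LT.z1 (LT.b (LT.a LT.z1 (LT.b (LT.l 4102 4094 4097 4097) LT.z1)) LT.z1)))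

theorem c21 : chk P t21 1097498361856 570425344 1097498361856 1140850688 = true := by decide +kernel

theorem b21 {lam : ℝ} (hlam : |(S : ℝ) * lam - ((P.lp : ℝ) - P.ln)| ≤ ((1 : ℕ) : ℝ)) : BoxS lam P 1097498361856 570425344 1097498361856 1140850688 :=
  chk_sound hlam t21 1097498361856 570425344 1097498361856 1140850688 (by norm_num) (by norm_num) c21

/-- Part of the subdivision. -/
def t22 : LT := (LT.a (LT.b (LT.a (LT.l 4105 4093 4097 4098) (LT.l 4104 4093 4097 4098)) (LT.a (LT.b (LT.l 4103 4094 4097 4098) (LT.l 4102 4094 4097 4097)) (LT.b (LT.l 4102 4094 4097 4098) (LT.l 4101 4094 4097 4097)))) (LT.b (LT.a (LT.l 4103 4094 4096 4098) (LT.l 4102 4094 4096 4098)) (LT.a (LT.b (LT.l 4101 4094 4096 4098) (LT.a (LT.l 4101 4095 4096 4097) (LT.l 4100 4095 4096 4097))) (LT.b (LT.l 4100 4095 4096 4098) (LT.a (LT.l 4100 4095 4096 4097) (LT.l 4099 4095 4096 4097))))))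

theorem c22 : chk P t22 1098639212544 570425344 1097498361856 570425344 = true := by decide +kernel

theorem b22 {lam : ℝ} (hlam : |(S : ℝ) * lam - ((P.lp : ℝ) - P.ln)| ≤ ((1 : ℕ) : ℝ)) : BoxS lam P 1098639212544 570425344 1097498361856 570425344 :=
  chk_sound hlam t22 1098639212544 570425344 1097498361856 570425344 (by norm_num) (by norm_num) c22

/-- Part of the subdivision. -/
def t23 : LT := (LT.a (LT.b (LT.a (LT.b (LT.l 4101 4094 4097 4097) (LT.a LT.z1 (LT.l 4100 4095 4097 4097))) (LT.b (LT.a (LT.l 4101 4095 4097 4097) (LT.l 4100 4095 4096 4097)) (LT.a (LT.b (LT.l 4100 4095 4097 4097) (LT.o 4099 4095 4097 4096)) (LT.o 4099 4095 4096 4097)))) (LT.a LT.z1 (LT.o 4098 4095 4097 4096))) (LT.b (LT.a (LT.b (LT.a (LT.b (LT.l 4100 4095 4096 4097) (LT.o 4099 4095 4096 4097)) (LT.b (LT.l 4099 4095 4096 4097) (LT.o 4099 4095 4096 4097))) (LT.o 4098 4095 4096 4097)) (LT.o 4098 4095 4096 4097)) (LT.o 4096 4096 4096 4096)))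

theorem c23 : chk P t23 1098639212544 570425344 1098639212544 570425344 = true := by decide +kernel

theorem b23 {lam : ℝ} (hlam : |(S : ℝ) * lam - ((P.lp : ℝ) - P.ln)| ≤ ((1 : ℕ) : ℝ)) : BoxS lam P 1098639212544 570425344 1098639212544 570425344 :=
  chk_sound hlam t23 1098639212544 570425344 1098639212544 570425344 (by norm_num) (by norm_num) c23

/-- Part of the subdivision. -/
def t24 : LT := (LT.a LT.z1 (LT.b (LT.a LT.z1 (LT.b (LT.a LT.z1 (LT.b (LT.a LT.z1 LT.z2) LT.z1)) LT.z1)) LT.z1))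

theorem c24 : chk P t24 1095216660480 2281701376 1099780063232 2281701376 = true := by decide +kernel

theorem b24 {lam : ℝ} (hlam : |(S : ℝ) * lam - ((P.lp : ℝ) - P.ln)| ≤ ((1 : ℕ) : ℝ)) : BoxS lam P 1095216660480 2281701376 1099780063232 2281701376 :=
  chk_sound hlam t24 1095216660480 2281701376 1099780063232 2281701376 (by norm_num) (by norm_num) c24

/-- Part of the subdivision. -/
def t25 : LT := (LT.b (LT.a (LT.b (LT.a (LT.b (LT.a (LT.l 4108 4092 4095 4100) (LT.l 4105 4093 4095 4100)) (LT.a (LT.b (LT.l 4104 4093 4095 4099) (LT.l 4102 4094 4095 4099)) (LT.b (LT.l 4102 4094 4095 4099) (LT.l 4100 4095 4095 4099)))) (LT.b (LT.l 4102 4094 4094 4100) (LT.a (LT.b (LT.l 4100 4095 4094 4099) LT.z2) LT.z2))) (LT.a (LT.b (LT.a (LT.b (LT.a (LT.l 4101 4094 4096 4098) (LT.l 4100 4095 4095 4098)) (LT.a (LT.b (LT.l 4099 4095 4096 4098) (LT.l 4098 4095 4096 4097)) (LT.b (LT.l 4098 4095 4095 4098) (LT.l 4097 4096 4095 4097)))) (LT.b (LT.l 4098 4095 4095 4098) LT.z2)) (LT.a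 (LT.b (LT.a (LT.o 4097 4096 4096 4097) LT.z2) LT.z2) LT.z2)) LT.z2)) LT.z2) LT.z2)

theorem c25 : chk P t25 1099780063232 2281701376 1095216660480 4563402752 = true := by decide +kernel

theorem b25 {lam : ℝ} (hlam : |(S : ℝ) * lam - ((P.lp : ℝ) - P.ln)| ≤ ((1 : ℕ) : ℝ)) : BoxS lam P 1099780063232 2281701376 1095216660480 4563402752 :=
  chk_sound hlam t25 1099780063232 2281701376 1095216660480 4563402752 (by norm_num) (by norm_num) c25

/-- Part of the subdivision. -/
def t26 : LT := (LT.a LT.z1 LT.z2)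

theorem c26 : chk P t26 1095216660480 4563402752 1104343465984 4563402752 = true := by decide +kernel

theorem b26 {lam : ℝ} (hlam : |(S : ℝ) * lam - ((P.lp : ℝ) - P.ln)| ≤ ((1 : ℕ) : ℝ)) : BoxS lam P 1095216660480 4563402752 1104343465984 4563402752 :=
  chk_sound hlam t26 1095216660480 4563402752 1104343465984 4563402752 (by norm_num) (by norm_num) c26

/-- Part of the subdivision. -/
def t27 : LT := LT.z2

theorem c27 : chk P t27 1104343465984 4563402752 1095216660480 9126805504 = true := by decide +kernel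

theorem b27 {lam : ℝ} (hlam : |(S : ℝ) * lam - ((P.lp : ℝ) - P.ln)| ≤ ((1 : ℕ) : ℝ)) : BoxS lam P 1104343465984 4563402752 1095216660480 9126805504 :=
  chk_sound hlam t27 1104343465984 4563402752 1095216660480 9126805504 (by norm_num) (by norm_num) c27

/-- Part of the subdivision. -/
def t28 : LT := LT.z2

theorem c28 : chk P t28 1095216660480 9126805504 1113470271488 9126805504 = true := by decide +kernel

theorem b28 {lam : ℝ} (hlam : |(S : ℝ) * lam - ((P.lp : ℝ) - P.ln)| ≤ ((1 : ℕ) : ℝ)) : BoxS lam P 1095216660480 9126805504 1113470271488 9126805504 :=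
  chk_sound hlam t28 1095216660480 9126805504 1113470271488 9126805504 (by norm_num) (by norm_num) c28

/-- Part of the subdivision. -/
def t29 : LT := LT.z2

theorem c29 : chk P t29 1113470271488 9126805504 1095216660480 18253611008 = true := by decide +kernel

theorem b29 {lam : ℝ} (hlam : |(S : ℝ) * lam - ((P.lp : ℝ) - P.ln)| ≤ ((1 : ℕ) : ℝ)) : BoxS lam P 1113470271488 9126805504 1095216660480 18253611008 :=
  chk_sound hlam t29 1113470271488 9126805504 1095216660480 18253611008 (by norm_num) (by norm_num) c29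

/-- Part of the subdivision. -/
def t30 : LT := LT.z2

theorem c30 : chk P t30 1095216660480 18253611008 1131723882496 18253611008 = true := by decide +kernel

theorem b30 {lam : ℝ} (hlam : |(S : ℝ) * lam - ((P.lp : ℝ) - P.ln)| ≤ ((1 : ℕ) : ℝ)) : BoxS lam P 1095216660480 18253611008 1131723882496 18253611008 :=
  chk_sound hlam t30 1095216660480 18253611008 1131723882496 18253611008 (by norm_num) (by norm_num) c30

/-- Part of the subdivision. -/
def t31 : LT := LT.z2

theorem c31 : chk P t31 1131723882496 18253611008 1095216660480 36507222016 = true := by decide +kernel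

theorem b31 {lam : ℝ} (hlam : |(S : ℝ) * lam - ((P.lp : ℝ) - P.ln)| ≤ ((1 : ℕ) : ℝ)) : BoxS lam P 1131723882496 18253611008 1095216660480 36507222016 :=
  chk_sound hlam t31 1131723882496 18253611008 1095216660480 36507222016 (by norm_num) (by norm_num) c31

/-- The whole box. -/
theorem box {lam : ℝ} (hlam : |(S : ℝ) * lam - ((P.lp : ℝ) - P.ln)| ≤ ((1 : ℕ) : ℝ)) : BoxS lam P 0 HH 0 HH :=
  (BoxS.sa' (x1 := 584115552256) (h := 292057776128) (by norm_num [HH]) (by norm_num) (b0 hlam) (BoxS.sb' (t1 := 584115552256) (h := 292057776128) (by norm_num [HH]) (by norm_num) (b1 hlam) (BoxS.sa' (x1 := 876173328384) (h := 146028888064) (by norm_num [HH]) (by norm_num) (b2 hlam) (BoxS.sb' (t1 := 876173328384) (h := 146028888064) (by norm_num [HH]) (by norm_num) (b3 hlam) (BoxS.sa' (x1 := 1022202216448) (h := 73014444032) (by norm_num [HH]) (by norm_num) (b4 hlam) (BoxS.sb' (t1 := 1022202216448) (h := 73014444032) (by norm_num [HH]) (by norm_num) (BoxS.sa' (x1 := 1095216660480)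 (h := 36507222016) (by norm_num [HH]) (by norm_num) (b5 hlam) (b6 hlam)) (BoxS.sa' (x1 := 1095216660480) (h := 36507222016) (by norm_num [HH]) (by norm_num) (BoxS.sb' (t1 := 1095216660480) (h := 36507222016) (by norm_num [HH]) (by norm_num) (BoxS.sa' (x1 := 1058709438464) (h := 18253611008) (by norm_num [HH]) (by norm_num) (b7 hlam) (BoxS.sb' (t1 := 1058709438464) (h := 18253611008) (by norm_num [HH]) (by norm_num) (b8 hlam) (b9 hlam))) (b10 hlam)) (BoxS.sb' (t1 := 1095216660480) (h := 36507222016) (by norm_num [HH]) (by norm_num) (BoxS.sa' (x1 := 1131723882496) (h := 18253611008) (by norm_num [HH]) (by norm_num) (BoxS.sb' (t1 := 1058709438464) (h := 18253611008) (by norm_num [HH]) (by norm_num) (b11 hlam) (BoxS.sa' (x1 := 1113470271488) (h := 9126805504) (by norm_num [HH]) (by norm_num) (BoxS.sb' (t1 := 1076963049472) (h := 9126805504) (by norm_num [HH]) (by norm_num) (b12 hlam) (BoxS.sa' (x1 := 1104343465984) (h := 4563402752) (by norm_num [HH]) (by norm_num)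 (BoxS.sb' (t1 := 1086089854976) (h := 4563402752) (by norm_num [HH]) (by norm_num) (b13 hlam) (BoxS.sa' (x1 := 1099780063232) (h := 2281701376) (by norm_num [HH]) (by norm_num) (b14 hlam) (b15 hlam))) (b16 hlam))) (b17 hlam))) (b18 hlam)) (BoxS.sa' (x1 := 1131723882496) (h := 18253611008) (by norm_num [HH]) (by norm_num) (BoxS.sb' (t1 := 1131723882496) (h := 18253611008) (by norm_num [HH]) (by norm_num) (BoxS.sa' (x1 := 1113470271488) (h := 9126805504) (by norm_num [HH]) (by norm_num) (BoxS.sb' (t1 := 1113470271488) (h := 9126805504) (by norm_num [HH]) (by norm_num) (BoxS.sa' (x1 := 1104343465984) (h := 4563402752) (by norm_num [HH]) (by norm_num) (BoxS.sb' (t1 := 1104343465984) (h := 4563402752) (by norm_num [HH]) (by norm_num) (BoxS.sa' (x1 := 1099780063232) (h := 2281701376) (by norm_num [HH]) (by norm_num) (BoxS.sb' (t1 := 1099780063232) (h := 2281701376) (by norm_num [HH]) (by norm_num) (BoxS.sa' (x1 := 1097498361856) (h := 1140850688) (by norm_num [HH])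 (by norm_num) (b19 hlam) (BoxS.sb' (t1 := 1097498361856) (h := 1140850688) (by norm_num [HH]) (by norm_num) (b20 hlam) (BoxS.sa' (x1 := 1098639212544) (h := 570425344) (by norm_num [HH]) (by norm_num) (b21 hlam) (BoxS.sb' (t1 := 1098639212544) (h := 570425344) (by norm_num [HH]) (by norm_num) (b22 hlam) (b23 hlam))))) (b24 hlam)) (b25 hlam)) (b26 hlam)) (b27 hlam)) (b28 hlam)) (b29 hlam)) (b30 hlam)) (b31 hlam))))))))))

end Vale.Agent.P154H.Tm.D10
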