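import Vale.Agent.P154H.Msg

set_option maxRecDepth 100000

/-!
The subdivision for `d = 11`.
-/

namespace Vale.Agent.P154H.Tm.D11

/-- A row. -/
def Ra : Row := Row.mk 0 525474 0 2606391 4717404 0 5780214 0 28670301 0 0 51891444 0 3328 0 3013120 0 30625560

/-- A row. -/
def Rb : Row := Row.mk 0 4407995400192 0 21863992393728 39572452933632 0 46682482162032 0 229889273515371 0 0 414754777227264 0 27917287424 0 25275882536960 0 249428174134482
/-- A row. -/
def Q0 : Row := Row.mk 0 0 0 0 0 0 7473408 0 0 0 0 0 0 0 0 0 0 5346279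

/-- A row. -/
def Q1 : Row := Row.mk 0 0 0 0 0 0 0 0 296549376 0 0 0 0 0 0 0 0 173207163

/-- A row. -/
def Q2 : Row := Row.mk 0 0 0 0 0 0 0 0 0 0 1024 0 0 0 0 0 0 2691

/-- A row. -/
def Q3 : Row := Row.mk 0 1076170752 0 5337888768 9661243392 0 11356070400 0 55896927744 0 0 100586659008 0 6815744 0 0 0 61415845515

/-- A row. -/
def Q4 : Row := Row.mk 0 1076170752 0 5337888768 9661243392 0 11268073152 0 55357154592 0 0 99515055360 0 6815744 0 0 0 61127490663

/-- A row. -/
def Q5 : Row := Row.mk 0 1076170752 0 5337888768 9661243392 0 11162687040 0 54733701984 0 0 98250095424 0 6815744 0 0 0 60864219873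

/-- A row. -/
def Q6 : Row := Row.mk 0 1076170752 0 5337888768 9661243392 0 11039939328 0 53983520448 0 0 96759136128 0 6815744 0 0 0 60466640175

/-- A row. -/
def Q7 : Row := Row.mk 0 538085376 0 2668944384 4830621696 0 5436154176 0 26567000640 0 0 47502138912 0 3407872 0 0 0 30064120263

/-- A row. -/
def Q8 : Row := Row.mk 0 1076170752 0 5337888768 9661243392 0 10722246144 0 52085008896 0 0 92945373312 0 6815744 0 0 0 59558741721

/-- A row. -/
def Q9 : Row := Row.mk 0 1076170752 0 5337888768 9661243392 0 10502065152 0 50912669760 0 0 90540157248 0 6815744 0 0 0 59074098273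

/-- A row. -/
def Q10 : Row := Row.mk 0 269042688 0 1334472192 2415310848 0 2571689424 0 12373167288 0 0 21935868864 0 1703936 0 0 0 14573461041

/-- A row. -/
def Q11 : Row := Row.mk 0 1076170752 0 5337888768 9661243392 0 9999912192 0 47921527968 0 0 84505996416 0 6815744 0 0 0 57706017471

/-- A row. -/
def Q12 : Row := Row.mk 0 538085376 0 2668944384 4830621696 0 4833170496 0 23021641056 0 0 40390635744 0 3407872 0 0 0 28300641615

/-- A row. -/
def Q13 : Row := Row.mk 0 538085376 0 2668944384 4830621696 0 4655558304 0 21942809904 0 0 38264472768 0 3407872 0 0 0 27667578861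

/-- A row. -/
def Q14 : Row := Row.mk 0 1076170752 0 5337888768 9661243392 0 8974369536 0 41528192544 0 0 71717034432 0 6815744 0 0 0 54577506393

/-- A row. -/
def Q15 : Row := Row.mk 0 1076170752 0 5337888768 9661243392 0 8396990784 0 38846082048 0 0 66328560384 0 6815744 0 0 0 52891118181

/-- A row. -/
def Q16 : Row := Row.mk 0 1076170752 0 5337888768 9661243392 0 7927235520 0 35839701792 0 0 60374523264 0 6815744 0 0 0 51259986891

/-- A row. -/
def Q17 : Row := Row.mk 0 269042688 0 1334472192 2415310848 0 1828684800 0 8222455152 0 0 13475093232 0 1703936 0 0 0 12746380959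

/-- A row. -/
def Q18 : Row := Row.mk 0 538085376 0 2668944384 4830621696 0 3375171168 0 14803295856 0 0 23497422720 0 3407872 0 0 0 25059620169

/-- A row. -/
def Q19 : Row := Row.mk 0 1076170752 0 5337888768 9661243392 0 6201429312 0 26379429120 0 0 39802156224 0 6815744 0 0 0 50325261201

/-- A row. -/
def Q20 : Row := Row.mk 0 269042688 0 1334472192 2415310848 0 1429576656 0 5908949760 0 0 8029886832 0 1703936 0 0 0 13639041027


/-- The data. -/
def P : Pb where
  lp := 0
  ln := 21726182065414295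
  ab := 3298534883328
  r1 := [Ra, Rb]
  r2 := [Q0, Q1, Q2, Q3, Q4, Q5, Q6, Q7, Q8, Q9, Q10, Q11, Q12, Q13, Q14, Q15, Q16, Q17, Q18, Q19, Q20]

/-- Part of the subdivision. -/
def t0 : LT := (LT.b (LT.a (LT.l 4699 3649 4233 4233) (LT.l 4699 3649 4233 4233)) (LT.a LT.z1 (LT.b (LT.a LT.z1 (LT.b (LT.l 4695 3656 4233 4231) LT.z1)) LT.z1)))

theorem c0 : chk P t0 0 292057776128 0 584115552256 = true := by decide +kernel

theorem b0 {lam : ℝ} (hlam : |(S : ℝ) * lam - ((P.lp : ℝ) - P.ln)| ≤ ((1 : ℕ) : ℝ)) : BoxS lam P 0 292057776128 0 584115552256 :=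
  chk_sound hlam t0 0 292057776128 0 584115552256 (by norm_num) (by norm_num) c0

/-- Part of the subdivision. -/
def t1 : LT := (LT.a (LT.b (LT.a (LT.l 4696 3655 4231 4233) (LT.l 4683 3677 4223 4233)) (LT.a (LT.l 4696 3655 4231 4233) (LT.l 4683 3677 4223 4233))) (LT.b (LT.a (LT.l 4636 3747 4194 4233) (LT.b (LT.l 4475 3910 4101 4233) (LT.l 4475 3910 4101 4233))) (LT.a (LT.b (LT.l 4636 3747 4194 4233) (LT.l 4635 3747 4194 4233)) (LT.b (LT.a (LT.l 4536 3858 4135 4233) (LT.l 4390 3969 4054 4233)) (LT.a (LT.l 4535 3859 4135 4233) (LT.b (LT.l 4389 3969 4054 4233) (LT.a (LT.l 4435 3939 4079 4233) (LT.l 4332 4002 4025 4233))))))))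

theorem c1 : chk P t1 584115552256 292057776128 0 292057776128 = true := by decide +kernel

theorem b1 {lam : ℝ} (hlam : |(S : ℝ) * lam - ((P.lp : ℝ) - P.ln)| ≤ ((1 : ℕ) : ℝ)) : BoxS lam P 584115552256 292057776128 0 292057776128 :=
  chk_sound hlam t1 584115552256 292057776128 0 292057776128 (by norm_num) (by norm_num) c1

/-- Part of the subdivision. -/
def t2 : LT := (LT.b (LT.a (LT.b (LT.l 4693 3660 4231 4231) (LT.l 4680 3682 4231 4223)) (LT.b (LT.l 4680 3682 4223 4231) (LT.l 4666 3703 4223 4223))) (LT.a LT.z1 (LT.b (LT.a LT.z1 (LT.b (LT.l 4629 3756 4219 4205) LT.z1)) LT.z1)))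

theorem c2 : chk P t2 584115552256 146028888064 584115552256 292057776128 = true := by decide +kernel

theorem b2 {lam : ℝ} (hlam : |(S : ℝ) * lam - ((P.lp : ℝ) - P.ln)| ≤ ((1 : ℕ) : ℝ)) : BoxS lam P 584115552256 146028888064 584115552256 292057776128 :=
  chk_sound hlam t2 584115552256 146028888064 584115552256 292057776128 (by norm_num) (by norm_num) c2

/-- Part of the subdivision. -/
def t3 : LT := (LT.a (LT.b (LT.a (LT.l 4650 3727 4205 4231) (LT.l 4608 3781 4180 4231)) (LT.a (LT.l 4636 3746 4205 4223) (LT.b (LT.l 4599 3792 4180 4226) (LT.l 4585 3808 4180 4219)))) (LT.b (LT.a (LT.b (LT.l 4533 3861 4135 4232) (LT.l 4529 3864 4135 4230)) (LT.b (LT.a (LT.l 4433 3940 4079 4232) (LT.l 4329 4003 4025 4232)) (LT.a (LT.l 4429 3943 4079 4230) (LT.l 4324 4005 4025 4230)))) (LT.a (LT.b (LT.a (LT.l 4546 3849 4149 4226) (LT.l 4493 3895 4119 4226)) (LT.a (LT.l 4531 3863 4149 4219) (LT.l 4477 3908 4119 4219))) (LT.b (LT.a (LT.l 4420 3950 4079 4226) (LT.l 4313 4011 4025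 4226)) (LT.a (LT.l 4402 3961 4079 4219) (LT.l 4292 4022 4025 4219))))))

theorem c3 : chk P t3 876173328384 146028888064 584115552256 146028888064 = true := by decide +kernel

theorem b3 {lam : ℝ} (hlam : |(S : ℝ) * lam - ((P.lp : ℝ) - P.ln)| ≤ ((1 : ℕ) : ℝ)) : BoxS lam P 876173328384 146028888064 584115552256 146028888064 :=
  chk_sound hlam t3 876173328384 146028888064 584115552256 146028888064 (by norm_num) (by norm_num) c3

/-- Part of the subdivision. -/
def t4 : LT := (LT.b (LT.a (LT.b (LT.l 4604 3786 4205 4205) (LT.a LT.z1 (LT.b (LT.l 4564 3830 4200 4187) LT.z1))) (LT.b (LT.a (LT.l 4573 3821 4187 4205) (LT.b (LT.l 4552 3843 4171 4209) (LT.l 4534 3860 4171 4200))) (LT.a (LT.b (LT.l 4541 3853 4187 4187) (LT.a LT.z1 (LT.l 4502 3888 4184 4171))) (LT.b (LT.a (LT.l 4518 3874 4175 4187) (LT.l 4500 3890 4166 4187)) (LT.a (LT.b (LT.l 4495 3894 4175 4175) (LT.l 4475 3910 4175 4166)) (LT.b (LT.l 4475 3910 4166 4175) (LT.l 4456 3924 4166 4166))))))) (LT.a LT.z1 (LT.b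 (LT.a LT.z1 (LT.b (LT.a LT.z1 (LT.b (LT.l 4433 3941 4166 4155) LT.z1)) LT.z1)) LT.z1)))

theorem c4 : chk P t4 876173328384 73014444032 876173328384 146028888064 = true := by decide +kernel

theorem b4 {lam : ℝ} (hlam : |(S : ℝ) * lam - ((P.lp : ℝ) - P.ln)| ≤ ((1 : ℕ) : ℝ)) : BoxS lam P 876173328384 73014444032 876173328384 146028888064 :=
  chk_sound hlam t4 876173328384 73014444032 876173328384 146028888064 (by norm_num) (by norm_num) c4

/-- Part of the subdivision. -/
def t5 : LT := (LT.b (LT.a (LT.b (LT.l 4511 3880 4149 4209) (LT.l 4492 3896 4149 4200)) (LT.b (LT.l 4456 3925 4119 4209) (LT.l 4435 3939 4119 4200))) (LT.a (LT.b (LT.a (LT.l 4478 3907 4155 4187) (LT.l 4453 3927 4142 4187)) (LT.a (LT.b (LT.l 4453 3926 4155 4175) (LT.l 4433 3941 4155 4166)) (LT.b (LT.l 4427 3945 4142 4175) (LT.l 4406 3959 4142 4166)))) (LT.b (LT.a (LT.l 4423 3947 4127 4187) (LT.l 4388 3970 4110 4187)) (LT.a (LT.b (LT.l 4396 3965 4127 4175) (LT.l 4373 3978 4127 4166)) (LT.b (LT.l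 4359 3987 4110 4175) (LT.l 4335 4000 4110 4166))))))

theorem c5 : chk P t5 1022202216448 36507222016 876173328384 73014444032 = true := by decide +kernel

theorem b5 {lam : ℝ} (hlam : |(S : ℝ) * lam - ((P.lp : ℝ) - P.ln)| ≤ ((1 : ℕ) : ℝ)) : BoxS lam P 1022202216448 36507222016 876173328384 73014444032 :=
  chk_sound hlam t5 1022202216448 36507222016 876173328384 73014444032 (by norm_num) (by norm_num) c5

/-- Part of the subdivision. -/
def t6 : LT := (LT.b (LT.a (LT.b (LT.l 4378 3976 4079 4209) (LT.l 4354 3990 4079 4200)) (LT.b (LT.l 4263 4035 4025 4209) (LT.a (LT.l 4269 4032 4040 4200) LT.z2))) (LT.a (LT.b (LT.a (LT.l 4346 3994 4090 4187) (LT.l 4294 4020 4067 4187)) (LT.a (LT.b (LT.l 4314 4010 4090 4175) (LT.l 4289 4023 4090 4166)) (LT.b (LT.l 4260 4036 4067 4175) (LT.l 4232 4048 4067 4166)))) (LT.b (LT.a (LT.l 4231 4048 4040 4187) LT.z2) (LT.a (LT.b (LT.l 4194 4063 4040 4175) LT.z2) LT.z2))))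

theorem c6 : chk P t6 1095216660480 36507222016 876173328384 73014444032 = true := by decide +kernel

theorem b6 {lam : ℝ} (hlam : |(S : ℝ) * lam - ((P.lp : ℝ) - P.ln)| ≤ ((1 : ℕ) : ℝ)) : BoxS lam P 1095216660480 36507222016 876173328384 73014444032 :=
  chk_sound hlam t6 1095216660480 36507222016 876173328384 73014444032 (by norm_num) (by norm_num) c6

/-- Part of the subdivision. -/
def t7 : LT := (LT.b (LT.a (LT.b (LT.a (LT.l 4415 3953 4158 4155) (LT.l 4402 3961 4152 4155)) (LT.a LT.z1 (LT.l 4374 3978 4152 4142))) (LT.b (LT.a (LT.l 4388 3970 4145 4155) (LT.l 4373 3979 4139 4155)) (LT.a (LT.b (LT.l 4367 3982 4145 4145) (LT.l 4351 3991 4145 4139)) (LT.b (LT.l 4351 3991 4139 4145) (LT.l 4334 4000 4139 4139))))) (LT.a LT.z1 (LT.b (LT.a LT.z1 (LT.b (LT.l 4317 4009 4139 4131) LT.z1)) LT.z1)))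

theorem c7 : chk P t7 1022202216448 18253611008 1022202216448 36507222016 = true := by decide +kernel

theorem b7 {lam : ℝ} (hlam : |(S : ℝ) * lam - ((P.lp : ℝ) - P.ln)| ≤ ((1 : ℕ) : ℝ)) : BoxS lam P 1022202216448 18253611008 1022202216448 36507222016 :=
  chk_sound hlam t7 1022202216448 18253611008 1022202216448 36507222016 (by norm_num) (by norm_num) c7

/-- Part of the subdivision. -/
def t8 : LT := (LT.a (LT.b (LT.a (LT.l 4356 3988 4131 4155) (LT.l 4338 3998 4123 4155)) (LT.a (LT.b (LT.l 4333 4001 4131 4145) (LT.l 4317 4009 4131 4139)) (LT.b (LT.l 4314 4010 4123 4145) (LT.l 4297 4019 4123 4139)))) (LT.b (LT.a (LT.l 4318 4009 4115 4155) (LT.l 4296 4020 4106 4155)) (LT.a (LT.l 4285 4025 4115 4142) (LT.l 4262 4035 4106 4142))))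

theorem c8 : chk P t8 1058709438464 18253611008 1022202216448 18253611008 = true := by decide +kernel

theorem b8 {lam : ℝ} (hlam : |(S : ℝ) * lam - ((P.lp : ℝ) - P.ln)| ≤ ((1 : ℕ) : ℝ)) : BoxS lam P 1058709438464 18253611008 1022202216448 18253611008 :=
  chk_sound hlam t8 1058709438464 18253611008 1022202216448 18253611008 (by norm_num) (by norm_num) c8

/-- Part of the subdivision. -/
def t9 : LT := (LT.a (LT.b (LT.a (LT.b (LT.l 4298 4018 4131 4131) (LT.l 4278 4028 4131 4123)) (LT.b (LT.l 4278 4028 4123 4131) (LT.l 4257 4037 4123 4123))) (LT.a LT.z1 (LT.b (LT.l 4234 4047 4123 4115) LT.z1))) (LT.b (LT.a (LT.b (LT.l 4256 4038 4115 4131) (LT.l 4234 4047 4115 4123)) (LT.b (LT.l 4232 4048 4106 4131) (LT.a (LT.l 4216 4055 4108 4123) (LT.l 4202 4060 4103 4123)))) (LT.a (LT.b (LT.a (LT.l 4217 4054 4117 4115) (LT.l 4204 4059 4113 4115)) (LT.a LT.z1 (LT.b (LT.l 4185 4066 4113 4108) LT.z1))) (LT.b (LT.a (LT.b (LT.l 4198 4062 4108 4117) (LT.l 4185 4066 4108 4113)) (LT.b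 (LT.l 4184 4067 4103 4117) (LT.l 4171 4071 4103 4113))) (LT.a (LT.b (LT.l 4171 4071 4108 4108) (LT.a LT.z1 (LT.l 4153 4078 4107 4103))) (LT.b (LT.a (LT.l 4160 4075 4104 4108) (LT.l 4153 4078 4102 4108)) (LT.a (LT.b (LT.l 4150 4079 4104 4104) (LT.l 4142 4081 4104 4102)) (LT.b (LT.l 4142 4081 4102 4104) (LT.l 4135 4084 4102 4102)))))))))

theorem c9 : chk P t9 1058709438464 18253611008 1058709438464 18253611008 = true := by decide +kernel

theorem b9 {lam : ℝ} (hlam : |(S : ℝ) * lam - ((P.lp : ℝ) - P.ln)| ≤ ((1 : ℕ) : ℝ)) : BoxS lam P 1058709438464 18253611008 1058709438464 18253611008 :=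
  chk_sound hlam t9 1058709438464 18253611008 1058709438464 18253611008 (by norm_num) (by norm_num) c9

/-- Part of the subdivision. -/
def t10 : LT := (LT.a LT.z1 (LT.b (LT.a LT.z1 (LT.b (LT.a LT.z1 (LT.b (LT.a LT.z1 (LT.b (LT.a LT.z1 (LT.b (LT.a LT.z1 (LT.l 4125 4087 4101 4099)) LT.z1)) LT.z1)) LT.z1)) LT.z1)) LT.z1))

theorem c10 : chk P t10 1022202216448 36507222016 1095216660480 36507222016 = true := by decide +kernel

theorem b10 {lam : ℝ} (hlam : |(S : ℝ) * lam - ((P.lp : ℝ) - P.ln)| ≤ ((1 : ℕ) : ℝ)) : BoxS lam P 1022202216448 36507222016 1095216660480 36507222016 :=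
  chk_sound hlam t10 1022202216448 36507222016 1095216660480 36507222016 (by norm_num) (by norm_num) c10

/-- Part of the subdivision. -/
def t11 : LT := (LT.a (LT.b (LT.a (LT.l 4272 4031 4096 4155) (LT.l 4245 4043 4085 4155)) (LT.a (LT.b (LT.l 4246 4042 4096 4145) (LT.l 4226 4050 4096 4139)) (LT.b (LT.l 4218 4054 4085 4145) (LT.l 4197 4062 4085 4139)))) (LT.b (LT.a (LT.l 4215 4055 4073 4155) (LT.l 4182 4067 4061 4155)) (LT.a (LT.b (LT.l 4187 4066 4073 4145) (LT.l 4165 4073 4073 4139)) LT.z2)))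

theorem c11 : chk P t11 1095216660480 18253611008 1022202216448 18253611008 = true := by decide +kernel

theorem b11 {lam : ℝ} (hlam : |(S : ℝ) * lam - ((P.lp : ℝ) - P.ln)| ≤ ((1 : ℕ) : ℝ)) : BoxS lam P 1095216660480 18253611008 1022202216448 18253611008 :=
  chk_sound hlam t11 1095216660480 18253611008 1022202216448 18253611008 (by norm_num) (by norm_num) c11

/-- Part of the subdivision. -/
def t12 : LT := (LT.a (LT.b (LT.l 4205 4059 4096 4131) (LT.a (LT.l 4189 4065 4098 4123) (LT.b (LT.l 4180 4068 4093 4125) (LT.l 4167 4073 4093 4121)))) (LT.b (LT.l 4175 4070 4085 4131) (LT.a (LT.b (LT.l 4165 4074 4088 4125) (LT.l 4152 4078 4088 4121)) (LT.l 4142 4081 4082 4123))))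

theorem c12 : chk P t12 1095216660480 9126805504 1058709438464 9126805504 = true := by decide +kernel

theorem b12 {lam : ℝ} (hlam : |(S : ℝ) * lam - ((P.lp : ℝ) - P.ln)| ≤ ((1 : ℕ) : ℝ)) : BoxS lam P 1095216660480 9126805504 1058709438464 9126805504 :=
  chk_sound hlam t12 1095216660480 9126805504 1058709438464 9126805504 (by norm_num) (by norm_num) c12

/-- Part of the subdivision. -/
def t13 : LT := (LT.a (LT.b (LT.l 4169 4072 4098 4117) (LT.a (LT.l 4160 4075 4099 4113) (LT.l 4152 4078 4097 4113))) (LT.b (LT.l 4154 4077 4093 4117) (LT.a (LT.l 4144 4081 4094 4113) (LT.l 4136 4083 4092 4113))))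

theorem c13 : chk P t13 1095216660480 4563402752 1076963049472 4563402752 = true := by decide +kernel

theorem b13 {lam : ℝ} (hlam : |(S : ℝ) * lam - ((P.lp : ℝ) - P.ln)| ≤ ((1 : ℕ) : ℝ)) : BoxS lam P 1095216660480 4563402752 1076963049472 4563402752 :=
  chk_sound hlam t13 1095216660480 4563402752 1076963049472 4563402752 (by norm_num) (by norm_num) c13

/-- Part of the subdivision. -/
def t14 : LT := (LT.b (LT.a (LT.b (LT.l 4149 4079 4099 4109) (LT.l 4142 4081 4099 4107)) (LT.b (LT.l 4141 4082 4097 4109) (LT.l 4134 4084 4097 4107))) (LT.a (LT.b (LT.l 4134 4084 4099 4104) (LT.a (LT.l 4129 4086 4100 4102) (LT.l 4125 4087 4099 4102))) (LT.b (LT.a (LT.l 4128 4086 4098 4104) (LT.l 4124 4087 4096 4104)) (LT.a (LT.b (LT.l 4123 4088 4098 4103) (LT.l 4119 4089 4098 4101)) (LT.b (LT.l 4119 4089 4096 4103) (LT.l 4115 4090 4096 4101))))))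

theorem c14 : chk P t14 1095216660480 2281701376 1086089854976 4563402752 = true := by decide +kernel

theorem b14 {lam : ℝ} (hlam : |(S : ℝ) * lam - ((P.lp : ℝ) - P.ln)| ≤ ((1 : ℕ) : ℝ)) : BoxS lam P 1095216660480 2281701376 1086089854976 4563402752 :=
  chk_sound hlam t14 1095216660480 2281701376 1086089854976 4563402752 (by norm_num) (by norm_num) c14

/-- Part of the subdivision. -/
def t15 : LT := (LT.b (LT.a (LT.b (LT.l 4134 4084 4094 4109) (LT.l 4126 4087 4094 4107)) (LT.b (LT.l 4125 4087 4092 4109) (LT.l 4118 4089 4092 4107))) (LT.a (LT.b (LT.a (LT.l 4120 4088 4095 4104) (LT.l 4116 4090 4094 4104)) (LT.a (LT.b (LT.l 4115 4090 4095 4103) (LT.l 4111 4092 4095 4101)) (LT.b (LT.l 4110 4092 4094 4103) (LT.l 4106 4093 4094 4101)))) (LT.b (LT.l 4110 4092 4092 4104) (LT.a (LT.b (LT.l 4106 4093 4092 4103) (LT.l 4102 4094 4092 4101)) LT.z2))))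

theorem c15 : chk P t15 1099780063232 2281701376 1086089854976 4563402752 = true := by decide +kernel

theorem b15 {lam : ℝ} (hlam : |(S : ℝ) * lam - ((P.lp : ℝ) - P.ln)| ≤ ((1 : ℕ) : ℝ)) : BoxS lam P 1099780063232 2281701376 1086089854976 4563402752 :=
  chk_sound hlam t15 1099780063232 2281701376 1086089854976 4563402752 (by norm_num) (by norm_num) c15

/-- Part of the subdivision. -/
def t16 : LT := (LT.b (LT.a (LT.b (LT.l 4138 4083 4088 4117) (LT.l 4124 4087 4088 4113)) (LT.b (LT.l 4121 4088 4082 4117) LT.z2)) (LT.a (LT.b (LT.a (LT.b (LT.l 4117 4090 4089 4109) (LT.l 4109 4092 4089 4107)) LT.z2) LT.z2) LT.z2))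

theorem c16 : chk P t16 1104343465984 4563402752 1076963049472 9126805504 = true := by decide +kernel

theorem b16 {lam : ℝ} (hlam : |(S : ℝ) * lam - ((P.lp : ℝ) - P.ln)| ≤ ((1 : ℕ) : ℝ)) : BoxS lam P 1104343465984 4563402752 1076963049472 9126805504 :=
  chk_sound hlam t16 1104343465984 4563402752 1076963049472 9126805504 (by norm_num) (by norm_num) c16

/-- Part of the subdivision. -/
def t17 : LT := (LT.b (LT.a (LT.b (LT.l 4141 4082 4073 4131) LT.z2) LT.z2) LT.z2)

theorem c17 : chk P t17 1113470271488 9126805504 1058709438464 18253611008 = true := by decide +kernel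

theorem b17 {lam : ℝ} (hlam : |(S : ℝ) * lam - ((P.lp : ℝ) - P.ln)| ≤ ((1 : ℕ) : ℝ)) : BoxS lam P 1113470271488 9126805504 1058709438464 18253611008 :=
  chk_sound hlam t17 1113470271488 9126805504 1058709438464 18253611008 (by norm_num) (by norm_num) c17

/-- Part of the subdivision. -/
def t18 : LT := LT.z2

theorem c18 : chk P t18 1131723882496 18253611008 1022202216448 36507222016 = true := by decide +kernel

theorem b18 {lam : ℝ} (hlam : |(S : ℝ) * lam - ((P.lp : ℝ) - P.ln)| ≤ ((1 : ℕ) : ℝ)) : BoxS lam P 1131723882496 18253611008 1022202216448 36507222016 :=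
  chk_sound hlam t18 1131723882496 18253611008 1022202216448 36507222016 (by norm_num) (by norm_num) c18

/-- Part of the subdivision. -/
def t19 : LT := (LT.b (LT.a (LT.b (LT.l 4123 4088 4100 4100) (LT.l 4119 4089 4100 4099)) (LT.b (LT.l 4119 4089 4099 4100) (LT.a (LT.l 4116 4090 4099 4099) (LT.l 4114 4091 4099 4099)))) (LT.a LT.z1 (LT.b (LT.a LT.z1 (LT.b (LT.l 4111 4091 4099 4098) LT.z1)) LT.z1)))

theorem c19 : chk P t19 1095216660480 1140850688 1095216660480 2281701376 = true := by decide +kernel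

theorem b19 {lam : ℝ} (hlam : |(S : ℝ) * lam - ((P.lp : ℝ) - P.ln)| ≤ ((1 : ℕ) : ℝ)) : BoxS lam P 1095216660480 1140850688 1095216660480 2281701376 :=
  chk_sound hlam t19 1095216660480 1140850688 1095216660480 2281701376 (by norm_num) (by norm_num) c19

/-- Part of the subdivision. -/
def t20 : LT := (LT.a (LT.b (LT.l 4115 4090 4098 4100) (LT.a (LT.l 4112 4091 4098 4099) (LT.b (LT.l 4111 4091 4097 4099) (LT.l 4109 4092 4097 4099)))) (LT.b (LT.a (LT.l 4112 4091 4097 4100) (LT.l 4110 4092 4096 4100)) (LT.a (LT.b (LT.l 4109 4092 4097 4099) (LT.l 4107 4093 4097 4099)) (LT.b (LT.l 4107 4093 4096 4099) (LT.l 4105 4093 4096 4099)))))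

theorem c20 : chk P t20 1097498361856 1140850688 1095216660480 1140850688 = true := by decide +kernel

theorem b20 {lam : ℝ} (hlam : |(S : ℝ) * lam - ((P.lp : ℝ) - P.ln)| ≤ ((1 : ℕ) : ℝ)) : BoxS lam P 1097498361856 1140850688 1095216660480 1140850688 :=
  chk_sound hlam t20 1097498361856 1140850688 1095216660480 1140850688 (by norm_num) (by norm_num) c20

/-- Part of the subdivision. -/
def t21 : LT := (LT.b (LT.a (LT.b (LT.l 4109 4092 4098 4098) (LT.l 4107 4093 4098 4097)) (LT.b (LT.l 4107 4093 4097 4098) (LT.a (LT.l 4105 4093 4097 4097) (LT.l 4104 4094 4097 4097)))) (LT.a LT.z1 (LT.b (LT.a LT.z1 (LT.b (LT.l 4102 4094 4097 4097) LT.z1)) LT.z1)))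

theorem c21 : chk P t21 1097498361856 570425344 1097498361856 1140850688 = true := by decide +kernel

theorem b21 {lam : ℝ} (hlam : |(S : ℝ) * lam - ((P.lp : ℝ) - P.ln)| ≤ ((1 : ℕ) : ℝ)) : BoxS lam P 1097498361856 570425344 1097498361856 1140850688 :=
  chk_sound hlam t21 1097498361856 570425344 1097498361856 1140850688 (by norm_num) (by norm_num) c21

/-- Part of the subdivision. -/
def t22 : LT := (LT.a (LT.b (LT.a (LT.l 4105 4093 4097 4098) (LT.l 4104 4094 4096 4098)) (LT.a (LT.b (LT.l 4103 4094 4097 4097) (LT.l 4102 4094 4097 4097)) (LT.b (LT.l 4102 4094 4096 4097) (LT.l 4101 4094 4096 4097)))) (LT.b (LT.a (LT.l 4103 4094 4096 4098) (LT.l 4102 4094 4096 4098)) (LT.a (LT.b (LT.l 4101 4094 4096 4097) (LT.a (LT.l 4101 4095 4096 4097) (LT.l 4100 4095 4096 4097))) (LT.b (LT.l 4100 4095 4096 4097) (LT.a (LT.l 4100 4095 4096 4097) (LT.l 4099 4095 4096 4097))))))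

theorem c22 : chk P t22 1098639212544 570425344 1097498361856 570425344 = true := by decide +kernel

theorem b22 {lam : ℝ} (hlam : |(S : ℝ) * lam - ((P.lp : ℝ) - P.ln)| ≤ ((1 : ℕ) : ℝ)) : BoxS lam P 1098639212544 570425344 1097498361856 570425344 :=
  chk_sound hlam t22 1098639212544 570425344 1097498361856 570425344 (by norm_num) (by norm_num) c22

/-- Part of the subdivision. -/
def t23 : LT := (LT.a (LT.b (LT.a (LT.b (LT.l 4101 4094 4097 4097) (LT.a LT.z1 (LT.l 4100 4095 4097 4096))) (LT.b (LT.a (LT.l 4101 4095 4097 4097) (LT.l 4100 4095 4096 4097)) (LT.a (LT.b (LT.l 4100 4095 4097 4097) (LT.o 4099 4095 4097 4096)) (LT.o 4099 4095 4096 4096)))) (LT.a LT.z1 (LT.o 4098 4095 4096 4096))) (LT.b (LT.a (LT.b (LT.a (LT.b (LT.l 4100 4095 4096 4097) (LT.o 4099 4095 4096 4097)) (LT.b (LT.l 4099 4095 4096 4097) (LT.o 4099 4095 4096 4097))) (LT.o 4098 4095 4096 4096)) (LT.o 4098 4095 4096 4097)) (LT.o 4096 4096 4096 4096)))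

theorem c23 : chk P t23 1098639212544 570425344 1098639212544 570425344 = true := by decide +kernel

theorem b23 {lam : ℝ} (hlam : |(S : ℝ) * lam - ((P.lp : ℝ) - P.ln)| ≤ ((1 : ℕ) : ℝ)) : BoxS lam P 1098639212544 570425344 1098639212544 570425344 :=
  chk_sound hlam t23 1098639212544 570425344 1098639212544 570425344 (by norm_num) (by norm_num) c23

/-- Part of the subdivision. -/
def t24 : LT := (LT.a LT.z1 (LT.b (LT.a LT.z1 (LT.b (LT.a LT.z1 (LT.b (LT.a LT.z1 LT.z2) LT.z1)) LT.z1)) LT.z1))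

theorem c24 : chk P t24 1095216660480 2281701376 1099780063232 2281701376 = true := by decide +kernel

theorem b24 {lam : ℝ} (hlam : |(S : ℝ) * lam - ((P.lp : ℝ) - P.ln)| ≤ ((1 : ℕ) : ℝ)) : BoxS lam P 1095216660480 2281701376 1099780063232 2281701376 :=
  chk_sound hlam t24 1095216660480 2281701376 1099780063232 2281701376 (by norm_num) (by norm_num) c24

/-- Part of the subdivision. -/
def t25 : LT := (LT.b (LT.a (LT.b (LT.a (LT.b (LT.a (LT.l 4108 4092 4095 4100) (LT.l 4105 4093 4095 4100)) (LT.a (LT.b (LT.l 4104 4093 4095 4099) (LT.l 4102 4094 4095 4099)) (LT.b (LT.l 4102 4094 4095 4099) (LT.l 4100 4095 4095 4099)))) (LT.b (LT.l 4102 4094 4094 4100) (LT.a (LT.b (LT.l 4100 4095 4094 4099) LT.z2) LT.z2))) (LT.a (LT.b (LT.a (LT.b (LT.a (LT.l 4101 4095 4096 4098) (LT.l 4100 4095 4095 4098)) (LT.a (LT.b (LT.l 4099 4095 4096 4097) (LT.l 4098 4095 4096 4097)) (LT.b (LT.l 4098 4095 4095 4097) (LT.l 4097 4096 4095 4097)))) (LT.b (LT.l 4098 4095 4095 4098) LT.z2)) (LT.a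 (LT.b (LT.a (LT.o 4097 4096 4096 4097) LT.z2) LT.z2) LT.z2)) LT.z2)) LT.z2) LT.z2)

theorem c25 : chk P t25 1099780063232 2281701376 1095216660480 4563402752 = true := by decide +kernel

theorem b25 {lam : ℝ} (hlam : |(S : ℝ) * lam - ((P.lp : ℝ) - P.ln)| ≤ ((1 : ℕ) : ℝ)) : BoxS lam P 1099780063232 2281701376 1095216660480 4563402752 :=
  chk_sound hlam t25 1099780063232 2281701376 1095216660480 4563402752 (by norm_num) (by norm_num) c25

/-- Part of the subdivision. -/
def t26 : LT := (LT.a LT.z1 LT.z2)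

theorem c26 : chk P t26 1095216660480 4563402752 1104343465984 4563402752 = true := by decide +kernel

theorem b26 {lam : ℝ} (hlam : |(S : ℝ) * lam - ((P.lp : ℝ) - P.ln)| ≤ ((1 : ℕ) : ℝ)) : BoxS lam P 1095216660480 4563402752 1104343465984 4563402752 :=
  chk_sound hlam t26 1095216660480 4563402752 1104343465984 4563402752 (by norm_num) (by norm_num) c26

/-- Part of the subdivision. -/
def t27 : LT := LT.z2

theorem c27 : chk P t27 1104343465984 4563402752 1095216660480 9126805504 = true := by decide +kernel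

theorem b27 {lam : ℝ} (hlam : |(S : ℝ) * lam - ((P.lp : ℝ) - P.ln)| ≤ ((1 : ℕ) : ℝ)) : BoxS lam P 1104343465984 4563402752 1095216660480 9126805504 :=
  chk_sound hlam t27 1104343465984 4563402752 1095216660480 9126805504 (by norm_num) (by norm_num) c27

/-- Part of the subdivision. -/
def t28 : LT := LT.z2

theorem c28 : chk P t28 1095216660480 9126805504 1113470271488 9126805504 = true := by decide +kernel

theorem b28 {lam : ℝ} (hlam : |(S : ℝ) * lam - ((P.lp : ℝ) - P.ln)| ≤ ((1 : ℕ) : ℝ)) : BoxS lam P 1095216660480 9126805504 1113470271488 9126805504 :=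
  chk_sound hlam t28 1095216660480 9126805504 1113470271488 9126805504 (by norm_num) (by norm_num) c28

/-- Part of the subdivision. -/
def t29 : LT := LT.z2

theorem c29 : chk P t29 1113470271488 9126805504 1095216660480 18253611008 = true := by decide +kernel

theorem b29 {lam : ℝ} (hlam : |(S : ℝ) * lam - ((P.lp : ℝ) - P.ln)| ≤ ((1 : ℕ) : ℝ)) : BoxS lam P 1113470271488 9126805504 1095216660480 18253611008 :=
  chk_sound hlam t29 1113470271488 9126805504 1095216660480 18253611008 (by norm_num) (by norm_num) c29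

/-- Part of the subdivision. -/
def t30 : LT := LT.z2

theorem c30 : chk P t30 1095216660480 18253611008 1131723882496 18253611008 = true := by decide +kernel

theorem b30 {lam : ℝ} (hlam : |(S : ℝ) * lam - ((P.lp : ℝ) - P.ln)| ≤ ((1 : ℕ) : ℝ)) : BoxS lam P 1095216660480 18253611008 1131723882496 18253611008 :=
  chk_sound hlam t30 1095216660480 18253611008 1131723882496 18253611008 (by norm_num) (by norm_num) c30

/-- Part of the subdivision. -/
def t31 : LT := LT.z2

theorem c31 : chk P t31 1131723882496 18253611008 1095216660480 36507222016 = true := by decide +kernel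

theorem b31 {lam : ℝ} (hlam : |(S : ℝ) * lam - ((P.lp : ℝ) - P.ln)| ≤ ((1 : ℕ) : ℝ)) : BoxS lam P 1131723882496 18253611008 1095216660480 36507222016 :=
  chk_sound hlam t31 1131723882496 18253611008 1095216660480 36507222016 (by norm_num) (by norm_num) c31

/-- The whole box. -/
theorem box {lam : ℝ} (hlam : |(S : ℝ) * lam - ((P.lp : ℝ) - P.ln)| ≤ ((1 : ℕ) : ℝ)) : BoxS lam P 0 HH 0 HH :=
  (BoxS.sa' (x1 := 584115552256) (h := 292057776128) (by norm_num [HH]) (by norm_num) (b0 hlam) (BoxS.sb' (t1 := 584115552256) (h := 292057776128) (by norm_num [HH]) (by norm_num) (b1 hlam) (BoxS.sa' (x1 := 876173328384) (h := 146028888064) (by norm_num [HH]) (by norm_num) (b2 hlam) (BoxS.sb' (t1 := 876173328384) (h := 146028888064) (by norm_num [HH]) (by norm_num) (b3 hlam) (BoxS.sa' (x1 := 1022202216448) (h := 73014444032) (by norm_num [HH]) (by norm_num) (b4 hlam) (BoxS.sb' (t1 := 1022202216448) (h := 73014444032) (by norm_num [HH]) (by norm_num) (BoxS.sa' (x1 := 1095216660480)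 (h := 36507222016) (by norm_num [HH]) (by norm_num) (b5 hlam) (b6 hlam)) (BoxS.sa' (x1 := 1095216660480) (h := 36507222016) (by norm_num [HH]) (by norm_num) (BoxS.sb' (t1 := 1095216660480) (h := 36507222016) (by norm_num [HH]) (by norm_num) (BoxS.sa' (x1 := 1058709438464) (h := 18253611008) (by norm_num [HH]) (by norm_num) (b7 hlam) (BoxS.sb' (t1 := 1058709438464) (h := 18253611008) (by norm_num [HH]) (by norm_num) (b8 hlam) (b9 hlam))) (b10 hlam)) (BoxS.sb' (t1 := 1095216660480) (h := 36507222016) (by norm_num [HH]) (by norm_num) (BoxS.sa' (x1 := 1131723882496) (h := 18253611008) (by norm_num [HH]) (by norm_num) (BoxS.sb' (t1 := 1058709438464) (h := 18253611008) (by norm_num [HH]) (by norm_num) (b11 hlam) (BoxS.sa' (x1 := 1113470271488) (h := 9126805504) (by norm_num [HH]) (by norm_num) (BoxS.sb' (t1 := 1076963049472) (h := 9126805504) (by norm_num [HH]) (by norm_num) (b12 hlam) (BoxS.sa' (x1 := 1104343465984) (h := 4563402752) (by norm_num [HH]) (by norm_num)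 (BoxS.sb' (t1 := 1086089854976) (h := 4563402752) (by norm_num [HH]) (by norm_num) (b13 hlam) (BoxS.sa' (x1 := 1099780063232) (h := 2281701376) (by norm_num [HH]) (by norm_num) (b14 hlam) (b15 hlam))) (b16 hlam))) (b17 hlam))) (b18 hlam)) (BoxS.sa' (x1 := 1131723882496) (h := 18253611008) (by norm_num [HH]) (by norm_num) (BoxS.sb' (t1 := 1131723882496) (h := 18253611008) (by norm_num [HH]) (by norm_num) (BoxS.sa' (x1 := 1113470271488) (h := 9126805504) (by norm_num [HH]) (by norm_num) (BoxS.sb' (t1 := 1113470271488) (h := 9126805504) (by norm_num [HH]) (by norm_num) (BoxS.sa' (x1 := 1104343465984) (h := 4563402752) (by norm_num [HH]) (by norm_num) (BoxS.sb' (t1 := 1104343465984) (h := 4563402752) (by norm_num [HH]) (by norm_num) (BoxS.sa' (x1 := 1099780063232) (h := 2281701376) (by norm_num [HH]) (by norm_num) (BoxS.sb' (t1 := 1099780063232) (h := 2281701376) (by norm_num [HH]) (by norm_num) (BoxS.sa' (x1 := 1097498361856) (h := 1140850688) (by norm_num [HH])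 (by norm_num) (b19 hlam) (BoxS.sb' (t1 := 1097498361856) (h := 1140850688) (by norm_num [HH]) (by norm_num) (b20 hlam) (BoxS.sa' (x1 := 1098639212544) (h := 570425344) (by norm_num [HH]) (by norm_num) (b21 hlam) (BoxS.sb' (t1 := 1098639212544) (h := 570425344) (by norm_num [HH]) (by norm_num) (b22 hlam) (b23 hlam))))) (b24 hlam)) (b25 hlam)) (b26 hlam)) (b27 hlam)) (b28 hlam)) (b29 hlam)) (b30 hlam)) (b31 hlam))))))))))

end Vale.Agent.P154H.Tm.D11
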