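import Vale.Agent.P154H.Msg

set_option maxRecDepth 100000

/-!
The subdivision for `d = 12`.
-/

namespace Vale.Agent.P154H.Tm.D12

/-- A row. -/
def Ra : Row := Row.mk 0 525474 0 2606391 4717404 0 6305688 0 31276692 0 0 56608848 0 3584 0 3615744 0 33688116

/-- A row. -/
def Rb : Row := Row.mk 0 4407995400192 0 21863992393728 39572452933632 0 50734793139984 0 249662137910013 0 0 450280331845632 0 30064771072 0 30331059044352 0 273645629581086
/-- A row. -/
def Q0 : Row := Row.mk 0 0 0 0 0 0 7473408 0 0 0 0 0 0 0 0 0 0 5346279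

/-- A row. -/
def Q1 : Row := Row.mk 0 0 0 0 0 0 0 0 296549376 0 0 0 0 0 0 0 0 173207163

/-- A row. -/
def Q2 : Row := Row.mk 0 0 0 0 0 0 0 0 0 0 512 0 0 0 0 0 0 1365

/-- A row. -/
def Q3 : Row := Row.mk 0 1076170752 0 5337888768 9661243392 0 12352154688 0 60671416128 0 0 109113018816 0 7340032 0 0 0 67471410573

/-- A row. -/
def Q4 : Row := Row.mk 0 1076170752 0 5337888768 9661243392 0 12226795776 0 60014587008 0 0 107800875264 0 7340032 0 0 0 67090204971

/-- A row. -/
def Q5 : Row := Row.mk 0 538085376 0 2668944384 4830621696 0 6052063488 0 29624474352 0 0 53123664768 0 3670016 0 0 0 33393644307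

/-- A row. -/
def Q6 : Row := Row.mk 0 1076170752 0 5337888768 9661243392 0 11940626880 0 58326603264 0 0 104408699520 0 7340032 0 0 0 66277257579

/-- A row. -/
def Q7 : Row := Row.mk 0 1076170752 0 5337888768 9661243392 0 11773157376 0 57259356000 0 0 102242816640 0 7340032 0 0 0 65865365505

/-- A row. -/
def Q8 : Row := Row.mk 0 1076170752 0 5337888768 9661243392 0 11540622912 0 55988313120 0 0 99701678016 0 7340032 0 0 0 65161955295

/-- A row. -/
def Q9 : Row := Row.mk 0 1076170752 0 5337888768 9661243392 0 11258100672 0 54547557408 0 0 96730444992 0 7340032 0 0 0 64575901575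

/-- A row. -/
def Q10 : Row := Row.mk 0 538085376 0 2668944384 4830621696 0 5512960032 0 26384902656 0 0 46637006976 0 3670016 0 0 0 31788564273

/-- A row. -/
def Q11 : Row := Row.mk 0 538085376 0 2668944384 4830621696 0 5336062944 0 25414412688 0 0 44639278752 0 3670016 0 0 0 31419841293

/-- A row. -/
def Q12 : Row := Row.mk 0 269042688 0 1334472192 2415310848 0 2569372800 0 12128182896 0 0 21173751744 0 1835008 0 0 0 15374455083

/-- A row. -/
def Q13 : Row := Row.mk 0 269042688 0 1334472192 2415310848 0 2455492848 0 11478564240 0 0 19870390464 0 1835008 0 0 0 15039510129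

/-- A row. -/
def Q14 : Row := Row.mk 0 1076170752 0 5337888768 9661243392 0 9372320448 0 43029278688 0 0 73616261184 0 7340032 0 0 0 59048387829

/-- A row. -/
def Q15 : Row := Row.mk 0 538085376 0 2668944384 4830621696 0 4353062112 0 19884122208 0 0 33553304640 0 3670016 0 0 0 28488051621

/-- A row. -/
def Q16 : Row := Row.mk 0 1076170752 0 5337888768 9661243392 0 8174689920 0 36513555744 0 0 59995735488 0 7340032 0 0 0 57017496501

/-- A row. -/
def Q17 : Row := Row.mk 0 1076170752 0 5337888768 9661243392 0 7480034112 0 32940546528 0 0 52379146944 0 7340032 0 0 0 56149687287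

/-- A row. -/
def Q18 : Row := Row.mk 0 1076170752 0 5337888768 9661243392 0 6857118912 0 29416860960 0 0 44413891200 0 7340032 0 0 0 56654781561

/-- A row. -/
def Q19 : Row := Row.mk 0 1076170752 0 5337888768 9661243392 0 6323220672 0 26369690400 0 0 35905440384 0 7340032 0 0 0 61394068521


/-- The data. -/
def P : Pb where
  lp := 0
  ln := 20801235657477233
  ab := 3298534883328
  r1 := [Ra, Rb]
  r2 := [Q0, Q1, Q2, Q3, Q4, Q5, Q6, Q7, Q8, Q9, Q10, Q11, Q12, Q13, Q14, Q15, Q16, Q17, Q18, Q19]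

/-- Part of the subdivision. -/
def t0 : LT := (LT.b (LT.a (LT.l 4699 3678 4228 4228) (LT.l 4699 3678 4228 4228)) (LT.a LT.z1 (LT.b (LT.a LT.z1 (LT.b (LT.l 4695 3684 4228 4226) LT.z1)) LT.z1)))

theorem c0 : chk P t0 0 292057776128 0 584115552256 = true := by decide +kernel

theorem b0 {lam : ℝ} (hlam : |(S : ℝ) * lam - ((P.lp : ℝ) - P.ln)| ≤ ((1 : ℕ) : ℝ)) : BoxS lam P 0 292057776128 0 584115552256 :=
  chk_sound hlam t0 0 292057776128 0 584115552256 (by norm_num) (by norm_num) c0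

/-- Part of the subdivision. -/
def t1 : LT := (LT.a (LT.b (LT.a (LT.l 4696 3683 4226 4228) (LT.l 4683 3703 4218 4228)) (LT.a (LT.l 4696 3683 4226 4228) (LT.l 4683 3703 4218 4228))) (LT.b (LT.a (LT.l 4636 3767 4190 4228) (LT.b (LT.l 4475 3919 4101 4228) (LT.l 4475 3919 4101 4228))) (LT.a (LT.b (LT.l 4636 3767 4190 4228) (LT.l 4635 3768 4190 4228)) (LT.b (LT.a (LT.l 4536 3871 4133 4228) (LT.l 4390 3975 4056 4228)) (LT.a (LT.l 4535 3871 4133 4228) (LT.b (LT.l 4389 3975 4056 4228) (LT.a (LT.l 4435 3947 4080 4227) (LT.l 4332 4006 4028 4227))))))))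

theorem c1 : chk P t1 584115552256 292057776128 0 292057776128 = true := by decide +kernel

theorem b1 {lam : ℝ} (hlam : |(S : ℝ) * lam - ((P.lp : ℝ) - P.ln)| ≤ ((1 : ℕ) : ℝ)) : BoxS lam P 584115552256 292057776128 0 292057776128 :=
  chk_sound hlam t1 584115552256 292057776128 0 292057776128 (by norm_num) (by norm_num) c1

/-- Part of the subdivision. -/
def t2 : LT := (LT.b (LT.a (LT.b (LT.l 4693 3688 4226 4226) (LT.l 4680 3708 4226 4218)) (LT.b (LT.l 4680 3708 4218 4226) (LT.l 4666 3727 4218 4218))) (LT.a LT.z1 (LT.b (LT.a LT.z1 (LT.b (LT.l 4629 3776 4214 4201) LT.z1)) LT.z1)))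

theorem c2 : chk P t2 584115552256 146028888064 584115552256 292057776128 = true := by decide +kernel

theorem b2 {lam : ℝ} (hlam : |(S : ℝ) * lam - ((P.lp : ℝ) - P.ln)| ≤ ((1 : ℕ) : ℝ)) : BoxS lam P 584115552256 146028888064 584115552256 292057776128 :=
  chk_sound hlam t2 584115552256 146028888064 584115552256 292057776128 (by norm_num) (by norm_num) c2

/-- Part of the subdivision. -/
def t3 : LT := (LT.a (LT.b (LT.a (LT.l 4650 3749 4201 4226) (LT.l 4608 3799 4176 4226)) (LT.a (LT.l 4636 3766 4201 4218) (LT.b (LT.l 4599 3809 4176 4221) (LT.l 4585 3823 4176 4214)))) (LT.b (LT.a (LT.b (LT.l 4533 3873 4133 4227) (LT.l 4529 3876 4133 4225)) (LT.b (LT.a (LT.l 4433 3948 4080 4227) (LT.l 4329 4007 4028 4227)) (LT.a (LT.l 4429 3951 4080 4225) (LT.l 4324 4010 4028 4225)))) (LT.a (LT.b (LT.a (LT.l 4546 3862 4147 4221) (LT.l 4493 3906 4118 4221)) (LT.a (LT.l 4531 3875 4147 4214) (LT.l 4477 3918 4118 4214))) (LT.b (LT.a (LT.l 4420 3957 4080 4221) (LT.l 4313 4015 4028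 4221)) (LT.a (LT.l 4402 3968 4080 4214) (LT.l 4292 4025 4028 4214))))))

theorem c3 : chk P t3 876173328384 146028888064 584115552256 146028888064 = true := by decide +kernel

theorem b3 {lam : ℝ} (hlam : |(S : ℝ) * lam - ((P.lp : ℝ) - P.ln)| ≤ ((1 : ℕ) : ℝ)) : BoxS lam P 876173328384 146028888064 584115552256 146028888064 :=
  chk_sound hlam t3 876173328384 146028888064 584115552256 146028888064 (by norm_num) (by norm_num) c3

/-- Part of the subdivision. -/
def t4 : LT := (LT.b (LT.a (LT.b (LT.l 4604 3803 4201 4201) (LT.a LT.z1 (LT.b (LT.l 4564 3845 4196 4184) LT.z1))) (LT.b (LT.a (LT.l 4573 3836 4184 4201) (LT.b (LT.l 4552 3856 4168 4205) (LT.l 4534 3873 4168 4196))) (LT.a (LT.b (LT.l 4541 3866 4184 4184) (LT.a LT.z1 (LT.l 4502 3899 4180 4168))) (LT.b (LT.a (LT.l 4518 3886 4172 4184) (LT.l 4500 3901 4163 4184)) (LT.a (LT.l 4485 3912 4172 4168) (LT.b (LT.l 4475 3919 4163 4172) (LT.l 4456 3933 4163 4163))))))) (LT.a LT.z1 (LT.b (LT.a LT.z1 (LT.b (LT.a LT.z1 (LT.b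 (LT.l 4433 3948 4163 4152) LT.z1)) LT.z1)) LT.z1)))

theorem c4 : chk P t4 876173328384 73014444032 876173328384 146028888064 = true := by decide +kernel

theorem b4 {lam : ℝ} (hlam : |(S : ℝ) * lam - ((P.lp : ℝ) - P.ln)| ≤ ((1 : ℕ) : ℝ)) : BoxS lam P 876173328384 73014444032 876173328384 146028888064 :=
  chk_sound hlam t4 876173328384 73014444032 876173328384 146028888064 (by norm_num) (by norm_num) c4

/-- Part of the subdivision. -/
def t5 : LT := (LT.b (LT.a (LT.b (LT.l 4511 3891 4147 4205) (LT.l 4492 3906 4147 4196)) (LT.b (LT.l 4456 3933 4118 4205) (LT.l 4435 3947 4118 4196))) (LT.a (LT.b (LT.a (LT.l 4478 3917 4152 4184) (LT.l 4453 3935 4140 4184)) (LT.a (LT.b (LT.l 4453 3935 4152 4172) (LT.l 4433 3948 4152 4163)) (LT.b (LT.l 4427 3952 4140 4172) (LT.l 4406 3965 4140 4163)))) (LT.b (LT.a (LT.l 4423 3954 4126 4184) (LT.l 4388 3976 4110 4184)) (LT.a (LT.b (LT.l 4396 3971 4126 4172) (LT.l 4373 3984 4126 4163)) (LT.b (LT.l 4359 3992 4110 4172) (LT.l 4335 4004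 4110 4163))))))

theorem c5 : chk P t5 1022202216448 36507222016 876173328384 73014444032 = true := by decide +kernel

theorem b5 {lam : ℝ} (hlam : |(S : ℝ) * lam - ((P.lp : ℝ) - P.ln)| ≤ ((1 : ℕ) : ℝ)) : BoxS lam P 1022202216448 36507222016 876173328384 73014444032 :=
  chk_sound hlam t5 1022202216448 36507222016 876173328384 73014444032 (by norm_num) (by norm_num) c5

/-- Part of the subdivision. -/
def t6 : LT := (LT.b (LT.a (LT.b (LT.l 4378 3982 4080 4205) (LT.l 4354 3995 4080 4196)) (LT.b (LT.l 4263 4038 4028 4205) (LT.a (LT.l 4269 4035 4043 4196) LT.z2))) (LT.a (LT.b (LT.a (LT.l 4346 3999 4091 4184) (LT.l 4294 4024 4069 4184)) (LT.a (LT.b (LT.l 4314 4014 4091 4172) (LT.l 4289 4026 4091 4163)) (LT.b (LT.l 4260 4039 4069 4172) (LT.l 4232 4050 4069 4163)))) (LT.b (LT.a (LT.l 4231 4050 4043 4184) LT.z2) (LT.a (LT.b (LT.l 4194 4065 4043 4172) LT.z2) LT.z2))))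

theorem c6 : chk P t6 1095216660480 36507222016 876173328384 73014444032 = true := by decide +kernel

theorem b6 {lam : ℝ} (hlam : |(S : ℝ) * lam - ((P.lp : ℝ) - P.ln)| ≤ ((1 : ℕ) : ℝ)) : BoxS lam P 1095216660480 36507222016 876173328384 73014444032 :=
  chk_sound hlam t6 1095216660480 36507222016 876173328384 73014444032 (by norm_num) (by norm_num) c6

/-- Part of the subdivision. -/
def t7 : LT := (LT.b (LT.a (LT.b (LT.a (LT.l 4415 3960 4155 4152) (LT.l 4402 3967 4150 4152)) (LT.a LT.z1 (LT.l 4374 3984 4150 4140))) (LT.b (LT.a (LT.l 4388 3976 4143 4152) (LT.l 4373 3984 4137 4152)) (LT.a (LT.b (LT.l 4367 3988 4143 4143) (LT.l 4351 3996 4143 4137)) (LT.b (LT.l 4351 3996 4137 4143) (LT.l 4334 4005 4137 4137))))) (LT.a LT.z1 (LT.b (LT.a LT.z1 (LT.l 4307 4018 4137 4126)) LT.z1)))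

theorem c7 : chk P t7 1022202216448 18253611008 1022202216448 36507222016 = true := by decide +kernel

theorem b7 {lam : ℝ} (hlam : |(S : ℝ) * lam - ((P.lp : ℝ) - P.ln)| ≤ ((1 : ℕ) : ℝ)) : BoxS lam P 1022202216448 18253611008 1022202216448 36507222016 :=
  chk_sound hlam t7 1022202216448 18253611008 1022202216448 36507222016 (by norm_num) (by norm_num) c7

/-- Part of the subdivision. -/
def t8 : LT := (LT.a (LT.b (LT.a (LT.l 4356 3993 4130 4152) (LT.l 4338 4003 4122 4152)) (LT.a (LT.b (LT.l 4333 4005 4130 4143) (LT.l 4317 4013 4130 4137)) (LT.l 4306 4018 4122 4140))) (LT.b (LT.a (LT.l 4318 4013 4114 4152) (LT.l 4296 4023 4105 4152)) (LT.a (LT.l 4285 4028 4114 4140) (LT.l 4262 4038 4105 4140))))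

theorem c8 : chk P t8 1058709438464 18253611008 1022202216448 18253611008 = true := by decide +kernel

theorem b8 {lam : ℝ} (hlam : |(S : ℝ) * lam - ((P.lp : ℝ) - P.ln)| ≤ ((1 : ℕ) : ℝ)) : BoxS lam P 1058709438464 18253611008 1022202216448 18253611008 :=
  chk_sound hlam t8 1058709438464 18253611008 1022202216448 18253611008 (by norm_num) (by norm_num) c8

/-- Part of the subdivision. -/
def t9 : LT := (LT.a (LT.b (LT.a (LT.b (LT.l 4298 4022 4130 4130) (LT.l 4278 4031 4130 4122)) (LT.b (LT.l 4278 4031 4122 4130) (LT.l 4257 4040 4122 4122))) (LT.a LT.z1 (LT.b (LT.l 4234 4049 4122 4114) LT.z1))) (LT.b (LT.a (LT.b (LT.l 4256 4040 4114 4130) (LT.l 4234 4049 4114 4122)) (LT.b (LT.l 4232 4050 4105 4130) (LT.a (LT.l 4216 4056 4107 4122) (LT.l 4202 4061 4103 4122)))) (LT.a (LT.b (LT.a (LT.l 4217 4056 4116 4114) (LT.l 4204 4061 4112 4114)) (LT.a LT.z1 (LT.b (LT.l 4185 4068 4112 4107) LT.z1))) (LT.b (LT.a (LT.b (LT.l 4198 4063 4107 4116) (LT.l 4185 4068 4107 4112)) (LT.b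 (LT.l 4184 4068 4103 4116) (LT.l 4171 4073 4103 4112))) (LT.a (LT.b (LT.l 4171 4072 4107 4107) (LT.a LT.z1 (LT.l 4153 4078 4106 4103))) (LT.b (LT.a (LT.l 4160 4076 4104 4107) (LT.l 4153 4078 4102 4107)) (LT.a (LT.b (LT.l 4150 4080 4104 4104) (LT.l 4142 4082 4104 4102)) (LT.b (LT.l 4142 4082 4102 4104) (LT.l 4135 4084 4102 4102)))))))))

theorem c9 : chk P t9 1058709438464 18253611008 1058709438464 18253611008 = true := by decide +kernel

theorem b9 {lam : ℝ} (hlam : |(S : ℝ) * lam - ((P.lp : ℝ) - P.ln)| ≤ ((1 : ℕ) : ℝ)) : BoxS lam P 1058709438464 18253611008 1058709438464 18253611008 :=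
  chk_sound hlam t9 1058709438464 18253611008 1058709438464 18253611008 (by norm_num) (by norm_num) c9

/-- Part of the subdivision. -/
def t10 : LT := (LT.a LT.z1 (LT.b (LT.a LT.z1 (LT.b (LT.a LT.z1 (LT.b (LT.a LT.z1 (LT.b (LT.a LT.z1 (LT.b (LT.a LT.z1 (LT.l 4125 4087 4101 4099)) LT.z1)) LT.z1)) LT.z1)) LT.z1)) LT.z1))

theorem c10 : chk P t10 1022202216448 36507222016 1095216660480 36507222016 = true := by decide +kernel

theorem b10 {lam : ℝ} (hlam : |(S : ℝ) * lam - ((P.lp : ℝ) - P.ln)| ≤ ((1 : ℕ) : ℝ)) : BoxS lam P 1022202216448 36507222016 1095216660480 36507222016 :=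
  chk_sound hlam t10 1022202216448 36507222016 1095216660480 36507222016 (by norm_num) (by norm_num) c10

/-- Part of the subdivision. -/
def t11 : LT := (LT.a (LT.b (LT.a (LT.l 4272 4034 4096 4152) (LT.l 4245 4045 4085 4152)) (LT.a (LT.b (LT.l 4246 4045 4096 4143) (LT.l 4226 4052 4096 4137)) (LT.b (LT.l 4218 4056 4085 4143) (LT.l 4197 4063 4085 4137)))) (LT.b (LT.a (LT.l 4215 4057 4074 4152) (LT.l 4182 4069 4063 4152)) (LT.a (LT.b (LT.l 4187 4067 4074 4143) (LT.l 4165 4074 4074 4137)) LT.z2)))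

theorem c11 : chk P t11 1095216660480 18253611008 1022202216448 18253611008 = true := by decide +kernel

theorem b11 {lam : ℝ} (hlam : |(S : ℝ) * lam - ((P.lp : ℝ) - P.ln)| ≤ ((1 : ℕ) : ℝ)) : BoxS lam P 1095216660480 18253611008 1022202216448 18253611008 :=
  chk_sound hlam t11 1095216660480 18253611008 1022202216448 18253611008 (by norm_num) (by norm_num) c11

/-- Part of the subdivision. -/
def t12 : LT := (LT.a (LT.b (LT.l 4205 4060 4096 4130) (LT.a (LT.l 4189 4066 4098 4122) (LT.b (LT.l 4180 4069 4093 4124) (LT.l 4167 4074 4093 4120)))) (LT.b (LT.l 4175 4071 4085 4130) (LT.a (LT.b (LT.l 4165 4075 4088 4124) (LT.l 4152 4079 4088 4120)) (LT.l 4142 4082 4083 4122))))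

theorem c12 : chk P t12 1095216660480 9126805504 1058709438464 9126805504 = true := by decide +kernel

theorem b12 {lam : ℝ} (hlam : |(S : ℝ) * lam - ((P.lp : ℝ) - P.ln)| ≤ ((1 : ℕ) : ℝ)) : BoxS lam P 1095216660480 9126805504 1058709438464 9126805504 :=
  chk_sound hlam t12 1095216660480 9126805504 1058709438464 9126805504 (by norm_num) (by norm_num) c12

/-- Part of the subdivision. -/
def t13 : LT := (LT.a (LT.b (LT.l 4169 4073 4098 4116) (LT.a (LT.l 4160 4076 4099 4112) (LT.l 4152 4079 4097 4112))) (LT.b (LT.l 4154 4078 4093 4116) (LT.a (LT.l 4144 4081 4094 4112) (LT.l 4136 4084 4092 4112))))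

theorem c13 : chk P t13 1095216660480 4563402752 1076963049472 4563402752 = true := by decide +kernel

theorem b13 {lam : ℝ} (hlam : |(S : ℝ) * lam - ((P.lp : ℝ) - P.ln)| ≤ ((1 : ℕ) : ℝ)) : BoxS lam P 1095216660480 4563402752 1076963049472 4563402752 :=
  chk_sound hlam t13 1095216660480 4563402752 1076963049472 4563402752 (by norm_num) (by norm_num) c13

/-- Part of the subdivision. -/
def t14 : LT := (LT.b (LT.a (LT.b (LT.l 4149 4080 4099 4109) (LT.l 4142 4082 4099 4106)) (LT.b (LT.l 4141 4082 4097 4109) (LT.l 4134 4085 4097 4106))) (LT.a (LT.b (LT.l 4134 4084 4099 4104) (LT.a (LT.l 4129 4086 4100 4102) (LT.l 4125 4087 4099 4102))) (LT.b (LT.a (LT.l 4128 4086 4098 4104) (LT.l 4124 4088 4096 4104)) (LT.a (LT.b (LT.l 4123 4088 4098 4102) (LT.l 4119 4089 4098 4101)) (LT.b (LT.l 4119 4089 4096 4102) (LT.l 4115 4090 4096 4101))))))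

theorem c14 : chk P t14 1095216660480 2281701376 1086089854976 4563402752 = true := by decide +kernel

theorem b14 {lam : ℝ} (hlam : |(S : ℝ) * lam - ((P.lp : ℝ) - P.ln)| ≤ ((1 : ℕ) : ℝ)) : BoxS lam P 1095216660480 2281701376 1086089854976 4563402752 :=
  chk_sound hlam t14 1095216660480 2281701376 1086089854976 4563402752 (by norm_num) (by norm_num) c14

/-- Part of the subdivision. -/
def t15 : LT := (LT.b (LT.a (LT.b (LT.l 4134 4085 4094 4109) (LT.l 4126 4087 4094 4106)) (LT.b (LT.l 4125 4087 4092 4109) (LT.l 4118 4090 4092 4106))) (LT.a (LT.b (LT.a (LT.l 4120 4089 4095 4104) (LT.l 4116 4090 4094 4104)) (LT.a (LT.b (LT.l 4115 4091 4095 4102) (LT.l 4111 4092 4095 4101)) (LT.b (LT.l 4110 4092 4094 4102) (LT.l 4106 4093 4094 4101)))) (LT.b (LT.l 4110 4092 4092 4104) (LT.a (LT.b (LT.l 4106 4093 4093 4102) (LT.l 4102 4094 4093 4101)) LT.z2))))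

theorem c15 : chk P t15 1099780063232 2281701376 1086089854976 4563402752 = true := by decide +kernel

theorem b15 {lam : ℝ} (hlam : |(S : ℝ) * lam - ((P.lp : ℝ) - P.ln)| ≤ ((1 : ℕ) : ℝ)) : BoxS lam P 1099780063232 2281701376 1086089854976 4563402752 :=
  chk_sound hlam t15 1099780063232 2281701376 1086089854976 4563402752 (by norm_num) (by norm_num) c15

/-- Part of the subdivision. -/
def t16 : LT := (LT.b (LT.a (LT.b (LT.l 4138 4083 4088 4116) (LT.l 4124 4088 4088 4112)) (LT.b (LT.l 4121 4089 4083 4116) LT.z2)) (LT.a (LT.b (LT.a (LT.b (LT.l 4117 4090 4089 4109) (LT.l 4109 4092 4089 4106)) LT.z2) LT.z2) LT.z2))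

theorem c16 : chk P t16 1104343465984 4563402752 1076963049472 9126805504 = true := by decide +kernel

theorem b16 {lam : ℝ} (hlam : |(S : ℝ) * lam - ((P.lp : ℝ) - P.ln)| ≤ ((1 : ℕ) : ℝ)) : BoxS lam P 1104343465984 4563402752 1076963049472 9126805504 :=
  chk_sound hlam t16 1104343465984 4563402752 1076963049472 9126805504 (by norm_num) (by norm_num) c16

/-- Part of the subdivision. -/
def t17 : LT := (LT.b (LT.a (LT.b (LT.l 4141 4082 4074 4130) LT.z2) LT.z2) LT.z2)

theorem c17 : chk P t17 1113470271488 9126805504 1058709438464 18253611008 = true := by decide +kernel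

theorem b17 {lam : ℝ} (hlam : |(S : ℝ) * lam - ((P.lp : ℝ) - P.ln)| ≤ ((1 : ℕ) : ℝ)) : BoxS lam P 1113470271488 9126805504 1058709438464 18253611008 :=
  chk_sound hlam t17 1113470271488 9126805504 1058709438464 18253611008 (by norm_num) (by norm_num) c17

/-- Part of the subdivision. -/
def t18 : LT := LT.z2

theorem c18 : chk P t18 1131723882496 18253611008 1022202216448 36507222016 = true := by decide +kernel

theorem b18 {lam : ℝ} (hlam : |(S : ℝ) * lam - ((P.lp : ℝ) - P.ln)| ≤ ((1 : ℕ) : ℝ)) : BoxS lam P 1131723882496 18253611008 1022202216448 36507222016 :=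
  chk_sound hlam t18 1131723882496 18253611008 1022202216448 36507222016 (by norm_num) (by norm_num) c18

/-- Part of the subdivision. -/
def t19 : LT := (LT.b (LT.a (LT.b (LT.l 4123 4088 4100 4100) (LT.l 4119 4089 4100 4099)) (LT.b (LT.l 4119 4089 4099 4100) (LT.a (LT.l 4116 4090 4099 4099) (LT.l 4114 4091 4098 4099)))) (LT.a LT.z1 (LT.b (LT.a LT.z1 (LT.b (LT.l 4111 4092 4098 4098) LT.z1)) LT.z1)))

theorem c19 : chk P t19 1095216660480 1140850688 1095216660480 2281701376 = true := by decide +kernel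

theorem b19 {lam : ℝ} (hlam : |(S : ℝ) * lam - ((P.lp : ℝ) - P.ln)| ≤ ((1 : ℕ) : ℝ)) : BoxS lam P 1095216660480 1140850688 1095216660480 2281701376 :=
  chk_sound hlam t19 1095216660480 1140850688 1095216660480 2281701376 (by norm_num) (by norm_num) c19

/-- Part of the subdivision. -/
def t20 : LT := (LT.a (LT.b (LT.l 4115 4090 4098 4100) (LT.a (LT.l 4112 4091 4098 4099) (LT.b (LT.l 4111 4092 4097 4099) (LT.l 4109 4092 4097 4098)))) (LT.b (LT.a (LT.l 4112 4091 4097 4100) (LT.l 4110 4092 4096 4100)) (LT.a (LT.b (LT.l 4109 4092 4097 4099) (LT.l 4107 4093 4097 4098)) (LT.b (LT.l 4107 4093 4096 4099) (LT.l 4105 4094 4096 4098)))))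

theorem c20 : chk P t20 1097498361856 1140850688 1095216660480 1140850688 = true := by decide +kernel

theorem b20 {lam : ℝ} (hlam : |(S : ℝ) * lam - ((P.lp : ℝ) - P.ln)| ≤ ((1 : ℕ) : ℝ)) : BoxS lam P 1097498361856 1140850688 1095216660480 1140850688 :=
  chk_sound hlam t20 1097498361856 1140850688 1095216660480 1140850688 (by norm_num) (by norm_num) c20

/-- Part of the subdivision. -/
def t21 : LT := (LT.b (LT.a (LT.b (LT.l 4109 4092 4098 4098) (LT.l 4107 4093 4098 4097)) (LT.b (LT.l 4107 4093 4097 4098) (LT.a (LT.l 4105 4093 4097 4097) (LT.l 4104 4094 4097 4097)))) (LT.a LT.z1 (LT.b (LT.a LT.z1 (LT.b (LT.l 4102 4094 4097 4097) LT.z1)) LT.z1)))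

theorem c21 : chk P t21 1097498361856 570425344 1097498361856 1140850688 = true := by decide +kernel

theorem b21 {lam : ℝ} (hlam : |(S : ℝ) * lam - ((P.lp : ℝ) - P.ln)| ≤ ((1 : ℕ) : ℝ)) : BoxS lam P 1097498361856 570425344 1097498361856 1140850688 :=
  chk_sound hlam t21 1097498361856 570425344 1097498361856 1140850688 (by norm_num) (by norm_num) c21

/-- Part of the subdivision. -/
def t22 : LT := (LT.a (LT.b (LT.a (LT.l 4105 4093 4097 4098) (LT.l 4104 4094 4096 4098)) (LT.a (LT.b (LT.l 4103 4094 4097 4097) (LT.l 4102 4094 4097 4097)) (LT.b (LT.l 4102 4094 4096 4097) (LT.l 4101 4094 4096 4097)))) (LT.b (LT.a (LT.l 4103 4094 4096 4098) (LT.l 4102 4094 4096 4098)) (LT.a (LT.b (LT.l 4101 4094 4096 4097) (LT.a (LT.l 4101 4095 4096 4097) (LT.l 4100 4095 4096 4097))) (LT.b (LT.l 4100 4095 4096 4097) (LT.a (LT.l 4100 4095 4096 4097) (LT.l 4099 4095 4096 4097))))))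

theorem c22 : chk P t22 1098639212544 570425344 1097498361856 570425344 = true := by decide +kernel

theorem b22 {lam : ℝ} (hlam : |(S : ℝ) * lam - ((P.lp : ℝ) - P.ln)| ≤ ((1 : ℕ) : ℝ)) : BoxS lam P 1098639212544 570425344 1097498361856 570425344 :=
  chk_sound hlam t22 1098639212544 570425344 1097498361856 570425344 (by norm_num) (by norm_num) c22

/-- Part of the subdivision. -/
def t23 : LT := (LT.a (LT.b (LT.a (LT.b (LT.l 4101 4094 4097 4097) (LT.a LT.z1 (LT.l 4100 4095 4097 4096))) (LT.b (LT.a (LT.l 4101 4095 4097 4097) (LT.l 4100 4095 4096 4097)) (LT.a (LT.b (LT.l 4100 4095 4097 4097) (LT.o 4099 4095 4097 4096)) (LT.o 4099 4095 4096 4096)))) (LT.a LT.z1 (LT.o 4098 4096 4096 4096))) (LT.b (LT.a (LT.b (LT.a (LT.b (LT.l 4100 4095 4096 4097) (LT.o 4099 4095 4096 4097)) (LT.b (LT.l 4099 4095 4096 4097) (LT.o 4099 4095 4096 4097))) (LT.o 4098 4095 4096 4096)) (LT.o 4098 4096 4096 4097)) (LT.o 4096 4096 4096 4096)))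

theorem c23 : chk P t23 1098639212544 570425344 1098639212544 570425344 = true := by decide +kernel

theorem b23 {lam : ℝ} (hlam : |(S : ℝ) * lam - ((P.lp : ℝ) - P.ln)| ≤ ((1 : ℕ) : ℝ)) : BoxS lam P 1098639212544 570425344 1098639212544 570425344 :=
  chk_sound hlam t23 1098639212544 570425344 1098639212544 570425344 (by norm_num) (by norm_num) c23

/-- Part of the subdivision. -/
def t24 : LT := (LT.a LT.z1 (LT.b (LT.a LT.z1 (LT.b (LT.a LT.z1 (LT.b (LT.a LT.z1 LT.z2) LT.z1)) LT.z1)) LT.z1))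

theorem c24 : chk P t24 1095216660480 2281701376 1099780063232 2281701376 = true := by decide +kernel

theorem b24 {lam : ℝ} (hlam : |(S : ℝ) * lam - ((P.lp : ℝ) - P.ln)| ≤ ((1 : ℕ) : ℝ)) : BoxS lam P 1095216660480 2281701376 1099780063232 2281701376 :=
  chk_sound hlam t24 1095216660480 2281701376 1099780063232 2281701376 (by norm_num) (by norm_num) c24

/-- Part of the subdivision. -/
def t25 : LT := (LT.b (LT.a (LT.b (LT.a (LT.b (LT.a (LT.l 4108 4093 4095 4100) (LT.l 4105 4093 4095 4100)) (LT.a (LT.b (LT.l 4104 4094 4095 4099) (LT.l 4102 4094 4095 4098)) (LT.b (LT.l 4102 4094 4095 4099) (LT.l 4100 4095 4095 4098)))) (LT.b (LT.l 4102 4094 4094 4100) (LT.a (LT.b (LT.l 4100 4095 4094 4099) LT.z2) LT.z2))) (LT.a (LT.b (LT.a (LT.b (LT.a (LT.l 4101 4095 4096 4098) (LT.l 4100 4095 4095 4098)) (LT.a (LT.b (LT.l 4099 4095 4096 4097) (LT.l 4098 4095 4096 4097)) (LT.b (LT.l 4098 4095 4095 4097) (LT.l 4097 4096 4095 4097)))) (LT.b (LT.l 4098 4095 4095 4098) LT.z2)) (LT.a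 (LT.b (LT.a (LT.o 4097 4096 4096 4097) LT.z2) LT.z2) LT.z2)) LT.z2)) LT.z2) LT.z2)

theorem c25 : chk P t25 1099780063232 2281701376 1095216660480 4563402752 = true := by decide +kernel

theorem b25 {lam : ℝ} (hlam : |(S : ℝ) * lam - ((P.lp : ℝ) - P.ln)| ≤ ((1 : ℕ) : ℝ)) : BoxS lam P 1099780063232 2281701376 1095216660480 4563402752 :=
  chk_sound hlam t25 1099780063232 2281701376 1095216660480 4563402752 (by norm_num) (by norm_num) c25

/-- Part of the subdivision. -/
def t26 : LT := (LT.a LT.z1 LT.z2)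

theorem c26 : chk P t26 1095216660480 4563402752 1104343465984 4563402752 = true := by decide +kernel

theorem b26 {lam : ℝ} (hlam : |(S : ℝ) * lam - ((P.lp : ℝ) - P.ln)| ≤ ((1 : ℕ) : ℝ)) : BoxS lam P 1095216660480 4563402752 1104343465984 4563402752 :=
  chk_sound hlam t26 1095216660480 4563402752 1104343465984 4563402752 (by norm_num) (by norm_num) c26

/-- Part of the subdivision. -/
def t27 : LT := LT.z2

theorem c27 : chk P t27 1104343465984 4563402752 1095216660480 9126805504 = true := by decide +kernel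

theorem b27 {lam : ℝ} (hlam : |(S : ℝ) * lam - ((P.lp : ℝ) - P.ln)| ≤ ((1 : ℕ) : ℝ)) : BoxS lam P 1104343465984 4563402752 1095216660480 9126805504 :=
  chk_sound hlam t27 1104343465984 4563402752 1095216660480 9126805504 (by norm_num) (by norm_num) c27

/-- Part of the subdivision. -/
def t28 : LT := LT.z2

theorem c28 : chk P t28 1095216660480 9126805504 1113470271488 9126805504 = true := by decide +kernel

theorem b28 {lam : ℝ} (hlam : |(S : ℝ) * lam - ((P.lp : ℝ) - P.ln)| ≤ ((1 : ℕ) : ℝ)) : BoxS lam P 1095216660480 9126805504 1113470271488 9126805504 :=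
  chk_sound hlam t28 1095216660480 9126805504 1113470271488 9126805504 (by norm_num) (by norm_num) c28

/-- Part of the subdivision. -/
def t29 : LT := LT.z2

theorem c29 : chk P t29 1113470271488 9126805504 1095216660480 18253611008 = true := by decide +kernel

theorem b29 {lam : ℝ} (hlam : |(S : ℝ) * lam - ((P.lp : ℝ) - P.ln)| ≤ ((1 : ℕ) : ℝ)) : BoxS lam P 1113470271488 9126805504 1095216660480 18253611008 :=
  chk_sound hlam t29 1113470271488 9126805504 1095216660480 18253611008 (by norm_num) (by norm_num) c29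

/-- Part of the subdivision. -/
def t30 : LT := LT.z2

theorem c30 : chk P t30 1095216660480 18253611008 1131723882496 18253611008 = true := by decide +kernel

theorem b30 {lam : ℝ} (hlam : |(S : ℝ) * lam - ((P.lp : ℝ) - P.ln)| ≤ ((1 : ℕ) : ℝ)) : BoxS lam P 1095216660480 18253611008 1131723882496 18253611008 :=
  chk_sound hlam t30 1095216660480 18253611008 1131723882496 18253611008 (by norm_num) (by norm_num) c30

/-- Part of the subdivision. -/
def t31 : LT := LT.z2

theorem c31 : chk P t31 1131723882496 18253611008 1095216660480 36507222016 = true := by decide +kernel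

theorem b31 {lam : ℝ} (hlam : |(S : ℝ) * lam - ((P.lp : ℝ) - P.ln)| ≤ ((1 : ℕ) : ℝ)) : BoxS lam P 1131723882496 18253611008 1095216660480 36507222016 :=
  chk_sound hlam t31 1131723882496 18253611008 1095216660480 36507222016 (by norm_num) (by norm_num) c31

/-- The whole box. -/
theorem box {lam : ℝ} (hlam : |(S : ℝ) * lam - ((P.lp : ℝ) - P.ln)| ≤ ((1 : ℕ) : ℝ)) : BoxS lam P 0 HH 0 HH :=
  (BoxS.sa' (x1 := 584115552256) (h := 292057776128) (by norm_num [HH]) (by norm_num) (b0 hlam) (BoxS.sb' (t1 := 584115552256) (h := 292057776128) (by norm_num [HH]) (by norm_num) (b1 hlam) (BoxS.sa' (x1 := 876173328384) (h := 146028888064) (by norm_num [HH]) (by norm_num) (b2 hlam) (BoxS.sb' (t1 := 876173328384) (h := 146028888064) (by norm_num [HH]) (by norm_num) (b3 hlam) (BoxS.sa' (x1 := 1022202216448) (h := 73014444032) (by norm_num [HH]) (by norm_num) (b4 hlam) (BoxS.sb' (t1 := 1022202216448) (h := 73014444032) (by norm_num [HH]) (by norm_num) (BoxS.sa' (x1 := 1095216660480)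 (h := 36507222016) (by norm_num [HH]) (by norm_num) (b5 hlam) (b6 hlam)) (BoxS.sa' (x1 := 1095216660480) (h := 36507222016) (by norm_num [HH]) (by norm_num) (BoxS.sb' (t1 := 1095216660480) (h := 36507222016) (by norm_num [HH]) (by norm_num) (BoxS.sa' (x1 := 1058709438464) (h := 18253611008) (by norm_num [HH]) (by norm_num) (b7 hlam) (BoxS.sb' (t1 := 1058709438464) (h := 18253611008) (by norm_num [HH]) (by norm_num) (b8 hlam) (b9 hlam))) (b10 hlam)) (BoxS.sb' (t1 := 1095216660480) (h := 36507222016) (by norm_num [HH]) (by norm_num) (BoxS.sa' (x1 := 1131723882496) (h := 18253611008) (by norm_num [HH]) (by norm_num) (BoxS.sb' (t1 := 1058709438464) (h := 18253611008) (by norm_num [HH]) (by norm_num) (b11 hlam) (BoxS.sa' (x1 := 1113470271488) (h := 9126805504) (by norm_num [HH]) (by norm_num) (BoxS.sb' (t1 := 1076963049472) (h := 9126805504) (by norm_num [HH]) (by norm_num) (b12 hlam) (BoxS.sa' (x1 := 1104343465984) (h := 4563402752) (by norm_num [HH]) (by norm_num)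 (BoxS.sb' (t1 := 1086089854976) (h := 4563402752) (by norm_num [HH]) (by norm_num) (b13 hlam) (BoxS.sa' (x1 := 1099780063232) (h := 2281701376) (by norm_num [HH]) (by norm_num) (b14 hlam) (b15 hlam))) (b16 hlam))) (b17 hlam))) (b18 hlam)) (BoxS.sa' (x1 := 1131723882496) (h := 18253611008) (by norm_num [HH]) (by norm_num) (BoxS.sb' (t1 := 1131723882496) (h := 18253611008) (by norm_num [HH]) (by norm_num) (BoxS.sa' (x1 := 1113470271488) (h := 9126805504) (by norm_num [HH]) (by norm_num) (BoxS.sb' (t1 := 1113470271488) (h := 9126805504) (by norm_num [HH]) (by norm_num) (BoxS.sa' (x1 := 1104343465984) (h := 4563402752) (by norm_num [HH]) (by norm_num) (BoxS.sb' (t1 := 1104343465984) (h := 4563402752) (by norm_num [HH]) (by norm_num) (BoxS.sa' (x1 := 1099780063232) (h := 2281701376) (by norm_num [HH]) (by norm_num) (BoxS.sb' (t1 := 1099780063232) (h := 2281701376) (by norm_num [HH]) (by norm_num) (BoxS.sa' (x1 := 1097498361856) (h := 1140850688) (by norm_num [HH])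 (by norm_num) (b19 hlam) (BoxS.sb' (t1 := 1097498361856) (h := 1140850688) (by norm_num [HH]) (by norm_num) (b20 hlam) (BoxS.sa' (x1 := 1098639212544) (h := 570425344) (by norm_num [HH]) (by norm_num) (b21 hlam) (BoxS.sb' (t1 := 1098639212544) (h := 570425344) (by norm_num [HH]) (by norm_num) (b22 hlam) (b23 hlam))))) (b24 hlam)) (b25 hlam)) (b26 hlam)) (b27 hlam)) (b28 hlam)) (b29 hlam)) (b30 hlam)) (b31 hlam))))))))))

end Vale.Agent.P154H.Tm.D12
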