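import Vale.Agent.P154H.Msg

set_option maxRecDepth 100000

/-!
The subdivision for `d = 13`.
-/

namespace Vale.Agent.P154H.Tm.D13

/-- A row. -/
def Ra : Row := Row.mk 0 525474 0 2606391 4717404 0 6831162 0 33883083 0 0 61326252 0 3680 0 4273152 0 36750672

/-- A row. -/
def Rb : Row := Row.mk 0 17631981600768 0 87455969574912 158289811734528 0 219024664518384 0 1077012450859491 0 0 1941815523631104 0 123480309760 0 143383188209664 0 1190939800770594
/-- A row. -/
def Q0 : Row := Row.mk 0 0 0 0 0 0 7473408 0 0 0 0 0 0 0 0 0 0 5346279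

/-- A row. -/
def Q1 : Row := Row.mk 0 0 0 0 0 0 0 0 296549376 0 0 0 0 0 0 0 0 173207163

/-- A row. -/
def Q2 : Row := Row.mk 0 0 0 0 0 0 0 0 0 0 128 0 0 0 0 0 0 345

/-- A row. -/
def Q3 : Row := Row.mk 0 538085376 0 2668944384 4830621696 0 6656705952 0 32692937712 0 0 58767166464 0 3768320 0 0 0 36688991139

/-- A row. -/
def Q4 : Row := Row.mk 0 1076170752 0 5337888768 9661243392 0 13189106496 0 64599144000 0 0 115939866432 0 7536640 0 0 0 73066629249

/-- A row. -/
def Q5 : Row := Row.mk 0 538085376 0 2668944384 4830621696 0 6511610784 0 31837078224 0 0 57022307808 0 3768320 0 0 0 36351258579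

/-- A row. -/
def Q6 : Row := Row.mk 0 1076170752 0 5337888768 9661243392 0 12801867264 0 62553048384 0 0 111795014592 0 7536640 0 0 0 72058908735

/-- A row. -/
def Q7 : Row := Row.mk 0 67260672 0 333618048 603827712 0 788752860 0 3827152956 0 0 6821140032 0 471040 0 0 0 4472963991

/-- A row. -/
def Q8 : Row := Row.mk 0 134521344 0 667236096 1207655424 0 1542112800 0 7458025188 0 0 13252117488 0 942080 0 0 0 8832134601

/-- A row. -/
def Q9 : Row := Row.mk 0 1076170752 0 5337888768 9661243392 0 12042836160 0 57869529408 0 0 102361713216 0 7536640 0 0 0 69962620779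

/-- A row. -/
def Q10 : Row := Row.mk 0 538085376 0 2668944384 4830621696 0 5836244160 0 27860239248 0 0 49053934656 0 3768320 0 0 0 34355842389

/-- A row. -/
def Q11 : Row := Row.mk 0 1076170752 0 5337888768 9661243392 0 11272612800 0 53314572000 0 0 93198791424 0 7536640 0 0 0 67782848841

/-- A row. -/
def Q12 : Row := Row.mk 0 269042688 0 1334472192 2415310848 0 2687436720 0 12621710496 0 0 21895817472 0 1884160 0 0 0 16519739373

/-- A row. -/
def Q13 : Row := Row.mk 0 1076170752 0 5337888768 9661243392 0 10207867008 0 47439571104 0 0 81228567744 0 7536640 0 0 0 65179388889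

/-- A row. -/
def Q14 : Row := Row.mk 0 538085376 0 2668944384 4830621696 0 4788698400 0 21929969664 0 0 37066184544 0 3768320 0 0 0 31529610981

/-- A row. -/
def Q15 : Row := Row.mk 0 1076170752 0 5337888768 9661243392 0 8926648896 0 39911007648 0 0 66338031744 0 7536640 0 0 0 60739846443

/-- A row. -/
def Q16 : Row := Row.mk 0 538085376 0 2668944384 4830621696 0 4132168416 0 18076096608 0 0 28974230112 0 3768320 0 0 0 30562199559

/-- A row. -/
def Q17 : Row := Row.mk 0 269042688 0 1334472192 2415310848 0 1904396496 0 8120518176 0 0 12284171952 0 1884160 0 0 0 15784534251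

/-- A row. -/
def Q18 : Row := Row.mk 0 33630336 0 166809024 301913856 0 217423434 0 910555770 0 0 1236564156 0 235520 0 0 0 2151482085


/-- The data. -/
def P : Pb where
  lp := 0
  ln := 19985180776178263
  ab := 3298534883328
  r1 := [Ra, Rb]
  r2 := [Q0, Q1, Q2, Q3, Q4, Q5, Q6, Q7, Q8, Q9, Q10, Q11, Q12, Q13, Q14, Q15, Q16, Q17, Q18]

/-- Part of the subdivision. -/
def t0 : LT := (LT.b (LT.a (LT.l 4699 3702 4223 4223) (LT.l 4699 3702 4223 4223)) (LT.a LT.z1 (LT.b (LT.a LT.z1 (LT.b (LT.l 4695 3707 4223 4221) LT.z1)) LT.z1)))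

theorem c0 : chk P t0 0 292057776128 0 584115552256 = true := by decide +kernel

theorem b0 {lam : ℝ} (hlam : |(S : ℝ) * lam - ((P.lp : ℝ) - P.ln)| ≤ ((1 : ℕ) : ℝ)) : BoxS lam P 0 292057776128 0 584115552256 :=
  chk_sound hlam t0 0 292057776128 0 584115552256 (by norm_num) (by norm_num) c0

/-- Part of the subdivision. -/
def t1 : LT := (LT.a (LT.b (LT.a (LT.l 4696 3707 4221 4223) (LT.l 4683 3725 4214 4223)) (LT.a (LT.l 4696 3707 4221 4223) (LT.l 4683 3725 4214 4223))) (LT.b (LT.a (LT.l 4636 3784 4187 4223) (LT.b (LT.l 4475 3927 4100 4223) (LT.l 4475 3927 4100 4223))) (LT.a (LT.b (LT.l 4636 3784 4187 4223) (LT.l 4635 3785 4187 4223)) (LT.b (LT.a (LT.l 4536 3881 4132 4223) (LT.l 4390 3980 4058 4223)) (LT.a (LT.l 4535 3882 4132 4223) (LT.b (LT.l 4389 3980 4058 4223) (LT.l 4388 3981 4058 4223)))))))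

theorem c1 : chk P t1 584115552256 292057776128 0 292057776128 = true := by decide +kernel

theorem b1 {lam : ℝ} (hlam : |(S : ℝ) * lam - ((P.lp : ℝ) - P.ln)| ≤ ((1 : ℕ) : ℝ)) : BoxS lam P 584115552256 292057776128 0 292057776128 :=
  chk_sound hlam t1 584115552256 292057776128 0 292057776128 (by norm_num) (by norm_num) c1

/-- Part of the subdivision. -/
def t2 : LT := (LT.b (LT.a (LT.b (LT.l 4693 3711 4221 4221) (LT.l 4680 3729 4221 4214)) (LT.b (LT.l 4680 3729 4214 4221) (LT.l 4666 3747 4214 4214))) (LT.a LT.z1 (LT.b (LT.a LT.z1 (LT.b (LT.l 4629 3792 4210 4197) LT.z1)) LT.z1)))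

theorem c2 : chk P t2 584115552256 146028888064 584115552256 292057776128 = true := by decide +kernel

theorem b2 {lam : ℝ} (hlam : |(S : ℝ) * lam - ((P.lp : ℝ) - P.ln)| ≤ ((1 : ℕ) : ℝ)) : BoxS lam P 584115552256 146028888064 584115552256 292057776128 :=
  chk_sound hlam t2 584115552256 146028888064 584115552256 292057776128 (by norm_num) (by norm_num) c2

/-- Part of the subdivision. -/
def t3 : LT := (LT.a (LT.b (LT.a (LT.l 4650 3768 4197 4221) (LT.l 4608 3814 4173 4221)) (LT.a (LT.l 4636 3784 4197 4214) (LT.b (LT.l 4599 3823 4173 4217) (LT.l 4585 3837 4173 4210)))) (LT.b (LT.a (LT.b (LT.l 4533 3884 4132 4222) (LT.l 4529 3887 4132 4220)) (LT.b (LT.a (LT.l 4433 3955 4081 4222) (LT.l 4329 4011 4031 4222)) (LT.a (LT.l 4429 3957 4081 4220) (LT.l 4324 4013 4031 4220)))) (LT.a (LT.b (LT.a (LT.l 4546 3873 4145 4217) (LT.l 4493 3914 4117 4217)) (LT.a (LT.l 4531 3886 4145 4210) (LT.l 4477 3926 4117 4210))) (LT.b (LT.a (LT.l 4420 3963 4081 4217) (LT.l 4313 4018 4031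 4217)) (LT.a (LT.l 4402 3973 4081 4210) (LT.l 4292 4028 4031 4210))))))

theorem c3 : chk P t3 876173328384 146028888064 584115552256 146028888064 = true := by decide +kernel

theorem b3 {lam : ℝ} (hlam : |(S : ℝ) * lam - ((P.lp : ℝ) - P.ln)| ≤ ((1 : ℕ) : ℝ)) : BoxS lam P 876173328384 146028888064 584115552256 146028888064 :=
  chk_sound hlam t3 876173328384 146028888064 584115552256 146028888064 (by norm_num) (by norm_num) c3

/-- Part of the subdivision. -/
def t4 : LT := (LT.b (LT.a (LT.b (LT.l 4604 3818 4197 4197) (LT.a LT.z1 (LT.b (LT.l 4564 3857 4192 4181) LT.z1))) (LT.b (LT.a (LT.l 4573 3849 4181 4197) (LT.b (LT.l 4552 3868 4165 4201) (LT.l 4534 3883 4165 4192))) (LT.a (LT.b (LT.l 4541 3877 4181 4181) (LT.a LT.z1 (LT.l 4502 3908 4177 4165))) (LT.b (LT.a (LT.l 4518 3896 4169 4181) (LT.l 4500 3910 4161 4181)) (LT.a (LT.l 4485 3920 4169 4165) (LT.b (LT.l 4475 3927 4161 4169) (LT.l 4456 3940 4161 4161))))))) (LT.a LT.z1 (LT.b (LT.a LT.z1 (LT.b (LT.a LT.z1 (LT.b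 (LT.l 4433 3955 4161 4150) LT.z1)) LT.z1)) LT.z1)))

theorem c4 : chk P t4 876173328384 73014444032 876173328384 146028888064 = true := by decide +kernel

theorem b4 {lam : ℝ} (hlam : |(S : ℝ) * lam - ((P.lp : ℝ) - P.ln)| ≤ ((1 : ℕ) : ℝ)) : BoxS lam P 876173328384 73014444032 876173328384 146028888064 :=
  chk_sound hlam t4 876173328384 73014444032 876173328384 146028888064 (by norm_num) (by norm_num) c4

/-- Part of the subdivision. -/
def t5 : LT := (LT.b (LT.a (LT.b (LT.l 4511 3901 4145 4201) (LT.l 4492 3915 4145 4192)) (LT.b (LT.l 4456 3940 4117 4201) (LT.l 4435 3954 4117 4192))) (LT.a (LT.b (LT.a (LT.l 4478 3925 4150 4181) (LT.l 4453 3942 4139 4181)) (LT.a (LT.b (LT.l 4453 3942 4150 4169) (LT.l 4433 3955 4150 4161)) (LT.b (LT.l 4427 3959 4139 4169) (LT.l 4406 3971 4139 4161)))) (LT.b (LT.a (LT.l 4423 3961 4125 4181) (LT.l 4388 3981 4109 4181)) (LT.a (LT.b (LT.l 4396 3977 4125 4169) (LT.l 4373 3989 4125 4161)) (LT.b (LT.l 4359 3996 4109 4169) (LT.l 4335 4008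 4109 4161))))))

theorem c5 : chk P t5 1022202216448 36507222016 876173328384 73014444032 = true := by decide +kernel

theorem b5 {lam : ℝ} (hlam : |(S : ℝ) * lam - ((P.lp : ℝ) - P.ln)| ≤ ((1 : ℕ) : ℝ)) : BoxS lam P 1022202216448 36507222016 876173328384 73014444032 :=
  chk_sound hlam t5 1022202216448 36507222016 876173328384 73014444032 (by norm_num) (by norm_num) c5

/-- Part of the subdivision. -/
def t6 : LT := (LT.b (LT.a (LT.b (LT.l 4378 3987 4081 4201) (LT.l 4354 3999 4081 4192)) (LT.b (LT.l 4263 4040 4031 4201) (LT.a (LT.l 4269 4037 4045 4192) LT.z2))) (LT.a (LT.b (LT.a (LT.l 4346 4003 4091 4181) (LT.l 4294 4027 4070 4181)) (LT.a (LT.b (LT.l 4314 4018 4091 4169) (LT.l 4289 4029 4091 4161)) (LT.b (LT.l 4260 4041 4070 4169) (LT.l 4232 4052 4070 4161)))) (LT.b (LT.a (LT.l 4231 4052 4045 4181) LT.z2) (LT.a (LT.b (LT.l 4194 4066 4045 4169) LT.z2) LT.z2))))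

theorem c6 : chk P t6 1095216660480 36507222016 876173328384 73014444032 = true := by decide +kernel

theorem b6 {lam : ℝ} (hlam : |(S : ℝ) * lam - ((P.lp : ℝ) - P.ln)| ≤ ((1 : ℕ) : ℝ)) : BoxS lam P 1095216660480 36507222016 876173328384 73014444032 :=
  chk_sound hlam t6 1095216660480 36507222016 876173328384 73014444032 (by norm_num) (by norm_num) c6

/-- Part of the subdivision. -/
def t7 : LT := (LT.b (LT.a (LT.b (LT.a (LT.l 4415 3966 4153 4150) (LT.l 4402 3973 4148 4150)) (LT.a LT.z1 (LT.l 4374 3989 4148 4139))) (LT.b (LT.a (LT.l 4388 3981 4142 4150) (LT.l 4373 3989 4135 4150)) (LT.a (LT.b (LT.l 4367 3992 4142 4142) (LT.l 4351 4000 4142 4135)) (LT.b (LT.l 4351 4000 4135 4142) (LT.l 4334 4008 4135 4135))))) (LT.a LT.z1 (LT.b (LT.a LT.z1 (LT.l 4307 4021 4135 4125)) LT.z1)))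

theorem c7 : chk P t7 1022202216448 18253611008 1022202216448 36507222016 = true := by decide +kernel

theorem b7 {lam : ℝ} (hlam : |(S : ℝ) * lam - ((P.lp : ℝ) - P.ln)| ≤ ((1 : ℕ) : ℝ)) : BoxS lam P 1022202216448 18253611008 1022202216448 36507222016 :=
  chk_sound hlam t7 1022202216448 18253611008 1022202216448 36507222016 (by norm_num) (by norm_num) c7

/-- Part of the subdivision. -/
def t8 : LT := (LT.a (LT.b (LT.a (LT.l 4356 3998 4128 4150) (LT.l 4338 4007 4121 4150)) (LT.a (LT.b (LT.l 4333 4009 4128 4142) (LT.l 4317 4017 4128 4135)) (LT.l 4306 4022 4121 4139))) (LT.b (LT.a (LT.l 4318 4016 4113 4150) (LT.l 4296 4026 4105 4150)) (LT.a (LT.l 4285 4031 4113 4139) (LT.l 4262 4040 4105 4139))))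

theorem c8 : chk P t8 1058709438464 18253611008 1022202216448 18253611008 = true := by decide +kernel

theorem b8 {lam : ℝ} (hlam : |(S : ℝ) * lam - ((P.lp : ℝ) - P.ln)| ≤ ((1 : ℕ) : ℝ)) : BoxS lam P 1058709438464 18253611008 1022202216448 18253611008 :=
  chk_sound hlam t8 1058709438464 18253611008 1022202216448 18253611008 (by norm_num) (by norm_num) c8

/-- Part of the subdivision. -/
def t9 : LT := (LT.a (LT.b (LT.a (LT.b (LT.l 4298 4025 4128 4128) (LT.l 4278 4034 4128 4121)) (LT.b (LT.l 4278 4034 4121 4128) (LT.l 4257 4042 4121 4121))) (LT.a LT.z1 (LT.b (LT.l 4234 4051 4121 4113) LT.z1))) (LT.b (LT.a (LT.b (LT.l 4256 4043 4113 4128) (LT.l 4234 4051 4113 4121)) (LT.b (LT.l 4232 4052 4105 4128) (LT.a (LT.l 4216 4058 4107 4121) (LT.l 4202 4063 4103 4121)))) (LT.a (LT.b (LT.a (LT.l 4217 4058 4115 4113) (LT.l 4204 4062 4111 4113)) (LT.a LT.z1 (LT.b (LT.l 4185 4069 4111 4107) LT.z1))) (LT.b (LT.a (LT.b (LT.l 4198 4064 4107 4115) (LT.l 4185 4069 4107 4111)) (LT.b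 (LT.l 4184 4069 4103 4115) (LT.l 4171 4073 4103 4111))) (LT.a (LT.b (LT.l 4171 4073 4107 4107) (LT.a LT.z1 (LT.l 4153 4079 4106 4103))) (LT.b (LT.a (LT.l 4160 4077 4104 4107) (LT.l 4153 4079 4101 4107)) (LT.a (LT.b (LT.l 4150 4080 4104 4104) (LT.l 4142 4083 4104 4101)) (LT.b (LT.l 4142 4083 4101 4104) (LT.l 4135 4085 4101 4101)))))))))

theorem c9 : chk P t9 1058709438464 18253611008 1058709438464 18253611008 = true := by decide +kernel

theorem b9 {lam : ℝ} (hlam : |(S : ℝ) * lam - ((P.lp : ℝ) - P.ln)| ≤ ((1 : ℕ) : ℝ)) : BoxS lam P 1058709438464 18253611008 1058709438464 18253611008 :=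
  chk_sound hlam t9 1058709438464 18253611008 1058709438464 18253611008 (by norm_num) (by norm_num) c9

/-- Part of the subdivision. -/
def t10 : LT := (LT.a LT.z1 (LT.b (LT.a LT.z1 (LT.b (LT.a LT.z1 (LT.b (LT.a LT.z1 (LT.b (LT.a LT.z1 (LT.b (LT.a LT.z1 (LT.l 4125 4088 4101 4099)) LT.z1)) LT.z1)) LT.z1)) LT.z1)) LT.z1))

theorem c10 : chk P t10 1022202216448 36507222016 1095216660480 36507222016 = true := by decide +kernel

theorem b10 {lam : ℝ} (hlam : |(S : ℝ) * lam - ((P.lp : ℝ) - P.ln)| ≤ ((1 : ℕ) : ℝ)) : BoxS lam P 1022202216448 36507222016 1095216660480 36507222016 :=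
  chk_sound hlam t10 1022202216448 36507222016 1095216660480 36507222016 (by norm_num) (by norm_num) c10

/-- Part of the subdivision. -/
def t11 : LT := (LT.a (LT.b (LT.a (LT.l 4272 4036 4096 4150) (LT.l 4245 4047 4086 4150)) (LT.a (LT.b (LT.l 4246 4047 4096 4142) (LT.l 4226 4054 4096 4135)) (LT.b (LT.l 4218 4057 4086 4142) (LT.l 4197 4065 4086 4135)))) (LT.b (LT.a (LT.l 4215 4058 4075 4150) (LT.l 4182 4070 4064 4150)) (LT.a (LT.b (LT.l 4187 4068 4075 4142) (LT.l 4165 4075 4075 4135)) LT.z2)))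

theorem c11 : chk P t11 1095216660480 18253611008 1022202216448 18253611008 = true := by decide +kernel

theorem b11 {lam : ℝ} (hlam : |(S : ℝ) * lam - ((P.lp : ℝ) - P.ln)| ≤ ((1 : ℕ) : ℝ)) : BoxS lam P 1095216660480 18253611008 1022202216448 18253611008 :=
  chk_sound hlam t11 1095216660480 18253611008 1022202216448 18253611008 (by norm_num) (by norm_num) c11

/-- Part of the subdivision. -/
def t12 : LT := (LT.a (LT.b (LT.l 4205 4062 4096 4128) (LT.a (LT.l 4189 4068 4098 4121) (LT.b (LT.l 4180 4070 4093 4123) (LT.l 4167 4075 4093 4119)))) (LT.b (LT.l 4175 4072 4086 4128) (LT.a (LT.b (LT.l 4165 4075 4088 4123) (LT.l 4152 4080 4088 4119)) (LT.l 4142 4083 4083 4121))))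

theorem c12 : chk P t12 1095216660480 9126805504 1058709438464 9126805504 = true := by decide +kernel

theorem b12 {lam : ℝ} (hlam : |(S : ℝ) * lam - ((P.lp : ℝ) - P.ln)| ≤ ((1 : ℕ) : ℝ)) : BoxS lam P 1095216660480 9126805504 1058709438464 9126805504 :=
  chk_sound hlam t12 1095216660480 9126805504 1058709438464 9126805504 (by norm_num) (by norm_num) c12

/-- Part of the subdivision. -/
def t13 : LT := (LT.a (LT.b (LT.l 4169 4074 4098 4115) (LT.a (LT.l 4160 4077 4099 4111) (LT.l 4152 4079 4097 4111))) (LT.b (LT.l 4154 4079 4093 4115) (LT.a (LT.l 4144 4082 4095 4111) (LT.l 4136 4084 4092 4111))))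

theorem c13 : chk P t13 1095216660480 4563402752 1076963049472 4563402752 = true := by decide +kernel

theorem b13 {lam : ℝ} (hlam : |(S : ℝ) * lam - ((P.lp : ℝ) - P.ln)| ≤ ((1 : ℕ) : ℝ)) : BoxS lam P 1095216660480 4563402752 1076963049472 4563402752 :=
  chk_sound hlam t13 1095216660480 4563402752 1076963049472 4563402752 (by norm_num) (by norm_num) c13

/-- Part of the subdivision. -/
def t14 : LT := (LT.b (LT.a (LT.b (LT.l 4149 4080 4099 4108) (LT.l 4142 4083 4099 4106)) (LT.b (LT.l 4141 4083 4097 4108) (LT.l 4134 4085 4097 4106))) (LT.a (LT.b (LT.l 4134 4085 4099 4104) (LT.a (LT.l 4129 4087 4100 4101) (LT.l 4125 4088 4099 4101))) (LT.b (LT.a (LT.l 4128 4087 4097 4104) (LT.l 4124 4088 4096 4104)) (LT.a (LT.b (LT.l 4123 4088 4097 4102) (LT.l 4119 4090 4097 4101)) (LT.b (LT.l 4119 4090 4096 4102) (LT.l 4115 4091 4096 4101))))))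

theorem c14 : chk P t14 1095216660480 2281701376 1086089854976 4563402752 = true := by decide +kernel

theorem b14 {lam : ℝ} (hlam : |(S : ℝ) * lam - ((P.lp : ℝ) - P.ln)| ≤ ((1 : ℕ) : ℝ)) : BoxS lam P 1095216660480 2281701376 1086089854976 4563402752 :=
  chk_sound hlam t14 1095216660480 2281701376 1086089854976 4563402752 (by norm_num) (by norm_num) c14

/-- Part of the subdivision. -/
def t15 : LT := (LT.b (LT.a (LT.b (LT.l 4134 4085 4095 4108) (LT.l 4126 4087 4095 4106)) (LT.b (LT.l 4125 4088 4092 4108) (LT.l 4118 4090 4092 4106))) (LT.a (LT.b (LT.a (LT.l 4120 4089 4095 4104) (LT.l 4116 4090 4094 4104)) (LT.a (LT.b (LT.l 4115 4091 4095 4102) (LT.l 4111 4092 4095 4101)) (LT.b (LT.l 4110 4092 4094 4102) (LT.l 4106 4093 4094 4101)))) (LT.b (LT.l 4110 4092 4092 4104) (LT.a (LT.b (LT.l 4106 4093 4093 4102) (LT.l 4102 4094 4093 4101)) LT.z2))))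

theorem c15 : chk P t15 1099780063232 2281701376 1086089854976 4563402752 = true := by decide +kernel

theorem b15 {lam : ℝ} (hlam : |(S : ℝ) * lam - ((P.lp : ℝ) - P.ln)| ≤ ((1 : ℕ) : ℝ)) : BoxS lam P 1099780063232 2281701376 1086089854976 4563402752 :=
  chk_sound hlam t15 1099780063232 2281701376 1086089854976 4563402752 (by norm_num) (by norm_num) c15

/-- Part of the subdivision. -/
def t16 : LT := (LT.b (LT.a (LT.b (LT.l 4138 4084 4088 4115) (LT.l 4124 4088 4088 4111)) (LT.b (LT.l 4121 4089 4083 4115) LT.z2)) (LT.a (LT.b (LT.a (LT.b (LT.l 4117 4090 4090 4108) (LT.l 4109 4092 4090 4106)) LT.z2) LT.z2) LT.z2))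

theorem c16 : chk P t16 1104343465984 4563402752 1076963049472 9126805504 = true := by decide +kernel

theorem b16 {lam : ℝ} (hlam : |(S : ℝ) * lam - ((P.lp : ℝ) - P.ln)| ≤ ((1 : ℕ) : ℝ)) : BoxS lam P 1104343465984 4563402752 1076963049472 9126805504 :=
  chk_sound hlam t16 1104343465984 4563402752 1076963049472 9126805504 (by norm_num) (by norm_num) c16

/-- Part of the subdivision. -/
def t17 : LT := (LT.b (LT.a (LT.b (LT.l 4141 4083 4075 4128) LT.z2) LT.z2) LT.z2)

theorem c17 : chk P t17 1113470271488 9126805504 1058709438464 18253611008 = true := by decide +kernel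

theorem b17 {lam : ℝ} (hlam : |(S : ℝ) * lam - ((P.lp : ℝ) - P.ln)| ≤ ((1 : ℕ) : ℝ)) : BoxS lam P 1113470271488 9126805504 1058709438464 18253611008 :=
  chk_sound hlam t17 1113470271488 9126805504 1058709438464 18253611008 (by norm_num) (by norm_num) c17

/-- Part of the subdivision. -/
def t18 : LT := LT.z2

theorem c18 : chk P t18 1131723882496 18253611008 1022202216448 36507222016 = true := by decide +kernel

theorem b18 {lam : ℝ} (hlam : |(S : ℝ) * lam - ((P.lp : ℝ) - P.ln)| ≤ ((1 : ℕ) : ℝ)) : BoxS lam P 1131723882496 18253611008 1022202216448 36507222016 :=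
  chk_sound hlam t18 1131723882496 18253611008 1022202216448 36507222016 (by norm_num) (by norm_num) c18

/-- Part of the subdivision. -/
def t19 : LT := (LT.b (LT.a (LT.b (LT.l 4123 4088 4100 4100) (LT.l 4119 4090 4100 4099)) (LT.b (LT.l 4119 4090 4099 4100) (LT.a (LT.l 4116 4090 4099 4099) (LT.l 4114 4091 4098 4099)))) (LT.a LT.z1 (LT.b (LT.a LT.z1 (LT.b (LT.l 4111 4092 4098 4098) LT.z1)) LT.z1)))

theorem c19 : chk P t19 1095216660480 1140850688 1095216660480 2281701376 = true := by decide +kernel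

theorem b19 {lam : ℝ} (hlam : |(S : ℝ) * lam - ((P.lp : ℝ) - P.ln)| ≤ ((1 : ℕ) : ℝ)) : BoxS lam P 1095216660480 1140850688 1095216660480 2281701376 :=
  chk_sound hlam t19 1095216660480 1140850688 1095216660480 2281701376 (by norm_num) (by norm_num) c19

/-- Part of the subdivision. -/
def t20 : LT := (LT.a (LT.b (LT.l 4115 4091 4097 4100) (LT.a (LT.l 4112 4092 4098 4099) (LT.b (LT.l 4111 4092 4097 4099) (LT.l 4109 4092 4097 4098)))) (LT.b (LT.a (LT.l 4112 4092 4097 4100) (LT.l 4110 4092 4096 4100)) (LT.a (LT.b (LT.l 4109 4092 4097 4099) (LT.l 4107 4093 4097 4098)) (LT.b (LT.l 4107 4093 4096 4099) (LT.l 4105 4094 4096 4098)))))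

theorem c20 : chk P t20 1097498361856 1140850688 1095216660480 1140850688 = true := by decide +kernel

theorem b20 {lam : ℝ} (hlam : |(S : ℝ) * lam - ((P.lp : ℝ) - P.ln)| ≤ ((1 : ℕ) : ℝ)) : BoxS lam P 1097498361856 1140850688 1095216660480 1140850688 :=
  chk_sound hlam t20 1097498361856 1140850688 1095216660480 1140850688 (by norm_num) (by norm_num) c20

/-- Part of the subdivision. -/
def t21 : LT := (LT.b (LT.a (LT.b (LT.l 4109 4092 4098 4098) (LT.l 4107 4093 4098 4097)) (LT.b (LT.l 4107 4093 4097 4098) (LT.a (LT.l 4105 4093 4097 4097) (LT.l 4104 4094 4097 4097)))) (LT.a LT.z1 (LT.b (LT.a LT.z1 (LT.b (LT.l 4102 4094 4097 4097) LT.z1)) LT.z1)))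

theorem c21 : chk P t21 1097498361856 570425344 1097498361856 1140850688 = true := by decide +kernel

theorem b21 {lam : ℝ} (hlam : |(S : ℝ) * lam - ((P.lp : ℝ) - P.ln)| ≤ ((1 : ℕ) : ℝ)) : BoxS lam P 1097498361856 570425344 1097498361856 1140850688 :=
  chk_sound hlam t21 1097498361856 570425344 1097498361856 1140850688 (by norm_num) (by norm_num) c21

/-- Part of the subdivision. -/
def t22 : LT := (LT.a (LT.b (LT.a (LT.l 4105 4093 4097 4098) (LT.l 4104 4094 4096 4098)) (LT.a (LT.b (LT.l 4103 4094 4097 4097) (LT.l 4102 4094 4097 4097)) (LT.b (LT.l 4102 4094 4096 4097) (LT.l 4101 4094 4096 4097)))) (LT.b (LT.a (LT.l 4103 4094 4096 4098) (LT.l 4102 4094 4096 4098)) (LT.a (LT.b (LT.l 4101 4094 4096 4097) (LT.a (LT.l 4101 4095 4096 4097) (LT.l 4100 4095 4096 4097))) (LT.b (LT.l 4100 4095 4096 4097) (LT.a (LT.l 4100 4095 4096 4097) (LT.l 4099 4095 4096 4097))))))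

theorem c22 : chk P t22 1098639212544 570425344 1097498361856 570425344 = true := by decide +kernel

theorem b22 {lam : ℝ} (hlam : |(S : ℝ) * lam - ((P.lp : ℝ) - P.ln)| ≤ ((1 : ℕ) : ℝ)) : BoxS lam P 1098639212544 570425344 1097498361856 570425344 :=
  chk_sound hlam t22 1098639212544 570425344 1097498361856 570425344 (by norm_num) (by norm_num) c22

/-- Part of the subdivision. -/
def t23 : LT := (LT.a (LT.b (LT.a (LT.b (LT.l 4101 4094 4097 4097) (LT.a LT.z1 (LT.l 4100 4095 4097 4096))) (LT.b (LT.a (LT.l 4101 4095 4097 4097) (LT.l 4100 4095 4096 4097)) (LT.a (LT.b (LT.l 4100 4095 4097 4097) (LT.o 4099 4095 4097 4096)) (LT.o 4099 4095 4096 4096)))) (LT.a LT.z1 (LT.o 4098 4096 4096 4096))) (LT.b (LT.a (LT.b (LT.a (LT.b (LT.l 4100 4095 4096 4097) (LT.o 4099 4095 4096 4097)) (LT.b (LT.l 4099 4095 4096 4097) (LT.o 4099 4095 4096 4097))) (LT.o 4098 4095 4096 4096)) (LT.o 4098 4096 4096 4097)) (LT.o 4096 4096 4096 4096)))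

theorem c23 : chk P t23 1098639212544 570425344 1098639212544 570425344 = true := by decide +kernel

theorem b23 {lam : ℝ} (hlam : |(S : ℝ) * lam - ((P.lp : ℝ) - P.ln)| ≤ ((1 : ℕ) : ℝ)) : BoxS lam P 1098639212544 570425344 1098639212544 570425344 :=
  chk_sound hlam t23 1098639212544 570425344 1098639212544 570425344 (by norm_num) (by norm_num) c23

/-- Part of the subdivision. -/
def t24 : LT := (LT.a LT.z1 (LT.b (LT.a LT.z1 (LT.b (LT.a LT.z1 (LT.b (LT.a LT.z1 LT.z2) LT.z1)) LT.z1)) LT.z1))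

theorem c24 : chk P t24 1095216660480 2281701376 1099780063232 2281701376 = true := by decide +kernel

theorem b24 {lam : ℝ} (hlam : |(S : ℝ) * lam - ((P.lp : ℝ) - P.ln)| ≤ ((1 : ℕ) : ℝ)) : BoxS lam P 1095216660480 2281701376 1099780063232 2281701376 :=
  chk_sound hlam t24 1095216660480 2281701376 1099780063232 2281701376 (by norm_num) (by norm_num) c24

/-- Part of the subdivision. -/
def t25 : LT := (LT.b (LT.a (LT.b (LT.a (LT.b (LT.a (LT.l 4108 4093 4095 4100) (LT.l 4105 4093 4095 4100)) (LT.a (LT.b (LT.l 4104 4094 4095 4099) (LT.l 4102 4094 4095 4098)) (LT.b (LT.l 4102 4094 4095 4099) (LT.l 4100 4095 4095 4098)))) (LT.b (LT.l 4102 4094 4094 4100) (LT.a (LT.b (LT.l 4100 4095 4094 4099) LT.z2) LT.z2))) (LT.a (LT.b (LT.a (LT.b (LT.a (LT.l 4101 4095 4096 4098) (LT.l 4100 4095 4095 4098)) (LT.a (LT.b (LT.l 4099 4095 4096 4097) (LT.l 4098 4095 4096 4097)) (LT.b (LT.l 4098 4095 4095 4097) (LT.l 4097 4096 4095 4097)))) (LT.b (LT.l 4098 4095 4095 4098) LT.z2)) (LT.a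 (LT.b (LT.a (LT.o 4097 4096 4096 4097) LT.z2) LT.z2) LT.z2)) LT.z2)) LT.z2) LT.z2)

theorem c25 : chk P t25 1099780063232 2281701376 1095216660480 4563402752 = true := by decide +kernel

theorem b25 {lam : ℝ} (hlam : |(S : ℝ) * lam - ((P.lp : ℝ) - P.ln)| ≤ ((1 : ℕ) : ℝ)) : BoxS lam P 1099780063232 2281701376 1095216660480 4563402752 :=
  chk_sound hlam t25 1099780063232 2281701376 1095216660480 4563402752 (by norm_num) (by norm_num) c25

/-- Part of the subdivision. -/
def t26 : LT := (LT.a LT.z1 LT.z2)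

theorem c26 : chk P t26 1095216660480 4563402752 1104343465984 4563402752 = true := by decide +kernel

theorem b26 {lam : ℝ} (hlam : |(S : ℝ) * lam - ((P.lp : ℝ) - P.ln)| ≤ ((1 : ℕ) : ℝ)) : BoxS lam P 1095216660480 4563402752 1104343465984 4563402752 :=
  chk_sound hlam t26 1095216660480 4563402752 1104343465984 4563402752 (by norm_num) (by norm_num) c26

/-- Part of the subdivision. -/
def t27 : LT := LT.z2

theorem c27 : chk P t27 1104343465984 4563402752 1095216660480 9126805504 = true := by decide +kernel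

theorem b27 {lam : ℝ} (hlam : |(S : ℝ) * lam - ((P.lp : ℝ) - P.ln)| ≤ ((1 : ℕ) : ℝ)) : BoxS lam P 1104343465984 4563402752 1095216660480 9126805504 :=
  chk_sound hlam t27 1104343465984 4563402752 1095216660480 9126805504 (by norm_num) (by norm_num) c27

/-- Part of the subdivision. -/
def t28 : LT := LT.z2

theorem c28 : chk P t28 1095216660480 9126805504 1113470271488 9126805504 = true := by decide +kernel

theorem b28 {lam : ℝ} (hlam : |(S : ℝ) * lam - ((P.lp : ℝ) - P.ln)| ≤ ((1 : ℕ) : ℝ)) : BoxS lam P 1095216660480 9126805504 1113470271488 9126805504 :=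
  chk_sound hlam t28 1095216660480 9126805504 1113470271488 9126805504 (by norm_num) (by norm_num) c28

/-- Part of the subdivision. -/
def t29 : LT := LT.z2

theorem c29 : chk P t29 1113470271488 9126805504 1095216660480 18253611008 = true := by decide +kernel

theorem b29 {lam : ℝ} (hlam : |(S : ℝ) * lam - ((P.lp : ℝ) - P.ln)| ≤ ((1 : ℕ) : ℝ)) : BoxS lam P 1113470271488 9126805504 1095216660480 18253611008 :=
  chk_sound hlam t29 1113470271488 9126805504 1095216660480 18253611008 (by norm_num) (by norm_num) c29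

/-- Part of the subdivision. -/
def t30 : LT := LT.z2

theorem c30 : chk P t30 1095216660480 18253611008 1131723882496 18253611008 = true := by decide +kernel

theorem b30 {lam : ℝ} (hlam : |(S : ℝ) * lam - ((P.lp : ℝ) - P.ln)| ≤ ((1 : ℕ) : ℝ)) : BoxS lam P 1095216660480 18253611008 1131723882496 18253611008 :=
  chk_sound hlam t30 1095216660480 18253611008 1131723882496 18253611008 (by norm_num) (by norm_num) c30

/-- Part of the subdivision. -/
def t31 : LT := LT.z2

theorem c31 : chk P t31 1131723882496 18253611008 1095216660480 36507222016 = true := by decide +kernel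

theorem b31 {lam : ℝ} (hlam : |(S : ℝ) * lam - ((P.lp : ℝ) - P.ln)| ≤ ((1 : ℕ) : ℝ)) : BoxS lam P 1131723882496 18253611008 1095216660480 36507222016 :=
  chk_sound hlam t31 1131723882496 18253611008 1095216660480 36507222016 (by norm_num) (by norm_num) c31

/-- The whole box. -/
theorem box {lam : ℝ} (hlam : |(S : ℝ) * lam - ((P.lp : ℝ) - P.ln)| ≤ ((1 : ℕ) : ℝ)) : BoxS lam P 0 HH 0 HH :=
  (BoxS.sa' (x1 := 584115552256) (h := 292057776128) (by norm_num [HH]) (by norm_num) (b0 hlam) (BoxS.sb' (t1 := 584115552256) (h := 292057776128) (by norm_num [HH]) (by norm_num) (b1 hlam) (BoxS.sa' (x1 := 876173328384) (h := 146028888064) (by norm_num [HH]) (by norm_num) (b2 hlam) (BoxS.sb' (t1 := 876173328384) (h := 146028888064) (by norm_num [HH]) (by norm_num) (b3 hlam) (BoxS.sa' (x1 := 1022202216448) (h := 73014444032) (by norm_num [HH]) (by norm_num) (b4 hlam) (BoxS.sb' (t1 := 1022202216448) (h := 73014444032) (by norm_num [HH]) (by norm_num) (BoxS.sa' (x1 := 1095216660480)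 (h := 36507222016) (by norm_num [HH]) (by norm_num) (b5 hlam) (b6 hlam)) (BoxS.sa' (x1 := 1095216660480) (h := 36507222016) (by norm_num [HH]) (by norm_num) (BoxS.sb' (t1 := 1095216660480) (h := 36507222016) (by norm_num [HH]) (by norm_num) (BoxS.sa' (x1 := 1058709438464) (h := 18253611008) (by norm_num [HH]) (by norm_num) (b7 hlam) (BoxS.sb' (t1 := 1058709438464) (h := 18253611008) (by norm_num [HH]) (by norm_num) (b8 hlam) (b9 hlam))) (b10 hlam)) (BoxS.sb' (t1 := 1095216660480) (h := 36507222016) (by norm_num [HH]) (by norm_num) (BoxS.sa' (x1 := 1131723882496) (h := 18253611008) (by norm_num [HH]) (by norm_num) (BoxS.sb' (t1 := 1058709438464) (h := 18253611008) (by norm_num [HH]) (by norm_num) (b11 hlam) (BoxS.sa' (x1 := 1113470271488) (h := 9126805504) (by norm_num [HH]) (by norm_num) (BoxS.sb' (t1 := 1076963049472) (h := 9126805504) (by norm_num [HH]) (by norm_num) (b12 hlam) (BoxS.sa' (x1 := 1104343465984) (h := 4563402752) (by norm_num [HH]) (by norm_num)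 (BoxS.sb' (t1 := 1086089854976) (h := 4563402752) (by norm_num [HH]) (by norm_num) (b13 hlam) (BoxS.sa' (x1 := 1099780063232) (h := 2281701376) (by norm_num [HH]) (by norm_num) (b14 hlam) (b15 hlam))) (b16 hlam))) (b17 hlam))) (b18 hlam)) (BoxS.sa' (x1 := 1131723882496) (h := 18253611008) (by norm_num [HH]) (by norm_num) (BoxS.sb' (t1 := 1131723882496) (h := 18253611008) (by norm_num [HH]) (by norm_num) (BoxS.sa' (x1 := 1113470271488) (h := 9126805504) (by norm_num [HH]) (by norm_num) (BoxS.sb' (t1 := 1113470271488) (h := 9126805504) (by norm_num [HH]) (by norm_num) (BoxS.sa' (x1 := 1104343465984) (h := 4563402752) (by norm_num [HH]) (by norm_num) (BoxS.sb' (t1 := 1104343465984) (h := 4563402752) (by norm_num [HH]) (by norm_num) (BoxS.sa' (x1 := 1099780063232) (h := 2281701376) (by norm_num [HH]) (by norm_num) (BoxS.sb' (t1 := 1099780063232) (h := 2281701376) (by norm_num [HH]) (by norm_num) (BoxS.sa' (x1 := 1097498361856) (h := 1140850688) (by norm_num [HH])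 (by norm_num) (b19 hlam) (BoxS.sb' (t1 := 1097498361856) (h := 1140850688) (by norm_num [HH]) (by norm_num) (b20 hlam) (BoxS.sa' (x1 := 1098639212544) (h := 570425344) (by norm_num [HH]) (by norm_num) (b21 hlam) (BoxS.sb' (t1 := 1098639212544) (h := 570425344) (by norm_num [HH]) (by norm_num) (b22 hlam) (b23 hlam))))) (b24 hlam)) (b25 hlam)) (b26 hlam)) (b27 hlam)) (b28 hlam)) (b29 hlam)) (b30 hlam)) (b31 hlam))))))))))

end Vale.Agent.P154H.Tm.D13
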