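import Vale.Agent.P154H.Msg

set_option maxRecDepth 100000

/-!
The subdivision for `d = 14`.
-/

namespace Vale.Agent.P154H.Tm.D14

/-- A row. -/
def Ra : Row := Row.mk 0 525474 0 2606391 4717404 0 7356636 0 36489474 0 0 66043656 0 3744 0 4985344 0 39813228

/-- A row. -/
def Rb : Row := Row.mk 0 17631981600768 0 87455969574912 158289811734528 0 234988043622192 0 1154658428254359 0 0 2081120346955776 0 125627793408 0 167280386244608 0 1286791332477210
/-- A row. -/
def Q0 : Row := Row.mk 0 0 0 0 0 0 7473408 0 0 0 0 0 0 0 0 0 0 5346279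

/-- A row. -/
def Q1 : Row := Row.mk 0 0 0 0 0 0 0 0 296549376 0 0 0 0 0 0 0 0 173207163

/-- A row. -/
def Q2 : Row := Row.mk 0 0 0 0 0 0 0 0 0 0 1024 0 0 0 0 0 0 2787

/-- A row. -/
def Q3 : Row := Row.mk 0 44840448 0 222412032 402551808 0 595555640 0 2918894488 0 0 5243598312 0 319488 0 0 0 3307776285

/-- A row. -/
def Q4 : Row := Row.mk 0 358723584 0 1779296256 3220414464 0 4703835008 0 23038879424 0 0 41306868416 0 2555904 0 0 0 26331873597

/-- A row. -/
def Q5 : Row := Row.mk 0 358723584 0 1779296256 3220414464 0 4646022976 0 22648863200 0 0 40539357312 0 2555904 0 0 0 26120420763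

/-- A row. -/
def Q6 : Row := Row.mk 0 89680896 0 444824064 805103616 0 1141558256 0 5550387744 0 0 9906513280 0 638976 0 0 0 6483955227

/-- A row. -/
def Q7 : Row := Row.mk 0 358723584 0 1779296256 3220414464 0 4474259264 0 21672068480 0 0 38543842176 0 2555904 0 0 0 25727606931

/-- A row. -/
def Q8 : Row := Row.mk 0 358723584 0 1779296256 3220414464 0 4373903168 0 21022912192 0 0 37268201472 0 2555904 0 0 0 25357118181

/-- A row. -/
def Q9 : Row := Row.mk 0 89680896 0 444824064 805103616 0 1057585104 0 5074623080 0 0 8943208928 0 638976 0 0 0 6265419453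

/-- A row. -/
def Q10 : Row := Row.mk 0 358723584 0 1779296256 3220414464 0 4092169088 0 19410898848 0 0 34032130688 0 2555904 0 0 0 24540783363

/-- A row. -/
def Q11 : Row := Row.mk 0 44840448 0 222412032 402551808 0 490069448 0 2304303720 0 0 4003296864 0 319488 0 0 0 3021831681

/-- A row. -/
def Q12 : Row := Row.mk 0 358723584 0 1779296256 3220414464 0 3710342080 0 17279167456 0 0 29740389440 0 2555904 0 0 0 23463600621

/-- A row. -/
def Q13 : Row := Row.mk 0 179361792 0 889648128 1610207232 0 1750640928 0 8024441088 0 0 13584743776 0 1277952 0 0 0 11570800419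

/-- A row. -/
def Q14 : Row := Row.mk 0 358723584 0 1779296256 3220414464 0 3205534208 0 14637626912 0 0 24327285504 0 2555904 0 0 0 22293164247

/-- A row. -/
def Q15 : Row := Row.mk 0 358723584 0 1779296256 3220414464 0 2992364288 0 13180181376 0 0 21249560640 0 2555904 0 0 0 22079476935

/-- A row. -/
def Q16 : Row := Row.mk 0 179361792 0 889648128 1610207232 0 1377385760 0 5913941136 0 0 8999978752 0 1277952 0 0 0 11424679041

/-- A row. -/
def Q17 : Row := Row.mk 0 89680896 0 444824064 805103616 0 629711920 0 2653840320 0 0 3620809920 0 638976 0 0 0 6273519987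


/-- The data. -/
def P : Pb where
  lp := 0
  ln := 19258202071797927
  ab := 3298534883328
  r1 := [Ra, Rb]
  r2 := [Q0, Q1, Q2, Q3, Q4, Q5, Q6, Q7, Q8, Q9, Q10, Q11, Q12, Q13, Q14, Q15, Q16, Q17]

/-- Part of the subdivision. -/
def t0 : LT := (LT.b (LT.a (LT.l 4699 3723 4219 4219) (LT.l 4699 3723 4219 4219)) (LT.a LT.z1 (LT.b (LT.a LT.z1 (LT.b (LT.l 4695 3728 4219 4217) LT.z1)) LT.z1)))

theorem c0 : chk P t0 0 292057776128 0 584115552256 = true := by decide +kernel

theorem b0 {lam : ℝ} (hlam : |(S : ℝ) * lam - ((P.lp : ℝ) - P.ln)| ≤ ((1 : ℕ) : ℝ)) : BoxS lam P 0 292057776128 0 584115552256 :=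
  chk_sound hlam t0 0 292057776128 0 584115552256 (by norm_num) (by norm_num) c0

/-- Part of the subdivision. -/
def t1 : LT := (LT.a (LT.b (LT.a (LT.l 4696 3727 4217 4219) (LT.l 4683 3744 4210 4219)) (LT.a (LT.l 4696 3727 4217 4219) (LT.l 4683 3744 4210 4219))) (LT.b (LT.a (LT.l 4636 3799 4184 4219) (LT.b (LT.l 4475 3934 4100 4219) (LT.l 4475 3934 4100 4219))) (LT.a (LT.b (LT.l 4636 3799 4184 4219) (LT.l 4635 3800 4184 4219)) (LT.b (LT.a (LT.l 4536 3891 4131 4219) (LT.l 4390 3985 4059 4219)) (LT.a (LT.l 4535 3891 4131 4219) (LT.b (LT.l 4389 3985 4059 4219) (LT.l 4388 3985 4059 4219)))))))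

theorem c1 : chk P t1 584115552256 292057776128 0 292057776128 = true := by decide +kernel

theorem b1 {lam : ℝ} (hlam : |(S : ℝ) * lam - ((P.lp : ℝ) - P.ln)| ≤ ((1 : ℕ) : ℝ)) : BoxS lam P 584115552256 292057776128 0 292057776128 :=
  chk_sound hlam t1 584115552256 292057776128 0 292057776128 (by norm_num) (by norm_num) c1

/-- Part of the subdivision. -/
def t2 : LT := (LT.b (LT.a (LT.b (LT.l 4693 3731 4217 4217) (LT.l 4680 3748 4217 4210)) (LT.b (LT.l 4680 3748 4210 4217) (LT.l 4666 3764 4210 4210))) (LT.a LT.z1 (LT.b (LT.a LT.z1 (LT.b (LT.l 4629 3807 4206 4193) LT.z1)) LT.z1)))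

theorem c2 : chk P t2 584115552256 146028888064 584115552256 292057776128 = true := by decide +kernel

theorem b2 {lam : ℝ} (hlam : |(S : ℝ) * lam - ((P.lp : ℝ) - P.ln)| ≤ ((1 : ℕ) : ℝ)) : BoxS lam P 584115552256 146028888064 584115552256 292057776128 :=
  chk_sound hlam t2 584115552256 146028888064 584115552256 292057776128 (by norm_num) (by norm_num) c2

/-- Part of the subdivision. -/
def t3 : LT := (LT.a (LT.b (LT.a (LT.l 4650 3784 4193 4217) (LT.l 4608 3827 4171 4217)) (LT.a (LT.l 4636 3799 4193 4210) (LT.b (LT.l 4599 3836 4171 4213) (LT.l 4585 3849 4171 4206)))) (LT.b (LT.a (LT.b (LT.l 4533 3893 4131 4218) (LT.l 4529 3896 4131 4216)) (LT.b (LT.a (LT.l 4433 3960 4081 4218) (LT.l 4329 4014 4034 4218)) (LT.a (LT.l 4429 3963 4081 4216) (LT.l 4324 4017 4034 4216)))) (LT.a (LT.b (LT.a (LT.l 4546 3883 4143 4213) (LT.l 4493 3922 4117 4213)) (LT.a (LT.l 4531 3895 4143 4206) (LT.l 4477 3933 4117 4206))) (LT.b (LT.a (LT.l 4420 3968 4081 4213) (LT.l 4313 4021 4034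 4213)) (LT.a (LT.l 4402 3978 4081 4206) (LT.l 4292 4031 4034 4206))))))

theorem c3 : chk P t3 876173328384 146028888064 584115552256 146028888064 = true := by decide +kernel

theorem b3 {lam : ℝ} (hlam : |(S : ℝ) * lam - ((P.lp : ℝ) - P.ln)| ≤ ((1 : ℕ) : ℝ)) : BoxS lam P 876173328384 146028888064 584115552256 146028888064 :=
  chk_sound hlam t3 876173328384 146028888064 584115552256 146028888064 (by norm_num) (by norm_num) c3

/-- Part of the subdivision. -/
def t4 : LT := (LT.b (LT.a (LT.b (LT.l 4604 3831 4193 4193) (LT.a LT.z1 (LT.b (LT.l 4564 3868 4189 4178) LT.z1))) (LT.b (LT.a (LT.l 4573 3860 4178 4193) (LT.b (LT.l 4552 3878 4163 4197) (LT.l 4534 3892 4163 4189))) (LT.a (LT.b (LT.l 4541 3887 4178 4178) (LT.a LT.z1 (LT.l 4502 3916 4174 4163))) (LT.b (LT.a (LT.l 4518 3904 4167 4178) (LT.l 4500 3918 4158 4178)) (LT.a (LT.l 4485 3928 4167 4163) (LT.b (LT.l 4475 3934 4158 4167) (LT.l 4456 3947 4158 4158))))))) (LT.a LT.z1 (LT.b (LT.a LT.z1 (LT.b (LT.a LT.z1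 (LT.b (LT.l 4433 3961 4158 4148) LT.z1)) LT.z1)) LT.z1)))

theorem c4 : chk P t4 876173328384 73014444032 876173328384 146028888064 = true := by decide +kernel

theorem b4 {lam : ℝ} (hlam : |(S : ℝ) * lam - ((P.lp : ℝ) - P.ln)| ≤ ((1 : ℕ) : ℝ)) : BoxS lam P 876173328384 73014444032 876173328384 146028888064 :=
  chk_sound hlam t4 876173328384 73014444032 876173328384 146028888064 (by norm_num) (by norm_num) c4

/-- Part of the subdivision. -/
def t5 : LT := (LT.b (LT.a (LT.b (LT.l 4511 3909 4143 4197) (LT.l 4492 3923 4143 4189)) (LT.b (LT.l 4456 3947 4117 4197) (LT.l 4435 3959 4117 4189))) (LT.a (LT.b (LT.a (LT.l 4478 3932 4148 4178) (LT.l 4453 3949 4137 4178)) (LT.a (LT.b (LT.l 4453 3948 4148 4167) (LT.l 4433 3961 4148 4158)) (LT.b (LT.l 4427 3964 4137 4167) (LT.l 4406 3976 4137 4158)))) (LT.b (LT.a (LT.l 4423 3966 4124 4178) (LT.l 4388 3986 4109 4178)) (LT.a (LT.b (LT.l 4396 3981 4124 4167) (LT.l 4373 3993 4124 4158)) (LT.b (LT.l 4359 4000 4109 4167) (LT.l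 4335 4012 4109 4158))))))

theorem c5 : chk P t5 1022202216448 36507222016 876173328384 73014444032 = true := by decide +kernel

theorem b5 {lam : ℝ} (hlam : |(S : ℝ) * lam - ((P.lp : ℝ) - P.ln)| ≤ ((1 : ℕ) : ℝ)) : BoxS lam P 1022202216448 36507222016 876173328384 73014444032 :=
  chk_sound hlam t5 1022202216448 36507222016 876173328384 73014444032 (by norm_num) (by norm_num) c5

/-- Part of the subdivision. -/
def t6 : LT := (LT.b (LT.a (LT.b (LT.l 4378 3991 4081 4197) (LT.l 4354 4003 4081 4189)) (LT.b (LT.l 4263 4042 4034 4197) (LT.a (LT.l 4269 4040 4047 4189) LT.z2))) (LT.a (LT.b (LT.a (LT.l 4346 4007 4091 4178) (LT.l 4294 4029 4071 4178)) (LT.a (LT.b (LT.l 4314 4021 4091 4167) (LT.l 4289 4032 4091 4158)) (LT.b (LT.l 4260 4043 4071 4167) (LT.l 4232 4053 4071 4158)))) (LT.b (LT.a (LT.l 4231 4054 4047 4178) LT.z2) (LT.a (LT.b (LT.l 4194 4067 4047 4167) LT.z2) LT.z2))))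

theorem c6 : chk P t6 1095216660480 36507222016 876173328384 73014444032 = true := by decide +kernel

theorem b6 {lam : ℝ} (hlam : |(S : ℝ) * lam - ((P.lp : ℝ) - P.ln)| ≤ ((1 : ℕ) : ℝ)) : BoxS lam P 1095216660480 36507222016 876173328384 73014444032 :=
  chk_sound hlam t6 1095216660480 36507222016 876173328384 73014444032 (by norm_num) (by norm_num) c6

/-- Part of the subdivision. -/
def t7 : LT := (LT.b (LT.a (LT.b (LT.a (LT.l 4415 3971 4151 4148) (LT.l 4402 3978 4146 4148)) (LT.a LT.z1 (LT.l 4374 3993 4146 4137))) (LT.b (LT.a (LT.l 4388 3986 4140 4148) (LT.l 4373 3993 4134 4148)) (LT.a (LT.b (LT.l 4367 3996 4140 4140) (LT.l 4351 4004 4140 4134)) (LT.b (LT.l 4351 4004 4134 4140) (LT.l 4334 4012 4134 4134))))) (LT.a LT.z1 (LT.b (LT.a LT.z1 (LT.l 4307 4024 4134 4124)) LT.z1)))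

theorem c7 : chk P t7 1022202216448 18253611008 1022202216448 36507222016 = true := by decide +kernel

theorem b7 {lam : ℝ} (hlam : |(S : ℝ) * lam - ((P.lp : ℝ) - P.ln)| ≤ ((1 : ℕ) : ℝ)) : BoxS lam P 1022202216448 18253611008 1022202216448 36507222016 :=
  chk_sound hlam t7 1022202216448 18253611008 1022202216448 36507222016 (by norm_num) (by norm_num) c7

/-- Part of the subdivision. -/
def t8 : LT := (LT.a (LT.b (LT.a (LT.l 4356 4002 4127 4148) (LT.l 4338 4010 4120 4148)) (LT.a (LT.b (LT.l 4333 4012 4127 4140) (LT.l 4317 4020 4127 4134)) (LT.l 4306 4025 4120 4137))) (LT.b (LT.l 4307 4024 4109 4148) (LT.a (LT.l 4285 4033 4113 4137) (LT.l 4262 4043 4105 4137))))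

theorem c8 : chk P t8 1058709438464 18253611008 1022202216448 18253611008 = true := by decide +kernel

theorem b8 {lam : ℝ} (hlam : |(S : ℝ) * lam - ((P.lp : ℝ) - P.ln)| ≤ ((1 : ℕ) : ℝ)) : BoxS lam P 1058709438464 18253611008 1022202216448 18253611008 :=
  chk_sound hlam t8 1058709438464 18253611008 1022202216448 18253611008 (by norm_num) (by norm_num) c8

/-- Part of the subdivision. -/
def t9 : LT := (LT.a (LT.b (LT.a (LT.b (LT.l 4298 4028 4127 4127) (LT.l 4278 4036 4127 4120)) (LT.b (LT.l 4278 4036 4120 4127) (LT.l 4257 4044 4120 4120))) (LT.a LT.z1 (LT.b (LT.l 4234 4053 4120 4113) LT.z1))) (LT.b (LT.a (LT.b (LT.l 4256 4045 4113 4127) (LT.l 4234 4053 4113 4120)) (LT.b (LT.l 4232 4054 4105 4127) (LT.a (LT.l 4216 4059 4107 4120) (LT.l 4202 4064 4102 4120)))) (LT.a (LT.b (LT.a (LT.l 4217 4059 4115 4113) (LT.l 4204 4063 4111 4113)) (LT.a LT.z1 (LT.b (LT.l 4185 4070 4111 4107) LT.z1))) (LT.b (LT.a (LT.b (LT.l 4198 4066 4107 4115) (LT.l 4185 4070 4107 4111)) (LT.b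 (LT.l 4184 4070 4102 4115) (LT.l 4171 4074 4102 4111))) (LT.a (LT.b (LT.l 4171 4074 4107 4107) (LT.a LT.z1 (LT.l 4153 4080 4106 4102))) (LT.b (LT.a (LT.l 4160 4078 4103 4107) (LT.l 4153 4080 4101 4107)) (LT.a (LT.b (LT.l 4150 4081 4103 4103) (LT.l 4142 4083 4103 4101)) (LT.b (LT.l 4142 4083 4101 4103) (LT.l 4135 4085 4101 4101)))))))))

theorem c9 : chk P t9 1058709438464 18253611008 1058709438464 18253611008 = true := by decide +kernel

theorem b9 {lam : ℝ} (hlam : |(S : ℝ) * lam - ((P.lp : ℝ) - P.ln)| ≤ ((1 : ℕ) : ℝ)) : BoxS lam P 1058709438464 18253611008 1058709438464 18253611008 :=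
  chk_sound hlam t9 1058709438464 18253611008 1058709438464 18253611008 (by norm_num) (by norm_num) c9

/-- Part of the subdivision. -/
def t10 : LT := (LT.a LT.z1 (LT.b (LT.a LT.z1 (LT.b (LT.a LT.z1 (LT.b (LT.a LT.z1 (LT.b (LT.a LT.z1 (LT.b (LT.a LT.z1 (LT.l 4125 4088 4101 4099)) LT.z1)) LT.z1)) LT.z1)) LT.z1)) LT.z1))

theorem c10 : chk P t10 1022202216448 36507222016 1095216660480 36507222016 = true := by decide +kernel

theorem b10 {lam : ℝ} (hlam : |(S : ℝ) * lam - ((P.lp : ℝ) - P.ln)| ≤ ((1 : ℕ) : ℝ)) : BoxS lam P 1022202216448 36507222016 1095216660480 36507222016 :=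
  chk_sound hlam t10 1022202216448 36507222016 1095216660480 36507222016 (by norm_num) (by norm_num) c10

/-- Part of the subdivision. -/
def t11 : LT := (LT.a (LT.b (LT.a (LT.l 4272 4039 4096 4148) (LT.l 4245 4049 4086 4148)) (LT.a (LT.b (LT.l 4246 4049 4096 4140) (LT.l 4226 4056 4096 4134)) (LT.b (LT.l 4218 4059 4086 4140) (LT.l 4197 4066 4086 4134)))) (LT.b (LT.a (LT.l 4215 4060 4076 4148) (LT.l 4182 4071 4065 4148)) (LT.a (LT.b (LT.l 4187 4069 4076 4140) (LT.l 4165 4076 4076 4134)) LT.z2)))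

theorem c11 : chk P t11 1095216660480 18253611008 1022202216448 18253611008 = true := by decide +kernel

theorem b11 {lam : ℝ} (hlam : |(S : ℝ) * lam - ((P.lp : ℝ) - P.ln)| ≤ ((1 : ℕ) : ℝ)) : BoxS lam P 1095216660480 18253611008 1022202216448 18253611008 :=
  chk_sound hlam t11 1095216660480 18253611008 1022202216448 18253611008 (by norm_num) (by norm_num) c11

/-- Part of the subdivision. -/
def t12 : LT := (LT.a (LT.b (LT.l 4205 4063 4096 4127) (LT.a (LT.l 4189 4069 4098 4120) (LT.b (LT.l 4180 4071 4093 4122) (LT.l 4167 4075 4093 4118)))) (LT.b (LT.l 4175 4073 4086 4127) (LT.a (LT.b (LT.l 4165 4076 4089 4122) (LT.l 4152 4080 4089 4118)) (LT.l 4142 4083 4084 4120))))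

theorem c12 : chk P t12 1095216660480 9126805504 1058709438464 9126805504 = true := by decide +kernel

theorem b12 {lam : ℝ} (hlam : |(S : ℝ) * lam - ((P.lp : ℝ) - P.ln)| ≤ ((1 : ℕ) : ℝ)) : BoxS lam P 1095216660480 9126805504 1058709438464 9126805504 :=
  chk_sound hlam t12 1095216660480 9126805504 1058709438464 9126805504 (by norm_num) (by norm_num) c12

/-- Part of the subdivision. -/
def t13 : LT := (LT.a (LT.b (LT.l 4169 4075 4098 4115) (LT.a (LT.l 4160 4078 4099 4111) (LT.l 4152 4080 4097 4111))) (LT.b (LT.l 4154 4079 4093 4115) (LT.a (LT.l 4144 4082 4095 4111) (LT.l 4136 4085 4092 4111))))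

theorem c13 : chk P t13 1095216660480 4563402752 1076963049472 4563402752 = true := by decide +kernel

theorem b13 {lam : ℝ} (hlam : |(S : ℝ) * lam - ((P.lp : ℝ) - P.ln)| ≤ ((1 : ℕ) : ℝ)) : BoxS lam P 1095216660480 4563402752 1076963049472 4563402752 :=
  chk_sound hlam t13 1095216660480 4563402752 1076963049472 4563402752 (by norm_num) (by norm_num) c13

/-- Part of the subdivision. -/
def t14 : LT := (LT.b (LT.a (LT.b (LT.l 4149 4081 4099 4108) (LT.l 4142 4083 4099 4106)) (LT.b (LT.l 4141 4083 4097 4108) (LT.l 4134 4085 4097 4106))) (LT.a (LT.b (LT.l 4134 4085 4099 4103) (LT.a (LT.l 4129 4087 4100 4101) (LT.l 4125 4088 4099 4101))) (LT.b (LT.a (LT.l 4128 4087 4097 4103) (LT.l 4124 4088 4096 4103)) (LT.a (LT.b (LT.l 4123 4089 4097 4102) (LT.l 4119 4090 4097 4101)) (LT.b (LT.l 4119 4090 4096 4102) (LT.l 4115 4091 4096 4101))))))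

theorem c14 : chk P t14 1095216660480 2281701376 1086089854976 4563402752 = true := by decide +kernel

theorem b14 {lam : ℝ} (hlam : |(S : ℝ) * lam - ((P.lp : ℝ) - P.ln)| ≤ ((1 : ℕ) : ℝ)) : BoxS lam P 1095216660480 2281701376 1086089854976 4563402752 :=
  chk_sound hlam t14 1095216660480 2281701376 1086089854976 4563402752 (by norm_num) (by norm_num) c14

/-- Part of the subdivision. -/
def t15 : LT := (LT.b (LT.a (LT.b (LT.l 4134 4086 4095 4108) (LT.l 4126 4088 4095 4106)) (LT.b (LT.l 4125 4088 4092 4108) (LT.l 4118 4090 4092 4106))) (LT.a (LT.b (LT.a (LT.l 4120 4089 4095 4103) (LT.l 4116 4090 4094 4103)) (LT.a (LT.b (LT.l 4115 4091 4095 4102) (LT.l 4111 4092 4095 4101)) (LT.b (LT.l 4110 4092 4094 4102) (LT.l 4106 4093 4094 4101)))) (LT.b (LT.l 4110 4092 4092 4103) (LT.a (LT.b (LT.l 4106 4093 4093 4102) (LT.l 4102 4094 4093 4101)) LT.z2))))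

theorem c15 : chk P t15 1099780063232 2281701376 1086089854976 4563402752 = true := by decide +kernel

theorem b15 {lam : ℝ} (hlam : |(S : ℝ) * lam - ((P.lp : ℝ) - P.ln)| ≤ ((1 : ℕ) : ℝ)) : BoxS lam P 1099780063232 2281701376 1086089854976 4563402752 :=
  chk_sound hlam t15 1099780063232 2281701376 1086089854976 4563402752 (by norm_num) (by norm_num) c15

/-- Part of the subdivision. -/
def t16 : LT := (LT.b (LT.a (LT.b (LT.l 4138 4084 4089 4115) (LT.l 4124 4088 4089 4111)) (LT.b (LT.l 4121 4089 4084 4115) LT.z2)) (LT.a (LT.b (LT.a (LT.b (LT.l 4117 4090 4090 4108) (LT.l 4109 4092 4090 4106)) LT.z2) LT.z2) LT.z2))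

theorem c16 : chk P t16 1104343465984 4563402752 1076963049472 9126805504 = true := by decide +kernel

theorem b16 {lam : ℝ} (hlam : |(S : ℝ) * lam - ((P.lp : ℝ) - P.ln)| ≤ ((1 : ℕ) : ℝ)) : BoxS lam P 1104343465984 4563402752 1076963049472 9126805504 :=
  chk_sound hlam t16 1104343465984 4563402752 1076963049472 9126805504 (by norm_num) (by norm_num) c16

/-- Part of the subdivision. -/
def t17 : LT := (LT.b (LT.a (LT.b (LT.l 4141 4083 4076 4127) LT.z2) LT.z2) LT.z2)

theorem c17 : chk P t17 1113470271488 9126805504 1058709438464 18253611008 = true := by decide +kernel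

theorem b17 {lam : ℝ} (hlam : |(S : ℝ) * lam - ((P.lp : ℝ) - P.ln)| ≤ ((1 : ℕ) : ℝ)) : BoxS lam P 1113470271488 9126805504 1058709438464 18253611008 :=
  chk_sound hlam t17 1113470271488 9126805504 1058709438464 18253611008 (by norm_num) (by norm_num) c17

/-- Part of the subdivision. -/
def t18 : LT := LT.z2

theorem c18 : chk P t18 1131723882496 18253611008 1022202216448 36507222016 = true := by decide +kernel

theorem b18 {lam : ℝ} (hlam : |(S : ℝ) * lam - ((P.lp : ℝ) - P.ln)| ≤ ((1 : ℕ) : ℝ)) : BoxS lam P 1131723882496 18253611008 1022202216448 36507222016 :=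
  chk_sound hlam t18 1131723882496 18253611008 1022202216448 36507222016 (by norm_num) (by norm_num) c18

/-- Part of the subdivision. -/
def t19 : LT := (LT.b (LT.a (LT.b (LT.l 4123 4089 4100 4100) (LT.l 4119 4090 4100 4099)) (LT.b (LT.l 4119 4090 4099 4100) (LT.a (LT.l 4116 4091 4099 4099) (LT.l 4114 4091 4098 4099)))) (LT.a LT.z1 (LT.b (LT.a LT.z1 (LT.b (LT.l 4111 4092 4098 4098) LT.z1)) LT.z1)))

theorem c19 : chk P t19 1095216660480 1140850688 1095216660480 2281701376 = true := by decide +kernel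

theorem b19 {lam : ℝ} (hlam : |(S : ℝ) * lam - ((P.lp : ℝ) - P.ln)| ≤ ((1 : ℕ) : ℝ)) : BoxS lam P 1095216660480 1140850688 1095216660480 2281701376 :=
  chk_sound hlam t19 1095216660480 1140850688 1095216660480 2281701376 (by norm_num) (by norm_num) c19

/-- Part of the subdivision. -/
def t20 : LT := (LT.a (LT.b (LT.l 4115 4091 4097 4100) (LT.a (LT.l 4112 4092 4098 4099) (LT.b (LT.l 4111 4092 4097 4099) (LT.l 4109 4093 4097 4098)))) (LT.b (LT.a (LT.l 4112 4092 4097 4100) (LT.l 4110 4092 4096 4100)) (LT.a (LT.b (LT.l 4109 4093 4097 4099) (LT.l 4107 4093 4097 4098)) (LT.b (LT.l 4107 4093 4096 4099) (LT.l 4105 4094 4096 4098)))))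

theorem c20 : chk P t20 1097498361856 1140850688 1095216660480 1140850688 = true := by decide +kernel

theorem b20 {lam : ℝ} (hlam : |(S : ℝ) * lam - ((P.lp : ℝ) - P.ln)| ≤ ((1 : ℕ) : ℝ)) : BoxS lam P 1097498361856 1140850688 1095216660480 1140850688 :=
  chk_sound hlam t20 1097498361856 1140850688 1095216660480 1140850688 (by norm_num) (by norm_num) c20

/-- Part of the subdivision. -/
def t21 : LT := (LT.b (LT.a (LT.b (LT.l 4109 4093 4098 4098) (LT.l 4107 4093 4098 4097)) (LT.b (LT.l 4107 4093 4097 4098) (LT.a (LT.l 4105 4094 4097 4097) (LT.l 4104 4094 4097 4097)))) (LT.a LT.z1 (LT.b (LT.a LT.z1 (LT.b (LT.l 4102 4094 4097 4097) LT.z1)) LT.z1)))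

theorem c21 : chk P t21 1097498361856 570425344 1097498361856 1140850688 = true := by decide +kernel

theorem b21 {lam : ℝ} (hlam : |(S : ℝ) * lam - ((P.lp : ℝ) - P.ln)| ≤ ((1 : ℕ) : ℝ)) : BoxS lam P 1097498361856 570425344 1097498361856 1140850688 :=
  chk_sound hlam t21 1097498361856 570425344 1097498361856 1140850688 (by norm_num) (by norm_num) c21

/-- Part of the subdivision. -/
def t22 : LT := (LT.a (LT.b (LT.a (LT.l 4105 4094 4097 4098) (LT.l 4104 4094 4096 4098)) (LT.a (LT.b (LT.l 4103 4094 4097 4097) (LT.l 4102 4094 4097 4097)) (LT.b (LT.l 4102 4094 4096 4097) (LT.l 4101 4095 4096 4097)))) (LT.b (LT.a (LT.l 4103 4094 4096 4098) (LT.l 4102 4094 4096 4098)) (LT.a (LT.b (LT.l 4101 4095 4096 4097) (LT.a (LT.l 4101 4095 4096 4097) (LT.l 4100 4095 4096 4097))) (LT.b (LT.l 4100 4095 4096 4097) (LT.a (LT.l 4100 4095 4096 4097) (LT.l 4099 4095 4096 4097))))))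

theorem c22 : chk P t22 1098639212544 570425344 1097498361856 570425344 = true := by decide +kernel

theorem b22 {lam : ℝ} (hlam : |(S : ℝ) * lam - ((P.lp : ℝ) - P.ln)| ≤ ((1 : ℕ) : ℝ)) : BoxS lam P 1098639212544 570425344 1097498361856 570425344 :=
  chk_sound hlam t22 1098639212544 570425344 1097498361856 570425344 (by norm_num) (by norm_num) c22

/-- Part of the subdivision. -/
def t23 : LT := (LT.a (LT.b (LT.a (LT.b (LT.l 4101 4095 4097 4097) (LT.a LT.z1 (LT.l 4100 4095 4097 4096))) (LT.b (LT.a (LT.l 4101 4095 4097 4097) (LT.l 4100 4095 4096 4097)) (LT.a (LT.b (LT.l 4100 4095 4097 4097) (LT.o 4099 4095 4097 4096)) (LT.o 4099 4095 4096 4096)))) (LT.a LT.z1 (LT.o 4098 4096 4096 4096))) (LT.b (LT.a (LT.b (LT.a (LT.b (LT.l 4100 4095 4096 4097) (LT.o 4099 4095 4096 4097)) (LT.b (LT.l 4099 4095 4096 4097) (LT.o 4099 4095 4096 4097))) (LT.o 4098 4095 4096 4096)) (LT.o 4098 4096 4096 4097)) (LT.o 4096 4096 4096 4096)))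

theorem c23 : chk P t23 1098639212544 570425344 1098639212544 570425344 = true := by decide +kernel

theorem b23 {lam : ℝ} (hlam : |(S : ℝ) * lam - ((P.lp : ℝ) - P.ln)| ≤ ((1 : ℕ) : ℝ)) : BoxS lam P 1098639212544 570425344 1098639212544 570425344 :=
  chk_sound hlam t23 1098639212544 570425344 1098639212544 570425344 (by norm_num) (by norm_num) c23

/-- Part of the subdivision. -/
def t24 : LT := (LT.a LT.z1 (LT.b (LT.a LT.z1 (LT.b (LT.a LT.z1 (LT.b (LT.a LT.z1 LT.z2) LT.z1)) LT.z1)) LT.z1))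

theorem c24 : chk P t24 1095216660480 2281701376 1099780063232 2281701376 = true := by decide +kernel

theorem b24 {lam : ℝ} (hlam : |(S : ℝ) * lam - ((P.lp : ℝ) - P.ln)| ≤ ((1 : ℕ) : ℝ)) : BoxS lam P 1095216660480 2281701376 1099780063232 2281701376 :=
  chk_sound hlam t24 1095216660480 2281701376 1099780063232 2281701376 (by norm_num) (by norm_num) c24

/-- Part of the subdivision. -/
def t25 : LT := (LT.b (LT.a (LT.b (LT.a (LT.b (LT.a (LT.l 4108 4093 4095 4100) (LT.l 4105 4093 4095 4100)) (LT.a (LT.b (LT.l 4104 4094 4095 4099) (LT.l 4102 4094 4095 4098)) (LT.b (LT.l 4102 4094 4095 4099) (LT.l 4100 4095 4095 4098)))) (LT.b (LT.l 4102 4094 4094 4100) (LT.a (LT.b (LT.l 4100 4095 4094 4099) LT.z2) LT.z2))) (LT.a (LT.b (LT.a (LT.b (LT.a (LT.l 4101 4095 4096 4098) (LT.l 4100 4095 4095 4098)) (LT.a (LT.b (LT.l 4099 4095 4096 4097) (LT.l 4098 4095 4096 4097)) (LT.b (LT.l 4098 4095 4095 4097) (LT.l 4097 4096 4095 4097)))) (LT.b (LT.l 4098 4095 4095 4098) LT.z2)) (LT.a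 (LT.b (LT.a (LT.o 4097 4096 4096 4097) LT.z2) LT.z2) LT.z2)) LT.z2)) LT.z2) LT.z2)

theorem c25 : chk P t25 1099780063232 2281701376 1095216660480 4563402752 = true := by decide +kernel

theorem b25 {lam : ℝ} (hlam : |(S : ℝ) * lam - ((P.lp : ℝ) - P.ln)| ≤ ((1 : ℕ) : ℝ)) : BoxS lam P 1099780063232 2281701376 1095216660480 4563402752 :=
  chk_sound hlam t25 1099780063232 2281701376 1095216660480 4563402752 (by norm_num) (by norm_num) c25

/-- Part of the subdivision. -/
def t26 : LT := (LT.a LT.z1 LT.z2)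

theorem c26 : chk P t26 1095216660480 4563402752 1104343465984 4563402752 = true := by decide +kernel

theorem b26 {lam : ℝ} (hlam : |(S : ℝ) * lam - ((P.lp : ℝ) - P.ln)| ≤ ((1 : ℕ) : ℝ)) : BoxS lam P 1095216660480 4563402752 1104343465984 4563402752 :=
  chk_sound hlam t26 1095216660480 4563402752 1104343465984 4563402752 (by norm_num) (by norm_num) c26

/-- Part of the subdivision. -/
def t27 : LT := LT.z2

theorem c27 : chk P t27 1104343465984 4563402752 1095216660480 9126805504 = true := by decide +kernel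

theorem b27 {lam : ℝ} (hlam : |(S : ℝ) * lam - ((P.lp : ℝ) - P.ln)| ≤ ((1 : ℕ) : ℝ)) : BoxS lam P 1104343465984 4563402752 1095216660480 9126805504 :=
  chk_sound hlam t27 1104343465984 4563402752 1095216660480 9126805504 (by norm_num) (by norm_num) c27

/-- Part of the subdivision. -/
def t28 : LT := LT.z2

theorem c28 : chk P t28 1095216660480 9126805504 1113470271488 9126805504 = true := by decide +kernel

theorem b28 {lam : ℝ} (hlam : |(S : ℝ) * lam - ((P.lp : ℝ) - P.ln)| ≤ ((1 : ℕ) : ℝ)) : BoxS lam P 1095216660480 9126805504 1113470271488 9126805504 :=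
  chk_sound hlam t28 1095216660480 9126805504 1113470271488 9126805504 (by norm_num) (by norm_num) c28

/-- Part of the subdivision. -/
def t29 : LT := LT.z2

theorem c29 : chk P t29 1113470271488 9126805504 1095216660480 18253611008 = true := by decide +kernel

theorem b29 {lam : ℝ} (hlam : |(S : ℝ) * lam - ((P.lp : ℝ) - P.ln)| ≤ ((1 : ℕ) : ℝ)) : BoxS lam P 1113470271488 9126805504 1095216660480 18253611008 :=
  chk_sound hlam t29 1113470271488 9126805504 1095216660480 18253611008 (by norm_num) (by norm_num) c29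

/-- Part of the subdivision. -/
def t30 : LT := LT.z2

theorem c30 : chk P t30 1095216660480 18253611008 1131723882496 18253611008 = true := by decide +kernel

theorem b30 {lam : ℝ} (hlam : |(S : ℝ) * lam - ((P.lp : ℝ) - P.ln)| ≤ ((1 : ℕ) : ℝ)) : BoxS lam P 1095216660480 18253611008 1131723882496 18253611008 :=
  chk_sound hlam t30 1095216660480 18253611008 1131723882496 18253611008 (by norm_num) (by norm_num) c30

/-- Part of the subdivision. -/
def t31 : LT := LT.z2

theorem c31 : chk P t31 1131723882496 18253611008 1095216660480 36507222016 = true := by decide +kernel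

theorem b31 {lam : ℝ} (hlam : |(S : ℝ) * lam - ((P.lp : ℝ) - P.ln)| ≤ ((1 : ℕ) : ℝ)) : BoxS lam P 1131723882496 18253611008 1095216660480 36507222016 :=
  chk_sound hlam t31 1131723882496 18253611008 1095216660480 36507222016 (by norm_num) (by norm_num) c31

/-- The whole box. -/
theorem box {lam : ℝ} (hlam : |(S : ℝ) * lam - ((P.lp : ℝ) - P.ln)| ≤ ((1 : ℕ) : ℝ)) : BoxS lam P 0 HH 0 HH :=
  (BoxS.sa' (x1 := 584115552256) (h := 292057776128) (by norm_num [HH]) (by norm_num) (b0 hlam) (BoxS.sb' (t1 := 584115552256) (h := 292057776128) (by norm_num [HH]) (by norm_num) (b1 hlam) (BoxS.sa' (x1 := 876173328384) (h := 146028888064) (by norm_num [HH]) (by norm_num) (b2 hlam) (BoxS.sb' (t1 := 876173328384) (h := 146028888064) (by norm_num [HH]) (by norm_num) (b3 hlam) (BoxS.sa' (x1 := 1022202216448) (h := 73014444032) (by norm_num [HH]) (by norm_num) (b4 hlam) (BoxS.sb' (t1 := 1022202216448) (h := 73014444032) (by norm_num [HH]) (by norm_num) (BoxS.sa' (x1 := 1095216660480)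 (h := 36507222016) (by norm_num [HH]) (by norm_num) (b5 hlam) (b6 hlam)) (BoxS.sa' (x1 := 1095216660480) (h := 36507222016) (by norm_num [HH]) (by norm_num) (BoxS.sb' (t1 := 1095216660480) (h := 36507222016) (by norm_num [HH]) (by norm_num) (BoxS.sa' (x1 := 1058709438464) (h := 18253611008) (by norm_num [HH]) (by norm_num) (b7 hlam) (BoxS.sb' (t1 := 1058709438464) (h := 18253611008) (by norm_num [HH]) (by norm_num) (b8 hlam) (b9 hlam))) (b10 hlam)) (BoxS.sb' (t1 := 1095216660480) (h := 36507222016) (by norm_num [HH]) (by norm_num) (BoxS.sa' (x1 := 1131723882496) (h := 18253611008) (by norm_num [HH]) (by norm_num) (BoxS.sb' (t1 := 1058709438464) (h := 18253611008) (by norm_num [HH]) (by norm_num) (b11 hlam) (BoxS.sa' (x1 := 1113470271488) (h := 9126805504) (by norm_num [HH]) (by norm_num) (BoxS.sb' (t1 := 1076963049472) (h := 9126805504) (by norm_num [HH]) (by norm_num) (b12 hlam) (BoxS.sa' (x1 := 1104343465984) (h := 4563402752) (by norm_num [HH]) (by norm_num)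 (BoxS.sb' (t1 := 1086089854976) (h := 4563402752) (by norm_num [HH]) (by norm_num) (b13 hlam) (BoxS.sa' (x1 := 1099780063232) (h := 2281701376) (by norm_num [HH]) (by norm_num) (b14 hlam) (b15 hlam))) (b16 hlam))) (b17 hlam))) (b18 hlam)) (BoxS.sa' (x1 := 1131723882496) (h := 18253611008) (by norm_num [HH]) (by norm_num) (BoxS.sb' (t1 := 1131723882496) (h := 18253611008) (by norm_num [HH]) (by norm_num) (BoxS.sa' (x1 := 1113470271488) (h := 9126805504) (by norm_num [HH]) (by norm_num) (BoxS.sb' (t1 := 1113470271488) (h := 9126805504) (by norm_num [HH]) (by norm_num) (BoxS.sa' (x1 := 1104343465984) (h := 4563402752) (by norm_num [HH]) (by norm_num) (BoxS.sb' (t1 := 1104343465984) (h := 4563402752) (by norm_num [HH]) (by norm_num) (BoxS.sa' (x1 := 1099780063232) (h := 2281701376) (by norm_num [HH]) (by norm_num) (BoxS.sb' (t1 := 1099780063232) (h := 2281701376) (by norm_num [HH]) (by norm_num) (BoxS.sa' (x1 := 1097498361856) (h := 1140850688) (by norm_num [HH])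 (by norm_num) (b19 hlam) (BoxS.sb' (t1 := 1097498361856) (h := 1140850688) (by norm_num [HH]) (by norm_num) (b20 hlam) (BoxS.sa' (x1 := 1098639212544) (h := 570425344) (by norm_num [HH]) (by norm_num) (b21 hlam) (BoxS.sb' (t1 := 1098639212544) (h := 570425344) (by norm_num [HH]) (by norm_num) (b22 hlam) (b23 hlam))))) (b24 hlam)) (b25 hlam)) (b26 hlam)) (b27 hlam)) (b28 hlam)) (b29 hlam)) (b30 hlam)) (b31 hlam))))))))))

end Vale.Agent.P154H.Tm.D14
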