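import Vale.Agent.P154H.Msg

set_option maxRecDepth 100000

/-!
The subdivision for `d = 15`.
-/

namespace Vale.Agent.P154H.Tm.D15

/-- A row. -/
def Ra : Row := Row.mk 0 175158 0 868797 1572468 0 2627370 0 13031955 0 0 23587020 0 1376 0 1917440 0 14291928

/-- A row. -/
def Rb : Row := Row.mk 0 367332950016 0 1821999366144 3297704411136 0 5225610622320 0 25658051746347 0 0 46229912444928 0 2885681152 0 4021163130880 0 28794523196754
/-- A row. -/
def Q0 : Row := Row.mk 0 0 0 0 0 0 7473408 0 0 0 0 0 0 0 0 0 0 5346279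

/-- A row. -/
def Q1 : Row := Row.mk 0 0 0 0 0 0 0 0 296549376 0 0 0 0 0 0 0 0 173207163

/-- A row. -/
def Q2 : Row := Row.mk 0 0 0 0 0 0 0 0 0 0 128 0 0 0 0 0 0 351

/-- A row. -/
def Q3 : Row := Row.mk 0 179361792 0 889648128 1610207232 0 2539335680 0 12453525728 0 0 22353047232 0 1409024 0 0 0 14234027403

/-- A row. -/
def Q4 : Row := Row.mk 0 358723584 0 1779296256 3220414464 0 5020158592 0 24547224736 0 0 43993448704 0 2818048 0 0 0 28271132601

/-- A row. -/
def Q5 : Row := Row.mk 0 44840448 0 222412032 402551808 0 618022192 0 3016718280 0 0 5393580112 0 352256 0 0 0 3511976163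

/-- A row. -/
def Q6 : Row := Row.mk 0 44840448 0 222412032 402551808 0 608101864 0 2953408176 0 0 5268671272 0 352256 0 0 0 3476991285

/-- A row. -/
def Q7 : Row := Row.mk 0 89680896 0 444824064 805103616 0 1188244464 0 5763664368 0 0 10243014704 0 704512 0 0 0 6893673303

/-- A row. -/
def Q8 : Row := Row.mk 0 358723584 0 1779296256 3220414464 0 4649048640 0 22353088672 0 0 39592225984 0 2818048 0 0 0 27191398005

/-- A row. -/
def Q9 : Row := Row.mk 0 358723584 0 1779296256 3220414464 0 4522960512 0 21558886048 0 0 37983679744 0 2818048 0 0 0 26869377387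

/-- A row. -/
def Q10 : Row := Row.mk 0 358723584 0 1779296256 3220414464 0 4353323072 0 20620919968 0 0 36123950336 0 2818048 0 0 0 26308783815

/-- A row. -/
def Q11 : Row := Row.mk 0 358723584 0 1779296256 3220414464 0 4145409536 0 19587932544 0 0 33994238848 0 2818048 0 0 0 25867298853

/-- A row. -/
def Q12 : Row := Row.mk 0 179361792 0 889648128 1610207232 0 1974128512 0 9178986000 0 0 15789675616 0 1409024 0 0 0 12566993385

/-- A row. -/
def Q13 : Row := Row.mk 0 358723584 0 1779296256 3220414464 0 3720276672 0 17065001184 0 0 28877681216 0 2818048 0 0 0 24772385829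

/-- A row. -/
def Q14 : Row := Row.mk 0 179361792 0 889648128 1610207232 0 1710586080 0 7795086128 0 0 12952694656 0 1409024 0 0 0 11961089907

/-- A row. -/
def Q15 : Row := Row.mk 0 179361792 0 889648128 1610207232 0 1599351776 0 7044418112 0 0 11349116896 0 1409024 0 0 0 11901328329

/-- A row. -/
def Q16 : Row := Row.mk 0 358723584 0 1779296256 3220414464 0 2957589056 0 12728422304 0 0 19320990528 0 2818048 0 0 0 24886154157

/-- A row. -/
def Q17 : Row := Row.mk 0 44840448 0 222412032 402551808 0 338970816 0 1430743992 0 0 1951868800 0 352256 0 0 0 3407139777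


/-- The data. -/
def P : Pb where
  lp := 0
  ln := 18605190778444650
  ab := 3298534883328
  r1 := [Ra, Rb]
  r2 := [Q0, Q1, Q2, Q3, Q4, Q5, Q6, Q7, Q8, Q9, Q10, Q11, Q12, Q13, Q14, Q15, Q16, Q17]

/-- Part of the subdivision. -/
def t0 : LT := (LT.b (LT.a (LT.l 4699 3740 4215 4215) (LT.l 4699 3741 4215 4215)) (LT.a LT.z1 (LT.b (LT.a LT.z1 (LT.b (LT.l 4695 3745 4215 4214) LT.z1)) LT.z1)))

theorem c0 : chk P t0 0 292057776128 0 584115552256 = true := by decide +kernel

theorem b0 {lam : ℝ} (hlam : |(S : ℝ) * lam - ((P.lp : ℝ) - P.ln)| ≤ ((1 : ℕ) : ℝ)) : BoxS lam P 0 292057776128 0 584115552256 :=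
  chk_sound hlam t0 0 292057776128 0 584115552256 (by norm_num) (by norm_num) c0

/-- Part of the subdivision. -/
def t1 : LT := (LT.a (LT.b (LT.a (LT.l 4696 3744 4214 4215) (LT.l 4683 3760 4206 4215)) (LT.a (LT.l 4696 3745 4214 4215) (LT.l 4683 3760 4206 4215))) (LT.b (LT.a (LT.l 4636 3812 4181 4215) (LT.b (LT.l 4475 3941 4100 4215) (LT.l 4475 3941 4100 4215))) (LT.a (LT.b (LT.l 4636 3812 4181 4215) (LT.l 4635 3813 4181 4215)) (LT.b (LT.a (LT.l 4536 3899 4130 4215) (LT.l 4390 3989 4061 4215)) (LT.a (LT.l 4535 3900 4130 4215) (LT.b (LT.l 4389 3989 4061 4215) (LT.l 4388 3989 4061 4215)))))))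

theorem c1 : chk P t1 584115552256 292057776128 0 292057776128 = true := by decide +kernel

theorem b1 {lam : ℝ} (hlam : |(S : ℝ) * lam - ((P.lp : ℝ) - P.ln)| ≤ ((1 : ℕ) : ℝ)) : BoxS lam P 584115552256 292057776128 0 292057776128 :=
  chk_sound hlam t1 584115552256 292057776128 0 292057776128 (by norm_num) (by norm_num) c1

/-- Part of the subdivision. -/
def t2 : LT := (LT.b (LT.a (LT.b (LT.l 4693 3748 4214 4214) (LT.l 4680 3764 4214 4206)) (LT.b (LT.l 4680 3764 4206 4214) (LT.l 4666 3779 4206 4206))) (LT.a LT.z1 (LT.b (LT.a LT.z1 (LT.b (LT.l 4629 3819 4203 4190) LT.z1)) LT.z1)))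

theorem c2 : chk P t2 584115552256 146028888064 584115552256 292057776128 = true := by decide +kernel

theorem b2 {lam : ℝ} (hlam : |(S : ℝ) * lam - ((P.lp : ℝ) - P.ln)| ≤ ((1 : ℕ) : ℝ)) : BoxS lam P 584115552256 146028888064 584115552256 292057776128 :=
  chk_sound hlam t2 584115552256 146028888064 584115552256 292057776128 (by norm_num) (by norm_num) c2

/-- Part of the subdivision. -/
def t3 : LT := (LT.a (LT.b (LT.a (LT.l 4650 3798 4190 4214) (LT.l 4608 3839 4168 4214)) (LT.a (LT.l 4636 3812 4190 4206) (LT.b (LT.l 4599 3847 4168 4209) (LT.l 4585 3859 4168 4203)))) (LT.b (LT.a (LT.b (LT.l 4533 3901 4130 4214) (LT.l 4529 3904 4130 4213)) (LT.b (LT.a (LT.l 4433 3966 4082 4214) (LT.l 4329 4017 4036 4214)) (LT.a (LT.l 4429 3968 4082 4213) (LT.l 4324 4019 4036 4213)))) (LT.a (LT.b (LT.a (LT.l 4546 3892 4141 4209) (LT.l 4493 3929 4116 4209)) (LT.a (LT.l 4531 3903 4141 4203) (LT.l 4477 3939 4116 4203))) (LT.b (LT.a (LT.l 4420 3973 4082 4209) (LT.l 4313 4024 4036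 4209)) (LT.a (LT.l 4402 3983 4082 4203) (LT.l 4292 4033 4036 4203))))))

theorem c3 : chk P t3 876173328384 146028888064 584115552256 146028888064 = true := by decide +kernel

theorem b3 {lam : ℝ} (hlam : |(S : ℝ) * lam - ((P.lp : ℝ) - P.ln)| ≤ ((1 : ℕ) : ℝ)) : BoxS lam P 876173328384 146028888064 584115552256 146028888064 :=
  chk_sound hlam t3 876173328384 146028888064 584115552256 146028888064 (by norm_num) (by norm_num) c3

/-- Part of the subdivision. -/
def t4 : LT := (LT.b (LT.a (LT.b (LT.l 4604 3843 4190 4190) (LT.a LT.z1 (LT.b (LT.l 4564 3877 4186 4175) LT.z1))) (LT.b (LT.a (LT.l 4573 3870 4175 4190) (LT.l 4543 3893 4161 4190)) (LT.a (LT.b (LT.l 4541 3895 4175 4175) (LT.l 4509 3918 4175 4161)) (LT.b (LT.l 4509 3918 4161 4175) (LT.a (LT.l 4485 3934 4165 4161) (LT.b (LT.l 4475 3940 4156 4165) (LT.l 4456 3953 4156 4156))))))) (LT.a LT.z1 (LT.b (LT.a LT.z1 (LT.b (LT.a LT.z1 (LT.b (LT.l 4433 3966 4156 4147) LT.z1)) LT.z1)) LT.z1)))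

theorem c4 : chk P t4 876173328384 73014444032 876173328384 146028888064 = true := by decide +kernel

theorem b4 {lam : ℝ} (hlam : |(S : ℝ) * lam - ((P.lp : ℝ) - P.ln)| ≤ ((1 : ℕ) : ℝ)) : BoxS lam P 876173328384 73014444032 876173328384 146028888064 :=
  chk_sound hlam t4 876173328384 73014444032 876173328384 146028888064 (by norm_num) (by norm_num) c4

/-- Part of the subdivision. -/
def t5 : LT := (LT.b (LT.a (LT.b (LT.l 4511 3917 4141 4194) (LT.l 4492 3930 4141 4186)) (LT.b (LT.l 4456 3953 4116 4194) (LT.l 4435 3965 4116 4186))) (LT.a (LT.b (LT.a (LT.l 4478 3939 4147 4175) (LT.l 4453 3954 4136 4175)) (LT.a (LT.b (LT.l 4453 3954 4147 4165) (LT.l 4433 3966 4147 4156)) (LT.b (LT.l 4427 3969 4136 4165) (LT.l 4406 3981 4136 4156)))) (LT.b (LT.a (LT.l 4423 3971 4123 4175) (LT.l 4388 3990 4108 4175)) (LT.a (LT.b (LT.l 4396 3986 4123 4165) (LT.l 4373 3997 4123 4156)) (LT.b (LT.l 4359 4004 4108 4165) (LT.l 4335 4015 4108 4156))))))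

theorem c5 : chk P t5 1022202216448 36507222016 876173328384 73014444032 = true := by decide +kernel

theorem b5 {lam : ℝ} (hlam : |(S : ℝ) * lam - ((P.lp : ℝ) - P.ln)| ≤ ((1 : ℕ) : ℝ)) : BoxS lam P 1022202216448 36507222016 876173328384 73014444032 :=
  chk_sound hlam t5 1022202216448 36507222016 876173328384 73014444032 (by norm_num) (by norm_num) c5

/-- Part of the subdivision. -/
def t6 : LT := (LT.b (LT.a (LT.b (LT.l 4378 3995 4082 4194) (LT.l 4354 4006 4082 4186)) (LT.b (LT.l 4263 4044 4036 4194) (LT.a (LT.l 4269 4042 4049 4186) LT.z2))) (LT.a (LT.b (LT.a (LT.l 4346 4010 4091 4175) (LT.l 4294 4032 4072 4175)) (LT.a (LT.b (LT.l 4314 4024 4091 4165) (LT.l 4289 4034 4091 4156)) (LT.b (LT.l 4260 4045 4072 4165) (LT.l 4232 4055 4072 4156)))) (LT.b (LT.a (LT.l 4231 4055 4049 4175) LT.z2) (LT.a (LT.b (LT.l 4194 4068 4049 4165) LT.z2) LT.z2))))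

theorem c6 : chk P t6 1095216660480 36507222016 876173328384 73014444032 = true := by decide +kernel

theorem b6 {lam : ℝ} (hlam : |(S : ℝ) * lam - ((P.lp : ℝ) - P.ln)| ≤ ((1 : ℕ) : ℝ)) : BoxS lam P 1095216660480 36507222016 876173328384 73014444032 :=
  chk_sound hlam t6 1095216660480 36507222016 876173328384 73014444032 (by norm_num) (by norm_num) c6

/-- Part of the subdivision. -/
def t7 : LT := (LT.b (LT.a (LT.b (LT.a (LT.l 4415 3976 4149 4147) (LT.l 4402 3982 4144 4147)) (LT.a LT.z1 (LT.l 4374 3997 4144 4136))) (LT.b (LT.a (LT.l 4388 3990 4139 4147) (LT.l 4373 3997 4133 4147)) (LT.a (LT.b (LT.l 4367 4000 4139 4139) (LT.l 4351 4008 4139 4133)) (LT.b (LT.l 4351 4008 4133 4139) (LT.l 4334 4015 4133 4133))))) (LT.a LT.z1 (LT.b (LT.a LT.z1 (LT.l 4307 4027 4133 4123)) LT.z1)))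

theorem c7 : chk P t7 1022202216448 18253611008 1022202216448 36507222016 = true := by decide +kernel

theorem b7 {lam : ℝ} (hlam : |(S : ℝ) * lam - ((P.lp : ℝ) - P.ln)| ≤ ((1 : ℕ) : ℝ)) : BoxS lam P 1022202216448 18253611008 1022202216448 36507222016 :=
  chk_sound hlam t7 1022202216448 18253611008 1022202216448 36507222016 (by norm_num) (by norm_num) c7

/-- Part of the subdivision. -/
def t8 : LT := (LT.a (LT.b (LT.a (LT.l 4356 4005 4126 4147) (LT.l 4338 4013 4119 4147)) (LT.a (LT.l 4325 4019 4126 4136) (LT.l 4306 4027 4119 4136))) (LT.b (LT.l 4307 4027 4108 4147) (LT.a (LT.l 4285 4036 4112 4136) (LT.l 4262 4044 4104 4136))))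

theorem c8 : chk P t8 1058709438464 18253611008 1022202216448 18253611008 = true := by decide +kernel

theorem b8 {lam : ℝ} (hlam : |(S : ℝ) * lam - ((P.lp : ℝ) - P.ln)| ≤ ((1 : ℕ) : ℝ)) : BoxS lam P 1058709438464 18253611008 1022202216448 18253611008 :=
  chk_sound hlam t8 1058709438464 18253611008 1022202216448 18253611008 (by norm_num) (by norm_num) c8

/-- Part of the subdivision. -/
def t9 : LT := (LT.a (LT.b (LT.a (LT.l 4288 4034 4126 4123) (LT.b (LT.l 4278 4038 4119 4126) (LT.l 4257 4046 4119 4119))) (LT.a LT.z1 (LT.b (LT.l 4234 4054 4119 4112) LT.z1))) (LT.b (LT.a (LT.b (LT.l 4256 4047 4112 4126) (LT.l 4234 4054 4112 4119)) (LT.b (LT.l 4232 4055 4104 4126) (LT.a (LT.l 4216 4061 4106 4119) (LT.l 4202 4065 4102 4119)))) (LT.a (LT.b (LT.a (LT.l 4217 4060 4114 4112) (LT.l 4204 4064 4110 4112)) (LT.a LT.z1 (LT.b (LT.l 4185 4071 4110 4106) LT.z1))) (LT.b (LT.a (LT.b (LT.l 4198 4067 4106 4114) (LT.l 4185 4071 4106 4110)) (LT.b (LT.l 4184 4071 4102 4114) (LT.l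 4171 4075 4102 4110))) (LT.a (LT.b (LT.l 4171 4075 4106 4106) (LT.a LT.z1 (LT.l 4153 4080 4105 4102))) (LT.b (LT.a (LT.l 4160 4078 4103 4106) (LT.l 4153 4080 4101 4106)) (LT.a (LT.b (LT.l 4150 4081 4103 4103) (LT.l 4142 4083 4103 4101)) (LT.b (LT.l 4142 4083 4101 4103) (LT.l 4135 4086 4101 4101)))))))))

theorem c9 : chk P t9 1058709438464 18253611008 1058709438464 18253611008 = true := by decide +kernel

theorem b9 {lam : ℝ} (hlam : |(S : ℝ) * lam - ((P.lp : ℝ) - P.ln)| ≤ ((1 : ℕ) : ℝ)) : BoxS lam P 1058709438464 18253611008 1058709438464 18253611008 :=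
  chk_sound hlam t9 1058709438464 18253611008 1058709438464 18253611008 (by norm_num) (by norm_num) c9

/-- Part of the subdivision. -/
def t10 : LT := (LT.a LT.z1 (LT.b (LT.a LT.z1 (LT.b (LT.a LT.z1 (LT.b (LT.a LT.z1 (LT.b (LT.a LT.z1 (LT.b (LT.a LT.z1 (LT.l 4125 4088 4101 4099)) LT.z1)) LT.z1)) LT.z1)) LT.z1)) LT.z1))

theorem c10 : chk P t10 1022202216448 36507222016 1095216660480 36507222016 = true := by decide +kernel

theorem b10 {lam : ℝ} (hlam : |(S : ℝ) * lam - ((P.lp : ℝ) - P.ln)| ≤ ((1 : ℕ) : ℝ)) : BoxS lam P 1022202216448 36507222016 1095216660480 36507222016 :=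
  chk_sound hlam t10 1022202216448 36507222016 1095216660480 36507222016 (by norm_num) (by norm_num) c10

/-- Part of the subdivision. -/
def t11 : LT := (LT.a (LT.b (LT.a (LT.l 4272 4041 4096 4147) (LT.l 4245 4051 4087 4147)) (LT.a (LT.b (LT.l 4246 4050 4096 4139) (LT.l 4226 4057 4096 4133)) (LT.b (LT.l 4218 4060 4087 4139) (LT.l 4197 4067 4087 4133)))) (LT.b (LT.a (LT.l 4215 4061 4077 4147) (LT.l 4182 4072 4066 4147)) (LT.a (LT.b (LT.l 4187 4070 4077 4139) (LT.l 4165 4077 4077 4133)) LT.z2)))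

theorem c11 : chk P t11 1095216660480 18253611008 1022202216448 18253611008 = true := by decide +kernel

theorem b11 {lam : ℝ} (hlam : |(S : ℝ) * lam - ((P.lp : ℝ) - P.ln)| ≤ ((1 : ℕ) : ℝ)) : BoxS lam P 1095216660480 18253611008 1022202216448 18253611008 :=
  chk_sound hlam t11 1095216660480 18253611008 1022202216448 18253611008 (by norm_num) (by norm_num) c11

/-- Part of the subdivision. -/
def t12 : LT := (LT.a (LT.b (LT.l 4205 4064 4096 4126) (LT.a (LT.l 4189 4070 4098 4119) (LT.b (LT.l 4180 4072 4094 4121) (LT.l 4167 4076 4094 4118)))) (LT.b (LT.l 4175 4074 4087 4126) (LT.a (LT.b (LT.l 4165 4077 4089 4121) (LT.l 4152 4081 4089 4118)) (LT.l 4142 4084 4084 4119))))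

theorem c12 : chk P t12 1095216660480 9126805504 1058709438464 9126805504 = true := by decide +kernel

theorem b12 {lam : ℝ} (hlam : |(S : ℝ) * lam - ((P.lp : ℝ) - P.ln)| ≤ ((1 : ℕ) : ℝ)) : BoxS lam P 1095216660480 9126805504 1058709438464 9126805504 :=
  chk_sound hlam t12 1095216660480 9126805504 1058709438464 9126805504 (by norm_num) (by norm_num) c12

/-- Part of the subdivision. -/
def t13 : LT := (LT.a (LT.b (LT.l 4169 4075 4098 4114) (LT.a (LT.l 4160 4078 4099 4110) (LT.l 4152 4081 4097 4110))) (LT.b (LT.l 4154 4080 4094 4114) (LT.a (LT.l 4144 4083 4095 4110) (LT.l 4136 4085 4092 4110))))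

theorem c13 : chk P t13 1095216660480 4563402752 1076963049472 4563402752 = true := by decide +kernel

theorem b13 {lam : ℝ} (hlam : |(S : ℝ) * lam - ((P.lp : ℝ) - P.ln)| ≤ ((1 : ℕ) : ℝ)) : BoxS lam P 1095216660480 4563402752 1076963049472 4563402752 :=
  chk_sound hlam t13 1095216660480 4563402752 1076963049472 4563402752 (by norm_num) (by norm_num) c13

/-- Part of the subdivision. -/
def t14 : LT := (LT.b (LT.a (LT.b (LT.l 4149 4081 4099 4107) (LT.l 4142 4084 4099 4105)) (LT.b (LT.l 4141 4084 4097 4107) (LT.l 4134 4086 4097 4105))) (LT.a (LT.b (LT.l 4134 4086 4099 4103) (LT.a (LT.l 4129 4087 4100 4101) (LT.l 4125 4088 4098 4101))) (LT.b (LT.a (LT.l 4128 4087 4097 4103) (LT.l 4124 4088 4096 4103)) (LT.a (LT.b (LT.l 4123 4089 4097 4102) (LT.l 4119 4090 4097 4101)) (LT.b (LT.l 4119 4090 4096 4102) (LT.l 4115 4091 4096 4101))))))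

theorem c14 : chk P t14 1095216660480 2281701376 1086089854976 4563402752 = true := by decide +kernel

theorem b14 {lam : ℝ} (hlam : |(S : ℝ) * lam - ((P.lp : ℝ) - P.ln)| ≤ ((1 : ℕ) : ℝ)) : BoxS lam P 1095216660480 2281701376 1086089854976 4563402752 :=
  chk_sound hlam t14 1095216660480 2281701376 1086089854976 4563402752 (by norm_num) (by norm_num) c14

/-- Part of the subdivision. -/
def t15 : LT := (LT.b (LT.a (LT.b (LT.l 4134 4086 4095 4107) (LT.l 4126 4088 4095 4105)) (LT.b (LT.l 4125 4088 4092 4107) (LT.l 4118 4090 4092 4105))) (LT.a (LT.b (LT.a (LT.l 4120 4090 4095 4103) (LT.l 4116 4091 4094 4103)) (LT.a (LT.b (LT.l 4115 4091 4095 4102) (LT.l 4111 4092 4095 4101)) (LT.b (LT.l 4110 4092 4094 4102) (LT.l 4106 4093 4094 4101)))) (LT.b (LT.l 4110 4092 4092 4103) (LT.a (LT.b (LT.l 4106 4093 4093 4102) (LT.l 4102 4094 4093 4101)) LT.z2))))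

theorem c15 : chk P t15 1099780063232 2281701376 1086089854976 4563402752 = true := by decide +kernel

theorem b15 {lam : ℝ} (hlam : |(S : ℝ) * lam - ((P.lp : ℝ) - P.ln)| ≤ ((1 : ℕ) : ℝ)) : BoxS lam P 1099780063232 2281701376 1086089854976 4563402752 :=
  chk_sound hlam t15 1099780063232 2281701376 1086089854976 4563402752 (by norm_num) (by norm_num) c15

/-- Part of the subdivision. -/
def t16 : LT := (LT.b (LT.a (LT.b (LT.l 4138 4085 4089 4114) (LT.l 4124 4089 4089 4110)) (LT.b (LT.l 4121 4089 4084 4114) LT.z2)) (LT.a (LT.b (LT.a (LT.b (LT.l 4117 4090 4090 4107) (LT.l 4109 4093 4090 4105)) LT.z2) LT.z2) LT.z2))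

theorem c16 : chk P t16 1104343465984 4563402752 1076963049472 9126805504 = true := by decide +kernel

theorem b16 {lam : ℝ} (hlam : |(S : ℝ) * lam - ((P.lp : ℝ) - P.ln)| ≤ ((1 : ℕ) : ℝ)) : BoxS lam P 1104343465984 4563402752 1076963049472 9126805504 :=
  chk_sound hlam t16 1104343465984 4563402752 1076963049472 9126805504 (by norm_num) (by norm_num) c16

/-- Part of the subdivision. -/
def t17 : LT := (LT.b (LT.a (LT.b (LT.l 4141 4084 4077 4126) LT.z2) LT.z2) LT.z2)

theorem c17 : chk P t17 1113470271488 9126805504 1058709438464 18253611008 = true := by decide +kernel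

theorem b17 {lam : ℝ} (hlam : |(S : ℝ) * lam - ((P.lp : ℝ) - P.ln)| ≤ ((1 : ℕ) : ℝ)) : BoxS lam P 1113470271488 9126805504 1058709438464 18253611008 :=
  chk_sound hlam t17 1113470271488 9126805504 1058709438464 18253611008 (by norm_num) (by norm_num) c17

/-- Part of the subdivision. -/
def t18 : LT := LT.z2

theorem c18 : chk P t18 1131723882496 18253611008 1022202216448 36507222016 = true := by decide +kernel

theorem b18 {lam : ℝ} (hlam : |(S : ℝ) * lam - ((P.lp : ℝ) - P.ln)| ≤ ((1 : ℕ) : ℝ)) : BoxS lam P 1131723882496 18253611008 1022202216448 36507222016 :=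
  chk_sound hlam t18 1131723882496 18253611008 1022202216448 36507222016 (by norm_num) (by norm_num) c18

/-- Part of the subdivision. -/
def t19 : LT := (LT.b (LT.a (LT.b (LT.l 4123 4089 4100 4100) (LT.l 4119 4090 4100 4098)) (LT.b (LT.l 4119 4090 4098 4100) (LT.a (LT.l 4116 4091 4099 4098) (LT.l 4114 4091 4098 4098)))) (LT.a LT.z1 (LT.b (LT.a LT.z1 (LT.b (LT.l 4111 4092 4098 4098) LT.z1)) LT.z1)))

theorem c19 : chk P t19 1095216660480 1140850688 1095216660480 2281701376 = true := by decide +kernel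

theorem b19 {lam : ℝ} (hlam : |(S : ℝ) * lam - ((P.lp : ℝ) - P.ln)| ≤ ((1 : ℕ) : ℝ)) : BoxS lam P 1095216660480 1140850688 1095216660480 2281701376 :=
  chk_sound hlam t19 1095216660480 1140850688 1095216660480 2281701376 (by norm_num) (by norm_num) c19

/-- Part of the subdivision. -/
def t20 : LT := (LT.a (LT.b (LT.l 4115 4091 4097 4100) (LT.a (LT.l 4112 4092 4098 4098) (LT.b (LT.l 4111 4092 4097 4099) (LT.l 4109 4093 4097 4098)))) (LT.b (LT.a (LT.l 4112 4092 4097 4100) (LT.l 4110 4092 4096 4100)) (LT.a (LT.b (LT.l 4109 4093 4097 4099) (LT.l 4107 4093 4097 4098)) (LT.b (LT.l 4107 4093 4096 4099) (LT.l 4105 4094 4096 4098)))))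

theorem c20 : chk P t20 1097498361856 1140850688 1095216660480 1140850688 = true := by decide +kernel

theorem b20 {lam : ℝ} (hlam : |(S : ℝ) * lam - ((P.lp : ℝ) - P.ln)| ≤ ((1 : ℕ) : ℝ)) : BoxS lam P 1097498361856 1140850688 1095216660480 1140850688 :=
  chk_sound hlam t20 1097498361856 1140850688 1095216660480 1140850688 (by norm_num) (by norm_num) c20

/-- Part of the subdivision. -/
def t21 : LT := (LT.b (LT.a (LT.b (LT.l 4109 4093 4098 4098) (LT.l 4107 4093 4098 4097)) (LT.b (LT.l 4107 4093 4097 4098) (LT.a (LT.l 4105 4094 4097 4097) (LT.l 4104 4094 4097 4097)))) (LT.a LT.z1 (LT.b (LT.a LT.z1 (LT.b (LT.l 4102 4094 4097 4097) LT.z1)) LT.z1)))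

theorem c21 : chk P t21 1097498361856 570425344 1097498361856 1140850688 = true := by decide +kernel

theorem b21 {lam : ℝ} (hlam : |(S : ℝ) * lam - ((P.lp : ℝ) - P.ln)| ≤ ((1 : ℕ) : ℝ)) : BoxS lam P 1097498361856 570425344 1097498361856 1140850688 :=
  chk_sound hlam t21 1097498361856 570425344 1097498361856 1140850688 (by norm_num) (by norm_num) c21

/-- Part of the subdivision. -/
def t22 : LT := (LT.a (LT.b (LT.a (LT.l 4105 4094 4097 4098) (LT.l 4104 4094 4096 4098)) (LT.a (LT.b (LT.l 4103 4094 4097 4097) (LT.l 4102 4094 4097 4097)) (LT.b (LT.l 4102 4094 4096 4097) (LT.l 4101 4095 4096 4097)))) (LT.b (LT.a (LT.l 4103 4094 4096 4098) (LT.l 4102 4094 4096 4098)) (LT.a (LT.b (LT.l 4101 4095 4096 4097) (LT.a (LT.l 4101 4095 4096 4097) (LT.l 4100 4095 4096 4097))) (LT.b (LT.l 4100 4095 4096 4097) (LT.a (LT.l 4100 4095 4096 4097) (LT.l 4099 4095 4096 4097))))))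

theorem c22 : chk P t22 1098639212544 570425344 1097498361856 570425344 = true := by decide +kernel

theorem b22 {lam : ℝ} (hlam : |(S : ℝ) * lam - ((P.lp : ℝ) - P.ln)| ≤ ((1 : ℕ) : ℝ)) : BoxS lam P 1098639212544 570425344 1097498361856 570425344 :=
  chk_sound hlam t22 1098639212544 570425344 1097498361856 570425344 (by norm_num) (by norm_num) c22

/-- Part of the subdivision. -/
def t23 : LT := (LT.a (LT.b (LT.a (LT.b (LT.l 4101 4095 4097 4097) (LT.a LT.z1 (LT.l 4100 4095 4097 4096))) (LT.b (LT.a (LT.l 4101 4095 4096 4097) (LT.l 4100 4095 4096 4097)) (LT.a (LT.b (LT.l 4100 4095 4096 4096) (LT.o 4099 4095 4096 4096)) (LT.o 4099 4095 4096 4096)))) (LT.a LT.z1 (LT.o 4098 4096 4096 4096))) (LT.b (LT.a (LT.b (LT.a (LT.b (LT.l 4100 4095 4096 4097) (LT.o 4099 4095 4096 4097)) (LT.b (LT.l 4099 4095 4096 4097) (LT.o 4099 4095 4096 4097))) (LT.o 4098 4095 4096 4096)) (LT.o 4098 4096 4096 4097)) (LT.o 4096 4096 4096 4096)))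

theorem c23 : chk P t23 1098639212544 570425344 1098639212544 570425344 = true := by decide +kernel

theorem b23 {lam : ℝ} (hlam : |(S : ℝ) * lam - ((P.lp : ℝ) - P.ln)| ≤ ((1 : ℕ) : ℝ)) : BoxS lam P 1098639212544 570425344 1098639212544 570425344 :=
  chk_sound hlam t23 1098639212544 570425344 1098639212544 570425344 (by norm_num) (by norm_num) c23

/-- Part of the subdivision. -/
def t24 : LT := (LT.a LT.z1 (LT.b (LT.a LT.z1 (LT.b (LT.a LT.z1 (LT.b (LT.a LT.z1 LT.z2) LT.z1)) LT.z1)) LT.z1))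

theorem c24 : chk P t24 1095216660480 2281701376 1099780063232 2281701376 = true := by decide +kernel

theorem b24 {lam : ℝ} (hlam : |(S : ℝ) * lam - ((P.lp : ℝ) - P.ln)| ≤ ((1 : ℕ) : ℝ)) : BoxS lam P 1095216660480 2281701376 1099780063232 2281701376 :=
  chk_sound hlam t24 1095216660480 2281701376 1099780063232 2281701376 (by norm_num) (by norm_num) c24

/-- Part of the subdivision. -/
def t25 : LT := (LT.b (LT.a (LT.b (LT.a (LT.b (LT.a (LT.l 4108 4093 4095 4100) (LT.l 4105 4094 4095 4100)) (LT.a (LT.b (LT.l 4104 4094 4095 4099) (LT.l 4102 4094 4095 4098)) (LT.b (LT.l 4102 4094 4095 4099) (LT.l 4100 4095 4095 4098)))) (LT.b (LT.l 4102 4094 4094 4100) (LT.a (LT.b (LT.l 4100 4095 4094 4099) LT.z2) LT.z2))) (LT.a (LT.b (LT.a (LT.b (LT.a (LT.l 4101 4095 4096 4098) (LT.l 4100 4095 4095 4098)) (LT.a (LT.b (LT.l 4099 4095 4096 4097) (LT.l 4098 4095 4096 4097)) (LT.b (LT.l 4098 4095 4095 4097) (LT.l 4097 4096 4095 4097)))) (LT.b (LT.l 4098 4095 4095 4098) LT.z2)) (LT.a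 (LT.b (LT.a (LT.o 4097 4096 4096 4097) LT.z2) LT.z2) LT.z2)) LT.z2)) LT.z2) LT.z2)

theorem c25 : chk P t25 1099780063232 2281701376 1095216660480 4563402752 = true := by decide +kernel

theorem b25 {lam : ℝ} (hlam : |(S : ℝ) * lam - ((P.lp : ℝ) - P.ln)| ≤ ((1 : ℕ) : ℝ)) : BoxS lam P 1099780063232 2281701376 1095216660480 4563402752 :=
  chk_sound hlam t25 1099780063232 2281701376 1095216660480 4563402752 (by norm_num) (by norm_num) c25

/-- Part of the subdivision. -/
def t26 : LT := (LT.a LT.z1 LT.z2)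

theorem c26 : chk P t26 1095216660480 4563402752 1104343465984 4563402752 = true := by decide +kernel

theorem b26 {lam : ℝ} (hlam : |(S : ℝ) * lam - ((P.lp : ℝ) - P.ln)| ≤ ((1 : ℕ) : ℝ)) : BoxS lam P 1095216660480 4563402752 1104343465984 4563402752 :=
  chk_sound hlam t26 1095216660480 4563402752 1104343465984 4563402752 (by norm_num) (by norm_num) c26

/-- Part of the subdivision. -/
def t27 : LT := LT.z2

theorem c27 : chk P t27 1104343465984 4563402752 1095216660480 9126805504 = true := by decide +kernel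

theorem b27 {lam : ℝ} (hlam : |(S : ℝ) * lam - ((P.lp : ℝ) - P.ln)| ≤ ((1 : ℕ) : ℝ)) : BoxS lam P 1104343465984 4563402752 1095216660480 9126805504 :=
  chk_sound hlam t27 1104343465984 4563402752 1095216660480 9126805504 (by norm_num) (by norm_num) c27

/-- Part of the subdivision. -/
def t28 : LT := LT.z2

theorem c28 : chk P t28 1095216660480 9126805504 1113470271488 9126805504 = true := by decide +kernel

theorem b28 {lam : ℝ} (hlam : |(S : ℝ) * lam - ((P.lp : ℝ) - P.ln)| ≤ ((1 : ℕ) : ℝ)) : BoxS lam P 1095216660480 9126805504 1113470271488 9126805504 :=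
  chk_sound hlam t28 1095216660480 9126805504 1113470271488 9126805504 (by norm_num) (by norm_num) c28

/-- Part of the subdivision. -/
def t29 : LT := LT.z2

theorem c29 : chk P t29 1113470271488 9126805504 1095216660480 18253611008 = true := by decide +kernel

theorem b29 {lam : ℝ} (hlam : |(S : ℝ) * lam - ((P.lp : ℝ) - P.ln)| ≤ ((1 : ℕ) : ℝ)) : BoxS lam P 1113470271488 9126805504 1095216660480 18253611008 :=
  chk_sound hlam t29 1113470271488 9126805504 1095216660480 18253611008 (by norm_num) (by norm_num) c29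

/-- Part of the subdivision. -/
def t30 : LT := LT.z2

theorem c30 : chk P t30 1095216660480 18253611008 1131723882496 18253611008 = true := by decide +kernel

theorem b30 {lam : ℝ} (hlam : |(S : ℝ) * lam - ((P.lp : ℝ) - P.ln)| ≤ ((1 : ℕ) : ℝ)) : BoxS lam P 1095216660480 18253611008 1131723882496 18253611008 :=
  chk_sound hlam t30 1095216660480 18253611008 1131723882496 18253611008 (by norm_num) (by norm_num) c30

/-- Part of the subdivision. -/
def t31 : LT := LT.z2

theorem c31 : chk P t31 1131723882496 18253611008 1095216660480 36507222016 = true := by decide +kernel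

theorem b31 {lam : ℝ} (hlam : |(S : ℝ) * lam - ((P.lp : ℝ) - P.ln)| ≤ ((1 : ℕ) : ℝ)) : BoxS lam P 1131723882496 18253611008 1095216660480 36507222016 :=
  chk_sound hlam t31 1131723882496 18253611008 1095216660480 36507222016 (by norm_num) (by norm_num) c31

/-- The whole box. -/
theorem box {lam : ℝ} (hlam : |(S : ℝ) * lam - ((P.lp : ℝ) - P.ln)| ≤ ((1 : ℕ) : ℝ)) : BoxS lam P 0 HH 0 HH :=
  (BoxS.sa' (x1 := 584115552256) (h := 292057776128) (by norm_num [HH]) (by norm_num) (b0 hlam) (BoxS.sb' (t1 := 584115552256) (h := 292057776128) (by norm_num [HH]) (by norm_num) (b1 hlam) (BoxS.sa' (x1 := 876173328384) (h := 146028888064) (by norm_num [HH]) (by norm_num) (b2 hlam) (BoxS.sb' (t1 := 876173328384) (h := 146028888064) (by norm_num [HH]) (by norm_num) (b3 hlam) (BoxS.sa' (x1 := 1022202216448) (h := 73014444032) (by norm_num [HH]) (by norm_num) (b4 hlam) (BoxS.sb' (t1 := 1022202216448) (h := 73014444032) (by norm_num [HH]) (by norm_num) (BoxS.sa' (x1 := 1095216660480)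 (h := 36507222016) (by norm_num [HH]) (by norm_num) (b5 hlam) (b6 hlam)) (BoxS.sa' (x1 := 1095216660480) (h := 36507222016) (by norm_num [HH]) (by norm_num) (BoxS.sb' (t1 := 1095216660480) (h := 36507222016) (by norm_num [HH]) (by norm_num) (BoxS.sa' (x1 := 1058709438464) (h := 18253611008) (by norm_num [HH]) (by norm_num) (b7 hlam) (BoxS.sb' (t1 := 1058709438464) (h := 18253611008) (by norm_num [HH]) (by norm_num) (b8 hlam) (b9 hlam))) (b10 hlam)) (BoxS.sb' (t1 := 1095216660480) (h := 36507222016) (by norm_num [HH]) (by norm_num) (BoxS.sa' (x1 := 1131723882496) (h := 18253611008) (by norm_num [HH]) (by norm_num) (BoxS.sb' (t1 := 1058709438464) (h := 18253611008) (by norm_num [HH]) (by norm_num) (b11 hlam) (BoxS.sa' (x1 := 1113470271488) (h := 9126805504) (by norm_num [HH]) (by norm_num) (BoxS.sb' (t1 := 1076963049472) (h := 9126805504) (by norm_num [HH]) (by norm_num) (b12 hlam) (BoxS.sa' (x1 := 1104343465984) (h := 4563402752) (by norm_num [HH]) (by norm_num)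 (BoxS.sb' (t1 := 1086089854976) (h := 4563402752) (by norm_num [HH]) (by norm_num) (b13 hlam) (BoxS.sa' (x1 := 1099780063232) (h := 2281701376) (by norm_num [HH]) (by norm_num) (b14 hlam) (b15 hlam))) (b16 hlam))) (b17 hlam))) (b18 hlam)) (BoxS.sa' (x1 := 1131723882496) (h := 18253611008) (by norm_num [HH]) (by norm_num) (BoxS.sb' (t1 := 1131723882496) (h := 18253611008) (by norm_num [HH]) (by norm_num) (BoxS.sa' (x1 := 1113470271488) (h := 9126805504) (by norm_num [HH]) (by norm_num) (BoxS.sb' (t1 := 1113470271488) (h := 9126805504) (by norm_num [HH]) (by norm_num) (BoxS.sa' (x1 := 1104343465984) (h := 4563402752) (by norm_num [HH]) (by norm_num) (BoxS.sb' (t1 := 1104343465984) (h := 4563402752) (by norm_num [HH]) (by norm_num) (BoxS.sa' (x1 := 1099780063232) (h := 2281701376) (by norm_num [HH]) (by norm_num) (BoxS.sb' (t1 := 1099780063232) (h := 2281701376) (by norm_num [HH]) (by norm_num) (BoxS.sa' (x1 := 1097498361856) (h := 1140850688) (by norm_num [HH])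 (by norm_num) (b19 hlam) (BoxS.sb' (t1 := 1097498361856) (h := 1140850688) (by norm_num [HH]) (by norm_num) (b20 hlam) (BoxS.sa' (x1 := 1098639212544) (h := 570425344) (by norm_num [HH]) (by norm_num) (b21 hlam) (BoxS.sb' (t1 := 1098639212544) (h := 570425344) (by norm_num [HH]) (by norm_num) (b22 hlam) (b23 hlam))))) (b24 hlam)) (b25 hlam)) (b26 hlam)) (b27 hlam)) (b28 hlam)) (b29 hlam)) (b30 hlam)) (b31 hlam))))))))))

end Vale.Agent.P154H.Tm.D15
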