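import Vale.Agent.P154H.Msg

set_option maxRecDepth 100000

/-!
The subdivision for `d = 16`.
-/

namespace Vale.Agent.P154H.Tm.D16

/-- A row. -/
def Ra : Row := Row.mk 0 175158 0 868797 1572468 0 2802528 0 13900752 0 0 25159488 0 1344 0 2191360 0 15312780

/-- A row. -/
def Rb : Row := Row.mk 0 1469331800064 0 7287997464576 13190817644544 0 22212508530384 0 108983854508745 0 0 196298377011200 0 11274289152 0 18382460026880 0 123081994356006
/-- A row. -/
def Q0 : Row := Row.mk 0 0 0 0 0 0 7473408 0 0 0 0 0 0 0 0 0 0 5346279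

/-- A row. -/
def Q1 : Row := Row.mk 0 0 0 0 0 0 0 0 296549376 0 0 0 0 0 0 0 0 173207163

/-- A row. -/
def Q2 : Row := Row.mk 0 0 0 0 0 0 0 0 0 0 1024 0 0 0 0 0 0 2829

/-- A row. -/
def Q3 : Row := Row.mk 0 358723584 0 1779296256 3220414464 0 5388734848 0 26424523456 0 0 47407122560 0 2752512 0 0 0 30400021815

/-- A row. -/
def Q4 : Row := Row.mk 0 44840448 0 222412032 402551808 0 664820720 0 3250840220 0 0 5819710736 0 344064 0 0 0 3778779609

/-- A row. -/
def Q5 : Row := Row.mk 0 358723584 0 1779296256 3220414464 0 5235970944 0 25503795104 0 0 45542595712 0 2752512 0 0 0 30009108231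

/-- A row. -/
def Q6 : Row := Row.mk 0 179361792 0 889648128 1610207232 0 2568537632 0 12448800688 0 0 22167596544 0 1376256 0 0 0 14848160235

/-- A row. -/
def Q7 : Row := Row.mk 0 11210112 0 55603008 100637952 0 156663402 0 756239981 0 0 1340859080 0 86016 0 0 0 919302006

/-- A row. -/
def Q8 : Row := Row.mk 0 22420224 0 111206016 201275904 0 304155636 0 1459305532 0 0 2576876328 0 172032 0 0 0 1806465747

/-- A row. -/
def Q9 : Row := Row.mk 0 358723584 0 1779296256 3220414464 0 4708456896 0 22383795808 0 0 39272069760 0 2752512 0 0 0 28507217793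

/-- A row. -/
def Q10 : Row := Row.mk 0 358723584 0 1779296256 3220414464 0 4509645120 0 21251771904 0 0 37008047168 0 2752512 0 0 0 27905013519

/-- A row. -/
def Q11 : Row := Row.mk 0 179361792 0 889648128 1610207232 0 2132056128 0 9990846032 0 0 17209228832 0 1376256 0 0 0 13652943465

/-- A row. -/
def Q12 : Row := Row.mk 0 179361792 0 889648128 1610207232 0 2022292128 0 9279838912 0 0 15748148288 0 1376256 0 0 0 13429700475

/-- A row. -/
def Q13 : Row := Row.mk 0 89680896 0 444824064 805103616 0 938321328 0 4238573552 0 0 7063997296 0 688128 0 0 0 6512562915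

/-- A row. -/
def Q14 : Row := Row.mk 0 358723584 0 1779296256 3220414464 0 3461122112 0 15253896864 0 0 24735408064 0 2752512 0 0 0 25484827989

/-- A row. -/
def Q15 : Row := Row.mk 0 358723584 0 1779296256 3220414464 0 3137740096 0 13616854464 0 0 21006511424 0 2752512 0 0 0 25762458279

/-- A row. -/
def Q16 : Row := Row.mk 0 119574528 0 593098752 1073471488 0 968473728 0 4087981184 0 0 5661653440 0 917504 0 0 0 9562599477


/-- The data. -/
def P : Pb where
  lp := 0
  ln := 18014398509481984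
  ab := 3298534883328
  r1 := [Ra, Rb]
  r2 := [Q0, Q1, Q2, Q3, Q4, Q5, Q6, Q7, Q8, Q9, Q10, Q11, Q12, Q13, Q14, Q15, Q16]

/-- Part of the subdivision. -/
def t0 : LT := (LT.b (LT.a (LT.l 4699 3756 4212 4212) (LT.l 4699 3756 4212 4212)) (LT.a LT.z1 (LT.b (LT.a LT.z1 (LT.b (LT.l 4695 3760 4212 4210) LT.z1)) LT.z1)))

theorem c0 : chk P t0 0 292057776128 0 584115552256 = true := by decide +kernel

theorem b0 {lam : ℝ} (hlam : |(S : ℝ) * lam - ((P.lp : ℝ) - P.ln)| ≤ ((1 : ℕ) : ℝ)) : BoxS lam P 0 292057776128 0 584115552256 :=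
  chk_sound hlam t0 0 292057776128 0 584115552256 (by norm_num) (by norm_num) c0

/-- Part of the subdivision. -/
def t1 : LT := (LT.a (LT.b (LT.a (LT.l 4696 3760 4210 4212) (LT.l 4683 3775 4203 4212)) (LT.a (LT.l 4696 3760 4210 4212) (LT.l 4683 3775 4203 4212))) (LT.b (LT.a (LT.l 4636 3824 4178 4212) (LT.b (LT.l 4475 3946 4100 4212) (LT.l 4475 3946 4100 4212))) (LT.a (LT.b (LT.l 4636 3824 4178 4212) (LT.l 4635 3824 4178 4212)) (LT.b (LT.a (LT.l 4536 3907 4128 4212) (LT.l 4390 3993 4062 4212)) (LT.a (LT.l 4535 3907 4128 4212) (LT.b (LT.l 4389 3993 4062 4212) (LT.l 4388 3993 4062 4211)))))))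

theorem c1 : chk P t1 584115552256 292057776128 0 292057776128 = true := by decide +kernel

theorem b1 {lam : ℝ} (hlam : |(S : ℝ) * lam - ((P.lp : ℝ) - P.ln)| ≤ ((1 : ℕ) : ℝ)) : BoxS lam P 584115552256 292057776128 0 292057776128 :=
  chk_sound hlam t1 584115552256 292057776128 0 292057776128 (by norm_num) (by norm_num) c1

/-- Part of the subdivision. -/
def t2 : LT := (LT.b (LT.a (LT.b (LT.l 4693 3764 4210 4210) (LT.l 4680 3778 4210 4203)) (LT.b (LT.l 4680 3778 4203 4210) (LT.l 4666 3793 4203 4203))) (LT.a LT.z1 (LT.b (LT.a LT.z1 (LT.b (LT.l 4629 3831 4200 4188) LT.z1)) LT.z1)))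

theorem c2 : chk P t2 584115552256 146028888064 584115552256 292057776128 = true := by decide +kernel

theorem b2 {lam : ℝ} (hlam : |(S : ℝ) * lam - ((P.lp : ℝ) - P.ln)| ≤ ((1 : ℕ) : ℝ)) : BoxS lam P 584115552256 146028888064 584115552256 292057776128 :=
  chk_sound hlam t2 584115552256 146028888064 584115552256 292057776128 (by norm_num) (by norm_num) c2

/-- Part of the subdivision. -/
def t3 : LT := (LT.a (LT.b (LT.a (LT.l 4650 3810 4188 4210) (LT.l 4608 3849 4166 4210)) (LT.a (LT.l 4636 3824 4188 4203) (LT.b (LT.l 4599 3857 4166 4206) (LT.l 4585 3869 4166 4200)))) (LT.b (LT.a (LT.b (LT.l 4533 3908 4128 4211) (LT.l 4529 3911 4128 4209)) (LT.b (LT.a (LT.l 4433 3970 4082 4211) (LT.l 4329 4020 4038 4211)) (LT.a (LT.l 4429 3973 4082 4209) (LT.l 4324 4022 4038 4209)))) (LT.a (LT.b (LT.a (LT.l 4546 3899 4140 4206) (LT.l 4493 3935 4115 4206)) (LT.a (LT.l 4531 3910 4140 4200) (LT.l 4477 3945 4115 4200))) (LT.b (LT.a (LT.l 4420 3977 4082 4206) (LT.l 4313 4026 4038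 4206)) (LT.a (LT.l 4402 3987 4082 4200) (LT.l 4292 4035 4038 4200))))))

theorem c3 : chk P t3 876173328384 146028888064 584115552256 146028888064 = true := by decide +kernel

theorem b3 {lam : ℝ} (hlam : |(S : ℝ) * lam - ((P.lp : ℝ) - P.ln)| ≤ ((1 : ℕ) : ℝ)) : BoxS lam P 876173328384 146028888064 584115552256 146028888064 :=
  chk_sound hlam t3 876173328384 146028888064 584115552256 146028888064 (by norm_num) (by norm_num) c3

/-- Part of the subdivision. -/
def t4 : LT := (LT.b (LT.a (LT.b (LT.l 4604 3853 4188 4188) (LT.a LT.z1 (LT.b (LT.l 4564 3886 4183 4173) LT.z1))) (LT.b (LT.a (LT.l 4573 3878 4173 4188) (LT.l 4543 3901 4159 4188)) (LT.a (LT.b (LT.l 4541 3903 4173 4173) (LT.l 4509 3925 4173 4159)) (LT.b (LT.l 4509 3925 4159 4173) (LT.a (LT.l 4485 3940 4163 4159) (LT.b (LT.l 4475 3946 4155 4163) (LT.l 4456 3958 4155 4155))))))) (LT.a LT.z1 (LT.b (LT.a LT.z1 (LT.b (LT.a LT.z1 (LT.b (LT.l 4433 3971 4155 4145) LT.z1)) LT.z1)) LT.z1)))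

theorem c4 : chk P t4 876173328384 73014444032 876173328384 146028888064 = true := by decide +kernel

theorem b4 {lam : ℝ} (hlam : |(S : ℝ) * lam - ((P.lp : ℝ) - P.ln)| ≤ ((1 : ℕ) : ℝ)) : BoxS lam P 876173328384 73014444032 876173328384 146028888064 :=
  chk_sound hlam t4 876173328384 73014444032 876173328384 146028888064 (by norm_num) (by norm_num) c4

/-- Part of the subdivision. -/
def t5 : LT := (LT.b (LT.a (LT.b (LT.l 4511 3923 4140 4191) (LT.l 4492 3936 4140 4183)) (LT.b (LT.l 4456 3958 4115 4191) (LT.l 4435 3969 4115 4183))) (LT.a (LT.b (LT.a (LT.l 4478 3944 4145 4173) (LT.l 4453 3959 4134 4173)) (LT.a (LT.b (LT.l 4453 3959 4145 4163) (LT.l 4433 3971 4145 4155)) (LT.b (LT.l 4427 3974 4134 4163) (LT.l 4406 3985 4134 4155)))) (LT.b (LT.a (LT.l 4423 3976 4122 4173) (LT.l 4388 3993 4108 4173)) (LT.a (LT.b (LT.l 4396 3990 4122 4163) (LT.l 4373 4000 4122 4155)) (LT.b (LT.l 4359 4007 4108 4163) (LT.l 4335 4017 4108 4155))))))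

theorem c5 : chk P t5 1022202216448 36507222016 876173328384 73014444032 = true := by decide +kernel

theorem b5 {lam : ℝ} (hlam : |(S : ℝ) * lam - ((P.lp : ℝ) - P.ln)| ≤ ((1 : ℕ) : ℝ)) : BoxS lam P 1022202216448 36507222016 876173328384 73014444032 :=
  chk_sound hlam t5 1022202216448 36507222016 876173328384 73014444032 (by norm_num) (by norm_num) c5

/-- Part of the subdivision. -/
def t6 : LT := (LT.b (LT.a (LT.b (LT.l 4378 3998 4082 4191) (LT.l 4354 4009 4082 4183)) (LT.b (LT.l 4263 4046 4038 4191) (LT.a (LT.l 4269 4043 4050 4183) LT.z2))) (LT.a (LT.b (LT.a (LT.l 4346 4013 4091 4173) (LT.l 4294 4034 4072 4173)) (LT.a (LT.b (LT.l 4314 4026 4091 4163) (LT.l 4289 4036 4091 4155)) (LT.b (LT.l 4260 4047 4072 4163) (LT.l 4232 4056 4072 4155)))) (LT.b (LT.a (LT.l 4231 4057 4050 4173) LT.z2) (LT.a (LT.b (LT.l 4194 4069 4050 4163) LT.z2) LT.z2))))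

theorem c6 : chk P t6 1095216660480 36507222016 876173328384 73014444032 = true := by decide +kernel

theorem b6 {lam : ℝ} (hlam : |(S : ℝ) * lam - ((P.lp : ℝ) - P.ln)| ≤ ((1 : ℕ) : ℝ)) : BoxS lam P 1095216660480 36507222016 876173328384 73014444032 :=
  chk_sound hlam t6 1095216660480 36507222016 876173328384 73014444032 (by norm_num) (by norm_num) c6

/-- Part of the subdivision. -/
def t7 : LT := (LT.b (LT.a (LT.b (LT.a (LT.l 4415 3980 4148 4145) (LT.l 4402 3986 4143 4145)) (LT.a LT.z1 (LT.l 4374 4000 4143 4134))) (LT.b (LT.a (LT.l 4388 3993 4137 4145) (LT.l 4373 4001 4132 4145)) (LT.a (LT.b (LT.l 4367 4003 4137 4137) (LT.l 4351 4011 4137 4132)) (LT.b (LT.l 4351 4011 4132 4137) (LT.l 4334 4018 4132 4132))))) (LT.a LT.z1 (LT.b (LT.a LT.z1 (LT.l 4307 4029 4132 4122)) LT.z1)))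

theorem c7 : chk P t7 1022202216448 18253611008 1022202216448 36507222016 = true := by decide +kernel

theorem b7 {lam : ℝ} (hlam : |(S : ℝ) * lam - ((P.lp : ℝ) - P.ln)| ≤ ((1 : ℕ) : ℝ)) : BoxS lam P 1022202216448 18253611008 1022202216448 36507222016 :=
  chk_sound hlam t7 1022202216448 18253611008 1022202216448 36507222016 (by norm_num) (by norm_num) c7

/-- Part of the subdivision. -/
def t8 : LT := (LT.a (LT.b (LT.a (LT.l 4356 4008 4125 4145) (LT.l 4338 4016 4119 4145)) (LT.a (LT.l 4325 4022 4125 4134) (LT.l 4306 4029 4119 4134))) (LT.b (LT.l 4307 4029 4108 4145) (LT.a (LT.l 4285 4038 4112 4134) (LT.l 4262 4046 4104 4134))))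

theorem c8 : chk P t8 1058709438464 18253611008 1022202216448 18253611008 = true := by decide +kernel

theorem b8 {lam : ℝ} (hlam : |(S : ℝ) * lam - ((P.lp : ℝ) - P.ln)| ≤ ((1 : ℕ) : ℝ)) : BoxS lam P 1058709438464 18253611008 1022202216448 18253611008 :=
  chk_sound hlam t8 1058709438464 18253611008 1022202216448 18253611008 (by norm_num) (by norm_num) c8

/-- Part of the subdivision. -/
def t9 : LT := (LT.a (LT.b (LT.a (LT.l 4288 4036 4125 4122) (LT.b (LT.l 4278 4040 4119 4125) (LT.l 4257 4048 4119 4119))) (LT.a LT.z1 (LT.b (LT.l 4234 4056 4119 4112) LT.z1))) (LT.b (LT.a (LT.b (LT.l 4256 4048 4112 4125) (LT.l 4234 4056 4112 4119)) (LT.b (LT.l 4232 4057 4104 4125) (LT.a (LT.l 4216 4062 4106 4119) (LT.l 4202 4066 4102 4119)))) (LT.a (LT.b (LT.a (LT.l 4217 4061 4113 4112) (LT.l 4204 4065 4110 4112)) (LT.a LT.z1 (LT.b (LT.l 4185 4072 4110 4106) LT.z1))) (LT.b (LT.a (LT.b (LT.l 4198 4068 4106 4113) (LT.l 4185 4072 4106 4110)) (LT.b (LT.l 4184 4072 4102 4113) (LT.l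 4171 4076 4102 4110))) (LT.a (LT.b (LT.l 4171 4076 4106 4106) (LT.a LT.z1 (LT.l 4153 4081 4105 4102))) (LT.b (LT.a (LT.l 4160 4079 4103 4106) (LT.l 4153 4081 4101 4106)) (LT.a (LT.b (LT.l 4150 4082 4103 4103) (LT.l 4142 4084 4103 4101)) (LT.b (LT.l 4142 4084 4101 4103) (LT.l 4135 4086 4101 4101)))))))))

theorem c9 : chk P t9 1058709438464 18253611008 1058709438464 18253611008 = true := by decide +kernel

theorem b9 {lam : ℝ} (hlam : |(S : ℝ) * lam - ((P.lp : ℝ) - P.ln)| ≤ ((1 : ℕ) : ℝ)) : BoxS lam P 1058709438464 18253611008 1058709438464 18253611008 :=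
  chk_sound hlam t9 1058709438464 18253611008 1058709438464 18253611008 (by norm_num) (by norm_num) c9

/-- Part of the subdivision. -/
def t10 : LT := (LT.a LT.z1 (LT.b (LT.a LT.z1 (LT.b (LT.a LT.z1 (LT.b (LT.a LT.z1 (LT.b (LT.a LT.z1 (LT.b (LT.a LT.z1 (LT.l 4125 4089 4100 4099)) LT.z1)) LT.z1)) LT.z1)) LT.z1)) LT.z1))

theorem c10 : chk P t10 1022202216448 36507222016 1095216660480 36507222016 = true := by decide +kernel

theorem b10 {lam : ℝ} (hlam : |(S : ℝ) * lam - ((P.lp : ℝ) - P.ln)| ≤ ((1 : ℕ) : ℝ)) : BoxS lam P 1022202216448 36507222016 1095216660480 36507222016 :=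
  chk_sound hlam t10 1022202216448 36507222016 1095216660480 36507222016 (by norm_num) (by norm_num) c10

/-- Part of the subdivision. -/
def t11 : LT := (LT.a (LT.b (LT.a (LT.l 4272 4043 4096 4145) (LT.l 4245 4052 4087 4145)) (LT.a (LT.b (LT.l 4246 4052 4096 4137) (LT.l 4226 4058 4096 4132)) (LT.b (LT.l 4218 4061 4087 4137) (LT.l 4197 4068 4087 4132)))) (LT.b (LT.a (LT.l 4215 4062 4077 4145) (LT.l 4182 4072 4067 4145)) (LT.a (LT.b (LT.l 4187 4071 4077 4137) (LT.l 4165 4077 4077 4132)) LT.z2)))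

theorem c11 : chk P t11 1095216660480 18253611008 1022202216448 18253611008 = true := by decide +kernel

theorem b11 {lam : ℝ} (hlam : |(S : ℝ) * lam - ((P.lp : ℝ) - P.ln)| ≤ ((1 : ℕ) : ℝ)) : BoxS lam P 1095216660480 18253611008 1022202216448 18253611008 :=
  chk_sound hlam t11 1095216660480 18253611008 1022202216448 18253611008 (by norm_num) (by norm_num) c11

/-- Part of the subdivision. -/
def t12 : LT := (LT.a (LT.b (LT.l 4205 4065 4096 4125) (LT.a (LT.l 4189 4070 4098 4119) (LT.b (LT.l 4180 4073 4094 4120) (LT.l 4167 4077 4094 4117)))) (LT.b (LT.l 4175 4075 4087 4125) (LT.a (LT.b (LT.l 4165 4078 4089 4120) (LT.l 4152 4081 4089 4117)) (LT.l 4142 4084 4085 4119))))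

theorem c12 : chk P t12 1095216660480 9126805504 1058709438464 9126805504 = true := by decide +kernel

theorem b12 {lam : ℝ} (hlam : |(S : ℝ) * lam - ((P.lp : ℝ) - P.ln)| ≤ ((1 : ℕ) : ℝ)) : BoxS lam P 1095216660480 9126805504 1058709438464 9126805504 :=
  chk_sound hlam t12 1095216660480 9126805504 1058709438464 9126805504 (by norm_num) (by norm_num) c12

/-- Part of the subdivision. -/
def t13 : LT := (LT.a (LT.b (LT.l 4169 4076 4098 4113) (LT.a (LT.l 4160 4079 4099 4110) (LT.l 4152 4081 4097 4110))) (LT.b (LT.l 4154 4080 4094 4113) (LT.a (LT.l 4144 4083 4095 4110) (LT.l 4136 4085 4093 4110))))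

theorem c13 : chk P t13 1095216660480 4563402752 1076963049472 4563402752 = true := by decide +kernel

theorem b13 {lam : ℝ} (hlam : |(S : ℝ) * lam - ((P.lp : ℝ) - P.ln)| ≤ ((1 : ℕ) : ℝ)) : BoxS lam P 1095216660480 4563402752 1076963049472 4563402752 :=
  chk_sound hlam t13 1095216660480 4563402752 1076963049472 4563402752 (by norm_num) (by norm_num) c13

/-- Part of the subdivision. -/
def t14 : LT := (LT.b (LT.a (LT.b (LT.l 4149 4082 4099 4107) (LT.l 4142 4084 4099 4105)) (LT.b (LT.l 4141 4084 4097 4107) (LT.l 4134 4086 4097 4105))) (LT.a (LT.b (LT.l 4134 4086 4099 4103) (LT.a (LT.l 4129 4088 4099 4101) (LT.l 4125 4089 4098 4101))) (LT.b (LT.a (LT.l 4128 4088 4097 4103) (LT.l 4124 4089 4096 4103)) (LT.a (LT.b (LT.l 4123 4089 4097 4101) (LT.l 4119 4090 4097 4100)) (LT.b (LT.l 4119 4090 4096 4101) (LT.l 4115 4091 4096 4100))))))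

theorem c14 : chk P t14 1095216660480 2281701376 1086089854976 4563402752 = true := by decide +kernel

theorem b14 {lam : ℝ} (hlam : |(S : ℝ) * lam - ((P.lp : ℝ) - P.ln)| ≤ ((1 : ℕ) : ℝ)) : BoxS lam P 1095216660480 2281701376 1086089854976 4563402752 :=
  chk_sound hlam t14 1095216660480 2281701376 1086089854976 4563402752 (by norm_num) (by norm_num) c14

/-- Part of the subdivision. -/
def t15 : LT := (LT.b (LT.a (LT.b (LT.l 4134 4086 4095 4107) (LT.l 4126 4088 4095 4105)) (LT.b (LT.l 4125 4088 4093 4107) (LT.l 4118 4090 4093 4105))) (LT.a (LT.b (LT.a (LT.l 4120 4090 4095 4103) (LT.l 4116 4091 4094 4103)) (LT.a (LT.b (LT.l 4115 4091 4095 4101) (LT.l 4111 4092 4095 4100)) (LT.b (LT.l 4110 4092 4094 4101) (LT.l 4106 4093 4094 4100)))) (LT.b (LT.l 4110 4092 4093 4103) (LT.a (LT.b (LT.l 4106 4093 4093 4101) (LT.l 4102 4094 4093 4100)) LT.z2))))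

theorem c15 : chk P t15 1099780063232 2281701376 1086089854976 4563402752 = true := by decide +kernel

theorem b15 {lam : ℝ} (hlam : |(S : ℝ) * lam - ((P.lp : ℝ) - P.ln)| ≤ ((1 : ℕ) : ℝ)) : BoxS lam P 1099780063232 2281701376 1086089854976 4563402752 :=
  chk_sound hlam t15 1099780063232 2281701376 1086089854976 4563402752 (by norm_num) (by norm_num) c15

/-- Part of the subdivision. -/
def t16 : LT := (LT.b (LT.a (LT.b (LT.l 4138 4085 4089 4113) (LT.l 4124 4089 4089 4110)) (LT.b (LT.l 4121 4090 4085 4113) LT.z2)) (LT.a (LT.b (LT.a (LT.b (LT.l 4117 4091 4090 4107) (LT.l 4109 4093 4090 4105)) LT.z2) LT.z2) LT.z2))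

theorem c16 : chk P t16 1104343465984 4563402752 1076963049472 9126805504 = true := by decide +kernel

theorem b16 {lam : ℝ} (hlam : |(S : ℝ) * lam - ((P.lp : ℝ) - P.ln)| ≤ ((1 : ℕ) : ℝ)) : BoxS lam P 1104343465984 4563402752 1076963049472 9126805504 :=
  chk_sound hlam t16 1104343465984 4563402752 1076963049472 9126805504 (by norm_num) (by norm_num) c16

/-- Part of the subdivision. -/
def t17 : LT := (LT.b (LT.a (LT.b (LT.l 4141 4084 4077 4125) LT.z2) LT.z2) LT.z2)

theorem c17 : chk P t17 1113470271488 9126805504 1058709438464 18253611008 = true := by decide +kernel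

theorem b17 {lam : ℝ} (hlam : |(S : ℝ) * lam - ((P.lp : ℝ) - P.ln)| ≤ ((1 : ℕ) : ℝ)) : BoxS lam P 1113470271488 9126805504 1058709438464 18253611008 :=
  chk_sound hlam t17 1113470271488 9126805504 1058709438464 18253611008 (by norm_num) (by norm_num) c17

/-- Part of the subdivision. -/
def t18 : LT := LT.z2

theorem c18 : chk P t18 1131723882496 18253611008 1022202216448 36507222016 = true := by decide +kernel

theorem b18 {lam : ℝ} (hlam : |(S : ℝ) * lam - ((P.lp : ℝ) - P.ln)| ≤ ((1 : ℕ) : ℝ)) : BoxS lam P 1131723882496 18253611008 1022202216448 36507222016 :=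
  chk_sound hlam t18 1131723882496 18253611008 1022202216448 36507222016 (by norm_num) (by norm_num) c18

/-- Part of the subdivision. -/
def t19 : LT := (LT.b (LT.a (LT.b (LT.l 4123 4089 4099 4099) (LT.l 4119 4090 4099 4098)) (LT.b (LT.l 4119 4090 4098 4099) (LT.a (LT.l 4116 4091 4099 4098) (LT.l 4114 4091 4098 4098)))) (LT.a LT.z1 (LT.b (LT.a LT.z1 (LT.b (LT.l 4111 4092 4098 4098) LT.z1)) LT.z1)))

theorem c19 : chk P t19 1095216660480 1140850688 1095216660480 2281701376 = true := by decide +kernel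

theorem b19 {lam : ℝ} (hlam : |(S : ℝ) * lam - ((P.lp : ℝ) - P.ln)| ≤ ((1 : ℕ) : ℝ)) : BoxS lam P 1095216660480 1140850688 1095216660480 2281701376 :=
  chk_sound hlam t19 1095216660480 1140850688 1095216660480 2281701376 (by norm_num) (by norm_num) c19

/-- Part of the subdivision. -/
def t20 : LT := (LT.a (LT.b (LT.l 4115 4091 4097 4099) (LT.a (LT.l 4112 4092 4098 4098) (LT.b (LT.l 4111 4092 4097 4099) (LT.l 4109 4093 4097 4098)))) (LT.b (LT.a (LT.l 4112 4092 4097 4099) (LT.l 4110 4093 4096 4099)) (LT.a (LT.b (LT.l 4109 4093 4097 4099) (LT.l 4107 4093 4097 4098)) (LT.b (LT.l 4107 4093 4096 4099) (LT.l 4105 4094 4096 4098)))))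

theorem c20 : chk P t20 1097498361856 1140850688 1095216660480 1140850688 = true := by decide +kernel

theorem b20 {lam : ℝ} (hlam : |(S : ℝ) * lam - ((P.lp : ℝ) - P.ln)| ≤ ((1 : ℕ) : ℝ)) : BoxS lam P 1097498361856 1140850688 1095216660480 1140850688 :=
  chk_sound hlam t20 1097498361856 1140850688 1095216660480 1140850688 (by norm_num) (by norm_num) c20

/-- Part of the subdivision. -/
def t21 : LT := (LT.b (LT.a (LT.b (LT.l 4109 4093 4098 4098) (LT.l 4107 4093 4098 4097)) (LT.b (LT.l 4107 4093 4097 4098) (LT.a (LT.l 4105 4094 4097 4097) (LT.l 4104 4094 4097 4097)))) (LT.a LT.z1 (LT.b (LT.a LT.z1 (LT.b (LT.l 4102 4094 4097 4097) LT.z1)) LT.z1)))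

theorem c21 : chk P t21 1097498361856 570425344 1097498361856 1140850688 = true := by decide +kernel

theorem b21 {lam : ℝ} (hlam : |(S : ℝ) * lam - ((P.lp : ℝ) - P.ln)| ≤ ((1 : ℕ) : ℝ)) : BoxS lam P 1097498361856 570425344 1097498361856 1140850688 :=
  chk_sound hlam t21 1097498361856 570425344 1097498361856 1140850688 (by norm_num) (by norm_num) c21

/-- Part of the subdivision. -/
def t22 : LT := (LT.a (LT.b (LT.a (LT.l 4105 4094 4097 4098) (LT.l 4104 4094 4096 4098)) (LT.a (LT.b (LT.l 4103 4094 4097 4097) (LT.l 4102 4094 4097 4097)) (LT.b (LT.l 4102 4094 4096 4097) (LT.l 4101 4095 4096 4097)))) (LT.b (LT.a (LT.l 4103 4094 4096 4098) (LT.l 4102 4095 4096 4098)) (LT.a (LT.b (LT.l 4101 4095 4096 4097) (LT.a (LT.l 4101 4095 4096 4097) (LT.l 4100 4095 4096 4097))) (LT.b (LT.l 4100 4095 4096 4097) (LT.a (LT.l 4100 4095 4096 4097) (LT.l 4099 4095 4096 4097))))))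

theorem c22 : chk P t22 1098639212544 570425344 1097498361856 570425344 = true := by decide +kernel

theorem b22 {lam : ℝ} (hlam : |(S : ℝ) * lam - ((P.lp : ℝ) - P.ln)| ≤ ((1 : ℕ) : ℝ)) : BoxS lam P 1098639212544 570425344 1097498361856 570425344 :=
  chk_sound hlam t22 1098639212544 570425344 1097498361856 570425344 (by norm_num) (by norm_num) c22

/-- Part of the subdivision. -/
def t23 : LT := (LT.a (LT.b (LT.a (LT.b (LT.l 4101 4095 4097 4097) (LT.a LT.z1 (LT.l 4100 4095 4097 4096))) (LT.b (LT.a (LT.l 4101 4095 4096 4097) (LT.l 4100 4095 4096 4097)) (LT.a (LT.b (LT.l 4100 4095 4096 4096) (LT.o 4099 4095 4096 4096)) (LT.o 4099 4095 4096 4096)))) (LT.a LT.z1 (LT.o 4098 4096 4096 4096))) (LT.b (LT.a (LT.b (LT.a (LT.b (LT.l 4100 4095 4096 4097) (LT.o 4099 4095 4096 4097)) (LT.b (LT.l 4099 4095 4096 4097) (LT.o 4099 4095 4096 4097))) (LT.o 4098 4095 4096 4096)) (LT.o 4098 4096 4096 4097)) (LT.o 4096 4096 4096 4096)))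

theorem c23 : chk P t23 1098639212544 570425344 1098639212544 570425344 = true := by decide +kernel

theorem b23 {lam : ℝ} (hlam : |(S : ℝ) * lam - ((P.lp : ℝ) - P.ln)| ≤ ((1 : ℕ) : ℝ)) : BoxS lam P 1098639212544 570425344 1098639212544 570425344 :=
  chk_sound hlam t23 1098639212544 570425344 1098639212544 570425344 (by norm_num) (by norm_num) c23

/-- Part of the subdivision. -/
def t24 : LT := (LT.a LT.z1 (LT.b (LT.a LT.z1 (LT.b (LT.a LT.z1 (LT.b (LT.a LT.z1 LT.z2) LT.z1)) LT.z1)) LT.z1))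

theorem c24 : chk P t24 1095216660480 2281701376 1099780063232 2281701376 = true := by decide +kernel

theorem b24 {lam : ℝ} (hlam : |(S : ℝ) * lam - ((P.lp : ℝ) - P.ln)| ≤ ((1 : ℕ) : ℝ)) : BoxS lam P 1095216660480 2281701376 1099780063232 2281701376 :=
  chk_sound hlam t24 1095216660480 2281701376 1099780063232 2281701376 (by norm_num) (by norm_num) c24

/-- Part of the subdivision. -/
def t25 : LT := (LT.b (LT.a (LT.b (LT.a (LT.b (LT.a (LT.l 4108 4093 4095 4099) (LT.l 4105 4094 4095 4099)) (LT.a (LT.b (LT.l 4104 4094 4095 4099) (LT.l 4102 4094 4095 4098)) (LT.b (LT.l 4102 4094 4095 4099) (LT.l 4100 4095 4095 4098)))) (LT.b (LT.l 4102 4094 4094 4099) (LT.a (LT.b (LT.l 4100 4095 4094 4099) LT.z2) LT.z2))) (LT.a (LT.b (LT.a (LT.b (LT.a (LT.l 4101 4095 4096 4098) (LT.l 4100 4095 4095 4098)) (LT.a (LT.b (LT.l 4099 4095 4096 4097) (LT.l 4098 4095 4096 4097)) (LT.b (LT.l 4098 4095 4095 4097) (LT.l 4097 4096 4095 4097)))) (LT.b (LT.l 4098 4095 4095 4098) LT.z2)) (LT.a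 (LT.b (LT.a (LT.o 4097 4096 4096 4097) LT.z2) LT.z2) LT.z2)) LT.z2)) LT.z2) LT.z2)

theorem c25 : chk P t25 1099780063232 2281701376 1095216660480 4563402752 = true := by decide +kernel

theorem b25 {lam : ℝ} (hlam : |(S : ℝ) * lam - ((P.lp : ℝ) - P.ln)| ≤ ((1 : ℕ) : ℝ)) : BoxS lam P 1099780063232 2281701376 1095216660480 4563402752 :=
  chk_sound hlam t25 1099780063232 2281701376 1095216660480 4563402752 (by norm_num) (by norm_num) c25

/-- Part of the subdivision. -/
def t26 : LT := (LT.a LT.z1 LT.z2)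

theorem c26 : chk P t26 1095216660480 4563402752 1104343465984 4563402752 = true := by decide +kernel

theorem b26 {lam : ℝ} (hlam : |(S : ℝ) * lam - ((P.lp : ℝ) - P.ln)| ≤ ((1 : ℕ) : ℝ)) : BoxS lam P 1095216660480 4563402752 1104343465984 4563402752 :=
  chk_sound hlam t26 1095216660480 4563402752 1104343465984 4563402752 (by norm_num) (by norm_num) c26

/-- Part of the subdivision. -/
def t27 : LT := LT.z2

theorem c27 : chk P t27 1104343465984 4563402752 1095216660480 9126805504 = true := by decide +kernel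

theorem b27 {lam : ℝ} (hlam : |(S : ℝ) * lam - ((P.lp : ℝ) - P.ln)| ≤ ((1 : ℕ) : ℝ)) : BoxS lam P 1104343465984 4563402752 1095216660480 9126805504 :=
  chk_sound hlam t27 1104343465984 4563402752 1095216660480 9126805504 (by norm_num) (by norm_num) c27

/-- Part of the subdivision. -/
def t28 : LT := LT.z2

theorem c28 : chk P t28 1095216660480 9126805504 1113470271488 9126805504 = true := by decide +kernel

theorem b28 {lam : ℝ} (hlam : |(S : ℝ) * lam - ((P.lp : ℝ) - P.ln)| ≤ ((1 : ℕ) : ℝ)) : BoxS lam P 1095216660480 9126805504 1113470271488 9126805504 :=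
  chk_sound hlam t28 1095216660480 9126805504 1113470271488 9126805504 (by norm_num) (by norm_num) c28

/-- Part of the subdivision. -/
def t29 : LT := LT.z2

theorem c29 : chk P t29 1113470271488 9126805504 1095216660480 18253611008 = true := by decide +kernel

theorem b29 {lam : ℝ} (hlam : |(S : ℝ) * lam - ((P.lp : ℝ) - P.ln)| ≤ ((1 : ℕ) : ℝ)) : BoxS lam P 1113470271488 9126805504 1095216660480 18253611008 :=
  chk_sound hlam t29 1113470271488 9126805504 1095216660480 18253611008 (by norm_num) (by norm_num) c29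

/-- Part of the subdivision. -/
def t30 : LT := LT.z2

theorem c30 : chk P t30 1095216660480 18253611008 1131723882496 18253611008 = true := by decide +kernel

theorem b30 {lam : ℝ} (hlam : |(S : ℝ) * lam - ((P.lp : ℝ) - P.ln)| ≤ ((1 : ℕ) : ℝ)) : BoxS lam P 1095216660480 18253611008 1131723882496 18253611008 :=
  chk_sound hlam t30 1095216660480 18253611008 1131723882496 18253611008 (by norm_num) (by norm_num) c30

/-- Part of the subdivision. -/
def t31 : LT := LT.z2

theorem c31 : chk P t31 1131723882496 18253611008 1095216660480 36507222016 = true := by decide +kernel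

theorem b31 {lam : ℝ} (hlam : |(S : ℝ) * lam - ((P.lp : ℝ) - P.ln)| ≤ ((1 : ℕ) : ℝ)) : BoxS lam P 1131723882496 18253611008 1095216660480 36507222016 :=
  chk_sound hlam t31 1131723882496 18253611008 1095216660480 36507222016 (by norm_num) (by norm_num) c31

/-- The whole box. -/
theorem box {lam : ℝ} (hlam : |(S : ℝ) * lam - ((P.lp : ℝ) - P.ln)| ≤ ((1 : ℕ) : ℝ)) : BoxS lam P 0 HH 0 HH :=
  (BoxS.sa' (x1 := 584115552256) (h := 292057776128) (by norm_num [HH]) (by norm_num) (b0 hlam) (BoxS.sb' (t1 := 584115552256) (h := 292057776128) (by norm_num [HH]) (by norm_num) (b1 hlam) (BoxS.sa' (x1 := 876173328384) (h := 146028888064) (by norm_num [HH]) (by norm_num) (b2 hlam) (BoxS.sb' (t1 := 876173328384) (h := 146028888064) (by norm_num [HH]) (by norm_num) (b3 hlam) (BoxS.sa' (x1 := 1022202216448) (h := 73014444032) (by norm_num [HH]) (by norm_num) (b4 hlam) (BoxS.sb' (t1 := 1022202216448) (h := 73014444032) (by norm_num [HH]) (by norm_num) (BoxS.sa' (x1 := 1095216660480)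 (h := 36507222016) (by norm_num [HH]) (by norm_num) (b5 hlam) (b6 hlam)) (BoxS.sa' (x1 := 1095216660480) (h := 36507222016) (by norm_num [HH]) (by norm_num) (BoxS.sb' (t1 := 1095216660480) (h := 36507222016) (by norm_num [HH]) (by norm_num) (BoxS.sa' (x1 := 1058709438464) (h := 18253611008) (by norm_num [HH]) (by norm_num) (b7 hlam) (BoxS.sb' (t1 := 1058709438464) (h := 18253611008) (by norm_num [HH]) (by norm_num) (b8 hlam) (b9 hlam))) (b10 hlam)) (BoxS.sb' (t1 := 1095216660480) (h := 36507222016) (by norm_num [HH]) (by norm_num) (BoxS.sa' (x1 := 1131723882496) (h := 18253611008) (by norm_num [HH]) (by norm_num) (BoxS.sb' (t1 := 1058709438464) (h := 18253611008) (by norm_num [HH]) (by norm_num) (b11 hlam) (BoxS.sa' (x1 := 1113470271488) (h := 9126805504) (by norm_num [HH]) (by norm_num) (BoxS.sb' (t1 := 1076963049472) (h := 9126805504) (by norm_num [HH]) (by norm_num) (b12 hlam) (BoxS.sa' (x1 := 1104343465984) (h := 4563402752) (by norm_num [HH]) (by norm_num)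 (BoxS.sb' (t1 := 1086089854976) (h := 4563402752) (by norm_num [HH]) (by norm_num) (b13 hlam) (BoxS.sa' (x1 := 1099780063232) (h := 2281701376) (by norm_num [HH]) (by norm_num) (b14 hlam) (b15 hlam))) (b16 hlam))) (b17 hlam))) (b18 hlam)) (BoxS.sa' (x1 := 1131723882496) (h := 18253611008) (by norm_num [HH]) (by norm_num) (BoxS.sb' (t1 := 1131723882496) (h := 18253611008) (by norm_num [HH]) (by norm_num) (BoxS.sa' (x1 := 1113470271488) (h := 9126805504) (by norm_num [HH]) (by norm_num) (BoxS.sb' (t1 := 1113470271488) (h := 9126805504) (by norm_num [HH]) (by norm_num) (BoxS.sa' (x1 := 1104343465984) (h := 4563402752) (by norm_num [HH]) (by norm_num) (BoxS.sb' (t1 := 1104343465984) (h := 4563402752) (by norm_num [HH]) (by norm_num) (BoxS.sa' (x1 := 1099780063232) (h := 2281701376) (by norm_num [HH]) (by norm_num) (BoxS.sb' (t1 := 1099780063232) (h := 2281701376) (by norm_num [HH]) (by norm_num) (BoxS.sa' (x1 := 1097498361856) (h := 1140850688) (by norm_num [HH])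 (by norm_num) (b19 hlam) (BoxS.sb' (t1 := 1097498361856) (h := 1140850688) (by norm_num [HH]) (by norm_num) (b20 hlam) (BoxS.sa' (x1 := 1098639212544) (h := 570425344) (by norm_num [HH]) (by norm_num) (b21 hlam) (BoxS.sb' (t1 := 1098639212544) (h := 570425344) (by norm_num [HH]) (by norm_num) (b22 hlam) (b23 hlam))))) (b24 hlam)) (b25 hlam)) (b26 hlam)) (b27 hlam)) (b28 hlam)) (b29 hlam)) (b30 hlam)) (b31 hlam))))))))))

end Vale.Agent.P154H.Tm.D16
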