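import Vale.Agent.P154H.Msg

set_option maxRecDepth 100000

/-!
The subdivision for `d = 17`.
-/

namespace Vale.Agent.P154H.Tm.D17

/-- A row. -/
def Ra : Row := Row.mk 0 525474 0 2606391 4717404 0 8933058 0 44308647 0 0 80195868 0 3872 0 7450624 0 49000896

/-- A row. -/
def Rb : Row := Row.mk 0 17631981600768 0 87455969574912 158289811734528 0 282150421101936 0 1383317739095211 0 0 2490754527289344 0 129922760704 0 250001456365568 0 1571331788960850
/-- A row. -/
def Q0 : Row := Row.mk 0 0 0 0 0 0 7473408 0 0 0 0 0 0 0 0 0 0 5346279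

/-- A row. -/
def Q1 : Row := Row.mk 0 0 0 0 0 0 0 0 296549376 0 0 0 0 0 0 0 0 173207163

/-- A row. -/
def Q2 : Row := Row.mk 0 0 0 0 0 0 0 0 0 0 256 0 0 0 0 0 0 711

/-- A row. -/
def Q3 : Row := Row.mk 0 538085376 0 2668944384 4830621696 0 8550161760 0 41900256096 0 0 75099828576 0 3964928 0 0 0 48614010597

/-- A row. -/
def Q4 : Row := Row.mk 0 1076170752 0 5337888768 9661243392 0 16857736128 0 82301975616 0 0 147158882112 0 7929856 0 0 0 96628376439

/-- A row. -/
def Q5 : Row := Row.mk 0 538085376 0 2668944384 4830621696 0 8272021920 0 40233300240 0 0 71752362048 0 3964928 0 0 0 47817439857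

/-- A row. -/
def Q6 : Row := Row.mk 0 269042688 0 1334472192 2415310848 0 4040526912 0 19576771752 0 0 34781945616 0 1982464 0 0 0 23664264723

/-- A row. -/
def Q7 : Row := Row.mk 0 1076170752 0 5337888768 9661243392 0 15738921792 0 75751853088 0 0 133926137664 0 7929856 0 0 0 93650544333

/-- A row. -/
def Q8 : Row := Row.mk 0 1076170752 0 5337888768 9661243392 0 15234651264 0 72620488704 0 0 127791108096 0 7929856 0 0 0 91748305377

/-- A row. -/
def Q9 : Row := Row.mk 0 269042688 0 1334472192 2415310848 0 3648262752 0 17277848496 0 0 30153450288 0 1982464 0 0 0 22569684867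

/-- A row. -/
def Q10 : Row := Row.mk 0 134521344 0 667236096 1207655424 0 1738342920 0 8132101872 0 0 14039729112 0 991232 0 0 0 11092844655

/-- A row. -/
def Q11 : Row := Row.mk 0 1076170752 0 5337888768 9661243392 0 13075283520 0 60264235680 0 0 102863360256 0 7929856 0 0 0 85827330981

/-- A row. -/
def Q12 : Row := Row.mk 0 1076170752 0 5337888768 9661243392 0 12236881344 0 55255490880 0 0 92275961664 0 7929856 0 0 0 84906307215

/-- A row. -/
def Q13 : Row := Row.mk 0 1076170752 0 5337888768 9661243392 0 11110629120 0 49425211296 0 0 80675669568 0 7929856 0 0 0 81264905577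

/-- A row. -/
def Q14 : Row := Row.mk 0 269042688 0 1334472192 2415310848 0 2534619072 0 11023452576 0 0 17075460048 0 1982464 0 0 0 20774467737

/-- A row. -/
def Q15 : Row := Row.mk 0 1076170752 0 5337888768 9661243392 0 9243565824 0 39322947168 0 0 54699451584 0 7929856 0 0 0 91653941709


/-- The data. -/
def P : Pb where
  lp := 0
  ln := 17476533608603192
  ab := 3298534883328
  r1 := [Ra, Rb]
  r2 := [Q0, Q1, Q2, Q3, Q4, Q5, Q6, Q7, Q8, Q9, Q10, Q11, Q12, Q13, Q14, Q15]

/-- Part of the subdivision. -/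
def t0 : LT := (LT.b (LT.a (LT.l 4699 3770 4209 4209) (LT.l 4699 3770 4209 4209)) (LT.a LT.z1 (LT.b (LT.a LT.z1 (LT.b (LT.l 4695 3774 4208 4207) LT.z1)) LT.z1)))

theorem c0 : chk P t0 0 292057776128 0 584115552256 = true := by decide +kernel

theorem b0 {lam : ℝ} (hlam : |(S : ℝ) * lam - ((P.lp : ℝ) - P.ln)| ≤ ((1 : ℕ) : ℝ)) : BoxS lam P 0 292057776128 0 584115552256 :=
  chk_sound hlam t0 0 292057776128 0 584115552256 (by norm_num) (by norm_num) c0

/-- Part of the subdivision. -/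
def t1 : LT := (LT.a (LT.b (LT.a (LT.l 4696 3773 4207 4209) (LT.l 4683 3788 4200 4209)) (LT.a (LT.l 4696 3774 4207 4209) (LT.l 4683 3788 4200 4209))) (LT.b (LT.a (LT.l 4636 3834 4176 4209) (LT.b (LT.l 4475 3951 4100 4209) (LT.l 4475 3951 4100 4209))) (LT.a (LT.b (LT.l 4636 3834 4176 4209) (LT.l 4635 3835 4176 4208)) (LT.b (LT.a (LT.l 4536 3913 4128 4209) (LT.l 4390 3996 4063 4209)) (LT.a (LT.l 4535 3914 4128 4208) (LT.b (LT.l 4389 3996 4063 4209) (LT.l 4388 3997 4063 4208)))))))

theorem c1 : chk P t1 584115552256 292057776128 0 292057776128 = true := by decide +kernel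

theorem b1 {lam : ℝ} (hlam : |(S : ℝ) * lam - ((P.lp : ℝ) - P.ln)| ≤ ((1 : ℕ) : ℝ)) : BoxS lam P 584115552256 292057776128 0 292057776128 :=
  chk_sound hlam t1 584115552256 292057776128 0 292057776128 (by norm_num) (by norm_num) c1

/-- Part of the subdivision. -/
def t2 : LT := (LT.b (LT.a (LT.b (LT.l 4693 3777 4207 4207) (LT.l 4680 3791 4207 4200)) (LT.b (LT.l 4680 3791 4200 4207) (LT.l 4666 3805 4200 4200))) (LT.a LT.z1 (LT.b (LT.a LT.z1 (LT.b (LT.l 4629 3841 4197 4185) LT.z1)) LT.z1)))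

theorem c2 : chk P t2 584115552256 146028888064 584115552256 292057776128 = true := by decide +kernel

theorem b2 {lam : ℝ} (hlam : |(S : ℝ) * lam - ((P.lp : ℝ) - P.ln)| ≤ ((1 : ℕ) : ℝ)) : BoxS lam P 584115552256 146028888064 584115552256 292057776128 :=
  chk_sound hlam t2 584115552256 146028888064 584115552256 292057776128 (by norm_num) (by norm_num) c2

/-- Part of the subdivision. -/
def t3 : LT := (LT.a (LT.b (LT.a (LT.l 4650 3821 4185 4207) (LT.l 4608 3858 4164 4207)) (LT.a (LT.l 4636 3834 4185 4200) (LT.b (LT.l 4599 3866 4164 4203) (LT.l 4585 3877 4164 4197)))) (LT.b (LT.a (LT.b (LT.l 4533 3915 4128 4208) (LT.l 4529 3918 4128 4206)) (LT.b (LT.a (LT.l 4433 3974 4083 4208) (LT.l 4329 4022 4040 4208)) (LT.a (LT.l 4429 3977 4083 4206) (LT.l 4324 4024 4040 4206)))) (LT.a (LT.b (LT.a (LT.l 4546 3906 4139 4203) (LT.l 4493 3941 4115 4203)) (LT.a (LT.l 4531 3917 4139 4197) (LT.l 4477 3950 4115 4197))) (LT.b (LT.a (LT.l 4420 3981 4083 4203) (LT.l 4313 4029 4040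 4203)) (LT.a (LT.l 4402 3990 4083 4197) (LT.l 4292 4037 4040 4197))))))

theorem c3 : chk P t3 876173328384 146028888064 584115552256 146028888064 = true := by decide +kernel

theorem b3 {lam : ℝ} (hlam : |(S : ℝ) * lam - ((P.lp : ℝ) - P.ln)| ≤ ((1 : ℕ) : ℝ)) : BoxS lam P 876173328384 146028888064 584115552256 146028888064 :=
  chk_sound hlam t3 876173328384 146028888064 584115552256 146028888064 (by norm_num) (by norm_num) c3

/-- Part of the subdivision. -/
def t4 : LT := (LT.b (LT.a (LT.b (LT.l 4604 3862 4185 4185) (LT.a LT.z1 (LT.b (LT.l 4564 3893 4181 4171) LT.z1))) (LT.b (LT.a (LT.l 4573 3886 4171 4185) (LT.l 4543 3908 4157 4185)) (LT.a (LT.b (LT.l 4541 3910 4171 4171) (LT.l 4509 3931 4171 4157)) (LT.b (LT.l 4509 3931 4157 4171) (LT.a (LT.l 4485 3945 4161 4157) (LT.b (LT.l 4475 3951 4153 4161) (LT.l 4456 3962 4153 4153))))))) (LT.a LT.z1 (LT.b (LT.a LT.z1 (LT.b (LT.a LT.z1 (LT.b (LT.l 4433 3975 4153 4144) LT.z1)) LT.z1)) LT.z1)))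

theorem c4 : chk P t4 876173328384 73014444032 876173328384 146028888064 = true := by decide +kernel

theorem b4 {lam : ℝ} (hlam : |(S : ℝ) * lam - ((P.lp : ℝ) - P.ln)| ≤ ((1 : ℕ) : ℝ)) : BoxS lam P 876173328384 73014444032 876173328384 146028888064 :=
  chk_sound hlam t4 876173328384 73014444032 876173328384 146028888064 (by norm_num) (by norm_num) c4

/-- Part of the subdivision. -/
def t5 : LT := (LT.b (LT.a (LT.b (LT.l 4511 3929 4139 4189) (LT.l 4492 3941 4139 4181)) (LT.b (LT.l 4456 3962 4115 4189) (LT.l 4435 3974 4115 4181))) (LT.a (LT.b (LT.a (LT.l 4478 3950 4144 4171) (LT.l 4453 3964 4133 4171)) (LT.a (LT.b (LT.l 4453 3964 4144 4161) (LT.l 4433 3975 4144 4153)) (LT.b (LT.l 4427 3978 4133 4161) (LT.l 4406 3988 4133 4153)))) (LT.b (LT.a (LT.l 4423 3980 4121 4171) (LT.l 4388 3997 4108 4171)) (LT.a (LT.b (LT.l 4396 3993 4121 4161) (LT.l 4373 4003 4121 4153)) (LT.b (LT.l 4359 4010 4108 4161) (LT.l 4335 4020 4108 4153))))))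

theorem c5 : chk P t5 1022202216448 36507222016 876173328384 73014444032 = true := by decide +kernel

theorem b5 {lam : ℝ} (hlam : |(S : ℝ) * lam - ((P.lp : ℝ) - P.ln)| ≤ ((1 : ℕ) : ℝ)) : BoxS lam P 1022202216448 36507222016 876173328384 73014444032 :=
  chk_sound hlam t5 1022202216448 36507222016 876173328384 73014444032 (by norm_num) (by norm_num) c5

/-- Part of the subdivision. -/
def t6 : LT := (LT.b (LT.a (LT.b (LT.l 4378 4002 4083 4189) (LT.l 4354 4012 4083 4181)) (LT.b (LT.l 4263 4047 4040 4189) (LT.a (LT.l 4269 4045 4052 4181) LT.z2))) (LT.a (LT.b (LT.a (LT.l 4346 4016 4092 4171) (LT.l 4294 4036 4073 4171)) (LT.a (LT.b (LT.l 4314 4028 4092 4161) (LT.l 4289 4038 4092 4153)) (LT.b (LT.l 4260 4048 4073 4161) (LT.l 4232 4058 4073 4153)))) (LT.b (LT.a (LT.l 4231 4058 4052 4171) LT.z2) (LT.a (LT.b (LT.l 4194 4070 4052 4161) LT.z2) LT.z2))))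

theorem c6 : chk P t6 1095216660480 36507222016 876173328384 73014444032 = true := by decide +kernel

theorem b6 {lam : ℝ} (hlam : |(S : ℝ) * lam - ((P.lp : ℝ) - P.ln)| ≤ ((1 : ℕ) : ℝ)) : BoxS lam P 1095216660480 36507222016 876173328384 73014444032 :=
  chk_sound hlam t6 1095216660480 36507222016 876173328384 73014444032 (by norm_num) (by norm_num) c6

/-- Part of the subdivision. -/
def t7 : LT := (LT.b (LT.a (LT.b (LT.a (LT.l 4415 3984 4146 4144) (LT.l 4402 3990 4141 4144)) (LT.a LT.z1 (LT.l 4374 4003 4141 4133))) (LT.b (LT.a (LT.l 4388 3997 4136 4144) (LT.l 4373 4004 4130 4144)) (LT.a (LT.b (LT.l 4367 4006 4136 4136) (LT.l 4351 4013 4136 4130)) (LT.l 4343 4017 4130 4133)))) (LT.a LT.z1 (LT.b (LT.a LT.z1 (LT.l 4307 4031 4130 4121)) LT.z1)))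

theorem c7 : chk P t7 1022202216448 18253611008 1022202216448 36507222016 = true := by decide +kernel

theorem b7 {lam : ℝ} (hlam : |(S : ℝ) * lam - ((P.lp : ℝ) - P.ln)| ≤ ((1 : ℕ) : ℝ)) : BoxS lam P 1022202216448 18253611008 1022202216448 36507222016 :=
  chk_sound hlam t7 1022202216448 18253611008 1022202216448 36507222016 (by norm_num) (by norm_num) c7

/-- Part of the subdivision. -/
def t8 : LT := (LT.a (LT.b (LT.a (LT.l 4356 4011 4125 4144) (LT.l 4338 4019 4118 4144)) (LT.a (LT.l 4325 4024 4125 4133) (LT.l 4306 4032 4118 4133))) (LT.b (LT.l 4307 4031 4108 4144) (LT.a (LT.l 4285 4039 4111 4133) (LT.l 4262 4048 4104 4133))))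

theorem c8 : chk P t8 1058709438464 18253611008 1022202216448 18253611008 = true := by decide +kernel

theorem b8 {lam : ℝ} (hlam : |(S : ℝ) * lam - ((P.lp : ℝ) - P.ln)| ≤ ((1 : ℕ) : ℝ)) : BoxS lam P 1058709438464 18253611008 1022202216448 18253611008 :=
  chk_sound hlam t8 1058709438464 18253611008 1022202216448 18253611008 (by norm_num) (by norm_num) c8

/-- Part of the subdivision. -/
def t9 : LT := (LT.a (LT.b (LT.a (LT.l 4288 4038 4125 4121) (LT.b (LT.l 4278 4042 4118 4125) (LT.l 4257 4049 4118 4118))) (LT.a LT.z1 (LT.b (LT.l 4234 4057 4118 4111) LT.z1))) (LT.b (LT.a (LT.b (LT.l 4256 4050 4111 4125) (LT.l 4234 4057 4111 4118)) (LT.b (LT.l 4232 4058 4104 4125) (LT.a (LT.l 4216 4063 4106 4118) (LT.l 4202 4067 4102 4118)))) (LT.a (LT.b (LT.a (LT.l 4217 4063 4113 4111) (LT.l 4204 4066 4109 4111)) (LT.a LT.z1 (LT.b (LT.l 4185 4072 4109 4106) LT.z1))) (LT.b (LT.a (LT.b (LT.l 4198 4068 4106 4113) (LT.l 4185 4072 4106 4109)) (LT.b (LT.l 4184 4073 4102 4113) (LT.l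 4171 4076 4102 4109))) (LT.a (LT.b (LT.l 4171 4076 4106 4106) (LT.a LT.z1 (LT.l 4153 4081 4105 4102))) (LT.b (LT.a (LT.l 4160 4079 4103 4106) (LT.l 4153 4081 4101 4106)) (LT.a (LT.b (LT.l 4150 4082 4103 4103) (LT.l 4142 4084 4103 4101)) (LT.b (LT.l 4142 4084 4101 4103) (LT.l 4135 4086 4101 4101)))))))))

theorem c9 : chk P t9 1058709438464 18253611008 1058709438464 18253611008 = true := by decide +kernel

theorem b9 {lam : ℝ} (hlam : |(S : ℝ) * lam - ((P.lp : ℝ) - P.ln)| ≤ ((1 : ℕ) : ℝ)) : BoxS lam P 1058709438464 18253611008 1058709438464 18253611008 :=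
  chk_sound hlam t9 1058709438464 18253611008 1058709438464 18253611008 (by norm_num) (by norm_num) c9

/-- Part of the subdivision. -/
def t10 : LT := (LT.a LT.z1 (LT.b (LT.a LT.z1 (LT.b (LT.a LT.z1 (LT.b (LT.a LT.z1 (LT.b (LT.a LT.z1 (LT.b (LT.a LT.z1 (LT.l 4125 4089 4100 4099)) LT.z1)) LT.z1)) LT.z1)) LT.z1)) LT.z1))

theorem c10 : chk P t10 1022202216448 36507222016 1095216660480 36507222016 = true := by decide +kernel

theorem b10 {lam : ℝ} (hlam : |(S : ℝ) * lam - ((P.lp : ℝ) - P.ln)| ≤ ((1 : ℕ) : ℝ)) : BoxS lam P 1022202216448 36507222016 1095216660480 36507222016 :=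
  chk_sound hlam t10 1022202216448 36507222016 1095216660480 36507222016 (by norm_num) (by norm_num) c10

/-- Part of the subdivision. -/
def t11 : LT := (LT.a (LT.b (LT.a (LT.l 4272 4044 4096 4144) (LT.l 4245 4053 4087 4144)) (LT.a (LT.b (LT.l 4246 4053 4096 4136) (LT.l 4226 4060 4096 4130)) (LT.b (LT.l 4218 4062 4087 4136) (LT.l 4197 4069 4087 4130)))) (LT.b (LT.a (LT.l 4215 4063 4078 4144) (LT.l 4182 4073 4068 4144)) (LT.a (LT.b (LT.l 4187 4072 4078 4136) (LT.l 4165 4078 4078 4130)) LT.z2)))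

theorem c11 : chk P t11 1095216660480 18253611008 1022202216448 18253611008 = true := by decide +kernel

theorem b11 {lam : ℝ} (hlam : |(S : ℝ) * lam - ((P.lp : ℝ) - P.ln)| ≤ ((1 : ℕ) : ℝ)) : BoxS lam P 1095216660480 18253611008 1022202216448 18253611008 :=
  chk_sound hlam t11 1095216660480 18253611008 1022202216448 18253611008 (by norm_num) (by norm_num) c11

/-- Part of the subdivision. -/
def t12 : LT := (LT.a (LT.b (LT.l 4205 4066 4096 4125) (LT.a (LT.l 4189 4071 4098 4118) (LT.b (LT.l 4180 4074 4094 4120) (LT.l 4167 4077 4094 4116)))) (LT.b (LT.l 4175 4075 4087 4125) (LT.a (LT.b (LT.l 4165 4078 4089 4120) (LT.l 4152 4082 4089 4116)) (LT.l 4142 4084 4085 4118))))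

theorem c12 : chk P t12 1095216660480 9126805504 1058709438464 9126805504 = true := by decide +kernel

theorem b12 {lam : ℝ} (hlam : |(S : ℝ) * lam - ((P.lp : ℝ) - P.ln)| ≤ ((1 : ℕ) : ℝ)) : BoxS lam P 1095216660480 9126805504 1058709438464 9126805504 :=
  chk_sound hlam t12 1095216660480 9126805504 1058709438464 9126805504 (by norm_num) (by norm_num) c12

/-- Part of the subdivision. -/
def t13 : LT := (LT.a (LT.b (LT.l 4169 4077 4098 4113) (LT.a (LT.l 4160 4079 4099 4109) (LT.l 4152 4082 4097 4109))) (LT.b (LT.l 4154 4081 4094 4113) (LT.a (LT.l 4144 4084 4095 4109) (LT.l 4136 4086 4093 4109))))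

theorem c13 : chk P t13 1095216660480 4563402752 1076963049472 4563402752 = true := by decide +kernel

theorem b13 {lam : ℝ} (hlam : |(S : ℝ) * lam - ((P.lp : ℝ) - P.ln)| ≤ ((1 : ℕ) : ℝ)) : BoxS lam P 1095216660480 4563402752 1076963049472 4563402752 :=
  chk_sound hlam t13 1095216660480 4563402752 1076963049472 4563402752 (by norm_num) (by norm_num) c13

/-- Part of the subdivision. -/
def t14 : LT := (LT.b (LT.a (LT.b (LT.l 4149 4082 4099 4107) (LT.l 4142 4084 4099 4105)) (LT.b (LT.l 4141 4084 4097 4107) (LT.l 4134 4086 4097 4105))) (LT.a (LT.b (LT.l 4134 4086 4099 4103) (LT.a (LT.l 4129 4088 4099 4101) (LT.l 4125 4089 4098 4101))) (LT.b (LT.a (LT.l 4128 4088 4097 4103) (LT.l 4124 4089 4096 4103)) (LT.a (LT.b (LT.l 4123 4089 4097 4101) (LT.l 4119 4090 4097 4100)) (LT.b (LT.l 4119 4090 4096 4101) (LT.l 4115 4091 4096 4100))))))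

theorem c14 : chk P t14 1095216660480 2281701376 1086089854976 4563402752 = true := by decide +kernel

theorem b14 {lam : ℝ} (hlam : |(S : ℝ) * lam - ((P.lp : ℝ) - P.ln)| ≤ ((1 : ℕ) : ℝ)) : BoxS lam P 1095216660480 2281701376 1086089854976 4563402752 :=
  chk_sound hlam t14 1095216660480 2281701376 1086089854976 4563402752 (by norm_num) (by norm_num) c14

/-- Part of the subdivision. -/
def t15 : LT := (LT.b (LT.a (LT.b (LT.l 4134 4087 4095 4107) (LT.l 4126 4088 4095 4105)) (LT.b (LT.l 4125 4089 4093 4107) (LT.l 4118 4091 4093 4105))) (LT.a (LT.b (LT.a (LT.l 4120 4090 4095 4103) (LT.l 4116 4091 4094 4103)) (LT.a (LT.b (LT.l 4115 4091 4095 4101) (LT.l 4111 4092 4095 4100)) (LT.b (LT.l 4110 4092 4094 4101) (LT.l 4106 4093 4094 4100)))) (LT.b (LT.l 4110 4093 4093 4103) (LT.a (LT.b (LT.l 4106 4094 4093 4101) (LT.l 4102 4095 4093 4100)) LT.z2))))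

theorem c15 : chk P t15 1099780063232 2281701376 1086089854976 4563402752 = true := by decide +kernel

theorem b15 {lam : ℝ} (hlam : |(S : ℝ) * lam - ((P.lp : ℝ) - P.ln)| ≤ ((1 : ℕ) : ℝ)) : BoxS lam P 1099780063232 2281701376 1086089854976 4563402752 :=
  chk_sound hlam t15 1099780063232 2281701376 1086089854976 4563402752 (by norm_num) (by norm_num) c15

/-- Part of the subdivision. -/
def t16 : LT := (LT.b (LT.a (LT.b (LT.l 4138 4085 4089 4113) (LT.l 4124 4089 4089 4109)) (LT.b (LT.l 4121 4090 4085 4113) LT.z2)) (LT.a (LT.b (LT.a (LT.b (LT.l 4117 4091 4090 4107) (LT.l 4109 4093 4090 4105)) LT.z2) LT.z2) LT.z2))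

theorem c16 : chk P t16 1104343465984 4563402752 1076963049472 9126805504 = true := by decide +kernel

theorem b16 {lam : ℝ} (hlam : |(S : ℝ) * lam - ((P.lp : ℝ) - P.ln)| ≤ ((1 : ℕ) : ℝ)) : BoxS lam P 1104343465984 4563402752 1076963049472 9126805504 :=
  chk_sound hlam t16 1104343465984 4563402752 1076963049472 9126805504 (by norm_num) (by norm_num) c16

/-- Part of the subdivision. -/
def t17 : LT := (LT.b (LT.a (LT.b (LT.l 4141 4084 4078 4125) LT.z2) LT.z2) LT.z2)

theorem c17 : chk P t17 1113470271488 9126805504 1058709438464 18253611008 = true := by decide +kernel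

theorem b17 {lam : ℝ} (hlam : |(S : ℝ) * lam - ((P.lp : ℝ) - P.ln)| ≤ ((1 : ℕ) : ℝ)) : BoxS lam P 1113470271488 9126805504 1058709438464 18253611008 :=
  chk_sound hlam t17 1113470271488 9126805504 1058709438464 18253611008 (by norm_num) (by norm_num) c17

/-- Part of the subdivision. -/
def t18 : LT := LT.z2

theorem c18 : chk P t18 1131723882496 18253611008 1022202216448 36507222016 = true := by decide +kernel

theorem b18 {lam : ℝ} (hlam : |(S : ℝ) * lam - ((P.lp : ℝ) - P.ln)| ≤ ((1 : ℕ) : ℝ)) : BoxS lam P 1131723882496 18253611008 1022202216448 36507222016 :=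
  chk_sound hlam t18 1131723882496 18253611008 1022202216448 36507222016 (by norm_num) (by norm_num) c18

/-- Part of the subdivision. -/
def t19 : LT := (LT.b (LT.a (LT.b (LT.l 4123 4089 4099 4099) (LT.l 4119 4090 4099 4098)) (LT.b (LT.l 4119 4090 4098 4099) (LT.a (LT.l 4116 4091 4099 4098) (LT.l 4114 4092 4098 4098)))) (LT.a LT.z1 (LT.b (LT.a LT.z1 (LT.b (LT.l 4111 4092 4098 4098) LT.z1)) LT.z1)))

theorem c19 : chk P t19 1095216660480 1140850688 1095216660480 2281701376 = true := by decide +kernel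

theorem b19 {lam : ℝ} (hlam : |(S : ℝ) * lam - ((P.lp : ℝ) - P.ln)| ≤ ((1 : ℕ) : ℝ)) : BoxS lam P 1095216660480 1140850688 1095216660480 2281701376 :=
  chk_sound hlam t19 1095216660480 1140850688 1095216660480 2281701376 (by norm_num) (by norm_num) c19

/-- Part of the subdivision. -/
def t20 : LT := (LT.a (LT.b (LT.l 4115 4091 4097 4099) (LT.a (LT.l 4112 4092 4098 4098) (LT.b (LT.l 4111 4092 4097 4099) (LT.l 4109 4093 4097 4098)))) (LT.b (LT.a (LT.l 4112 4092 4097 4099) (LT.l 4110 4093 4096 4099)) (LT.a (LT.b (LT.l 4109 4093 4097 4099) (LT.l 4107 4093 4097 4098)) (LT.b (LT.l 4107 4093 4096 4099) (LT.l 4105 4094 4096 4098)))))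

theorem c20 : chk P t20 1097498361856 1140850688 1095216660480 1140850688 = true := by decide +kernel

theorem b20 {lam : ℝ} (hlam : |(S : ℝ) * lam - ((P.lp : ℝ) - P.ln)| ≤ ((1 : ℕ) : ℝ)) : BoxS lam P 1097498361856 1140850688 1095216660480 1140850688 :=
  chk_sound hlam t20 1097498361856 1140850688 1095216660480 1140850688 (by norm_num) (by norm_num) c20

/-- Part of the subdivision. -/
def t21 : LT := (LT.b (LT.a (LT.b (LT.l 4109 4093 4098 4098) (LT.l 4107 4093 4098 4097)) (LT.b (LT.l 4107 4093 4097 4098) (LT.a (LT.l 4105 4094 4097 4097) (LT.l 4104 4094 4097 4097)))) (LT.a LT.z1 (LT.b (LT.a LT.z1 (LT.b (LT.l 4102 4094 4097 4097) LT.z1)) LT.z1)))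

theorem c21 : chk P t21 1097498361856 570425344 1097498361856 1140850688 = true := by decide +kernel

theorem b21 {lam : ℝ} (hlam : |(S : ℝ) * lam - ((P.lp : ℝ) - P.ln)| ≤ ((1 : ℕ) : ℝ)) : BoxS lam P 1097498361856 570425344 1097498361856 1140850688 :=
  chk_sound hlam t21 1097498361856 570425344 1097498361856 1140850688 (by norm_num) (by norm_num) c21

/-- Part of the subdivision. -/
def t22 : LT := (LT.a (LT.b (LT.a (LT.l 4105 4094 4097 4098) (LT.l 4104 4094 4096 4098)) (LT.a (LT.b (LT.l 4103 4094 4097 4097) (LT.l 4102 4094 4097 4097)) (LT.b (LT.l 4102 4094 4096 4097) (LT.l 4101 4095 4096 4097)))) (LT.b (LT.a (LT.l 4103 4094 4096 4098) (LT.l 4102 4095 4096 4098)) (LT.a (LT.b (LT.l 4101 4095 4096 4097) (LT.a (LT.l 4101 4095 4096 4097) (LT.l 4100 4095 4096 4097))) (LT.b (LT.l 4100 4095 4096 4097) (LT.a (LT.l 4100 4095 4096 4097) (LT.l 4099 4095 4096 4097))))))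

theorem c22 : chk P t22 1098639212544 570425344 1097498361856 570425344 = true := by decide +kernel

theorem b22 {lam : ℝ} (hlam : |(S : ℝ) * lam - ((P.lp : ℝ) - P.ln)| ≤ ((1 : ℕ) : ℝ)) : BoxS lam P 1098639212544 570425344 1097498361856 570425344 :=
  chk_sound hlam t22 1098639212544 570425344 1097498361856 570425344 (by norm_num) (by norm_num) c22

/-- Part of the subdivision. -/
def t23 : LT := (LT.a (LT.b (LT.a (LT.b (LT.l 4101 4095 4097 4097) (LT.a LT.z1 (LT.l 4100 4095 4097 4096))) (LT.b (LT.a (LT.l 4101 4095 4096 4097) (LT.l 4100 4095 4096 4097)) (LT.a (LT.b (LT.l 4100 4095 4096 4096) (LT.o 4099 4095 4096 4096)) (LT.o 4099 4095 4096 4096)))) (LT.a LT.z1 (LT.o 4098 4096 4096 4096))) (LT.b (LT.a (LT.b (LT.a (LT.b (LT.l 4100 4095 4096 4097) (LT.o 4099 4095 4096 4097)) (LT.b (LT.l 4099 4095 4096 4097) (LT.o 4099 4095 4096 4097))) (LT.o 4098 4095 4096 4096)) (LT.o 4098 4096 4096 4097)) (LT.o 4096 4096 4096 4096)))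

theorem c23 : chk P t23 1098639212544 570425344 1098639212544 570425344 = true := by decide +kernel

theorem b23 {lam : ℝ} (hlam : |(S : ℝ) * lam - ((P.lp : ℝ) - P.ln)| ≤ ((1 : ℕ) : ℝ)) : BoxS lam P 1098639212544 570425344 1098639212544 570425344 :=
  chk_sound hlam t23 1098639212544 570425344 1098639212544 570425344 (by norm_num) (by norm_num) c23

/-- Part of the subdivision. -/
def t24 : LT := (LT.a LT.z1 (LT.b (LT.a LT.z1 (LT.b (LT.a LT.z1 (LT.b (LT.a LT.z1 LT.z2) LT.z1)) LT.z1)) LT.z1))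

theorem c24 : chk P t24 1095216660480 2281701376 1099780063232 2281701376 = true := by decide +kernel

theorem b24 {lam : ℝ} (hlam : |(S : ℝ) * lam - ((P.lp : ℝ) - P.ln)| ≤ ((1 : ℕ) : ℝ)) : BoxS lam P 1095216660480 2281701376 1099780063232 2281701376 :=
  chk_sound hlam t24 1095216660480 2281701376 1099780063232 2281701376 (by norm_num) (by norm_num) c24

/-- Part of the subdivision. -/
def t25 : LT := (LT.b (LT.a (LT.b (LT.a (LT.b (LT.a (LT.l 4108 4093 4095 4099) (LT.l 4105 4094 4095 4099)) (LT.a (LT.b (LT.l 4104 4094 4095 4099) (LT.l 4102 4094 4095 4098)) (LT.b (LT.l 4102 4094 4095 4099) (LT.l 4100 4095 4095 4098)))) (LT.b (LT.l 4102 4094 4094 4099) (LT.a (LT.b (LT.l 4100 4095 4094 4099) LT.z2) LT.z2))) (LT.a (LT.b (LT.a (LT.b (LT.a (LT.l 4101 4095 4096 4098) (LT.l 4100 4095 4095 4098)) (LT.a (LT.b (LT.l 4099 4095 4096 4097) (LT.l 4098 4095 4096 4097)) (LT.b (LT.l 4098 4095 4095 4097) (LT.l 4097 4096 4095 4097)))) (LT.b (LT.l 4098 4095 4095 4098) LT.z2)) (LT.a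 (LT.b (LT.a (LT.o 4097 4096 4096 4097) LT.z2) LT.z2) LT.z2)) LT.z2)) LT.z2) LT.z2)

theorem c25 : chk P t25 1099780063232 2281701376 1095216660480 4563402752 = true := by decide +kernel

theorem b25 {lam : ℝ} (hlam : |(S : ℝ) * lam - ((P.lp : ℝ) - P.ln)| ≤ ((1 : ℕ) : ℝ)) : BoxS lam P 1099780063232 2281701376 1095216660480 4563402752 :=
  chk_sound hlam t25 1099780063232 2281701376 1095216660480 4563402752 (by norm_num) (by norm_num) c25

/-- Part of the subdivision. -/
def t26 : LT := (LT.a LT.z1 LT.z2)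

theorem c26 : chk P t26 1095216660480 4563402752 1104343465984 4563402752 = true := by decide +kernel

theorem b26 {lam : ℝ} (hlam : |(S : ℝ) * lam - ((P.lp : ℝ) - P.ln)| ≤ ((1 : ℕ) : ℝ)) : BoxS lam P 1095216660480 4563402752 1104343465984 4563402752 :=
  chk_sound hlam t26 1095216660480 4563402752 1104343465984 4563402752 (by norm_num) (by norm_num) c26

/-- Part of the subdivision. -/
def t27 : LT := LT.z2

theorem c27 : chk P t27 1104343465984 4563402752 1095216660480 9126805504 = true := by decide +kernel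

theorem b27 {lam : ℝ} (hlam : |(S : ℝ) * lam - ((P.lp : ℝ) - P.ln)| ≤ ((1 : ℕ) : ℝ)) : BoxS lam P 1104343465984 4563402752 1095216660480 9126805504 :=
  chk_sound hlam t27 1104343465984 4563402752 1095216660480 9126805504 (by norm_num) (by norm_num) c27

/-- Part of the subdivision. -/
def t28 : LT := LT.z2

theorem c28 : chk P t28 1095216660480 9126805504 1113470271488 9126805504 = true := by decide +kernel

theorem b28 {lam : ℝ} (hlam : |(S : ℝ) * lam - ((P.lp : ℝ) - P.ln)| ≤ ((1 : ℕ) : ℝ)) : BoxS lam P 1095216660480 9126805504 1113470271488 9126805504 :=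
  chk_sound hlam t28 1095216660480 9126805504 1113470271488 9126805504 (by norm_num) (by norm_num) c28

/-- Part of the subdivision. -/
def t29 : LT := LT.z2

theorem c29 : chk P t29 1113470271488 9126805504 1095216660480 18253611008 = true := by decide +kernel

theorem b29 {lam : ℝ} (hlam : |(S : ℝ) * lam - ((P.lp : ℝ) - P.ln)| ≤ ((1 : ℕ) : ℝ)) : BoxS lam P 1113470271488 9126805504 1095216660480 18253611008 :=
  chk_sound hlam t29 1113470271488 9126805504 1095216660480 18253611008 (by norm_num) (by norm_num) c29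

/-- Part of the subdivision. -/
def t30 : LT := LT.z2

theorem c30 : chk P t30 1095216660480 18253611008 1131723882496 18253611008 = true := by decide +kernel

theorem b30 {lam : ℝ} (hlam : |(S : ℝ) * lam - ((P.lp : ℝ) - P.ln)| ≤ ((1 : ℕ) : ℝ)) : BoxS lam P 1095216660480 18253611008 1131723882496 18253611008 :=
  chk_sound hlam t30 1095216660480 18253611008 1131723882496 18253611008 (by norm_num) (by norm_num) c30

/-- Part of the subdivision. -/
def t31 : LT := LT.z2

theorem c31 : chk P t31 1131723882496 18253611008 1095216660480 36507222016 = true := by decide +kernel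

theorem b31 {lam : ℝ} (hlam : |(S : ℝ) * lam - ((P.lp : ℝ) - P.ln)| ≤ ((1 : ℕ) : ℝ)) : BoxS lam P 1131723882496 18253611008 1095216660480 36507222016 :=
  chk_sound hlam t31 1131723882496 18253611008 1095216660480 36507222016 (by norm_num) (by norm_num) c31

/-- The whole box. -/
theorem box {lam : ℝ} (hlam : |(S : ℝ) * lam - ((P.lp : ℝ) - P.ln)| ≤ ((1 : ℕ) : ℝ)) : BoxS lam P 0 HH 0 HH :=
  (BoxS.sa' (x1 := 584115552256) (h := 292057776128) (by norm_num [HH]) (by norm_num) (b0 hlam) (BoxS.sb' (t1 := 584115552256) (h := 292057776128) (by norm_num [HH]) (by norm_num) (b1 hlam) (BoxS.sa' (x1 := 876173328384) (h := 146028888064) (by norm_num [HH]) (by norm_num) (b2 hlam) (BoxS.sb' (t1 := 876173328384) (h := 146028888064) (by norm_num [HH]) (by norm_num) (b3 hlam) (BoxS.sa' (x1 := 1022202216448) (h := 73014444032) (by norm_num [HH]) (by norm_num) (b4 hlam) (BoxS.sb' (t1 := 1022202216448) (h := 73014444032) (by norm_num [HH]) (by norm_num) (BoxS.sa' (x1 := 1095216660480)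 (h := 36507222016) (by norm_num [HH]) (by norm_num) (b5 hlam) (b6 hlam)) (BoxS.sa' (x1 := 1095216660480) (h := 36507222016) (by norm_num [HH]) (by norm_num) (BoxS.sb' (t1 := 1095216660480) (h := 36507222016) (by norm_num [HH]) (by norm_num) (BoxS.sa' (x1 := 1058709438464) (h := 18253611008) (by norm_num [HH]) (by norm_num) (b7 hlam) (BoxS.sb' (t1 := 1058709438464) (h := 18253611008) (by norm_num [HH]) (by norm_num) (b8 hlam) (b9 hlam))) (b10 hlam)) (BoxS.sb' (t1 := 1095216660480) (h := 36507222016) (by norm_num [HH]) (by norm_num) (BoxS.sa' (x1 := 1131723882496) (h := 18253611008) (by norm_num [HH]) (by norm_num) (BoxS.sb' (t1 := 1058709438464) (h := 18253611008) (by norm_num [HH]) (by norm_num) (b11 hlam) (BoxS.sa' (x1 := 1113470271488) (h := 9126805504) (by norm_num [HH]) (by norm_num) (BoxS.sb' (t1 := 1076963049472) (h := 9126805504) (by norm_num [HH]) (by norm_num) (b12 hlam) (BoxS.sa' (x1 := 1104343465984) (h := 4563402752) (by norm_num [HH]) (by norm_num)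 (BoxS.sb' (t1 := 1086089854976) (h := 4563402752) (by norm_num [HH]) (by norm_num) (b13 hlam) (BoxS.sa' (x1 := 1099780063232) (h := 2281701376) (by norm_num [HH]) (by norm_num) (b14 hlam) (b15 hlam))) (b16 hlam))) (b17 hlam))) (b18 hlam)) (BoxS.sa' (x1 := 1131723882496) (h := 18253611008) (by norm_num [HH]) (by norm_num) (BoxS.sb' (t1 := 1131723882496) (h := 18253611008) (by norm_num [HH]) (by norm_num) (BoxS.sa' (x1 := 1113470271488) (h := 9126805504) (by norm_num [HH]) (by norm_num) (BoxS.sb' (t1 := 1113470271488) (h := 9126805504) (by norm_num [HH]) (by norm_num) (BoxS.sa' (x1 := 1104343465984) (h := 4563402752) (by norm_num [HH]) (by norm_num) (BoxS.sb' (t1 := 1104343465984) (h := 4563402752) (by norm_num [HH]) (by norm_num) (BoxS.sa' (x1 := 1099780063232) (h := 2281701376) (by norm_num [HH]) (by norm_num) (BoxS.sb' (t1 := 1099780063232) (h := 2281701376) (by norm_num [HH]) (by norm_num) (BoxS.sa' (x1 := 1097498361856) (h := 1140850688) (by norm_num [HH])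 (by norm_num) (b19 hlam) (BoxS.sb' (t1 := 1097498361856) (h := 1140850688) (by norm_num [HH]) (by norm_num) (b20 hlam) (BoxS.sa' (x1 := 1098639212544) (h := 570425344) (by norm_num [HH]) (by norm_num) (b21 hlam) (BoxS.sb' (t1 := 1098639212544) (h := 570425344) (by norm_num [HH]) (by norm_num) (b22 hlam) (b23 hlam))))) (b24 hlam)) (b25 hlam)) (b26 hlam)) (b27 hlam)) (b28 hlam)) (b29 hlam)) (b30 hlam)) (b31 hlam))))))))))

end Vale.Agent.P154H.Tm.D17
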