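import Vale.Agent.P154H.Msg

set_option maxRecDepth 100000

/-!
The subdivision for `d = 18`.
-/

namespace Vale.Agent.P154H.Tm.D18

/-- A row. -/
def Ra : Row := Row.mk 0 175158 0 868797 1572468 0 3152844 0 15638346 0 0 28304424 0 1408 0 2793984 0 17354484

/-- A row. -/
def Rb : Row := Row.mk 0 2938663600128 0 14575994929152 26381635289088 0 49605454121904 0 243022565599551 0 0 437430963462144 0 23622320128 0 46875273068544 0 277531811068554
/-- A row. -/
def Q0 : Row := Row.mk 0 0 0 0 0 0 7473408 0 0 0 0 0 0 0 0 0 0 5346279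

/-- A row. -/
def Q1 : Row := Row.mk 0 0 0 0 0 0 0 0 296549376 0 0 0 0 0 0 0 0 173207163

/-- A row. -/
def Q2 : Row := Row.mk 0 0 0 0 0 0 0 0 0 0 1024 0 0 0 0 0 0 2859

/-- A row. -/
def Q3 : Row := Row.mk 0 358723584 0 1779296256 3220414464 0 6019391040 0 29427946784 0 0 52730125696 0 2883584 0 0 0 34343090661

/-- A row. -/
def Q4 : Row := Row.mk 0 44840448 0 222412032 402551808 0 741765368 0 3610290156 0 0 6453790112 0 360448 0 0 0 4263998937

/-- A row. -/
def Q5 : Row := Row.mk 0 89680896 0 444824064 805103616 0 1453651680 0 7060219192 0 0 12578827776 0 720896 0 0 0 8462047251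

/-- A row. -/
def Q6 : Row := Row.mk 0 358723584 0 1779296256 3220414464 0 5672843136 0 27452529568 0 0 48750297600 0 2883584 0 0 0 33386701269

/-- A row. -/
def Q7 : Row := Row.mk 0 358723584 0 1779296256 3220414464 0 5530354624 0 26538376896 0 0 46900943296 0 2883584 0 0 0 33018963471

/-- A row. -/
def Q8 : Row := Row.mk 0 358723584 0 1779296256 3220414464 0 5343034496 0 25469834624 0 0 44730884992 0 2883584 0 0 0 32550989787

/-- A row. -/
def Q9 : Row := Row.mk 0 358723584 0 1779296256 3220414464 0 5105683200 0 24203029408 0 0 42209300800 0 2883584 0 0 0 31798605099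

/-- A row. -/
def Q10 : Row := Row.mk 0 358723584 0 1779296256 3220414464 0 4869284160 0 22791277600 0 0 39310026816 0 2883584 0 0 0 31303457745

/-- A row. -/
def Q11 : Row := Row.mk 0 358723584 0 1779296256 3220414464 0 4577344704 0 21120733856 0 0 36020751680 0 2883584 0 0 0 30263133999

/-- A row. -/
def Q12 : Row := Row.mk 0 358723584 0 1779296256 3220414464 0 4258996224 0 19382580160 0 0 32353927040 0 2883584 0 0 0 29844134781

/-- A row. -/
def Q13 : Row := Row.mk 0 179361792 0 889648128 1610207232 0 1958039584 0 8689690064 0 0 14175457920 0 1441792 0 0 0 14386631949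

/-- A row. -/
def Q14 : Row := Row.mk 0 358723584 0 1779296256 3220414464 0 3572551680 0 15554334592 0 0 24093601856 0 2883584 0 0 0 29437967223

/-- A row. -/
def Q15 : Row := Row.mk 0 358723584 0 1779296256 3220414464 0 3282697408 0 13925017888 0 0 19438497408 0 2883584 0 0 0 32451904893


/-- The data. -/
def P : Pb where
  lp := 0
  ln := 16984137793402060
  ab := 3298534883328
  r1 := [Ra, Rb]
  r2 := [Q0, Q1, Q2, Q3, Q4, Q5, Q6, Q7, Q8, Q9, Q10, Q11, Q12, Q13, Q14, Q15]

/-- Part of the subdivision. -/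
def t0 : LT := (LT.b (LT.a (LT.l 4699 3782 4206 4206) (LT.l 4699 3782 4206 4206)) (LT.a LT.z1 (LT.b (LT.a LT.z1 (LT.b (LT.l 4695 3786 4206 4204) LT.z1)) LT.z1)))

theorem c0 : chk P t0 0 292057776128 0 584115552256 = true := by decide +kernel

theorem b0 {lam : ℝ} (hlam : |(S : ℝ) * lam - ((P.lp : ℝ) - P.ln)| ≤ ((1 : ℕ) : ℝ)) : BoxS lam P 0 292057776128 0 584115552256 :=
  chk_sound hlam t0 0 292057776128 0 584115552256 (by norm_num) (by norm_num) c0

/-- Part of the subdivision. -/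
def t1 : LT := (LT.a (LT.b (LT.a (LT.l 4696 3786 4204 4206) (LT.l 4683 3799 4198 4206)) (LT.a (LT.l 4696 3786 4204 4206) (LT.l 4683 3799 4198 4206))) (LT.b (LT.a (LT.l 4636 3844 4174 4206) (LT.b (LT.l 4475 3956 4100 4206) (LT.l 4475 3956 4100 4206))) (LT.a (LT.b (LT.l 4636 3844 4174 4206) (LT.l 4635 3844 4174 4206)) (LT.b (LT.a (LT.l 4536 3919 4127 4206) (LT.l 4390 3999 4064 4206)) (LT.a (LT.l 4535 3920 4127 4206) (LT.b (LT.l 4389 3999 4064 4206) (LT.l 4388 4000 4064 4205)))))))

theorem c1 : chk P t1 584115552256 292057776128 0 292057776128 = true := by decide +kernel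

theorem b1 {lam : ℝ} (hlam : |(S : ℝ) * lam - ((P.lp : ℝ) - P.ln)| ≤ ((1 : ℕ) : ℝ)) : BoxS lam P 584115552256 292057776128 0 292057776128 :=
  chk_sound hlam t1 584115552256 292057776128 0 292057776128 (by norm_num) (by norm_num) c1

/-- Part of the subdivision. -/
def t2 : LT := (LT.b (LT.a (LT.b (LT.l 4693 3789 4204 4204) (LT.l 4680 3802 4204 4198)) (LT.b (LT.l 4680 3802 4198 4204) (LT.l 4666 3815 4198 4198))) (LT.a LT.z1 (LT.b (LT.a LT.z1 (LT.b (LT.l 4629 3850 4194 4183) LT.z1)) LT.z1)))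

theorem c2 : chk P t2 584115552256 146028888064 584115552256 292057776128 = true := by decide +kernel

theorem b2 {lam : ℝ} (hlam : |(S : ℝ) * lam - ((P.lp : ℝ) - P.ln)| ≤ ((1 : ℕ) : ℝ)) : BoxS lam P 584115552256 146028888064 584115552256 292057776128 :=
  chk_sound hlam t2 584115552256 146028888064 584115552256 292057776128 (by norm_num) (by norm_num) c2

/-- Part of the subdivision. -/
def t3 : LT := (LT.a (LT.b (LT.a (LT.l 4650 3831 4183 4204) (LT.l 4608 3867 4162 4204)) (LT.a (LT.l 4636 3843 4183 4198) (LT.b (LT.l 4599 3874 4162 4200) (LT.l 4585 3884 4162 4194)))) (LT.b (LT.a (LT.b (LT.l 4533 3921 4127 4205) (LT.l 4529 3923 4127 4203)) (LT.b (LT.a (LT.l 4433 3978 4083 4205) (LT.l 4329 4024 4041 4205)) (LT.a (LT.l 4429 3980 4083 4203) (LT.l 4324 4026 4041 4203)))) (LT.a (LT.b (LT.a (LT.l 4546 3913 4138 4200) (LT.l 4493 3946 4114 4200)) (LT.a (LT.l 4531 3923 4138 4194) (LT.l 4477 3955 4114 4194))) (LT.b (LT.a (LT.l 4420 3985 4083 4200) (LT.l 4313 4031 4041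 4200)) (LT.a (LT.l 4402 3994 4083 4194) (LT.l 4292 4039 4041 4194))))))

theorem c3 : chk P t3 876173328384 146028888064 584115552256 146028888064 = true := by decide +kernel

theorem b3 {lam : ℝ} (hlam : |(S : ℝ) * lam - ((P.lp : ℝ) - P.ln)| ≤ ((1 : ℕ) : ℝ)) : BoxS lam P 876173328384 146028888064 584115552256 146028888064 :=
  chk_sound hlam t3 876173328384 146028888064 584115552256 146028888064 (by norm_num) (by norm_num) c3

/-- Part of the subdivision. -/
def t4 : LT := (LT.b (LT.a (LT.b (LT.l 4604 3870 4183 4183) (LT.a LT.z1 (LT.b (LT.l 4564 3900 4179 4169) LT.z1))) (LT.b (LT.a (LT.l 4573 3893 4169 4183) (LT.l 4543 3914 4155 4183)) (LT.a (LT.b (LT.l 4541 3916 4169 4169) (LT.l 4509 3936 4169 4155)) (LT.b (LT.l 4509 3936 4155 4169) (LT.a (LT.l 4485 3950 4159 4155) (LT.l 4466 3961 4151 4155)))))) (LT.a LT.z1 (LT.b (LT.a LT.z1 (LT.b (LT.a LT.z1 (LT.b (LT.l 4433 3978 4151 4142) LT.z1)) LT.z1)) LT.z1)))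

theorem c4 : chk P t4 876173328384 73014444032 876173328384 146028888064 = true := by decide +kernel

theorem b4 {lam : ℝ} (hlam : |(S : ℝ) * lam - ((P.lp : ℝ) - P.ln)| ≤ ((1 : ℕ) : ℝ)) : BoxS lam P 876173328384 73014444032 876173328384 146028888064 :=
  chk_sound hlam t4 876173328384 73014444032 876173328384 146028888064 (by norm_num) (by norm_num) c4

/-- Part of the subdivision. -/
def t5 : LT := (LT.b (LT.a (LT.b (LT.l 4511 3935 4138 4186) (LT.l 4492 3946 4138 4179)) (LT.b (LT.l 4456 3967 4114 4186) (LT.l 4435 3977 4114 4179))) (LT.a (LT.b (LT.a (LT.l 4478 3954 4142 4169) (LT.l 4453 3968 4132 4169)) (LT.a (LT.b (LT.l 4453 3968 4142 4159) (LT.l 4433 3978 4142 4151)) (LT.b (LT.l 4427 3981 4132 4159) (LT.l 4406 3992 4132 4151)))) (LT.b (LT.a (LT.l 4423 3983 4121 4169) (LT.l 4388 4000 4107 4169)) (LT.a (LT.b (LT.l 4396 3996 4121 4159) (LT.l 4373 4006 4121 4151)) (LT.b (LT.l 4359 4013 4107 4159) (LT.l 4335 4022 4107 4151))))))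

theorem c5 : chk P t5 1022202216448 36507222016 876173328384 73014444032 = true := by decide +kernel

theorem b5 {lam : ℝ} (hlam : |(S : ℝ) * lam - ((P.lp : ℝ) - P.ln)| ≤ ((1 : ℕ) : ℝ)) : BoxS lam P 1022202216448 36507222016 876173328384 73014444032 :=
  chk_sound hlam t5 1022202216448 36507222016 876173328384 73014444032 (by norm_num) (by norm_num) c5

/-- Part of the subdivision. -/
def t6 : LT := (LT.b (LT.a (LT.b (LT.l 4378 4004 4083 4186) (LT.l 4354 4015 4083 4179)) (LT.b (LT.l 4263 4049 4041 4186) (LT.a (LT.l 4269 4047 4053 4179) LT.z2))) (LT.a (LT.b (LT.a (LT.l 4346 4018 4092 4169) (LT.l 4294 4038 4074 4169)) (LT.a (LT.b (LT.l 4314 4030 4092 4159) (LT.l 4289 4040 4092 4151)) (LT.b (LT.l 4260 4050 4074 4159) (LT.l 4232 4059 4074 4151)))) (LT.b (LT.a (LT.l 4231 4059 4053 4169) LT.z2) (LT.a (LT.b (LT.l 4194 4070 4053 4159) LT.z2) LT.z2))))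

theorem c6 : chk P t6 1095216660480 36507222016 876173328384 73014444032 = true := by decide +kernel

theorem b6 {lam : ℝ} (hlam : |(S : ℝ) * lam - ((P.lp : ℝ) - P.ln)| ≤ ((1 : ℕ) : ℝ)) : BoxS lam P 1095216660480 36507222016 876173328384 73014444032 :=
  chk_sound hlam t6 1095216660480 36507222016 876173328384 73014444032 (by norm_num) (by norm_num) c6

/-- Part of the subdivision. -/
def t7 : LT := (LT.b (LT.a (LT.b (LT.a (LT.l 4415 3987 4145 4142) (LT.l 4402 3993 4140 4142)) (LT.a LT.z1 (LT.l 4374 4006 4140 4132))) (LT.b (LT.a (LT.l 4388 4000 4135 4142) (LT.l 4373 4007 4130 4142)) (LT.a (LT.l 4359 4012 4135 4132) (LT.l 4343 4019 4130 4132)))) (LT.a LT.z1 (LT.b (LT.a LT.z1 (LT.l 4307 4033 4130 4121)) LT.z1)))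

theorem c7 : chk P t7 1022202216448 18253611008 1022202216448 36507222016 = true := by decide +kernel

theorem b7 {lam : ℝ} (hlam : |(S : ℝ) * lam - ((P.lp : ℝ) - P.ln)| ≤ ((1 : ℕ) : ℝ)) : BoxS lam P 1022202216448 18253611008 1022202216448 36507222016 :=
  chk_sound hlam t7 1022202216448 18253611008 1022202216448 36507222016 (by norm_num) (by norm_num) c7

/-- Part of the subdivision. -/
def t8 : LT := (LT.a (LT.b (LT.a (LT.l 4356 4014 4124 4142) (LT.l 4338 4021 4117 4142)) (LT.a (LT.l 4325 4026 4124 4132) (LT.l 4306 4033 4117 4132))) (LT.b (LT.l 4307 4033 4107 4142) (LT.a (LT.l 4285 4041 4111 4132) (LT.l 4262 4049 4104 4132))))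

theorem c8 : chk P t8 1058709438464 18253611008 1022202216448 18253611008 = true := by decide +kernel

theorem b8 {lam : ℝ} (hlam : |(S : ℝ) * lam - ((P.lp : ℝ) - P.ln)| ≤ ((1 : ℕ) : ℝ)) : BoxS lam P 1058709438464 18253611008 1022202216448 18253611008 :=
  chk_sound hlam t8 1058709438464 18253611008 1022202216448 18253611008 (by norm_num) (by norm_num) c8

/-- Part of the subdivision. -/
def t9 : LT := (LT.a (LT.b (LT.a (LT.l 4288 4040 4124 4121) (LT.b (LT.l 4278 4043 4117 4124) (LT.l 4257 4051 4117 4117))) (LT.a LT.z1 (LT.b (LT.l 4234 4058 4117 4111) LT.z1))) (LT.b (LT.a (LT.b (LT.l 4256 4051 4111 4124) (LT.l 4234 4058 4111 4117)) (LT.b (LT.l 4232 4059 4104 4124) (LT.a (LT.l 4216 4064 4105 4117) (LT.l 4202 4068 4102 4117)))) (LT.a (LT.b (LT.a (LT.l 4217 4064 4112 4111) (LT.l 4204 4067 4109 4111)) (LT.a LT.z1 (LT.b (LT.l 4185 4073 4109 4105) LT.z1))) (LT.b (LT.a (LT.b (LT.l 4198 4069 4105 4112) (LT.l 4185 4073 4105 4109)) (LT.b (LT.l 4184 4073 4102 4112) (LT.l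 4171 4077 4102 4109))) (LT.a (LT.b (LT.l 4171 4077 4105 4105) (LT.a LT.z1 (LT.l 4153 4082 4104 4102))) (LT.b (LT.a (LT.l 4160 4080 4103 4105) (LT.l 4153 4082 4101 4105)) (LT.a (LT.b (LT.l 4150 4083 4103 4103) (LT.l 4142 4085 4103 4101)) (LT.b (LT.l 4142 4085 4101 4103) (LT.l 4135 4087 4101 4101)))))))))

theorem c9 : chk P t9 1058709438464 18253611008 1058709438464 18253611008 = true := by decide +kernel

theorem b9 {lam : ℝ} (hlam : |(S : ℝ) * lam - ((P.lp : ℝ) - P.ln)| ≤ ((1 : ℕ) : ℝ)) : BoxS lam P 1058709438464 18253611008 1058709438464 18253611008 :=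
  chk_sound hlam t9 1058709438464 18253611008 1058709438464 18253611008 (by norm_num) (by norm_num) c9

/-- Part of the subdivision. -/
def t10 : LT := (LT.a LT.z1 (LT.b (LT.a LT.z1 (LT.b (LT.a LT.z1 (LT.b (LT.a LT.z1 (LT.b (LT.a LT.z1 (LT.b (LT.a LT.z1 (LT.l 4125 4089 4100 4099)) LT.z1)) LT.z1)) LT.z1)) LT.z1)) LT.z1))

theorem c10 : chk P t10 1022202216448 36507222016 1095216660480 36507222016 = true := by decide +kernel

theorem b10 {lam : ℝ} (hlam : |(S : ℝ) * lam - ((P.lp : ℝ) - P.ln)| ≤ ((1 : ℕ) : ℝ)) : BoxS lam P 1022202216448 36507222016 1095216660480 36507222016 :=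
  chk_sound hlam t10 1022202216448 36507222016 1095216660480 36507222016 (by norm_num) (by norm_num) c10

/-- Part of the subdivision. -/
def t11 : LT := (LT.a (LT.b (LT.a (LT.l 4272 4046 4096 4142) (LT.l 4245 4055 4087 4142)) (LT.a (LT.b (LT.l 4246 4054 4096 4135) (LT.l 4226 4061 4096 4130)) (LT.b (LT.l 4218 4063 4087 4135) (LT.l 4197 4069 4087 4130)))) (LT.b (LT.a (LT.l 4215 4064 4078 4142) (LT.l 4182 4074 4069 4142)) (LT.a (LT.b (LT.l 4187 4072 4078 4135) (LT.l 4165 4078 4078 4130)) LT.z2)))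

theorem c11 : chk P t11 1095216660480 18253611008 1022202216448 18253611008 = true := by decide +kernel

theorem b11 {lam : ℝ} (hlam : |(S : ℝ) * lam - ((P.lp : ℝ) - P.ln)| ≤ ((1 : ℕ) : ℝ)) : BoxS lam P 1095216660480 18253611008 1022202216448 18253611008 :=
  chk_sound hlam t11 1095216660480 18253611008 1022202216448 18253611008 (by norm_num) (by norm_num) c11

/-- Part of the subdivision. -/
def t12 : LT := (LT.a (LT.b (LT.l 4205 4067 4096 4124) (LT.a (LT.l 4189 4072 4098 4117) (LT.b (LT.l 4180 4074 4094 4119) (LT.l 4167 4078 4094 4116)))) (LT.b (LT.l 4175 4076 4087 4124) (LT.a (LT.b (LT.l 4165 4079 4090 4119) (LT.l 4152 4082 4090 4116)) (LT.l 4142 4085 4085 4117))))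

theorem c12 : chk P t12 1095216660480 9126805504 1058709438464 9126805504 = true := by decide +kernel

theorem b12 {lam : ℝ} (hlam : |(S : ℝ) * lam - ((P.lp : ℝ) - P.ln)| ≤ ((1 : ℕ) : ℝ)) : BoxS lam P 1095216660480 9126805504 1058709438464 9126805504 :=
  chk_sound hlam t12 1095216660480 9126805504 1058709438464 9126805504 (by norm_num) (by norm_num) c12

/-- Part of the subdivision. -/
def t13 : LT := (LT.a (LT.b (LT.l 4169 4077 4098 4112) (LT.a (LT.l 4160 4080 4099 4109) (LT.l 4152 4082 4097 4109))) (LT.b (LT.l 4154 4081 4094 4112) (LT.a (LT.l 4144 4084 4095 4109) (LT.l 4136 4086 4093 4109))))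

theorem c13 : chk P t13 1095216660480 4563402752 1076963049472 4563402752 = true := by decide +kernel

theorem b13 {lam : ℝ} (hlam : |(S : ℝ) * lam - ((P.lp : ℝ) - P.ln)| ≤ ((1 : ℕ) : ℝ)) : BoxS lam P 1095216660480 4563402752 1076963049472 4563402752 :=
  chk_sound hlam t13 1095216660480 4563402752 1076963049472 4563402752 (by norm_num) (by norm_num) c13

/-- Part of the subdivision. -/
def t14 : LT := (LT.b (LT.a (LT.b (LT.l 4149 4083 4099 4106) (LT.l 4142 4085 4099 4104)) (LT.b (LT.l 4141 4085 4097 4106) (LT.l 4134 4087 4097 4104))) (LT.a (LT.b (LT.l 4134 4087 4099 4103) (LT.a (LT.l 4129 4088 4099 4101) (LT.l 4125 4089 4098 4101))) (LT.b (LT.a (LT.l 4128 4088 4097 4103) (LT.l 4124 4089 4096 4103)) (LT.a (LT.b (LT.l 4123 4090 4097 4101) (LT.l 4119 4091 4097 4100)) (LT.b (LT.l 4119 4091 4096 4101) (LT.l 4115 4092 4096 4100))))))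

theorem c14 : chk P t14 1095216660480 2281701376 1086089854976 4563402752 = true := by decide +kernel

theorem b14 {lam : ℝ} (hlam : |(S : ℝ) * lam - ((P.lp : ℝ) - P.ln)| ≤ ((1 : ℕ) : ℝ)) : BoxS lam P 1095216660480 2281701376 1086089854976 4563402752 :=
  chk_sound hlam t14 1095216660480 2281701376 1086089854976 4563402752 (by norm_num) (by norm_num) c14

/-- Part of the subdivision. -/
def t15 : LT := (LT.b (LT.a (LT.b (LT.l 4134 4087 4095 4106) (LT.l 4126 4089 4095 4104)) (LT.b (LT.l 4125 4089 4093 4106) (LT.l 4118 4091 4093 4104))) (LT.a (LT.b (LT.a (LT.l 4120 4090 4095 4103) (LT.l 4116 4091 4094 4103)) (LT.a (LT.b (LT.l 4115 4092 4095 4101) (LT.l 4111 4093 4095 4100)) (LT.b (LT.l 4110 4093 4094 4101) (LT.l 4106 4094 4094 4100)))) (LT.b (LT.l 4110 4093 4093 4103) (LT.a (LT.b (LT.l 4106 4094 4093 4101) (LT.l 4102 4095 4093 4100)) LT.z2))))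

theorem c15 : chk P t15 1099780063232 2281701376 1086089854976 4563402752 = true := by decide +kernel

theorem b15 {lam : ℝ} (hlam : |(S : ℝ) * lam - ((P.lp : ℝ) - P.ln)| ≤ ((1 : ℕ) : ℝ)) : BoxS lam P 1099780063232 2281701376 1086089854976 4563402752 :=
  chk_sound hlam t15 1099780063232 2281701376 1086089854976 4563402752 (by norm_num) (by norm_num) c15

/-- Part of the subdivision. -/
def t16 : LT := (LT.b (LT.a (LT.b (LT.l 4138 4086 4090 4112) (LT.l 4124 4089 4090 4109)) (LT.b (LT.l 4121 4090 4085 4112) LT.z2)) (LT.a (LT.b (LT.a (LT.b (LT.l 4117 4091 4091 4106) (LT.l 4109 4093 4091 4104)) LT.z2) LT.z2) LT.z2))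

theorem c16 : chk P t16 1104343465984 4563402752 1076963049472 9126805504 = true := by decide +kernel

theorem b16 {lam : ℝ} (hlam : |(S : ℝ) * lam - ((P.lp : ℝ) - P.ln)| ≤ ((1 : ℕ) : ℝ)) : BoxS lam P 1104343465984 4563402752 1076963049472 9126805504 :=
  chk_sound hlam t16 1104343465984 4563402752 1076963049472 9126805504 (by norm_num) (by norm_num) c16

/-- Part of the subdivision. -/
def t17 : LT := (LT.b (LT.a (LT.b (LT.l 4141 4085 4078 4124) LT.z2) LT.z2) LT.z2)

theorem c17 : chk P t17 1113470271488 9126805504 1058709438464 18253611008 = true := by decide +kernel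

theorem b17 {lam : ℝ} (hlam : |(S : ℝ) * lam - ((P.lp : ℝ) - P.ln)| ≤ ((1 : ℕ) : ℝ)) : BoxS lam P 1113470271488 9126805504 1058709438464 18253611008 :=
  chk_sound hlam t17 1113470271488 9126805504 1058709438464 18253611008 (by norm_num) (by norm_num) c17

/-- Part of the subdivision. -/
def t18 : LT := LT.z2

theorem c18 : chk P t18 1131723882496 18253611008 1022202216448 36507222016 = true := by decide +kernel

theorem b18 {lam : ℝ} (hlam : |(S : ℝ) * lam - ((P.lp : ℝ) - P.ln)| ≤ ((1 : ℕ) : ℝ)) : BoxS lam P 1131723882496 18253611008 1022202216448 36507222016 :=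
  chk_sound hlam t18 1131723882496 18253611008 1022202216448 36507222016 (by norm_num) (by norm_num) c18

/-- Part of the subdivision. -/
def t19 : LT := (LT.b (LT.a (LT.b (LT.l 4123 4090 4099 4099) (LT.l 4119 4090 4099 4098)) (LT.b (LT.l 4119 4090 4098 4099) (LT.a (LT.l 4116 4091 4098 4098) (LT.l 4114 4092 4098 4098)))) (LT.a LT.z1 (LT.b (LT.a LT.z1 (LT.b (LT.l 4111 4092 4098 4098) LT.z1)) LT.z1)))

theorem c19 : chk P t19 1095216660480 1140850688 1095216660480 2281701376 = true := by decide +kernel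

theorem b19 {lam : ℝ} (hlam : |(S : ℝ) * lam - ((P.lp : ℝ) - P.ln)| ≤ ((1 : ℕ) : ℝ)) : BoxS lam P 1095216660480 1140850688 1095216660480 2281701376 :=
  chk_sound hlam t19 1095216660480 1140850688 1095216660480 2281701376 (by norm_num) (by norm_num) c19

/-- Part of the subdivision. -/
def t20 : LT := (LT.a (LT.b (LT.l 4115 4091 4097 4099) (LT.a (LT.l 4112 4092 4098 4098) (LT.b (LT.l 4111 4092 4097 4098) (LT.l 4109 4093 4097 4098)))) (LT.b (LT.a (LT.l 4112 4092 4097 4099) (LT.l 4110 4093 4096 4099)) (LT.a (LT.b (LT.l 4109 4093 4097 4098) (LT.l 4107 4093 4097 4098)) (LT.b (LT.l 4107 4093 4096 4098) (LT.l 4105 4094 4096 4098)))))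

theorem c20 : chk P t20 1097498361856 1140850688 1095216660480 1140850688 = true := by decide +kernel

theorem b20 {lam : ℝ} (hlam : |(S : ℝ) * lam - ((P.lp : ℝ) - P.ln)| ≤ ((1 : ℕ) : ℝ)) : BoxS lam P 1097498361856 1140850688 1095216660480 1140850688 :=
  chk_sound hlam t20 1097498361856 1140850688 1095216660480 1140850688 (by norm_num) (by norm_num) c20

/-- Part of the subdivision. -/
def t21 : LT := (LT.b (LT.a (LT.b (LT.l 4109 4093 4098 4098) (LT.l 4107 4093 4098 4097)) (LT.b (LT.l 4107 4093 4097 4098) (LT.a (LT.l 4105 4094 4097 4097) (LT.l 4104 4094 4097 4097)))) (LT.a LT.z1 (LT.b (LT.a LT.z1 (LT.b (LT.l 4102 4094 4097 4097) LT.z1)) LT.z1)))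

theorem c21 : chk P t21 1097498361856 570425344 1097498361856 1140850688 = true := by decide +kernel

theorem b21 {lam : ℝ} (hlam : |(S : ℝ) * lam - ((P.lp : ℝ) - P.ln)| ≤ ((1 : ℕ) : ℝ)) : BoxS lam P 1097498361856 570425344 1097498361856 1140850688 :=
  chk_sound hlam t21 1097498361856 570425344 1097498361856 1140850688 (by norm_num) (by norm_num) c21

/-- Part of the subdivision. -/
def t22 : LT := (LT.a (LT.b (LT.a (LT.l 4105 4094 4097 4098) (LT.l 4104 4094 4096 4098)) (LT.a (LT.b (LT.l 4103 4094 4097 4097) (LT.l 4102 4094 4097 4097)) (LT.b (LT.l 4102 4094 4096 4097) (LT.l 4101 4095 4096 4097)))) (LT.b (LT.a (LT.l 4103 4094 4096 4098) (LT.l 4102 4095 4096 4098)) (LT.a (LT.b (LT.l 4101 4095 4096 4097) (LT.a (LT.l 4101 4095 4096 4097) (LT.l 4100 4095 4096 4097))) (LT.b (LT.l 4100 4095 4096 4097) (LT.a (LT.l 4100 4095 4096 4097) (LT.l 4099 4095 4096 4097))))))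

theorem c22 : chk P t22 1098639212544 570425344 1097498361856 570425344 = true := by decide +kernel

theorem b22 {lam : ℝ} (hlam : |(S : ℝ) * lam - ((P.lp : ℝ) - P.ln)| ≤ ((1 : ℕ) : ℝ)) : BoxS lam P 1098639212544 570425344 1097498361856 570425344 :=
  chk_sound hlam t22 1098639212544 570425344 1097498361856 570425344 (by norm_num) (by norm_num) c22

/-- Part of the subdivision. -/
def t23 : LT := (LT.a (LT.b (LT.a (LT.b (LT.l 4101 4095 4097 4097) (LT.a LT.z1 (LT.l 4100 4095 4097 4096))) (LT.b (LT.a (LT.l 4101 4095 4096 4097) (LT.b (LT.l 4100 4095 4096 4097) (LT.l 4100 4095 4096 4097))) (LT.a (LT.b (LT.l 4100 4095 4096 4096) (LT.o 4099 4095 4096 4096)) (LT.o 4099 4095 4096 4096)))) (LT.a LT.z1 (LT.o 4098 4096 4096 4096))) (LT.b (LT.a (LT.b (LT.a (LT.b (LT.l 4100 4095 4096 4097) (LT.o 4099 4095 4096 4097)) (LT.b (LT.l 4099 4095 4096 4097) (LT.o 4099 4095 4096 4097))) (LT.o 4098 4095 4096 4096)) (LT.o 4098 4096 4096 4097)) (LT.o 4096 4096 4096 4096)))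

theorem c23 : chk P t23 1098639212544 570425344 1098639212544 570425344 = true := by decide +kernel

theorem b23 {lam : ℝ} (hlam : |(S : ℝ) * lam - ((P.lp : ℝ) - P.ln)| ≤ ((1 : ℕ) : ℝ)) : BoxS lam P 1098639212544 570425344 1098639212544 570425344 :=
  chk_sound hlam t23 1098639212544 570425344 1098639212544 570425344 (by norm_num) (by norm_num) c23

/-- Part of the subdivision. -/
def t24 : LT := (LT.a LT.z1 (LT.b (LT.a LT.z1 (LT.b (LT.a LT.z1 (LT.b (LT.a LT.z1 LT.z2) LT.z1)) LT.z1)) LT.z1))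

theorem c24 : chk P t24 1095216660480 2281701376 1099780063232 2281701376 = true := by decide +kernel

theorem b24 {lam : ℝ} (hlam : |(S : ℝ) * lam - ((P.lp : ℝ) - P.ln)| ≤ ((1 : ℕ) : ℝ)) : BoxS lam P 1095216660480 2281701376 1099780063232 2281701376 :=
  chk_sound hlam t24 1095216660480 2281701376 1099780063232 2281701376 (by norm_num) (by norm_num) c24

/-- Part of the subdivision. -/
def t25 : LT := (LT.b (LT.a (LT.b (LT.a (LT.b (LT.a (LT.l 4108 4093 4096 4099) (LT.l 4105 4094 4095 4099)) (LT.a (LT.b (LT.l 4104 4094 4096 4098) (LT.l 4102 4094 4096 4098)) (LT.b (LT.l 4102 4094 4095 4098) (LT.l 4100 4095 4095 4098)))) (LT.b (LT.l 4102 4095 4094 4099) (LT.a (LT.b (LT.l 4100 4095 4095 4098) LT.z2) LT.z2))) (LT.a (LT.b (LT.a (LT.b (LT.a (LT.l 4101 4095 4096 4098) (LT.l 4100 4095 4095 4098)) (LT.a (LT.b (LT.l 4099 4095 4096 4097) (LT.a (LT.l 4098 4095 4096 4097) (LT.l 4098 4096 4096 4097))) (LT.b (LT.l 4098 4095 4095 4097) (LT.l 4097 4096 4095 4097)))) (LT.b (LT.l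 4098 4095 4095 4098) LT.z2)) (LT.a (LT.b (LT.a (LT.o 4097 4096 4096 4097) LT.z2) LT.z2) LT.z2)) LT.z2)) LT.z2) LT.z2)

theorem c25 : chk P t25 1099780063232 2281701376 1095216660480 4563402752 = true := by decide +kernel

theorem b25 {lam : ℝ} (hlam : |(S : ℝ) * lam - ((P.lp : ℝ) - P.ln)| ≤ ((1 : ℕ) : ℝ)) : BoxS lam P 1099780063232 2281701376 1095216660480 4563402752 :=
  chk_sound hlam t25 1099780063232 2281701376 1095216660480 4563402752 (by norm_num) (by norm_num) c25

/-- Part of the subdivision. -/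
def t26 : LT := (LT.a LT.z1 LT.z2)

theorem c26 : chk P t26 1095216660480 4563402752 1104343465984 4563402752 = true := by decide +kernel

theorem b26 {lam : ℝ} (hlam : |(S : ℝ) * lam - ((P.lp : ℝ) - P.ln)| ≤ ((1 : ℕ) : ℝ)) : BoxS lam P 1095216660480 4563402752 1104343465984 4563402752 :=
  chk_sound hlam t26 1095216660480 4563402752 1104343465984 4563402752 (by norm_num) (by norm_num) c26

/-- Part of the subdivision. -/
def t27 : LT := LT.z2

theorem c27 : chk P t27 1104343465984 4563402752 1095216660480 9126805504 = true := by decide +kernel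

theorem b27 {lam : ℝ} (hlam : |(S : ℝ) * lam - ((P.lp : ℝ) - P.ln)| ≤ ((1 : ℕ) : ℝ)) : BoxS lam P 1104343465984 4563402752 1095216660480 9126805504 :=
  chk_sound hlam t27 1104343465984 4563402752 1095216660480 9126805504 (by norm_num) (by norm_num) c27

/-- Part of the subdivision. -/
def t28 : LT := LT.z2

theorem c28 : chk P t28 1095216660480 9126805504 1113470271488 9126805504 = true := by decide +kernel

theorem b28 {lam : ℝ} (hlam : |(S : ℝ) * lam - ((P.lp : ℝ) - P.ln)| ≤ ((1 : ℕ) : ℝ)) : BoxS lam P 1095216660480 9126805504 1113470271488 9126805504 :=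
  chk_sound hlam t28 1095216660480 9126805504 1113470271488 9126805504 (by norm_num) (by norm_num) c28

/-- Part of the subdivision. -/
def t29 : LT := LT.z2

theorem c29 : chk P t29 1113470271488 9126805504 1095216660480 18253611008 = true := by decide +kernel

theorem b29 {lam : ℝ} (hlam : |(S : ℝ) * lam - ((P.lp : ℝ) - P.ln)| ≤ ((1 : ℕ) : ℝ)) : BoxS lam P 1113470271488 9126805504 1095216660480 18253611008 :=
  chk_sound hlam t29 1113470271488 9126805504 1095216660480 18253611008 (by norm_num) (by norm_num) c29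

/-- Part of the subdivision. -/
def t30 : LT := LT.z2

theorem c30 : chk P t30 1095216660480 18253611008 1131723882496 18253611008 = true := by decide +kernel

theorem b30 {lam : ℝ} (hlam : |(S : ℝ) * lam - ((P.lp : ℝ) - P.ln)| ≤ ((1 : ℕ) : ℝ)) : BoxS lam P 1095216660480 18253611008 1131723882496 18253611008 :=
  chk_sound hlam t30 1095216660480 18253611008 1131723882496 18253611008 (by norm_num) (by norm_num) c30

/-- Part of the subdivision. -/
def t31 : LT := LT.z2

theorem c31 : chk P t31 1131723882496 18253611008 1095216660480 36507222016 = true := by decide +kernel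

theorem b31 {lam : ℝ} (hlam : |(S : ℝ) * lam - ((P.lp : ℝ) - P.ln)| ≤ ((1 : ℕ) : ℝ)) : BoxS lam P 1131723882496 18253611008 1095216660480 36507222016 :=
  chk_sound hlam t31 1131723882496 18253611008 1095216660480 36507222016 (by norm_num) (by norm_num) c31

/-- The whole box. -/
theorem box {lam : ℝ} (hlam : |(S : ℝ) * lam - ((P.lp : ℝ) - P.ln)| ≤ ((1 : ℕ) : ℝ)) : BoxS lam P 0 HH 0 HH :=
  (BoxS.sa' (x1 := 584115552256) (h := 292057776128) (by norm_num [HH]) (by norm_num) (b0 hlam) (BoxS.sb' (t1 := 584115552256) (h := 292057776128) (by norm_num [HH]) (by norm_num) (b1 hlam) (BoxS.sa' (x1 := 876173328384) (h := 146028888064) (by norm_num [HH]) (by norm_num) (b2 hlam) (BoxS.sb' (t1 := 876173328384) (h := 146028888064) (by norm_num [HH]) (by norm_num) (b3 hlam) (BoxS.sa' (x1 := 1022202216448) (h := 73014444032) (by norm_num [HH]) (by norm_num) (b4 hlam) (BoxS.sb' (t1 := 1022202216448) (h := 73014444032) (by norm_num [HH]) (by norm_num) (BoxS.sa' (x1 := 1095216660480)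 (h := 36507222016) (by norm_num [HH]) (by norm_num) (b5 hlam) (b6 hlam)) (BoxS.sa' (x1 := 1095216660480) (h := 36507222016) (by norm_num [HH]) (by norm_num) (BoxS.sb' (t1 := 1095216660480) (h := 36507222016) (by norm_num [HH]) (by norm_num) (BoxS.sa' (x1 := 1058709438464) (h := 18253611008) (by norm_num [HH]) (by norm_num) (b7 hlam) (BoxS.sb' (t1 := 1058709438464) (h := 18253611008) (by norm_num [HH]) (by norm_num) (b8 hlam) (b9 hlam))) (b10 hlam)) (BoxS.sb' (t1 := 1095216660480) (h := 36507222016) (by norm_num [HH]) (by norm_num) (BoxS.sa' (x1 := 1131723882496) (h := 18253611008) (by norm_num [HH]) (by norm_num) (BoxS.sb' (t1 := 1058709438464) (h := 18253611008) (by norm_num [HH]) (by norm_num) (b11 hlam) (BoxS.sa' (x1 := 1113470271488) (h := 9126805504) (by norm_num [HH]) (by norm_num) (BoxS.sb' (t1 := 1076963049472) (h := 9126805504) (by norm_num [HH]) (by norm_num) (b12 hlam) (BoxS.sa' (x1 := 1104343465984) (h := 4563402752) (by norm_num [HH]) (by norm_num)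 (BoxS.sb' (t1 := 1086089854976) (h := 4563402752) (by norm_num [HH]) (by norm_num) (b13 hlam) (BoxS.sa' (x1 := 1099780063232) (h := 2281701376) (by norm_num [HH]) (by norm_num) (b14 hlam) (b15 hlam))) (b16 hlam))) (b17 hlam))) (b18 hlam)) (BoxS.sa' (x1 := 1131723882496) (h := 18253611008) (by norm_num [HH]) (by norm_num) (BoxS.sb' (t1 := 1131723882496) (h := 18253611008) (by norm_num [HH]) (by norm_num) (BoxS.sa' (x1 := 1113470271488) (h := 9126805504) (by norm_num [HH]) (by norm_num) (BoxS.sb' (t1 := 1113470271488) (h := 9126805504) (by norm_num [HH]) (by norm_num) (BoxS.sa' (x1 := 1104343465984) (h := 4563402752) (by norm_num [HH]) (by norm_num) (BoxS.sb' (t1 := 1104343465984) (h := 4563402752) (by norm_num [HH]) (by norm_num) (BoxS.sa' (x1 := 1099780063232) (h := 2281701376) (by norm_num [HH]) (by norm_num) (BoxS.sb' (t1 := 1099780063232) (h := 2281701376) (by norm_num [HH]) (by norm_num) (BoxS.sa' (x1 := 1097498361856) (h := 1140850688) (by norm_num [HH])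 (by norm_num) (b19 hlam) (BoxS.sb' (t1 := 1097498361856) (h := 1140850688) (by norm_num [HH]) (by norm_num) (b20 hlam) (BoxS.sa' (x1 := 1098639212544) (h := 570425344) (by norm_num [HH]) (by norm_num) (b21 hlam) (BoxS.sb' (t1 := 1098639212544) (h := 570425344) (by norm_num [HH]) (by norm_num) (b22 hlam) (b23 hlam))))) (b24 hlam)) (b25 hlam)) (b26 hlam)) (b27 hlam)) (b28 hlam)) (b29 hlam)) (b30 hlam)) (b31 hlam))))))))))

end Vale.Agent.P154H.Tm.D18
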