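import Vale.Agent.P154H.Msg

set_option maxRecDepth 100000

/-!
The subdivision for `d = 19`.
-/

namespace Vale.Agent.P154H.Tm.D19

/-- A row. -/
def Ra : Row := Row.mk 0 525474 0 2606391 4717404 0 9984006 0 49521429 0 0 89630676 0 4000 0 9368064 0 55126008

/-- A row. -/
def Rb : Row := Row.mk 0 8815990800384 0 43727984787456 79144905867264 0 156498096851856 0 766127199671973 0 0 1378532479967232 0 67108864000 0 157170033229824 0 879278885161614
/-- A row. -/
def Q0 : Row := Row.mk 0 0 0 0 0 0 7473408 0 0 0 0 0 0 0 0 0 0 5346279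

/-- A row. -/
def Q1 : Row := Row.mk 0 0 0 0 0 0 0 0 296549376 0 0 0 0 0 0 0 0 173207163

/-- A row. -/
def Q2 : Row := Row.mk 0 0 0 0 0 0 0 0 0 0 1024 0 0 0 0 0 0 2871

/-- A row. -/
def Q3 : Row := Row.mk 0 1076170752 0 5337888768 9661243392 0 18984183168 0 92700063840 0 0 165948530112 0 8192000 0 0 0 109028874843

/-- A row. -/
def Q4 : Row := Row.mk 0 269042688 0 1334472192 2415310848 0 4659430272 0 22693624536 0 0 40507088064 0 2048000 0 0 0 27048247893

/-- A row. -/
def Q5 : Row := Row.mk 0 1076170752 0 5337888768 9661243392 0 18235392192 0 88383942720 0 0 157302182976 0 8192000 0 0 0 106818374619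

/-- A row. -/
def Q6 : Row := Row.mk 0 33630336 0 166809024 301913856 0 557578446 0 2673544299 0 0 4738788660 0 256000 0 0 0 3300988941

/-- A row. -/
def Q7 : Row := Row.mk 0 1076170752 0 5337888768 9661243392 0 17158958208 0 82286928000 0 0 144909426816 0 8192000 0 0 0 104164534269

/-- A row. -/
def Q8 : Row := Row.mk 0 1076170752 0 5337888768 9661243392 0 16495605696 0 78310672800 0 0 136978609536 0 8192000 0 0 0 102095022177

/-- A row. -/
def Q9 : Row := Row.mk 0 538085376 0 2668944384 4830621696 0 7845849696 0 36851702640 0 0 63871207008 0 4096000 0 0 0 49862683449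

/-- A row. -/
def Q10 : Row := Row.mk 0 1076170752 0 5337888768 9661243392 0 14793001728 0 68554841184 0 0 117144421632 0 8192000 0 0 0 97877385621

/-- A row. -/
def Q11 : Row := Row.mk 0 1076170752 0 5337888768 9661243392 0 13759385856 0 62563041024 0 0 105191520768 0 8192000 0 0 0 94629584619

/-- A row. -/
def Q12 : Row := Row.mk 0 538085376 0 2668944384 4830621696 0 6248202144 0 28172202432 0 0 46004090016 0 4096000 0 0 0 46464736599

/-- A row. -/
def Q13 : Row := Row.mk 0 1076170752 0 5337888768 9661243392 0 11412891456 0 49851278592 0 0 77873354688 0 8192000 0 0 0 92830125231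

/-- A row. -/
def Q14 : Row := Row.mk 0 538085376 0 2668944384 4830621696 0 5194065408 0 22160253600 0 0 31114753248 0 4096000 0 0 0 51288297003


/-- The data. -/
def P : Pb where
  lp := 0
  ln := 16531145817158253
  ab := 3298534883328
  r1 := [Ra, Rb]
  r2 := [Q0, Q1, Q2, Q3, Q4, Q5, Q6, Q7, Q8, Q9, Q10, Q11, Q12, Q13, Q14]

/-- Part of the subdivision. -/
def t0 : LT := (LT.b (LT.a (LT.l 4699 3793 4203 4203) (LT.l 4699 3794 4203 4203)) (LT.a LT.z1 (LT.b (LT.a LT.z1 (LT.b (LT.l 4695 3797 4203 4202) LT.z1)) LT.z1)))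

theorem c0 : chk P t0 0 292057776128 0 584115552256 = true := by decide +kernel

theorem b0 {lam : ℝ} (hlam : |(S : ℝ) * lam - ((P.lp : ℝ) - P.ln)| ≤ ((1 : ℕ) : ℝ)) : BoxS lam P 0 292057776128 0 584115552256 :=
  chk_sound hlam t0 0 292057776128 0 584115552256 (by norm_num) (by norm_num) c0

/-- Part of the subdivision. -/
def t1 : LT := (LT.a (LT.b (LT.a (LT.l 4696 3797 4202 4203) (LT.l 4683 3809 4195 4203)) (LT.a (LT.l 4696 3797 4202 4203) (LT.l 4683 3810 4195 4203))) (LT.b (LT.a (LT.l 4636 3852 4172 4203) (LT.b (LT.l 4475 3960 4100 4203) (LT.l 4475 3960 4100 4203))) (LT.a (LT.b (LT.l 4636 3852 4172 4203) (LT.l 4635 3853 4172 4203)) (LT.b (LT.a (LT.l 4536 3925 4126 4203) (LT.l 4390 4002 4065 4203)) (LT.a (LT.l 4535 3925 4126 4203) (LT.b (LT.l 4389 4002 4065 4203) (LT.l 4388 4002 4065 4203)))))))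

theorem c1 : chk P t1 584115552256 292057776128 0 292057776128 = true := by decide +kernel

theorem b1 {lam : ℝ} (hlam : |(S : ℝ) * lam - ((P.lp : ℝ) - P.ln)| ≤ ((1 : ℕ) : ℝ)) : BoxS lam P 584115552256 292057776128 0 292057776128 :=
  chk_sound hlam t1 584115552256 292057776128 0 292057776128 (by norm_num) (by norm_num) c1

/-- Part of the subdivision. -/
def t2 : LT := (LT.b (LT.a (LT.b (LT.l 4693 3800 4202 4202) (LT.l 4680 3813 4202 4195)) (LT.b (LT.l 4680 3813 4195 4202) (LT.l 4666 3825 4195 4195))) (LT.a LT.z1 (LT.b (LT.a LT.z1 (LT.b (LT.l 4629 3858 4192 4181) LT.z1)) LT.z1)))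

theorem c2 : chk P t2 584115552256 146028888064 584115552256 292057776128 = true := by decide +kernel

theorem b2 {lam : ℝ} (hlam : |(S : ℝ) * lam - ((P.lp : ℝ) - P.ln)| ≤ ((1 : ℕ) : ℝ)) : BoxS lam P 584115552256 146028888064 584115552256 292057776128 :=
  chk_sound hlam t2 584115552256 146028888064 584115552256 292057776128 (by norm_num) (by norm_num) c2

/-- Part of the subdivision. -/
def t3 : LT := (LT.a (LT.b (LT.a (LT.l 4650 3840 4181 4202) (LT.l 4608 3874 4161 4202)) (LT.a (LT.l 4636 3852 4181 4195) (LT.b (LT.l 4599 3881 4161 4198) (LT.l 4585 3891 4161 4192)))) (LT.b (LT.a (LT.b (LT.l 4533 3926 4126 4202) (LT.l 4529 3929 4126 4201)) (LT.b (LT.a (LT.l 4433 3982 4083 4202) (LT.l 4329 4026 4043 4202)) (LT.a (LT.l 4429 3984 4083 4201) (LT.l 4324 4028 4043 4201)))) (LT.a (LT.b (LT.a (LT.l 4546 3918 4137 4198) (LT.l 4493 3950 4114 4198)) (LT.a (LT.l 4531 3928 4137 4192) (LT.l 4477 3959 4114 4192))) (LT.b (LT.a (LT.l 4420 3988 4083 4198) (LT.l 4313 4032 4043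 4198)) (LT.a (LT.l 4402 3997 4083 4192) (LT.l 4292 4040 4043 4192))))))

theorem c3 : chk P t3 876173328384 146028888064 584115552256 146028888064 = true := by decide +kernel

theorem b3 {lam : ℝ} (hlam : |(S : ℝ) * lam - ((P.lp : ℝ) - P.ln)| ≤ ((1 : ℕ) : ℝ)) : BoxS lam P 876173328384 146028888064 584115552256 146028888064 :=
  chk_sound hlam t3 876173328384 146028888064 584115552256 146028888064 (by norm_num) (by norm_num) c3

/-- Part of the subdivision. -/
def t4 : LT := (LT.b (LT.a (LT.b (LT.l 4604 3877 4181 4181) (LT.a LT.z1 (LT.b (LT.l 4564 3906 4177 4167) LT.z1))) (LT.b (LT.a (LT.l 4573 3900 4167 4181) (LT.l 4543 3920 4154 4181)) (LT.a (LT.b (LT.l 4541 3922 4167 4167) (LT.l 4509 3941 4167 4154)) (LT.b (LT.l 4509 3941 4154 4167) (LT.a (LT.l 4485 3955 4157 4154) (LT.b (LT.l 4475 3960 4150 4157) (LT.l 4456 3970 4150 4150))))))) (LT.a LT.z1 (LT.b (LT.a LT.z1 (LT.b (LT.a LT.z1 (LT.b (LT.l 4433 3982 4150 4141) LT.z1)) LT.z1)) LT.z1)))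

theorem c4 : chk P t4 876173328384 73014444032 876173328384 146028888064 = true := by decide +kernel

theorem b4 {lam : ℝ} (hlam : |(S : ℝ) * lam - ((P.lp : ℝ) - P.ln)| ≤ ((1 : ℕ) : ℝ)) : BoxS lam P 876173328384 73014444032 876173328384 146028888064 :=
  chk_sound hlam t4 876173328384 73014444032 876173328384 146028888064 (by norm_num) (by norm_num) c4

/-- Part of the subdivision. -/
def t5 : LT := (LT.b (LT.a (LT.b (LT.l 4511 3940 4137 4184) (LT.l 4492 3951 4137 4177)) (LT.b (LT.l 4456 3970 4114 4184) (LT.l 4435 3981 4114 4177))) (LT.a (LT.b (LT.a (LT.l 4478 3959 4141 4167) (LT.l 4453 3972 4131 4167)) (LT.a (LT.b (LT.l 4453 3972 4141 4157) (LT.l 4433 3982 4141 4150)) (LT.b (LT.l 4427 3985 4131 4157) (LT.l 4406 3995 4131 4150)))) (LT.b (LT.a (LT.l 4423 3987 4120 4167) (LT.l 4388 4003 4107 4167)) (LT.a (LT.b (LT.l 4396 3999 4120 4157) (LT.l 4373 4009 4120 4150)) (LT.b (LT.l 4359 4015 4107 4157) (LT.l 4335 4024 4107 4150))))))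

theorem c5 : chk P t5 1022202216448 36507222016 876173328384 73014444032 = true := by decide +kernel

theorem b5 {lam : ℝ} (hlam : |(S : ℝ) * lam - ((P.lp : ℝ) - P.ln)| ≤ ((1 : ℕ) : ℝ)) : BoxS lam P 1022202216448 36507222016 876173328384 73014444032 :=
  chk_sound hlam t5 1022202216448 36507222016 876173328384 73014444032 (by norm_num) (by norm_num) c5

/-- Part of the subdivision. -/
def t6 : LT := (LT.b (LT.a (LT.b (LT.l 4378 4007 4083 4184) (LT.l 4354 4017 4083 4177)) (LT.b (LT.l 4263 4050 4043 4184) (LT.a (LT.l 4269 4048 4054 4177) LT.z2))) (LT.a (LT.b (LT.a (LT.l 4346 4020 4092 4167) (LT.l 4294 4039 4074 4167)) (LT.a (LT.b (LT.l 4314 4032 4092 4157) (LT.l 4289 4041 4092 4150)) (LT.b (LT.l 4260 4051 4074 4157) (LT.l 4232 4060 4074 4150)))) (LT.b (LT.a (LT.l 4231 4060 4054 4167) LT.z2) (LT.a (LT.b (LT.l 4194 4071 4054 4157) LT.z2) LT.z2))))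

theorem c6 : chk P t6 1095216660480 36507222016 876173328384 73014444032 = true := by decide +kernel

theorem b6 {lam : ℝ} (hlam : |(S : ℝ) * lam - ((P.lp : ℝ) - P.ln)| ≤ ((1 : ℕ) : ℝ)) : BoxS lam P 1095216660480 36507222016 876173328384 73014444032 :=
  chk_sound hlam t6 1095216660480 36507222016 876173328384 73014444032 (by norm_num) (by norm_num) c6

/-- Part of the subdivision. -/
def t7 : LT := (LT.b (LT.a (LT.b (LT.a (LT.l 4415 3990 4144 4141) (LT.l 4402 3996 4139 4141)) (LT.a LT.z1 (LT.l 4374 4009 4139 4131))) (LT.b (LT.a (LT.l 4388 4003 4134 4141) (LT.l 4373 4009 4129 4141)) (LT.l 4351 4018 4131 4131))) (LT.a LT.z1 (LT.b (LT.a LT.z1 (LT.l 4307 4035 4129 4120)) LT.z1)))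

theorem c7 : chk P t7 1022202216448 18253611008 1022202216448 36507222016 = true := by decide +kernel

theorem b7 {lam : ℝ} (hlam : |(S : ℝ) * lam - ((P.lp : ℝ) - P.ln)| ≤ ((1 : ℕ) : ℝ)) : BoxS lam P 1022202216448 18253611008 1022202216448 36507222016 :=
  chk_sound hlam t7 1022202216448 18253611008 1022202216448 36507222016 (by norm_num) (by norm_num) c7

/-- Part of the subdivision. -/
def t8 : LT := (LT.a (LT.b (LT.l 4347 4020 4120 4141) (LT.a (LT.l 4325 4028 4123 4131) (LT.l 4306 4035 4117 4131))) (LT.b (LT.l 4307 4035 4107 4141) (LT.a (LT.l 4285 4043 4110 4131) (LT.l 4262 4050 4103 4131))))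

theorem c8 : chk P t8 1058709438464 18253611008 1022202216448 18253611008 = true := by decide +kernel

theorem b8 {lam : ℝ} (hlam : |(S : ℝ) * lam - ((P.lp : ℝ) - P.ln)| ≤ ((1 : ℕ) : ℝ)) : BoxS lam P 1058709438464 18253611008 1022202216448 18253611008 :=
  chk_sound hlam t8 1058709438464 18253611008 1022202216448 18253611008 (by norm_num) (by norm_num) c8

/-- Part of the subdivision. -/
def t9 : LT := (LT.a (LT.b (LT.a (LT.l 4288 4041 4123 4120) (LT.b (LT.l 4278 4045 4117 4123) (LT.l 4257 4052 4117 4117))) (LT.a LT.z1 (LT.b (LT.l 4234 4059 4117 4110) LT.z1))) (LT.b (LT.a (LT.b (LT.l 4256 4052 4110 4123) (LT.l 4234 4059 4110 4117)) (LT.b (LT.l 4232 4060 4103 4123) (LT.a (LT.l 4216 4065 4105 4117) (LT.l 4202 4069 4101 4117)))) (LT.a (LT.b (LT.a (LT.l 4217 4064 4112 4110) (LT.l 4204 4068 4109 4110)) (LT.a LT.z1 (LT.b (LT.l 4185 4074 4109 4105) LT.z1))) (LT.b (LT.a (LT.b (LT.l 4198 4070 4105 4112) (LT.l 4185 4074 4105 4109)) (LT.b (LT.l 4184 4074 4101 4112) (LT.l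 4171 4077 4101 4109))) (LT.a (LT.b (LT.l 4171 4077 4105 4105) (LT.a LT.z1 (LT.l 4153 4082 4104 4101))) (LT.b (LT.a (LT.l 4160 4080 4102 4105) (LT.l 4153 4082 4101 4105)) (LT.a (LT.b (LT.l 4150 4083 4102 4102) (LT.l 4142 4085 4102 4101)) (LT.b (LT.l 4142 4085 4101 4102) (LT.l 4135 4087 4101 4101)))))))))

theorem c9 : chk P t9 1058709438464 18253611008 1058709438464 18253611008 = true := by decide +kernel

theorem b9 {lam : ℝ} (hlam : |(S : ℝ) * lam - ((P.lp : ℝ) - P.ln)| ≤ ((1 : ℕ) : ℝ)) : BoxS lam P 1058709438464 18253611008 1058709438464 18253611008 :=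
  chk_sound hlam t9 1058709438464 18253611008 1058709438464 18253611008 (by norm_num) (by norm_num) c9

/-- Part of the subdivision. -/
def t10 : LT := (LT.a LT.z1 (LT.b (LT.a LT.z1 (LT.b (LT.a LT.z1 (LT.b (LT.a LT.z1 (LT.b (LT.a LT.z1 (LT.b (LT.a LT.z1 (LT.l 4125 4089 4100 4099)) LT.z1)) LT.z1)) LT.z1)) LT.z1)) LT.z1))

theorem c10 : chk P t10 1022202216448 36507222016 1095216660480 36507222016 = true := by decide +kernel

theorem b10 {lam : ℝ} (hlam : |(S : ℝ) * lam - ((P.lp : ℝ) - P.ln)| ≤ ((1 : ℕ) : ℝ)) : BoxS lam P 1022202216448 36507222016 1095216660480 36507222016 :=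
  chk_sound hlam t10 1022202216448 36507222016 1095216660480 36507222016 (by norm_num) (by norm_num) c10

/-- Part of the subdivision. -/
def t11 : LT := (LT.a (LT.b (LT.a (LT.l 4272 4047 4096 4141) (LT.l 4245 4056 4088 4141)) (LT.a (LT.b (LT.l 4246 4056 4096 4134) (LT.l 4226 4062 4096 4129)) (LT.b (LT.l 4218 4064 4088 4134) (LT.l 4197 4070 4088 4129)))) (LT.b (LT.a (LT.l 4215 4065 4079 4141) (LT.l 4182 4074 4070 4141)) (LT.a (LT.b (LT.l 4187 4073 4079 4134) (LT.l 4165 4079 4079 4129)) LT.z2)))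

theorem c11 : chk P t11 1095216660480 18253611008 1022202216448 18253611008 = true := by decide +kernel

theorem b11 {lam : ℝ} (hlam : |(S : ℝ) * lam - ((P.lp : ℝ) - P.ln)| ≤ ((1 : ℕ) : ℝ)) : BoxS lam P 1095216660480 18253611008 1022202216448 18253611008 :=
  chk_sound hlam t11 1095216660480 18253611008 1022202216448 18253611008 (by norm_num) (by norm_num) c11

/-- Part of the subdivision. -/
def t12 : LT := (LT.a (LT.b (LT.l 4205 4068 4096 4123) (LT.a (LT.l 4189 4073 4098 4117) (LT.b (LT.l 4180 4075 4094 4118) (LT.l 4167 4078 4094 4115)))) (LT.b (LT.l 4175 4076 4088 4123) (LT.a (LT.b (LT.l 4165 4079 4090 4118) (LT.l 4152 4082 4090 4115)) (LT.l 4142 4085 4086 4117))))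

theorem c12 : chk P t12 1095216660480 9126805504 1058709438464 9126805504 = true := by decide +kernel

theorem b12 {lam : ℝ} (hlam : |(S : ℝ) * lam - ((P.lp : ℝ) - P.ln)| ≤ ((1 : ℕ) : ℝ)) : BoxS lam P 1095216660480 9126805504 1058709438464 9126805504 :=
  chk_sound hlam t12 1095216660480 9126805504 1058709438464 9126805504 (by norm_num) (by norm_num) c12

/-- Part of the subdivision. -/
def t13 : LT := (LT.a (LT.b (LT.l 4169 4078 4098 4112) (LT.a (LT.l 4160 4080 4099 4109) (LT.l 4152 4082 4097 4109))) (LT.b (LT.l 4154 4082 4094 4112) (LT.a (LT.l 4144 4084 4095 4109) (LT.l 4136 4086 4093 4109))))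

theorem c13 : chk P t13 1095216660480 4563402752 1076963049472 4563402752 = true := by decide +kernel

theorem b13 {lam : ℝ} (hlam : |(S : ℝ) * lam - ((P.lp : ℝ) - P.ln)| ≤ ((1 : ℕ) : ℝ)) : BoxS lam P 1095216660480 4563402752 1076963049472 4563402752 :=
  chk_sound hlam t13 1095216660480 4563402752 1076963049472 4563402752 (by norm_num) (by norm_num) c13

/-- Part of the subdivision. -/
def t14 : LT := (LT.b (LT.a (LT.b (LT.l 4149 4083 4099 4106) (LT.l 4142 4085 4099 4104)) (LT.b (LT.l 4141 4085 4097 4106) (LT.l 4134 4087 4097 4104))) (LT.a (LT.b (LT.l 4134 4087 4099 4102) (LT.a (LT.l 4129 4088 4099 4101) (LT.l 4125 4089 4098 4101))) (LT.b (LT.a (LT.l 4128 4088 4097 4102) (LT.l 4124 4089 4096 4102)) (LT.a (LT.b (LT.l 4123 4090 4097 4101) (LT.l 4119 4091 4097 4100)) (LT.b (LT.l 4119 4091 4096 4101) (LT.l 4115 4092 4096 4100))))))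

theorem c14 : chk P t14 1095216660480 2281701376 1086089854976 4563402752 = true := by decide +kernel

theorem b14 {lam : ℝ} (hlam : |(S : ℝ) * lam - ((P.lp : ℝ) - P.ln)| ≤ ((1 : ℕ) : ℝ)) : BoxS lam P 1095216660480 2281701376 1086089854976 4563402752 :=
  chk_sound hlam t14 1095216660480 2281701376 1086089854976 4563402752 (by norm_num) (by norm_num) c14

/-- Part of the subdivision. -/
def t15 : LT := (LT.b (LT.a (LT.b (LT.l 4134 4087 4095 4106) (LT.l 4126 4089 4095 4104)) (LT.b (LT.l 4125 4089 4093 4106) (LT.l 4118 4091 4093 4104))) (LT.a (LT.b (LT.a (LT.l 4120 4090 4095 4102) (LT.l 4116 4091 4094 4102)) (LT.a (LT.b (LT.l 4115 4092 4095 4101) (LT.l 4111 4093 4095 4100)) (LT.b (LT.l 4110 4093 4094 4101) (LT.l 4106 4094 4094 4100)))) (LT.b (LT.l 4110 4093 4093 4102) (LT.a (LT.b (LT.l 4106 4094 4093 4101) (LT.l 4102 4095 4093 4100)) LT.z2))))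

theorem c15 : chk P t15 1099780063232 2281701376 1086089854976 4563402752 = true := by decide +kernel

theorem b15 {lam : ℝ} (hlam : |(S : ℝ) * lam - ((P.lp : ℝ) - P.ln)| ≤ ((1 : ℕ) : ℝ)) : BoxS lam P 1099780063232 2281701376 1086089854976 4563402752 :=
  chk_sound hlam t15 1099780063232 2281701376 1086089854976 4563402752 (by norm_num) (by norm_num) c15

/-- Part of the subdivision. -/
def t16 : LT := (LT.b (LT.a (LT.b (LT.l 4138 4086 4090 4112) (LT.l 4124 4089 4090 4109)) (LT.b (LT.l 4121 4090 4086 4112) LT.z2)) (LT.a (LT.b (LT.a (LT.b (LT.l 4117 4091 4091 4106) (LT.l 4109 4093 4091 4104)) LT.z2) LT.z2) LT.z2))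

theorem c16 : chk P t16 1104343465984 4563402752 1076963049472 9126805504 = true := by decide +kernel

theorem b16 {lam : ℝ} (hlam : |(S : ℝ) * lam - ((P.lp : ℝ) - P.ln)| ≤ ((1 : ℕ) : ℝ)) : BoxS lam P 1104343465984 4563402752 1076963049472 9126805504 :=
  chk_sound hlam t16 1104343465984 4563402752 1076963049472 9126805504 (by norm_num) (by norm_num) c16

/-- Part of the subdivision. -/
def t17 : LT := (LT.b (LT.a (LT.b (LT.l 4141 4085 4079 4123) LT.z2) LT.z2) LT.z2)

theorem c17 : chk P t17 1113470271488 9126805504 1058709438464 18253611008 = true := by decide +kernel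

theorem b17 {lam : ℝ} (hlam : |(S : ℝ) * lam - ((P.lp : ℝ) - P.ln)| ≤ ((1 : ℕ) : ℝ)) : BoxS lam P 1113470271488 9126805504 1058709438464 18253611008 :=
  chk_sound hlam t17 1113470271488 9126805504 1058709438464 18253611008 (by norm_num) (by norm_num) c17

/-- Part of the subdivision. -/
def t18 : LT := LT.z2

theorem c18 : chk P t18 1131723882496 18253611008 1022202216448 36507222016 = true := by decide +kernel

theorem b18 {lam : ℝ} (hlam : |(S : ℝ) * lam - ((P.lp : ℝ) - P.ln)| ≤ ((1 : ℕ) : ℝ)) : BoxS lam P 1131723882496 18253611008 1022202216448 36507222016 :=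
  chk_sound hlam t18 1131723882496 18253611008 1022202216448 36507222016 (by norm_num) (by norm_num) c18

/-- Part of the subdivision. -/
def t19 : LT := (LT.b (LT.a (LT.b (LT.l 4123 4090 4099 4099) (LT.l 4119 4091 4099 4098)) (LT.b (LT.l 4119 4091 4098 4099) (LT.a (LT.l 4116 4091 4098 4098) (LT.l 4114 4092 4098 4098)))) (LT.a LT.z1 (LT.b (LT.a LT.z1 (LT.b (LT.l 4111 4093 4098 4097) LT.z1)) LT.z1)))

theorem c19 : chk P t19 1095216660480 1140850688 1095216660480 2281701376 = true := by decide +kernel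

theorem b19 {lam : ℝ} (hlam : |(S : ℝ) * lam - ((P.lp : ℝ) - P.ln)| ≤ ((1 : ℕ) : ℝ)) : BoxS lam P 1095216660480 1140850688 1095216660480 2281701376 :=
  chk_sound hlam t19 1095216660480 1140850688 1095216660480 2281701376 (by norm_num) (by norm_num) c19

/-- Part of the subdivision. -/
def t20 : LT := (LT.a (LT.b (LT.l 4115 4092 4097 4099) (LT.a (LT.l 4112 4092 4097 4098) (LT.b (LT.l 4111 4093 4097 4098) (LT.l 4109 4093 4097 4098)))) (LT.b (LT.a (LT.l 4112 4092 4097 4099) (LT.l 4110 4093 4096 4099)) (LT.a (LT.b (LT.l 4109 4093 4097 4098) (LT.l 4107 4094 4097 4098)) (LT.b (LT.l 4107 4094 4096 4098) (LT.l 4105 4094 4096 4098)))))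

theorem c20 : chk P t20 1097498361856 1140850688 1095216660480 1140850688 = true := by decide +kernel

theorem b20 {lam : ℝ} (hlam : |(S : ℝ) * lam - ((P.lp : ℝ) - P.ln)| ≤ ((1 : ℕ) : ℝ)) : BoxS lam P 1097498361856 1140850688 1095216660480 1140850688 :=
  chk_sound hlam t20 1097498361856 1140850688 1095216660480 1140850688 (by norm_num) (by norm_num) c20

/-- Part of the subdivision. -/
def t21 : LT := (LT.b (LT.a (LT.b (LT.l 4109 4093 4097 4097) (LT.l 4107 4094 4097 4097)) (LT.b (LT.l 4107 4094 4097 4097) (LT.a (LT.l 4105 4094 4097 4097) (LT.l 4104 4094 4097 4097)))) (LT.a LT.z1 (LT.b (LT.a LT.z1 (LT.b (LT.l 4102 4095 4097 4097) LT.z1)) LT.z1)))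

theorem c21 : chk P t21 1097498361856 570425344 1097498361856 1140850688 = true := by decide +kernel

theorem b21 {lam : ℝ} (hlam : |(S : ℝ) * lam - ((P.lp : ℝ) - P.ln)| ≤ ((1 : ℕ) : ℝ)) : BoxS lam P 1097498361856 570425344 1097498361856 1140850688 :=
  chk_sound hlam t21 1097498361856 570425344 1097498361856 1140850688 (by norm_num) (by norm_num) c21

/-- Part of the subdivision. -/
def t22 : LT := (LT.a (LT.b (LT.a (LT.l 4105 4094 4097 4097) (LT.l 4104 4094 4096 4097)) (LT.a (LT.b (LT.l 4103 4094 4097 4097) (LT.l 4102 4095 4097 4097)) (LT.b (LT.l 4102 4095 4096 4097) (LT.l 4101 4095 4096 4097)))) (LT.b (LT.a (LT.l 4103 4094 4096 4097) (LT.l 4102 4095 4096 4097)) (LT.a (LT.b (LT.l 4101 4095 4096 4097) (LT.a (LT.l 4101 4095 4096 4097) (LT.l 4100 4095 4096 4097))) (LT.b (LT.l 4100 4095 4096 4097) (LT.a (LT.l 4100 4095 4096 4097) (LT.l 4099 4095 4096 4097))))))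

theorem c22 : chk P t22 1098639212544 570425344 1097498361856 570425344 = true := by decide +kernel

theorem b22 {lam : ℝ} (hlam : |(S : ℝ) * lam - ((P.lp : ℝ) - P.ln)| ≤ ((1 : ℕ) : ℝ)) : BoxS lam P 1098639212544 570425344 1097498361856 570425344 :=
  chk_sound hlam t22 1098639212544 570425344 1097498361856 570425344 (by norm_num) (by norm_num) c22

/-- Part of the subdivision. -/
def t23 : LT := (LT.a (LT.b (LT.a (LT.b (LT.l 4101 4095 4097 4097) (LT.a LT.z1 (LT.l 4100 4095 4097 4096))) (LT.b (LT.a (LT.l 4101 4095 4096 4097) (LT.b (LT.l 4100 4095 4096 4097) (LT.l 4100 4095 4096 4097))) (LT.a (LT.b (LT.l 4100 4095 4096 4096) (LT.o 4099 4095 4096 4096)) (LT.o 4099 4095 4096 4096)))) (LT.a LT.z1 (LT.o 4098 4096 4096 4096))) (LT.b (LT.a (LT.b (LT.a (LT.b (LT.l 4100 4095 4096 4097) (LT.o 4099 4095 4096 4097)) (LT.b (LT.l 4099 4095 4096 4097) (LT.o 4099 4095 4096 4097))) (LT.o 4098 4095 4096 4096)) (LT.o 4098 4096 4096 4097)) (LT.o 4096 4096 4096 4096)))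

theorem c23 : chk P t23 1098639212544 570425344 1098639212544 570425344 = true := by decide +kernel

theorem b23 {lam : ℝ} (hlam : |(S : ℝ) * lam - ((P.lp : ℝ) - P.ln)| ≤ ((1 : ℕ) : ℝ)) : BoxS lam P 1098639212544 570425344 1098639212544 570425344 :=
  chk_sound hlam t23 1098639212544 570425344 1098639212544 570425344 (by norm_num) (by norm_num) c23

/-- Part of the subdivision. -/
def t24 : LT := (LT.a LT.z1 (LT.b (LT.a LT.z1 (LT.b (LT.a LT.z1 (LT.b (LT.a LT.z1 LT.z2) LT.z1)) LT.z1)) LT.z1))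

theorem c24 : chk P t24 1095216660480 2281701376 1099780063232 2281701376 = true := by decide +kernel

theorem b24 {lam : ℝ} (hlam : |(S : ℝ) * lam - ((P.lp : ℝ) - P.ln)| ≤ ((1 : ℕ) : ℝ)) : BoxS lam P 1095216660480 2281701376 1099780063232 2281701376 :=
  chk_sound hlam t24 1095216660480 2281701376 1099780063232 2281701376 (by norm_num) (by norm_num) c24

/-- Part of the subdivision. -/
def t25 : LT := (LT.b (LT.a (LT.b (LT.a (LT.b (LT.a (LT.l 4108 4093 4096 4099) (LT.l 4105 4094 4095 4099)) (LT.a (LT.b (LT.l 4104 4094 4096 4098) (LT.l 4102 4095 4096 4098)) (LT.b (LT.l 4102 4095 4095 4098) (LT.l 4100 4095 4095 4098)))) (LT.b (LT.l 4102 4095 4094 4099) (LT.a (LT.b (LT.l 4100 4095 4095 4098) LT.z2) LT.z2))) (LT.a (LT.b (LT.a (LT.b (LT.a (LT.l 4101 4095 4096 4097) (LT.l 4100 4095 4095 4097)) (LT.a (LT.b (LT.l 4099 4095 4096 4097) (LT.a (LT.l 4098 4095 4096 4097) (LT.l 4098 4096 4096 4097))) (LT.b (LT.l 4098 4095 4095 4097) (LT.l 4097 4096 4095 4097)))) (LT.b (LT.l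 4098 4095 4095 4097) LT.z2)) (LT.a (LT.b (LT.a (LT.o 4097 4096 4096 4097) LT.z2) LT.z2) LT.z2)) LT.z2)) LT.z2) LT.z2)

theorem c25 : chk P t25 1099780063232 2281701376 1095216660480 4563402752 = true := by decide +kernel

theorem b25 {lam : ℝ} (hlam : |(S : ℝ) * lam - ((P.lp : ℝ) - P.ln)| ≤ ((1 : ℕ) : ℝ)) : BoxS lam P 1099780063232 2281701376 1095216660480 4563402752 :=
  chk_sound hlam t25 1099780063232 2281701376 1095216660480 4563402752 (by norm_num) (by norm_num) c25

/-- Part of the subdivision. -/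
def t26 : LT := (LT.a LT.z1 LT.z2)

theorem c26 : chk P t26 1095216660480 4563402752 1104343465984 4563402752 = true := by decide +kernel

theorem b26 {lam : ℝ} (hlam : |(S : ℝ) * lam - ((P.lp : ℝ) - P.ln)| ≤ ((1 : ℕ) : ℝ)) : BoxS lam P 1095216660480 4563402752 1104343465984 4563402752 :=
  chk_sound hlam t26 1095216660480 4563402752 1104343465984 4563402752 (by norm_num) (by norm_num) c26

/-- Part of the subdivision. -/
def t27 : LT := LT.z2

theorem c27 : chk P t27 1104343465984 4563402752 1095216660480 9126805504 = true := by decide +kernel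

theorem b27 {lam : ℝ} (hlam : |(S : ℝ) * lam - ((P.lp : ℝ) - P.ln)| ≤ ((1 : ℕ) : ℝ)) : BoxS lam P 1104343465984 4563402752 1095216660480 9126805504 :=
  chk_sound hlam t27 1104343465984 4563402752 1095216660480 9126805504 (by norm_num) (by norm_num) c27

/-- Part of the subdivision. -/
def t28 : LT := LT.z2

theorem c28 : chk P t28 1095216660480 9126805504 1113470271488 9126805504 = true := by decide +kernel

theorem b28 {lam : ℝ} (hlam : |(S : ℝ) * lam - ((P.lp : ℝ) - P.ln)| ≤ ((1 : ℕ) : ℝ)) : BoxS lam P 1095216660480 9126805504 1113470271488 9126805504 :=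
  chk_sound hlam t28 1095216660480 9126805504 1113470271488 9126805504 (by norm_num) (by norm_num) c28

/-- Part of the subdivision. -/
def t29 : LT := LT.z2

theorem c29 : chk P t29 1113470271488 9126805504 1095216660480 18253611008 = true := by decide +kernel

theorem b29 {lam : ℝ} (hlam : |(S : ℝ) * lam - ((P.lp : ℝ) - P.ln)| ≤ ((1 : ℕ) : ℝ)) : BoxS lam P 1113470271488 9126805504 1095216660480 18253611008 :=
  chk_sound hlam t29 1113470271488 9126805504 1095216660480 18253611008 (by norm_num) (by norm_num) c29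

/-- Part of the subdivision. -/
def t30 : LT := LT.z2

theorem c30 : chk P t30 1095216660480 18253611008 1131723882496 18253611008 = true := by decide +kernel

theorem b30 {lam : ℝ} (hlam : |(S : ℝ) * lam - ((P.lp : ℝ) - P.ln)| ≤ ((1 : ℕ) : ℝ)) : BoxS lam P 1095216660480 18253611008 1131723882496 18253611008 :=
  chk_sound hlam t30 1095216660480 18253611008 1131723882496 18253611008 (by norm_num) (by norm_num) c30

/-- Part of the subdivision. -/
def t31 : LT := LT.z2

theorem c31 : chk P t31 1131723882496 18253611008 1095216660480 36507222016 = true := by decide +kernel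

theorem b31 {lam : ℝ} (hlam : |(S : ℝ) * lam - ((P.lp : ℝ) - P.ln)| ≤ ((1 : ℕ) : ℝ)) : BoxS lam P 1131723882496 18253611008 1095216660480 36507222016 :=
  chk_sound hlam t31 1131723882496 18253611008 1095216660480 36507222016 (by norm_num) (by norm_num) c31

/-- The whole box. -/
theorem box {lam : ℝ} (hlam : |(S : ℝ) * lam - ((P.lp : ℝ) - P.ln)| ≤ ((1 : ℕ) : ℝ)) : BoxS lam P 0 HH 0 HH :=
  (BoxS.sa' (x1 := 584115552256) (h := 292057776128) (by norm_num [HH]) (by norm_num) (b0 hlam) (BoxS.sb' (t1 := 584115552256) (h := 292057776128) (by norm_num [HH]) (by norm_num) (b1 hlam) (BoxS.sa' (x1 := 876173328384) (h := 146028888064) (by norm_num [HH]) (by norm_num) (b2 hlam) (BoxS.sb' (t1 := 876173328384) (h := 146028888064) (by norm_num [HH]) (by norm_num) (b3 hlam) (BoxS.sa' (x1 := 1022202216448) (h := 73014444032) (by norm_num [HH]) (by norm_num) (b4 hlam) (BoxS.sb' (t1 := 1022202216448) (h := 73014444032) (by norm_num [HH]) (by norm_num) (BoxS.sa' (x1 := 1095216660480)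 (h := 36507222016) (by norm_num [HH]) (by norm_num) (b5 hlam) (b6 hlam)) (BoxS.sa' (x1 := 1095216660480) (h := 36507222016) (by norm_num [HH]) (by norm_num) (BoxS.sb' (t1 := 1095216660480) (h := 36507222016) (by norm_num [HH]) (by norm_num) (BoxS.sa' (x1 := 1058709438464) (h := 18253611008) (by norm_num [HH]) (by norm_num) (b7 hlam) (BoxS.sb' (t1 := 1058709438464) (h := 18253611008) (by norm_num [HH]) (by norm_num) (b8 hlam) (b9 hlam))) (b10 hlam)) (BoxS.sb' (t1 := 1095216660480) (h := 36507222016) (by norm_num [HH]) (by norm_num) (BoxS.sa' (x1 := 1131723882496) (h := 18253611008) (by norm_num [HH]) (by norm_num) (BoxS.sb' (t1 := 1058709438464) (h := 18253611008) (by norm_num [HH]) (by norm_num) (b11 hlam) (BoxS.sa' (x1 := 1113470271488) (h := 9126805504) (by norm_num [HH]) (by norm_num) (BoxS.sb' (t1 := 1076963049472) (h := 9126805504) (by norm_num [HH]) (by norm_num) (b12 hlam) (BoxS.sa' (x1 := 1104343465984) (h := 4563402752) (by norm_num [HH]) (by norm_num)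 (BoxS.sb' (t1 := 1086089854976) (h := 4563402752) (by norm_num [HH]) (by norm_num) (b13 hlam) (BoxS.sa' (x1 := 1099780063232) (h := 2281701376) (by norm_num [HH]) (by norm_num) (b14 hlam) (b15 hlam))) (b16 hlam))) (b17 hlam))) (b18 hlam)) (BoxS.sa' (x1 := 1131723882496) (h := 18253611008) (by norm_num [HH]) (by norm_num) (BoxS.sb' (t1 := 1131723882496) (h := 18253611008) (by norm_num [HH]) (by norm_num) (BoxS.sa' (x1 := 1113470271488) (h := 9126805504) (by norm_num [HH]) (by norm_num) (BoxS.sb' (t1 := 1113470271488) (h := 9126805504) (by norm_num [HH]) (by norm_num) (BoxS.sa' (x1 := 1104343465984) (h := 4563402752) (by norm_num [HH]) (by norm_num) (BoxS.sb' (t1 := 1104343465984) (h := 4563402752) (by norm_num [HH]) (by norm_num) (BoxS.sa' (x1 := 1099780063232) (h := 2281701376) (by norm_num [HH]) (by norm_num) (BoxS.sb' (t1 := 1099780063232) (h := 2281701376) (by norm_num [HH]) (by norm_num) (BoxS.sa' (x1 := 1097498361856) (h := 1140850688) (by norm_num [HH])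 (by norm_num) (b19 hlam) (BoxS.sb' (t1 := 1097498361856) (h := 1140850688) (by norm_num [HH]) (by norm_num) (b20 hlam) (BoxS.sa' (x1 := 1098639212544) (h := 570425344) (by norm_num [HH]) (by norm_num) (b21 hlam) (BoxS.sb' (t1 := 1098639212544) (h := 570425344) (by norm_num [HH]) (by norm_num) (b22 hlam) (b23 hlam))))) (b24 hlam)) (b25 hlam)) (b26 hlam)) (b27 hlam)) (b28 hlam)) (b29 hlam)) (b30 hlam)) (b31 hlam))))))))))

end Vale.Agent.P154H.Tm.D19
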