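import Vale.Agent.P154H.Msg

set_option maxRecDepth 100000

/-!
The subdivision for `d = 20`.
-/

namespace Vale.Agent.P154H.Tm.D20

/-- A row. -/
def Ra : Row := Row.mk 0 525474 0 2606391 4717404 0 10509480 0 52127820 0 0 94348080 0 4384 0 10408960 0 58188564

/-- A row. -/
def Rb : Row := Row.mk 0 17631981600768 0 87455969574912 158289811734528 0 328242467117520 0 1605684392869689 0 0 2888210714075136 0 147102629888 0 349266740510720 0 1851439289297094
/-- A row. -/
def Q0 : Row := Row.mk 0 0 0 0 0 0 7473408 0 0 0 0 0 0 0 0 0 0 5346279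

/-- A row. -/
def Q1 : Row := Row.mk 0 0 0 0 0 0 0 0 296549376 0 0 0 0 0 0 0 0 173207163

/-- A row. -/
def Q2 : Row := Row.mk 0 0 0 0 0 0 0 0 0 0 1024 0 0 0 0 0 0 2883

/-- A row. -/
def Q3 : Row := Row.mk 0 1076170752 0 5337888768 9661243392 0 19893857472 0 97099949184 0 0 173757033024 0 8978432 0 0 0 114731722701

/-- A row. -/
def Q4 : Row := Row.mk 0 1076170752 0 5337888768 9661243392 0 19554923904 0 95020674240 0 0 169544777664 0 8978432 0 0 0 113872141485

/-- A row. -/
def Q5 : Row := Row.mk 0 1076170752 0 5337888768 9661243392 0 19106869632 0 92536604736 0 0 164497297536 0 8978432 0 0 0 112760338779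

/-- A row. -/
def Q6 : Row := Row.mk 0 538085376 0 2668944384 4830621696 0 9297537312 0 44751624528 0 0 79243676736 0 4489216 0 0 0 55524841551

/-- A row. -/
def Q7 : Row := Row.mk 0 269042688 0 1334472192 2415310848 0 4494382272 0 21498775248 0 0 37844101872 0 2244608 0 0 0 27367176015

/-- A row. -/
def Q8 : Row := Row.mk 0 1076170752 0 5337888768 9661243392 0 17280350784 0 81922296960 0 0 143046615360 0 8978432 0 0 0 107906696955

/-- A row. -/
def Q9 : Row := Row.mk 0 67260672 0 333618048 603827712 0 1026218592 0 4812762438 0 0 8337201660 0 561152 0 0 0 6547266963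

/-- A row. -/
def Q10 : Row := Row.mk 0 269042688 0 1334472192 2415310848 0 3886641648 0 17905219104 0 0 30591957264 0 2244608 0 0 0 25716379869

/-- A row. -/
def Q11 : Row := Row.mk 0 1076170752 0 5337888768 9661243392 0 14439471360 0 65861991744 0 0 109993198656 0 8978432 0 0 0 101995557651

/-- A row. -/
def Q12 : Row := Row.mk 0 538085376 0 2668944384 4830621696 0 6653540736 0 29483742720 0 0 48200276640 0 4489216 0 0 0 48962288907

/-- A row. -/
def Q13 : Row := Row.mk 0 1076170752 0 5337888768 9661243392 0 12057575808 0 52625773632 0 0 81859225536 0 8978432 0 0 0 99399706137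

/-- A row. -/
def Q14 : Row := Row.mk 0 538085376 0 2668944384 4830621696 0 5500220640 0 23355313200 0 0 32945917728 0 4489216 0 0 0 53902472769


/-- The data. -/
def P : Pb where
  lp := 0
  ln := 16112567856389042
  ab := 3298534883328
  r1 := [Ra, Rb]
  r2 := [Q0, Q1, Q2, Q3, Q4, Q5, Q6, Q7, Q8, Q9, Q10, Q11, Q12, Q13, Q14]

/-- Part of the subdivision. -/
def t0 : LT := (LT.b (LT.a (LT.l 4699 3803 4201 4201) (LT.l 4699 3804 4201 4201)) (LT.a LT.z1 (LT.b (LT.a LT.z1 (LT.b (LT.l 4695 3807 4200 4199) LT.z1)) LT.z1)))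

theorem c0 : chk P t0 0 292057776128 0 584115552256 = true := by decide +kernel

theorem b0 {lam : ℝ} (hlam : |(S : ℝ) * lam - ((P.lp : ℝ) - P.ln)| ≤ ((1 : ℕ) : ℝ)) : BoxS lam P 0 292057776128 0 584115552256 :=
  chk_sound hlam t0 0 292057776128 0 584115552256 (by norm_num) (by norm_num) c0

/-- Part of the subdivision. -/
def t1 : LT := (LT.a (LT.b (LT.a (LT.l 4696 3807 4199 4201) (LT.l 4683 3819 4193 4201)) (LT.a (LT.l 4696 3807 4199 4201) (LT.l 4683 3819 4193 4201))) (LT.b (LT.a (LT.l 4636 3860 4170 4201) (LT.b (LT.l 4475 3964 4100 4201) (LT.l 4475 3964 4100 4201))) (LT.a (LT.b (LT.l 4636 3860 4170 4201) (LT.l 4635 3860 4170 4200)) (LT.b (LT.a (LT.l 4536 3930 4125 4201) (LT.l 4390 4004 4065 4201)) (LT.a (LT.l 4535 3930 4125 4200) (LT.b (LT.l 4389 4005 4065 4201) (LT.l 4388 4005 4065 4200)))))))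

theorem c1 : chk P t1 584115552256 292057776128 0 292057776128 = true := by decide +kernel

theorem b1 {lam : ℝ} (hlam : |(S : ℝ) * lam - ((P.lp : ℝ) - P.ln)| ≤ ((1 : ℕ) : ℝ)) : BoxS lam P 584115552256 292057776128 0 292057776128 :=
  chk_sound hlam t1 584115552256 292057776128 0 292057776128 (by norm_num) (by norm_num) c1

/-- Part of the subdivision. -/
def t2 : LT := (LT.b (LT.a (LT.b (LT.l 4693 3810 4199 4199) (LT.l 4680 3822 4199 4193)) (LT.b (LT.l 4680 3822 4193 4199) (LT.l 4666 3834 4193 4193))) (LT.a LT.z1 (LT.b (LT.a LT.z1 (LT.b (LT.l 4629 3865 4189 4179) LT.z1)) LT.z1)))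

theorem c2 : chk P t2 584115552256 146028888064 584115552256 292057776128 = true := by decide +kernel

theorem b2 {lam : ℝ} (hlam : |(S : ℝ) * lam - ((P.lp : ℝ) - P.ln)| ≤ ((1 : ℕ) : ℝ)) : BoxS lam P 584115552256 146028888064 584115552256 292057776128 :=
  chk_sound hlam t2 584115552256 146028888064 584115552256 292057776128 (by norm_num) (by norm_num) c2

/-- Part of the subdivision. -/
def t3 : LT := (LT.a (LT.b (LT.a (LT.l 4650 3848 4179 4199) (LT.l 4608 3881 4159 4199)) (LT.a (LT.l 4636 3859 4179 4193) (LT.b (LT.l 4599 3888 4159 4195) (LT.l 4585 3897 4159 4189)))) (LT.b (LT.a (LT.b (LT.l 4533 3931 4125 4200) (LT.l 4529 3934 4125 4198)) (LT.b (LT.a (LT.l 4433 3985 4084 4200) (LT.l 4329 4028 4044 4200)) (LT.a (LT.l 4429 3987 4084 4198) (LT.l 4324 4030 4044 4198)))) (LT.a (LT.b (LT.a (LT.l 4546 3924 4136 4195) (LT.l 4493 3954 4113 4195)) (LT.a (LT.l 4531 3933 4136 4189) (LT.l 4477 3963 4113 4189))) (LT.b (LT.a (LT.l 4420 3991 4084 4195) (LT.l 4313 4034 4044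 4195)) (LT.a (LT.l 4402 3999 4084 4189) (LT.l 4292 4042 4044 4189))))))

theorem c3 : chk P t3 876173328384 146028888064 584115552256 146028888064 = true := by decide +kernel

theorem b3 {lam : ℝ} (hlam : |(S : ℝ) * lam - ((P.lp : ℝ) - P.ln)| ≤ ((1 : ℕ) : ℝ)) : BoxS lam P 876173328384 146028888064 584115552256 146028888064 :=
  chk_sound hlam t3 876173328384 146028888064 584115552256 146028888064 (by norm_num) (by norm_num) c3

/-- Part of the subdivision. -/
def t4 : LT := (LT.b (LT.a (LT.b (LT.l 4604 3884 4179 4179) (LT.a LT.z1 (LT.b (LT.l 4564 3912 4175 4165) LT.z1))) (LT.b (LT.a (LT.l 4573 3906 4165 4179) (LT.l 4543 3925 4152 4179)) (LT.a (LT.b (LT.l 4541 3927 4165 4165) (LT.l 4509 3945 4165 4152)) (LT.b (LT.l 4509 3945 4152 4165) (LT.a (LT.l 4485 3959 4156 4152) (LT.l 4466 3969 4149 4152)))))) (LT.a LT.z1 (LT.b (LT.a LT.z1 (LT.b (LT.a LT.z1 (LT.b (LT.l 4433 3985 4149 4140) LT.z1)) LT.z1)) LT.z1)))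

theorem c4 : chk P t4 876173328384 73014444032 876173328384 146028888064 = true := by decide +kernel

theorem b4 {lam : ℝ} (hlam : |(S : ℝ) * lam - ((P.lp : ℝ) - P.ln)| ≤ ((1 : ℕ) : ℝ)) : BoxS lam P 876173328384 73014444032 876173328384 146028888064 :=
  chk_sound hlam t4 876173328384 73014444032 876173328384 146028888064 (by norm_num) (by norm_num) c4

/-- Part of the subdivision. -/
def t5 : LT := (LT.b (LT.a (LT.b (LT.l 4511 3944 4136 4182) (LT.l 4492 3955 4136 4175)) (LT.b (LT.l 4456 3974 4113 4182) (LT.l 4435 3984 4113 4175))) (LT.a (LT.b (LT.a (LT.l 4478 3962 4140 4165) (LT.l 4453 3975 4131 4165)) (LT.a (LT.b (LT.l 4453 3975 4140 4156) (LT.l 4433 3985 4140 4149)) (LT.b (LT.l 4427 3988 4131 4156) (LT.l 4406 3998 4131 4149)))) (LT.b (LT.a (LT.l 4423 3990 4119 4165) (LT.l 4388 4005 4107 4165)) (LT.a (LT.b (LT.l 4396 4002 4119 4156) (LT.l 4373 4011 4119 4149)) (LT.b (LT.l 4359 4017 4107 4156) (LT.l 4335 4026 4107 4149))))))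

theorem c5 : chk P t5 1022202216448 36507222016 876173328384 73014444032 = true := by decide +kernel

theorem b5 {lam : ℝ} (hlam : |(S : ℝ) * lam - ((P.lp : ℝ) - P.ln)| ≤ ((1 : ℕ) : ℝ)) : BoxS lam P 1022202216448 36507222016 876173328384 73014444032 :=
  chk_sound hlam t5 1022202216448 36507222016 876173328384 73014444032 (by norm_num) (by norm_num) c5

/-- Part of the subdivision. -/
def t6 : LT := (LT.b (LT.a (LT.b (LT.l 4378 4009 4084 4182) (LT.l 4354 4019 4084 4175)) (LT.b (LT.l 4263 4051 4044 4182) (LT.a (LT.l 4269 4049 4055 4175) LT.z2))) (LT.a (LT.b (LT.a (LT.l 4346 4022 4092 4165) (LT.l 4294 4041 4075 4165)) (LT.a (LT.b (LT.l 4314 4034 4092 4156) (LT.l 4289 4043 4092 4149)) (LT.b (LT.l 4260 4052 4075 4156) (LT.l 4232 4061 4075 4149)))) (LT.b (LT.a (LT.l 4231 4061 4055 4165) LT.z2) (LT.a (LT.b (LT.l 4194 4072 4055 4156) LT.z2) LT.z2))))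

theorem c6 : chk P t6 1095216660480 36507222016 876173328384 73014444032 = true := by decide +kernel

theorem b6 {lam : ℝ} (hlam : |(S : ℝ) * lam - ((P.lp : ℝ) - P.ln)| ≤ ((1 : ℕ) : ℝ)) : BoxS lam P 1095216660480 36507222016 876173328384 73014444032 :=
  chk_sound hlam t6 1095216660480 36507222016 876173328384 73014444032 (by norm_num) (by norm_num) c6

/-- Part of the subdivision. -/
def t7 : LT := (LT.b (LT.a (LT.b (LT.a (LT.l 4415 3993 4142 4140) (LT.l 4402 3999 4138 4140)) (LT.a LT.z1 (LT.l 4374 4011 4138 4131))) (LT.b (LT.a (LT.l 4388 4005 4133 4140) (LT.l 4373 4011 4128 4140)) (LT.l 4351 4020 4131 4131))) (LT.a LT.z1 (LT.b (LT.l 4316 4033 4131 4119) LT.z1)))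

theorem c7 : chk P t7 1022202216448 18253611008 1022202216448 36507222016 = true := by decide +kernel

theorem b7 {lam : ℝ} (hlam : |(S : ℝ) * lam - ((P.lp : ℝ) - P.ln)| ≤ ((1 : ℕ) : ℝ)) : BoxS lam P 1022202216448 18253611008 1022202216448 36507222016 :=
  chk_sound hlam t7 1022202216448 18253611008 1022202216448 36507222016 (by norm_num) (by norm_num) c7

/-- Part of the subdivision. -/
def t8 : LT := (LT.a (LT.b (LT.l 4347 4022 4119 4140) (LT.l 4316 4033 4119 4131)) (LT.b (LT.l 4307 4036 4107 4140) (LT.a (LT.l 4285 4044 4110 4131) (LT.l 4262 4052 4103 4131))))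

theorem c8 : chk P t8 1058709438464 18253611008 1022202216448 18253611008 = true := by decide +kernel

theorem b8 {lam : ℝ} (hlam : |(S : ℝ) * lam - ((P.lp : ℝ) - P.ln)| ≤ ((1 : ℕ) : ℝ)) : BoxS lam P 1058709438464 18253611008 1022202216448 18253611008 :=
  chk_sound hlam t8 1058709438464 18253611008 1022202216448 18253611008 (by norm_num) (by norm_num) c8

/-- Part of the subdivision. -/
def t9 : LT := (LT.a (LT.b (LT.a (LT.l 4288 4043 4122 4119) (LT.b (LT.l 4278 4046 4116 4122) (LT.l 4257 4053 4116 4116))) (LT.a LT.z1 (LT.b (LT.l 4234 4060 4116 4110) LT.z1))) (LT.b (LT.a (LT.b (LT.l 4256 4053 4110 4122) (LT.l 4234 4060 4110 4116)) (LT.b (LT.l 4232 4061 4103 4122) (LT.a (LT.l 4216 4066 4105 4116) (LT.l 4202 4069 4101 4116)))) (LT.a (LT.b (LT.a (LT.l 4217 4065 4112 4110) (LT.l 4204 4069 4108 4110)) (LT.a LT.z1 (LT.b (LT.l 4185 4074 4108 4105) LT.z1))) (LT.b (LT.a (LT.b (LT.l 4198 4071 4105 4112) (LT.l 4185 4074 4105 4108)) (LT.b (LT.l 4184 4074 4101 4112) (LT.l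 4171 4078 4101 4108))) (LT.a (LT.b (LT.l 4171 4078 4105 4105) (LT.a LT.z1 (LT.l 4153 4082 4104 4101))) (LT.b (LT.a (LT.l 4160 4081 4102 4105) (LT.l 4153 4082 4100 4105)) (LT.a (LT.b (LT.l 4150 4083 4102 4102) (LT.l 4142 4085 4102 4100)) (LT.b (LT.l 4142 4085 4100 4102) (LT.l 4135 4087 4100 4100)))))))))

theorem c9 : chk P t9 1058709438464 18253611008 1058709438464 18253611008 = true := by decide +kernel

theorem b9 {lam : ℝ} (hlam : |(S : ℝ) * lam - ((P.lp : ℝ) - P.ln)| ≤ ((1 : ℕ) : ℝ)) : BoxS lam P 1058709438464 18253611008 1058709438464 18253611008 :=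
  chk_sound hlam t9 1058709438464 18253611008 1058709438464 18253611008 (by norm_num) (by norm_num) c9

/-- Part of the subdivision. -/
def t10 : LT := (LT.a LT.z1 (LT.b (LT.a LT.z1 (LT.b (LT.a LT.z1 (LT.b (LT.a LT.z1 (LT.b (LT.a LT.z1 (LT.b (LT.a LT.z1 (LT.l 4125 4089 4100 4099)) LT.z1)) LT.z1)) LT.z1)) LT.z1)) LT.z1))

theorem c10 : chk P t10 1022202216448 36507222016 1095216660480 36507222016 = true := by decide +kernel

theorem b10 {lam : ℝ} (hlam : |(S : ℝ) * lam - ((P.lp : ℝ) - P.ln)| ≤ ((1 : ℕ) : ℝ)) : BoxS lam P 1022202216448 36507222016 1095216660480 36507222016 :=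
  chk_sound hlam t10 1022202216448 36507222016 1095216660480 36507222016 (by norm_num) (by norm_num) c10

/-- Part of the subdivision. -/
def t11 : LT := (LT.a (LT.b (LT.a (LT.l 4272 4048 4096 4140) (LT.l 4245 4057 4088 4140)) (LT.a (LT.b (LT.l 4246 4057 4096 4133) (LT.l 4226 4063 4096 4128)) (LT.b (LT.l 4218 4065 4088 4133) (LT.l 4197 4071 4088 4128)))) (LT.b (LT.a (LT.l 4215 4066 4079 4140) (LT.l 4182 4075 4070 4140)) (LT.a (LT.b (LT.l 4187 4074 4079 4133) (LT.l 4165 4079 4079 4128)) LT.z2)))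

theorem c11 : chk P t11 1095216660480 18253611008 1022202216448 18253611008 = true := by decide +kernel

theorem b11 {lam : ℝ} (hlam : |(S : ℝ) * lam - ((P.lp : ℝ) - P.ln)| ≤ ((1 : ℕ) : ℝ)) : BoxS lam P 1095216660480 18253611008 1022202216448 18253611008 :=
  chk_sound hlam t11 1095216660480 18253611008 1022202216448 18253611008 (by norm_num) (by norm_num) c11

/-- Part of the subdivision. -/
def t12 : LT := (LT.a (LT.b (LT.l 4205 4069 4096 4122) (LT.a (LT.l 4189 4073 4098 4116) (LT.b (LT.l 4180 4075 4094 4118) (LT.l 4167 4079 4094 4115)))) (LT.b (LT.l 4175 4077 4088 4122) (LT.a (LT.b (LT.l 4165 4080 4090 4118) (LT.l 4152 4083 4090 4115)) (LT.l 4142 4085 4086 4116))))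

theorem c12 : chk P t12 1095216660480 9126805504 1058709438464 9126805504 = true := by decide +kernel

theorem b12 {lam : ℝ} (hlam : |(S : ℝ) * lam - ((P.lp : ℝ) - P.ln)| ≤ ((1 : ℕ) : ℝ)) : BoxS lam P 1095216660480 9126805504 1058709438464 9126805504 :=
  chk_sound hlam t12 1095216660480 9126805504 1058709438464 9126805504 (by norm_num) (by norm_num) c12

/-- Part of the subdivision. -/
def t13 : LT := (LT.a (LT.b (LT.l 4169 4078 4098 4112) (LT.a (LT.l 4160 4081 4099 4108) (LT.l 4152 4083 4097 4108))) (LT.b (LT.l 4154 4082 4094 4112) (LT.a (LT.l 4144 4085 4095 4108) (LT.l 4136 4087 4093 4108))))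

theorem c13 : chk P t13 1095216660480 4563402752 1076963049472 4563402752 = true := by decide +kernel

theorem b13 {lam : ℝ} (hlam : |(S : ℝ) * lam - ((P.lp : ℝ) - P.ln)| ≤ ((1 : ℕ) : ℝ)) : BoxS lam P 1095216660480 4563402752 1076963049472 4563402752 :=
  chk_sound hlam t13 1095216660480 4563402752 1076963049472 4563402752 (by norm_num) (by norm_num) c13

/-- Part of the subdivision. -/
def t14 : LT := (LT.b (LT.a (LT.b (LT.l 4149 4083 4099 4106) (LT.l 4142 4085 4099 4104)) (LT.b (LT.l 4141 4085 4097 4106) (LT.l 4134 4087 4097 4104))) (LT.a (LT.b (LT.l 4134 4087 4099 4102) (LT.a (LT.l 4129 4088 4099 4100) (LT.l 4125 4089 4098 4100))) (LT.b (LT.a (LT.l 4128 4088 4097 4102) (LT.l 4124 4089 4096 4102)) (LT.a (LT.b (LT.l 4123 4090 4097 4101) (LT.l 4119 4091 4097 4100)) (LT.b (LT.l 4119 4091 4096 4101) (LT.l 4115 4092 4096 4100))))))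

theorem c14 : chk P t14 1095216660480 2281701376 1086089854976 4563402752 = true := by decide +kernel

theorem b14 {lam : ℝ} (hlam : |(S : ℝ) * lam - ((P.lp : ℝ) - P.ln)| ≤ ((1 : ℕ) : ℝ)) : BoxS lam P 1095216660480 2281701376 1086089854976 4563402752 :=
  chk_sound hlam t14 1095216660480 2281701376 1086089854976 4563402752 (by norm_num) (by norm_num) c14

/-- Part of the subdivision. -/
def t15 : LT := (LT.b (LT.a (LT.b (LT.l 4134 4087 4095 4106) (LT.l 4126 4089 4095 4104)) (LT.b (LT.l 4125 4089 4093 4106) (LT.l 4118 4091 4093 4104))) (LT.a (LT.b (LT.a (LT.l 4120 4090 4095 4102) (LT.l 4116 4091 4094 4102)) (LT.a (LT.b (LT.l 4115 4092 4095 4101) (LT.l 4111 4093 4095 4100)) (LT.b (LT.l 4110 4093 4094 4101) (LT.l 4106 4094 4094 4100)))) (LT.b (LT.l 4110 4093 4093 4102) (LT.a (LT.b (LT.l 4106 4094 4093 4101) (LT.l 4102 4095 4093 4100)) LT.z2))))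

theorem c15 : chk P t15 1099780063232 2281701376 1086089854976 4563402752 = true := by decide +kernel

theorem b15 {lam : ℝ} (hlam : |(S : ℝ) * lam - ((P.lp : ℝ) - P.ln)| ≤ ((1 : ℕ) : ℝ)) : BoxS lam P 1099780063232 2281701376 1086089854976 4563402752 :=
  chk_sound hlam t15 1099780063232 2281701376 1086089854976 4563402752 (by norm_num) (by norm_num) c15

/-- Part of the subdivision. -/
def t16 : LT := (LT.b (LT.a (LT.b (LT.l 4138 4086 4090 4112) (LT.l 4124 4090 4090 4108)) (LT.b (LT.l 4121 4090 4086 4112) LT.z2)) (LT.a (LT.b (LT.a (LT.b (LT.l 4117 4091 4091 4106) (LT.l 4109 4093 4091 4104)) LT.z2) LT.z2) LT.z2))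

theorem c16 : chk P t16 1104343465984 4563402752 1076963049472 9126805504 = true := by decide +kernel

theorem b16 {lam : ℝ} (hlam : |(S : ℝ) * lam - ((P.lp : ℝ) - P.ln)| ≤ ((1 : ℕ) : ℝ)) : BoxS lam P 1104343465984 4563402752 1076963049472 9126805504 :=
  chk_sound hlam t16 1104343465984 4563402752 1076963049472 9126805504 (by norm_num) (by norm_num) c16

/-- Part of the subdivision. -/
def t17 : LT := (LT.b (LT.a (LT.b (LT.l 4141 4085 4079 4122) LT.z2) LT.z2) LT.z2)

theorem c17 : chk P t17 1113470271488 9126805504 1058709438464 18253611008 = true := by decide +kernel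

theorem b17 {lam : ℝ} (hlam : |(S : ℝ) * lam - ((P.lp : ℝ) - P.ln)| ≤ ((1 : ℕ) : ℝ)) : BoxS lam P 1113470271488 9126805504 1058709438464 18253611008 :=
  chk_sound hlam t17 1113470271488 9126805504 1058709438464 18253611008 (by norm_num) (by norm_num) c17

/-- Part of the subdivision. -/
def t18 : LT := LT.z2

theorem c18 : chk P t18 1131723882496 18253611008 1022202216448 36507222016 = true := by decide +kernel

theorem b18 {lam : ℝ} (hlam : |(S : ℝ) * lam - ((P.lp : ℝ) - P.ln)| ≤ ((1 : ℕ) : ℝ)) : BoxS lam P 1131723882496 18253611008 1022202216448 36507222016 :=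
  chk_sound hlam t18 1131723882496 18253611008 1022202216448 36507222016 (by norm_num) (by norm_num) c18

/-- Part of the subdivision. -/
def t19 : LT := (LT.b (LT.a (LT.b (LT.l 4123 4090 4099 4099) (LT.l 4119 4091 4099 4098)) (LT.b (LT.l 4119 4091 4098 4099) (LT.a (LT.l 4116 4091 4098 4098) (LT.l 4114 4092 4098 4098)))) (LT.a LT.z1 (LT.b (LT.a LT.z1 (LT.b (LT.l 4111 4093 4098 4097) LT.z1)) LT.z1)))

theorem c19 : chk P t19 1095216660480 1140850688 1095216660480 2281701376 = true := by decide +kernel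

theorem b19 {lam : ℝ} (hlam : |(S : ℝ) * lam - ((P.lp : ℝ) - P.ln)| ≤ ((1 : ℕ) : ℝ)) : BoxS lam P 1095216660480 1140850688 1095216660480 2281701376 :=
  chk_sound hlam t19 1095216660480 1140850688 1095216660480 2281701376 (by norm_num) (by norm_num) c19

/-- Part of the subdivision. -/
def t20 : LT := (LT.a (LT.b (LT.l 4115 4092 4097 4099) (LT.a (LT.l 4112 4092 4097 4098) (LT.b (LT.l 4111 4093 4097 4098) (LT.l 4109 4093 4097 4098)))) (LT.b (LT.a (LT.l 4112 4092 4096 4099) (LT.l 4110 4093 4096 4099)) (LT.a (LT.b (LT.l 4109 4093 4096 4098) (LT.l 4107 4094 4096 4098)) (LT.b (LT.l 4107 4094 4096 4098) (LT.l 4105 4094 4096 4098)))))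

theorem c20 : chk P t20 1097498361856 1140850688 1095216660480 1140850688 = true := by decide +kernel

theorem b20 {lam : ℝ} (hlam : |(S : ℝ) * lam - ((P.lp : ℝ) - P.ln)| ≤ ((1 : ℕ) : ℝ)) : BoxS lam P 1097498361856 1140850688 1095216660480 1140850688 :=
  chk_sound hlam t20 1097498361856 1140850688 1095216660480 1140850688 (by norm_num) (by norm_num) c20

/-- Part of the subdivision. -/
def t21 : LT := (LT.b (LT.a (LT.b (LT.l 4109 4093 4097 4097) (LT.l 4107 4094 4097 4097)) (LT.b (LT.l 4107 4094 4097 4097) (LT.a (LT.l 4105 4094 4097 4097) (LT.l 4104 4094 4097 4097)))) (LT.a LT.z1 (LT.b (LT.a LT.z1 (LT.b (LT.l 4102 4095 4097 4097) LT.z1)) LT.z1)))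

theorem c21 : chk P t21 1097498361856 570425344 1097498361856 1140850688 = true := by decide +kernel

theorem b21 {lam : ℝ} (hlam : |(S : ℝ) * lam - ((P.lp : ℝ) - P.ln)| ≤ ((1 : ℕ) : ℝ)) : BoxS lam P 1097498361856 570425344 1097498361856 1140850688 :=
  chk_sound hlam t21 1097498361856 570425344 1097498361856 1140850688 (by norm_num) (by norm_num) c21

/-- Part of the subdivision. -/
def t22 : LT := (LT.a (LT.b (LT.a (LT.l 4105 4094 4097 4097) (LT.l 4104 4094 4096 4097)) (LT.a (LT.b (LT.l 4103 4094 4097 4097) (LT.l 4102 4095 4097 4097)) (LT.b (LT.l 4102 4095 4096 4097) (LT.l 4101 4095 4096 4097)))) (LT.b (LT.a (LT.l 4103 4094 4096 4097) (LT.l 4102 4095 4096 4097)) (LT.a (LT.b (LT.l 4101 4095 4096 4097) (LT.a (LT.l 4101 4095 4096 4097) (LT.l 4100 4095 4096 4097))) (LT.b (LT.l 4100 4095 4096 4097) (LT.a (LT.l 4100 4095 4096 4097) (LT.l 4099 4095 4096 4097))))))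

theorem c22 : chk P t22 1098639212544 570425344 1097498361856 570425344 = true := by decide +kernel

theorem b22 {lam : ℝ} (hlam : |(S : ℝ) * lam - ((P.lp : ℝ) - P.ln)| ≤ ((1 : ℕ) : ℝ)) : BoxS lam P 1098639212544 570425344 1097498361856 570425344 :=
  chk_sound hlam t22 1098639212544 570425344 1097498361856 570425344 (by norm_num) (by norm_num) c22

/-- Part of the subdivision. -/
def t23 : LT := (LT.a (LT.b (LT.a (LT.b (LT.l 4101 4095 4097 4097) (LT.a LT.z1 (LT.b (LT.l 4100 4095 4097 4096) LT.z1))) (LT.b (LT.a (LT.l 4101 4095 4096 4097) (LT.b (LT.l 4100 4095 4096 4097) (LT.l 4100 4095 4096 4097))) (LT.a (LT.b (LT.l 4100 4095 4096 4096) (LT.o 4099 4095 4096 4096)) (LT.o 4099 4095 4096 4096)))) (LT.a LT.z1 (LT.o 4098 4096 4096 4096))) (LT.b (LT.a (LT.b (LT.a (LT.b (LT.l 4100 4095 4096 4097) (LT.o 4099 4095 4096 4097)) (LT.b (LT.l 4099 4095 4096 4097) (LT.o 4099 4095 4096 4097))) (LT.o 4098 4095 4096 4096)) (LT.o 4098 4096 4096 4096)) (LT.o 4096 4096 4096 4096)))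

theorem c23 : chk P t23 1098639212544 570425344 1098639212544 570425344 = true := by decide +kernel

theorem b23 {lam : ℝ} (hlam : |(S : ℝ) * lam - ((P.lp : ℝ) - P.ln)| ≤ ((1 : ℕ) : ℝ)) : BoxS lam P 1098639212544 570425344 1098639212544 570425344 :=
  chk_sound hlam t23 1098639212544 570425344 1098639212544 570425344 (by norm_num) (by norm_num) c23

/-- Part of the subdivision. -/
def t24 : LT := (LT.a LT.z1 (LT.b (LT.a LT.z1 (LT.b (LT.a LT.z1 (LT.b (LT.a LT.z1 LT.z2) LT.z1)) LT.z1)) LT.z1))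

theorem c24 : chk P t24 1095216660480 2281701376 1099780063232 2281701376 = true := by decide +kernel

theorem b24 {lam : ℝ} (hlam : |(S : ℝ) * lam - ((P.lp : ℝ) - P.ln)| ≤ ((1 : ℕ) : ℝ)) : BoxS lam P 1095216660480 2281701376 1099780063232 2281701376 :=
  chk_sound hlam t24 1095216660480 2281701376 1099780063232 2281701376 (by norm_num) (by norm_num) c24

/-- Part of the subdivision. -/
def t25 : LT := (LT.b (LT.a (LT.b (LT.a (LT.b (LT.a (LT.l 4108 4093 4096 4099) (LT.l 4105 4094 4095 4099)) (LT.a (LT.b (LT.l 4104 4094 4096 4098) (LT.l 4102 4095 4096 4098)) (LT.b (LT.l 4102 4095 4095 4098) (LT.l 4100 4095 4095 4098)))) (LT.b (LT.l 4102 4095 4094 4099) (LT.a (LT.b (LT.l 4100 4095 4095 4098) LT.z2) LT.z2))) (LT.a (LT.b (LT.a (LT.b (LT.a (LT.l 4101 4095 4096 4097) (LT.l 4100 4095 4095 4097)) (LT.a (LT.b (LT.l 4099 4095 4096 4097) (LT.a (LT.l 4098 4095 4096 4097) (LT.l 4098 4096 4096 4097))) (LT.b (LT.l 4098 4096 4095 4097) (LT.l 4097 4096 4095 4097)))) (LT.b (LT.l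 4098 4096 4095 4097) LT.z2)) (LT.a (LT.b (LT.a (LT.o 4097 4096 4096 4096) LT.z2) LT.z2) LT.z2)) LT.z2)) LT.z2) LT.z2)

theorem c25 : chk P t25 1099780063232 2281701376 1095216660480 4563402752 = true := by decide +kernel

theorem b25 {lam : ℝ} (hlam : |(S : ℝ) * lam - ((P.lp : ℝ) - P.ln)| ≤ ((1 : ℕ) : ℝ)) : BoxS lam P 1099780063232 2281701376 1095216660480 4563402752 :=
  chk_sound hlam t25 1099780063232 2281701376 1095216660480 4563402752 (by norm_num) (by norm_num) c25

/-- Part of the subdivision. -/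
def t26 : LT := (LT.a LT.z1 LT.z2)

theorem c26 : chk P t26 1095216660480 4563402752 1104343465984 4563402752 = true := by decide +kernel

theorem b26 {lam : ℝ} (hlam : |(S : ℝ) * lam - ((P.lp : ℝ) - P.ln)| ≤ ((1 : ℕ) : ℝ)) : BoxS lam P 1095216660480 4563402752 1104343465984 4563402752 :=
  chk_sound hlam t26 1095216660480 4563402752 1104343465984 4563402752 (by norm_num) (by norm_num) c26

/-- Part of the subdivision. -/
def t27 : LT := LT.z2

theorem c27 : chk P t27 1104343465984 4563402752 1095216660480 9126805504 = true := by decide +kernel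

theorem b27 {lam : ℝ} (hlam : |(S : ℝ) * lam - ((P.lp : ℝ) - P.ln)| ≤ ((1 : ℕ) : ℝ)) : BoxS lam P 1104343465984 4563402752 1095216660480 9126805504 :=
  chk_sound hlam t27 1104343465984 4563402752 1095216660480 9126805504 (by norm_num) (by norm_num) c27

/-- Part of the subdivision. -/
def t28 : LT := LT.z2

theorem c28 : chk P t28 1095216660480 9126805504 1113470271488 9126805504 = true := by decide +kernel

theorem b28 {lam : ℝ} (hlam : |(S : ℝ) * lam - ((P.lp : ℝ) - P.ln)| ≤ ((1 : ℕ) : ℝ)) : BoxS lam P 1095216660480 9126805504 1113470271488 9126805504 :=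
  chk_sound hlam t28 1095216660480 9126805504 1113470271488 9126805504 (by norm_num) (by norm_num) c28

/-- Part of the subdivision. -/
def t29 : LT := LT.z2

theorem c29 : chk P t29 1113470271488 9126805504 1095216660480 18253611008 = true := by decide +kernel

theorem b29 {lam : ℝ} (hlam : |(S : ℝ) * lam - ((P.lp : ℝ) - P.ln)| ≤ ((1 : ℕ) : ℝ)) : BoxS lam P 1113470271488 9126805504 1095216660480 18253611008 :=
  chk_sound hlam t29 1113470271488 9126805504 1095216660480 18253611008 (by norm_num) (by norm_num) c29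

/-- Part of the subdivision. -/
def t30 : LT := LT.z2

theorem c30 : chk P t30 1095216660480 18253611008 1131723882496 18253611008 = true := by decide +kernel

theorem b30 {lam : ℝ} (hlam : |(S : ℝ) * lam - ((P.lp : ℝ) - P.ln)| ≤ ((1 : ℕ) : ℝ)) : BoxS lam P 1095216660480 18253611008 1131723882496 18253611008 :=
  chk_sound hlam t30 1095216660480 18253611008 1131723882496 18253611008 (by norm_num) (by norm_num) c30

/-- Part of the subdivision. -/
def t31 : LT := LT.z2

theorem c31 : chk P t31 1131723882496 18253611008 1095216660480 36507222016 = true := by decide +kernel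

theorem b31 {lam : ℝ} (hlam : |(S : ℝ) * lam - ((P.lp : ℝ) - P.ln)| ≤ ((1 : ℕ) : ℝ)) : BoxS lam P 1131723882496 18253611008 1095216660480 36507222016 :=
  chk_sound hlam t31 1131723882496 18253611008 1095216660480 36507222016 (by norm_num) (by norm_num) c31

/-- The whole box. -/
theorem box {lam : ℝ} (hlam : |(S : ℝ) * lam - ((P.lp : ℝ) - P.ln)| ≤ ((1 : ℕ) : ℝ)) : BoxS lam P 0 HH 0 HH :=
  (BoxS.sa' (x1 := 584115552256) (h := 292057776128) (by norm_num [HH]) (by norm_num) (b0 hlam) (BoxS.sb' (t1 := 584115552256) (h := 292057776128) (by norm_num [HH]) (by norm_num) (b1 hlam) (BoxS.sa' (x1 := 876173328384) (h := 146028888064) (by norm_num [HH]) (by norm_num) (b2 hlam) (BoxS.sb' (t1 := 876173328384) (h := 146028888064) (by norm_num [HH]) (by norm_num) (b3 hlam) (BoxS.sa' (x1 := 1022202216448) (h := 73014444032) (by norm_num [HH]) (by norm_num) (b4 hlam) (BoxS.sb' (t1 := 1022202216448) (h := 73014444032) (by norm_num [HH]) (by norm_num) (BoxS.sa' (x1 := 1095216660480)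 (h := 36507222016) (by norm_num [HH]) (by norm_num) (b5 hlam) (b6 hlam)) (BoxS.sa' (x1 := 1095216660480) (h := 36507222016) (by norm_num [HH]) (by norm_num) (BoxS.sb' (t1 := 1095216660480) (h := 36507222016) (by norm_num [HH]) (by norm_num) (BoxS.sa' (x1 := 1058709438464) (h := 18253611008) (by norm_num [HH]) (by norm_num) (b7 hlam) (BoxS.sb' (t1 := 1058709438464) (h := 18253611008) (by norm_num [HH]) (by norm_num) (b8 hlam) (b9 hlam))) (b10 hlam)) (BoxS.sb' (t1 := 1095216660480) (h := 36507222016) (by norm_num [HH]) (by norm_num) (BoxS.sa' (x1 := 1131723882496) (h := 18253611008) (by norm_num [HH]) (by norm_num) (BoxS.sb' (t1 := 1058709438464) (h := 18253611008) (by norm_num [HH]) (by norm_num) (b11 hlam) (BoxS.sa' (x1 := 1113470271488) (h := 9126805504) (by norm_num [HH]) (by norm_num) (BoxS.sb' (t1 := 1076963049472) (h := 9126805504) (by norm_num [HH]) (by norm_num) (b12 hlam) (BoxS.sa' (x1 := 1104343465984) (h := 4563402752) (by norm_num [HH]) (by norm_num)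 (BoxS.sb' (t1 := 1086089854976) (h := 4563402752) (by norm_num [HH]) (by norm_num) (b13 hlam) (BoxS.sa' (x1 := 1099780063232) (h := 2281701376) (by norm_num [HH]) (by norm_num) (b14 hlam) (b15 hlam))) (b16 hlam))) (b17 hlam))) (b18 hlam)) (BoxS.sa' (x1 := 1131723882496) (h := 18253611008) (by norm_num [HH]) (by norm_num) (BoxS.sb' (t1 := 1131723882496) (h := 18253611008) (by norm_num [HH]) (by norm_num) (BoxS.sa' (x1 := 1113470271488) (h := 9126805504) (by norm_num [HH]) (by norm_num) (BoxS.sb' (t1 := 1113470271488) (h := 9126805504) (by norm_num [HH]) (by norm_num) (BoxS.sa' (x1 := 1104343465984) (h := 4563402752) (by norm_num [HH]) (by norm_num) (BoxS.sb' (t1 := 1104343465984) (h := 4563402752) (by norm_num [HH]) (by norm_num) (BoxS.sa' (x1 := 1099780063232) (h := 2281701376) (by norm_num [HH]) (by norm_num) (BoxS.sb' (t1 := 1099780063232) (h := 2281701376) (by norm_num [HH]) (by norm_num) (BoxS.sa' (x1 := 1097498361856) (h := 1140850688) (by norm_num [HH])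 (by norm_num) (b19 hlam) (BoxS.sb' (t1 := 1097498361856) (h := 1140850688) (by norm_num [HH]) (by norm_num) (b20 hlam) (BoxS.sa' (x1 := 1098639212544) (h := 570425344) (by norm_num [HH]) (by norm_num) (b21 hlam) (BoxS.sb' (t1 := 1098639212544) (h := 570425344) (by norm_num [HH]) (by norm_num) (b22 hlam) (b23 hlam))))) (b24 hlam)) (b25 hlam)) (b26 hlam)) (b27 hlam)) (b28 hlam)) (b29 hlam)) (b30 hlam)) (b31 hlam))))))))))

end Vale.Agent.P154H.Tm.D20
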