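import Vale.Agent.P154H.Msg

set_option maxRecDepth 100000

/-!
The subdivision for `d = 21`.
-/

namespace Vale.Agent.P154H.Tm.D21

/-- A row. -/
def Ra : Row := Row.mk 0 525474 0 2606391 4717404 0 11034954 0 54734211 0 0 99065484 0 4000 0 11504640 0 61251120

/-- A row. -/
def Rb : Row := Row.mk 0 17631981600768 0 87455969574912 158289811734528 0 343373184071568 0 1678435010709093 0 0 3018041692495872 0 134217728000 0 386031660564480 0 1943842211933454
/-- A row. -/
def Q0 : Row := Row.mk 0 0 0 0 0 0 7473408 0 0 0 0 0 0 0 0 0 0 5346279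

/-- A row. -/
def Q1 : Row := Row.mk 0 0 0 0 0 0 0 0 296549376 0 0 0 0 0 0 0 0 173207163

/-- A row. -/
def Q2 : Row := Row.mk 0 0 0 0 0 0 0 0 0 0 256 0 0 0 0 0 0 723

/-- A row. -/
def Q3 : Row := Row.mk 0 269042688 0 1334472192 2415310848 0 5195366400 0 25354071720 0 0 45317198352 0 2048000 0 0 0 30188880333

/-- A row. -/
def Q4 : Row := Row.mk 0 1076170752 0 5337888768 9661243392 0 20372959104 0 98933878848 0 0 176273644032 0 8192000 0 0 0 119616783615

/-- A row. -/
def Q5 : Row := Row.mk 0 1076170752 0 5337888768 9661243392 0 19843694208 0 95895401856 0 0 170229353088 0 8192000 0 0 0 117926752599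

/-- A row. -/
def Q6 : Row := Row.mk 0 538085376 0 2668944384 4830621696 0 9633333792 0 46144698000 0 0 81479027424 0 4096000 0 0 0 58181517279

/-- A row. -/
def Q7 : Row := Row.mk 0 1076170752 0 5337888768 9661243392 0 18467897856 0 88054614624 0 0 154305753792 0 8192000 0 0 0 114497395245

/-- A row. -/
def Q8 : Row := Row.mk 0 1076170752 0 5337888768 9661243392 0 17652868416 0 83034894144 0 0 144130941504 0 8192000 0 0 0 112429462077

/-- A row. -/
def Q9 : Row := Row.mk 0 1076170752 0 5337888768 9661243392 0 16619197248 0 77122481664 0 0 132334977408 0 8192000 0 0 0 109210139253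

/-- A row. -/
def Q10 : Row := Row.mk 0 1076170752 0 5337888768 9661243392 0 15451040064 0 70485713568 0 0 118908799296 0 8192000 0 0 0 106101491139

/-- A row. -/
def Q11 : Row := Row.mk 0 1076170752 0 5337888768 9661243392 0 14355560640 0 63445943616 0 0 103975248960 0 8192000 0 0 0 105207490395

/-- A row. -/
def Q12 : Row := Row.mk 0 538085376 0 2668944384 4830621696 0 6412250016 0 27980977536 0 0 43923872064 0 4096000 0 0 0 51917129217

/-- A row. -/
def Q13 : Row := Row.mk 0 33630336 0 166809024 301913856 0 361540332 0 1544981445 0 0 2181704400 0 256000 0 0 0 3566633517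


/-- The data. -/
def P : Pb where
  lp := 0
  ln := 15724256146438257
  ab := 3298534883328
  r1 := [Ra, Rb]
  r2 := [Q0, Q1, Q2, Q3, Q4, Q5, Q6, Q7, Q8, Q9, Q10, Q11, Q12, Q13]

/-- Part of the subdivision. -/
def t0 : LT := (LT.b (LT.a (LT.l 4699 3813 4198 4198) (LT.l 4699 3813 4198 4198)) (LT.a LT.z1 (LT.b (LT.a LT.z1 (LT.b (LT.l 4695 3816 4198 4197) LT.z1)) LT.z1)))

theorem c0 : chk P t0 0 292057776128 0 584115552256 = true := by decide +kernel

theorem b0 {lam : ℝ} (hlam : |(S : ℝ) * lam - ((P.lp : ℝ) - P.ln)| ≤ ((1 : ℕ) : ℝ)) : BoxS lam P 0 292057776128 0 584115552256 :=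
  chk_sound hlam t0 0 292057776128 0 584115552256 (by norm_num) (by norm_num) c0

/-- Part of the subdivision. -/
def t1 : LT := (LT.a (LT.b (LT.a (LT.l 4696 3816 4197 4198) (LT.l 4683 3827 4191 4198)) (LT.a (LT.l 4696 3816 4197 4198) (LT.l 4683 3828 4191 4198))) (LT.b (LT.a (LT.l 4636 3867 4169 4198) (LT.b (LT.l 4475 3968 4099 4198) (LT.l 4475 3968 4099 4198))) (LT.a (LT.b (LT.l 4636 3867 4169 4198) (LT.l 4635 3867 4169 4198)) (LT.b (LT.a (LT.l 4536 3935 4124 4198) (LT.l 4390 4007 4066 4198)) (LT.a (LT.l 4535 3935 4124 4198) (LT.b (LT.l 4389 4007 4066 4198) (LT.l 4388 4007 4066 4198)))))))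

theorem c1 : chk P t1 584115552256 292057776128 0 292057776128 = true := by decide +kernel

theorem b1 {lam : ℝ} (hlam : |(S : ℝ) * lam - ((P.lp : ℝ) - P.ln)| ≤ ((1 : ℕ) : ℝ)) : BoxS lam P 584115552256 292057776128 0 292057776128 :=
  chk_sound hlam t1 584115552256 292057776128 0 292057776128 (by norm_num) (by norm_num) c1

/-- Part of the subdivision. -/
def t2 : LT := (LT.b (LT.a (LT.b (LT.l 4693 3819 4197 4197) (LT.l 4680 3830 4197 4191)) (LT.b (LT.l 4680 3830 4191 4197) (LT.l 4666 3842 4191 4191))) (LT.a LT.z1 (LT.b (LT.a LT.z1 (LT.b (LT.l 4629 3872 4187 4177) LT.z1)) LT.z1)))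

theorem c2 : chk P t2 584115552256 146028888064 584115552256 292057776128 = true := by decide +kernel

theorem b2 {lam : ℝ} (hlam : |(S : ℝ) * lam - ((P.lp : ℝ) - P.ln)| ≤ ((1 : ℕ) : ℝ)) : BoxS lam P 584115552256 146028888064 584115552256 292057776128 :=
  chk_sound hlam t2 584115552256 146028888064 584115552256 292057776128 (by norm_num) (by norm_num) c2

/-- Part of the subdivision. -/
def t3 : LT := (LT.a (LT.b (LT.a (LT.l 4650 3856 4177 4197) (LT.l 4608 3887 4158 4197)) (LT.a (LT.l 4636 3866 4177 4191) (LT.b (LT.l 4599 3894 4158 4193) (LT.l 4585 3903 4158 4187)))) (LT.b (LT.a (LT.b (LT.l 4533 3936 4124 4197) (LT.l 4529 3938 4124 4196)) (LT.b (LT.a (LT.l 4433 3988 4084 4197) (LT.l 4329 4030 4046 4197)) (LT.a (LT.l 4429 3990 4084 4196) (LT.l 4324 4032 4046 4196)))) (LT.a (LT.b (LT.a (LT.l 4546 3929 4135 4193) (LT.l 4493 3958 4113 4193)) (LT.a (LT.l 4531 3937 4135 4187) (LT.l 4477 3967 4113 4187))) (LT.b (LT.a (LT.l 4420 3994 4084 4193) (LT.l 4313 4036 4046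 4193)) (LT.a (LT.l 4402 4002 4084 4187) (LT.l 4292 4043 4046 4187))))))

theorem c3 : chk P t3 876173328384 146028888064 584115552256 146028888064 = true := by decide +kernel

theorem b3 {lam : ℝ} (hlam : |(S : ℝ) * lam - ((P.lp : ℝ) - P.ln)| ≤ ((1 : ℕ) : ℝ)) : BoxS lam P 876173328384 146028888064 584115552256 146028888064 :=
  chk_sound hlam t3 876173328384 146028888064 584115552256 146028888064 (by norm_num) (by norm_num) c3

/-- Part of the subdivision. -/
def t4 : LT := (LT.b (LT.a (LT.b (LT.l 4604 3890 4177 4177) (LT.a LT.z1 (LT.b (LT.l 4564 3917 4173 4164) LT.z1))) (LT.b (LT.a (LT.l 4573 3911 4164 4177) (LT.l 4543 3930 4151 4177)) (LT.a (LT.b (LT.l 4541 3931 4164 4164) (LT.l 4509 3950 4164 4151)) (LT.b (LT.l 4509 3950 4151 4164) (LT.a (LT.l 4485 3962 4155 4151) (LT.b (LT.l 4475 3968 4147 4155) (LT.l 4456 3977 4147 4147))))))) (LT.a LT.z1 (LT.b (LT.a LT.z1 (LT.b (LT.a LT.z1 (LT.b (LT.l 4433 3988 4147 4139) LT.z1)) LT.z1)) LT.z1)))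

theorem c4 : chk P t4 876173328384 73014444032 876173328384 146028888064 = true := by decide +kernel

theorem b4 {lam : ℝ} (hlam : |(S : ℝ) * lam - ((P.lp : ℝ) - P.ln)| ≤ ((1 : ℕ) : ℝ)) : BoxS lam P 876173328384 73014444032 876173328384 146028888064 :=
  chk_sound hlam t4 876173328384 73014444032 876173328384 146028888064 (by norm_num) (by norm_num) c4

/-- Part of the subdivision. -/
def t5 : LT := (LT.b (LT.a (LT.b (LT.l 4511 3948 4135 4180) (LT.l 4492 3959 4135 4173)) (LT.b (LT.l 4456 3977 4113 4180) (LT.l 4435 3987 4113 4173))) (LT.a (LT.b (LT.a (LT.l 4478 3966 4139 4164) (LT.l 4453 3979 4130 4164)) (LT.a (LT.b (LT.l 4453 3979 4139 4155) (LT.l 4433 3988 4139 4147)) (LT.b (LT.l 4427 3991 4130 4155) (LT.l 4406 4000 4130 4147)))) (LT.b (LT.a (LT.l 4423 3992 4119 4164) (LT.l 4388 4008 4106 4164)) (LT.a (LT.b (LT.l 4396 4004 4119 4155) (LT.l 4373 4013 4119 4147)) (LT.l 4347 4023 4106 4151)))))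

theorem c5 : chk P t5 1022202216448 36507222016 876173328384 73014444032 = true := by decide +kernel

theorem b5 {lam : ℝ} (hlam : |(S : ℝ) * lam - ((P.lp : ℝ) - P.ln)| ≤ ((1 : ℕ) : ℝ)) : BoxS lam P 1022202216448 36507222016 876173328384 73014444032 :=
  chk_sound hlam t5 1022202216448 36507222016 876173328384 73014444032 (by norm_num) (by norm_num) c5

/-- Part of the subdivision. -/
def t6 : LT := (LT.b (LT.a (LT.b (LT.l 4378 4012 4084 4180) (LT.l 4354 4021 4084 4173)) (LT.b (LT.l 4263 4052 4046 4180) (LT.a (LT.l 4269 4050 4056 4173) LT.z2))) (LT.a (LT.b (LT.a (LT.l 4346 4024 4092 4164) (LT.l 4294 4042 4075 4164)) (LT.a (LT.b (LT.l 4314 4035 4092 4155) (LT.l 4289 4044 4092 4147)) (LT.b (LT.l 4260 4053 4075 4155) (LT.l 4232 4062 4075 4147)))) (LT.b (LT.a (LT.l 4231 4062 4056 4164) LT.z2) (LT.a (LT.b (LT.l 4194 4072 4056 4155) LT.z2) LT.z2))))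

theorem c6 : chk P t6 1095216660480 36507222016 876173328384 73014444032 = true := by decide +kernel

theorem b6 {lam : ℝ} (hlam : |(S : ℝ) * lam - ((P.lp : ℝ) - P.ln)| ≤ ((1 : ℕ) : ℝ)) : BoxS lam P 1095216660480 36507222016 876173328384 73014444032 :=
  chk_sound hlam t6 1095216660480 36507222016 876173328384 73014444032 (by norm_num) (by norm_num) c6

/-- Part of the subdivision. -/
def t7 : LT := (LT.b (LT.a (LT.b (LT.a (LT.l 4415 3996 4141 4139) (LT.l 4402 4002 4137 4139)) (LT.a LT.z1 (LT.l 4374 4013 4137 4130))) (LT.b (LT.a (LT.l 4388 4007 4132 4139) (LT.l 4373 4014 4127 4139)) (LT.l 4351 4022 4130 4130))) (LT.a LT.z1 (LT.b (LT.l 4316 4035 4130 4119) LT.z1)))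

theorem c7 : chk P t7 1022202216448 18253611008 1022202216448 36507222016 = true := by decide +kernel

theorem b7 {lam : ℝ} (hlam : |(S : ℝ) * lam - ((P.lp : ℝ) - P.ln)| ≤ ((1 : ℕ) : ℝ)) : BoxS lam P 1022202216448 18253611008 1022202216448 36507222016 :=
  chk_sound hlam t7 1022202216448 18253611008 1022202216448 36507222016 (by norm_num) (by norm_num) c7

/-- Part of the subdivision. -/
def t8 : LT := (LT.a (LT.b (LT.l 4347 4024 4119 4139) (LT.l 4316 4035 4119 4130)) (LT.b (LT.l 4307 4038 4106 4139) (LT.a (LT.l 4285 4045 4110 4130) (LT.l 4262 4053 4103 4130))))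

theorem c8 : chk P t8 1058709438464 18253611008 1022202216448 18253611008 = true := by decide +kernel

theorem b8 {lam : ℝ} (hlam : |(S : ℝ) * lam - ((P.lp : ℝ) - P.ln)| ≤ ((1 : ℕ) : ℝ)) : BoxS lam P 1058709438464 18253611008 1022202216448 18253611008 :=
  chk_sound hlam t8 1058709438464 18253611008 1022202216448 18253611008 (by norm_num) (by norm_num) c8

/-- Part of the subdivision. -/
def t9 : LT := (LT.a (LT.b (LT.a (LT.l 4288 4044 4122 4119) (LT.b (LT.l 4278 4048 4116 4122) (LT.l 4257 4054 4116 4116))) (LT.a LT.z1 (LT.b (LT.l 4234 4061 4116 4110) LT.z1))) (LT.b (LT.a (LT.b (LT.l 4256 4054 4110 4122) (LT.l 4234 4061 4110 4116)) (LT.b (LT.l 4232 4062 4103 4122) (LT.a (LT.l 4216 4066 4105 4116) (LT.l 4202 4070 4101 4116)))) (LT.a (LT.b (LT.a (LT.l 4217 4066 4111 4110) (LT.l 4204 4069 4108 4110)) (LT.a LT.z1 (LT.b (LT.l 4185 4075 4108 4105) LT.z1))) (LT.b (LT.a (LT.b (LT.l 4198 4071 4105 4111) (LT.l 4185 4075 4105 4108)) (LT.b (LT.l 4184 4075 4101 4111) (LT.l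 4171 4078 4101 4108))) (LT.a (LT.b (LT.l 4171 4078 4105 4105) (LT.a LT.z1 (LT.l 4153 4083 4104 4101))) (LT.b (LT.a (LT.l 4160 4081 4102 4105) (LT.l 4153 4083 4100 4105)) (LT.a (LT.b (LT.l 4150 4084 4102 4102) (LT.l 4142 4085 4102 4100)) (LT.b (LT.l 4142 4085 4100 4102) (LT.l 4135 4087 4100 4100)))))))))

theorem c9 : chk P t9 1058709438464 18253611008 1058709438464 18253611008 = true := by decide +kernel

theorem b9 {lam : ℝ} (hlam : |(S : ℝ) * lam - ((P.lp : ℝ) - P.ln)| ≤ ((1 : ℕ) : ℝ)) : BoxS lam P 1058709438464 18253611008 1058709438464 18253611008 :=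
  chk_sound hlam t9 1058709438464 18253611008 1058709438464 18253611008 (by norm_num) (by norm_num) c9

/-- Part of the subdivision. -/
def t10 : LT := (LT.a LT.z1 (LT.b (LT.a LT.z1 (LT.b (LT.a LT.z1 (LT.b (LT.a LT.z1 (LT.b (LT.a LT.z1 (LT.b (LT.a LT.z1 (LT.l 4125 4090 4100 4099)) LT.z1)) LT.z1)) LT.z1)) LT.z1)) LT.z1))

theorem c10 : chk P t10 1022202216448 36507222016 1095216660480 36507222016 = true := by decide +kernel

theorem b10 {lam : ℝ} (hlam : |(S : ℝ) * lam - ((P.lp : ℝ) - P.ln)| ≤ ((1 : ℕ) : ℝ)) : BoxS lam P 1022202216448 36507222016 1095216660480 36507222016 :=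
  chk_sound hlam t10 1022202216448 36507222016 1095216660480 36507222016 (by norm_num) (by norm_num) c10

/-- Part of the subdivision. -/
def t11 : LT := (LT.a (LT.b (LT.a (LT.l 4272 4050 4096 4139) (LT.l 4245 4058 4088 4139)) (LT.a (LT.b (LT.l 4246 4058 4096 4132) (LT.l 4226 4063 4096 4127)) (LT.b (LT.l 4218 4066 4088 4132) (LT.l 4197 4071 4088 4127)))) (LT.b (LT.a (LT.l 4215 4066 4080 4139) (LT.l 4182 4075 4071 4139)) (LT.a (LT.b (LT.l 4187 4074 4080 4132) (LT.l 4165 4080 4080 4127)) LT.z2)))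

theorem c11 : chk P t11 1095216660480 18253611008 1022202216448 18253611008 = true := by decide +kernel

theorem b11 {lam : ℝ} (hlam : |(S : ℝ) * lam - ((P.lp : ℝ) - P.ln)| ≤ ((1 : ℕ) : ℝ)) : BoxS lam P 1095216660480 18253611008 1022202216448 18253611008 :=
  chk_sound hlam t11 1095216660480 18253611008 1022202216448 18253611008 (by norm_num) (by norm_num) c11

/-- Part of the subdivision. -/
def t12 : LT := (LT.a (LT.b (LT.l 4205 4069 4096 4122) (LT.a (LT.l 4189 4074 4098 4116) (LT.b (LT.l 4180 4076 4094 4117) (LT.l 4167 4079 4094 4114)))) (LT.b (LT.l 4175 4077 4088 4122) (LT.a (LT.b (LT.l 4165 4080 4090 4117) (LT.l 4152 4083 4090 4114)) (LT.l 4142 4086 4086 4116))))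

theorem c12 : chk P t12 1095216660480 9126805504 1058709438464 9126805504 = true := by decide +kernel

theorem b12 {lam : ℝ} (hlam : |(S : ℝ) * lam - ((P.lp : ℝ) - P.ln)| ≤ ((1 : ℕ) : ℝ)) : BoxS lam P 1095216660480 9126805504 1058709438464 9126805504 :=
  chk_sound hlam t12 1095216660480 9126805504 1058709438464 9126805504 (by norm_num) (by norm_num) c12

/-- Part of the subdivision. -/
def t13 : LT := (LT.a (LT.b (LT.l 4169 4079 4098 4111) (LT.a (LT.l 4160 4081 4099 4108) (LT.l 4152 4083 4097 4108))) (LT.b (LT.l 4154 4082 4094 4111) (LT.a (LT.l 4144 4085 4095 4108) (LT.l 4136 4087 4093 4108))))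

theorem c13 : chk P t13 1095216660480 4563402752 1076963049472 4563402752 = true := by decide +kernel

theorem b13 {lam : ℝ} (hlam : |(S : ℝ) * lam - ((P.lp : ℝ) - P.ln)| ≤ ((1 : ℕ) : ℝ)) : BoxS lam P 1095216660480 4563402752 1076963049472 4563402752 :=
  chk_sound hlam t13 1095216660480 4563402752 1076963049472 4563402752 (by norm_num) (by norm_num) c13

/-- Part of the subdivision. -/
def t14 : LT := (LT.b (LT.a (LT.b (LT.l 4149 4084 4099 4106) (LT.l 4142 4085 4099 4104)) (LT.b (LT.l 4141 4086 4097 4106) (LT.l 4134 4087 4097 4104))) (LT.a (LT.b (LT.l 4134 4087 4099 4102) (LT.a (LT.l 4129 4089 4099 4100) (LT.l 4125 4090 4098 4100))) (LT.b (LT.a (LT.l 4128 4089 4097 4102) (LT.l 4124 4090 4096 4102)) (LT.a (LT.b (LT.l 4123 4090 4097 4101) (LT.l 4119 4091 4097 4100)) (LT.b (LT.l 4119 4091 4096 4101) (LT.l 4115 4092 4096 4100))))))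

theorem c14 : chk P t14 1095216660480 2281701376 1086089854976 4563402752 = true := by decide +kernel

theorem b14 {lam : ℝ} (hlam : |(S : ℝ) * lam - ((P.lp : ℝ) - P.ln)| ≤ ((1 : ℕ) : ℝ)) : BoxS lam P 1095216660480 2281701376 1086089854976 4563402752 :=
  chk_sound hlam t14 1095216660480 2281701376 1086089854976 4563402752 (by norm_num) (by norm_num) c14

/-- Part of the subdivision. -/
def t15 : LT := (LT.b (LT.a (LT.b (LT.l 4134 4087 4095 4106) (LT.l 4126 4089 4095 4104)) (LT.b (LT.l 4125 4089 4093 4106) (LT.l 4118 4091 4093 4104))) (LT.a (LT.b (LT.a (LT.l 4120 4091 4095 4102) (LT.l 4116 4091 4094 4102)) (LT.a (LT.b (LT.l 4115 4092 4095 4101) (LT.l 4111 4093 4095 4100)) (LT.b (LT.l 4110 4093 4094 4101) (LT.l 4106 4094 4094 4100)))) (LT.b (LT.l 4110 4093 4093 4102) (LT.a (LT.b (LT.l 4106 4094 4093 4101) (LT.l 4102 4095 4093 4100)) LT.z2))))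

theorem c15 : chk P t15 1099780063232 2281701376 1086089854976 4563402752 = true := by decide +kernel

theorem b15 {lam : ℝ} (hlam : |(S : ℝ) * lam - ((P.lp : ℝ) - P.ln)| ≤ ((1 : ℕ) : ℝ)) : BoxS lam P 1099780063232 2281701376 1086089854976 4563402752 :=
  chk_sound hlam t15 1099780063232 2281701376 1086089854976 4563402752 (by norm_num) (by norm_num) c15

/-- Part of the subdivision. -/
def t16 : LT := (LT.b (LT.a (LT.b (LT.l 4138 4086 4090 4111) (LT.l 4124 4090 4090 4108)) (LT.b (LT.l 4121 4090 4086 4111) LT.z2)) (LT.a (LT.b (LT.a (LT.b (LT.l 4117 4091 4091 4106) (LT.l 4109 4093 4091 4104)) LT.z2) LT.z2) LT.z2))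

theorem c16 : chk P t16 1104343465984 4563402752 1076963049472 9126805504 = true := by decide +kernel

theorem b16 {lam : ℝ} (hlam : |(S : ℝ) * lam - ((P.lp : ℝ) - P.ln)| ≤ ((1 : ℕ) : ℝ)) : BoxS lam P 1104343465984 4563402752 1076963049472 9126805504 :=
  chk_sound hlam t16 1104343465984 4563402752 1076963049472 9126805504 (by norm_num) (by norm_num) c16

/-- Part of the subdivision. -/
def t17 : LT := (LT.b (LT.a (LT.b (LT.l 4141 4086 4080 4122) LT.z2) LT.z2) LT.z2)

theorem c17 : chk P t17 1113470271488 9126805504 1058709438464 18253611008 = true := by decide +kernel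

theorem b17 {lam : ℝ} (hlam : |(S : ℝ) * lam - ((P.lp : ℝ) - P.ln)| ≤ ((1 : ℕ) : ℝ)) : BoxS lam P 1113470271488 9126805504 1058709438464 18253611008 :=
  chk_sound hlam t17 1113470271488 9126805504 1058709438464 18253611008 (by norm_num) (by norm_num) c17

/-- Part of the subdivision. -/
def t18 : LT := LT.z2

theorem c18 : chk P t18 1131723882496 18253611008 1022202216448 36507222016 = true := by decide +kernel

theorem b18 {lam : ℝ} (hlam : |(S : ℝ) * lam - ((P.lp : ℝ) - P.ln)| ≤ ((1 : ℕ) : ℝ)) : BoxS lam P 1131723882496 18253611008 1022202216448 36507222016 :=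
  chk_sound hlam t18 1131723882496 18253611008 1022202216448 36507222016 (by norm_num) (by norm_num) c18

/-- Part of the subdivision. -/
def t19 : LT := (LT.b (LT.a (LT.b (LT.l 4123 4090 4099 4099) (LT.l 4119 4091 4099 4098)) (LT.b (LT.l 4119 4091 4098 4099) (LT.a (LT.l 4116 4092 4098 4098) (LT.l 4114 4092 4098 4098)))) (LT.a LT.z1 (LT.b (LT.a LT.z1 (LT.b (LT.l 4111 4093 4098 4097) LT.z1)) LT.z1)))

theorem c19 : chk P t19 1095216660480 1140850688 1095216660480 2281701376 = true := by decide +kernel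

theorem b19 {lam : ℝ} (hlam : |(S : ℝ) * lam - ((P.lp : ℝ) - P.ln)| ≤ ((1 : ℕ) : ℝ)) : BoxS lam P 1095216660480 1140850688 1095216660480 2281701376 :=
  chk_sound hlam t19 1095216660480 1140850688 1095216660480 2281701376 (by norm_num) (by norm_num) c19

/-- Part of the subdivision. -/
def t20 : LT := (LT.a (LT.b (LT.l 4115 4092 4097 4099) (LT.a (LT.l 4112 4093 4097 4098) (LT.b (LT.l 4111 4093 4097 4098) (LT.l 4109 4093 4097 4098)))) (LT.b (LT.a (LT.l 4112 4093 4096 4099) (LT.l 4110 4093 4096 4099)) (LT.a (LT.b (LT.l 4109 4093 4096 4098) (LT.l 4107 4094 4096 4098)) (LT.b (LT.l 4107 4094 4096 4098) (LT.l 4105 4094 4096 4098)))))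

theorem c20 : chk P t20 1097498361856 1140850688 1095216660480 1140850688 = true := by decide +kernel

theorem b20 {lam : ℝ} (hlam : |(S : ℝ) * lam - ((P.lp : ℝ) - P.ln)| ≤ ((1 : ℕ) : ℝ)) : BoxS lam P 1097498361856 1140850688 1095216660480 1140850688 :=
  chk_sound hlam t20 1097498361856 1140850688 1095216660480 1140850688 (by norm_num) (by norm_num) c20

/-- Part of the subdivision. -/
def t21 : LT := (LT.b (LT.a (LT.b (LT.l 4109 4093 4097 4097) (LT.l 4107 4094 4097 4097)) (LT.b (LT.l 4107 4094 4097 4097) (LT.a (LT.l 4105 4094 4097 4097) (LT.l 4104 4094 4097 4097)))) (LT.a LT.z1 (LT.b (LT.a LT.z1 (LT.b (LT.l 4102 4095 4097 4097) LT.z1)) LT.z1)))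

theorem c21 : chk P t21 1097498361856 570425344 1097498361856 1140850688 = true := by decide +kernel

theorem b21 {lam : ℝ} (hlam : |(S : ℝ) * lam - ((P.lp : ℝ) - P.ln)| ≤ ((1 : ℕ) : ℝ)) : BoxS lam P 1097498361856 570425344 1097498361856 1140850688 :=
  chk_sound hlam t21 1097498361856 570425344 1097498361856 1140850688 (by norm_num) (by norm_num) c21

/-- Part of the subdivision. -/
def t22 : LT := (LT.a (LT.b (LT.a (LT.l 4105 4094 4097 4097) (LT.l 4104 4094 4096 4097)) (LT.a (LT.b (LT.l 4103 4094 4097 4097) (LT.l 4102 4095 4097 4097)) (LT.b (LT.l 4102 4095 4096 4097) (LT.l 4101 4095 4096 4097)))) (LT.b (LT.a (LT.l 4103 4094 4096 4097) (LT.l 4102 4095 4096 4097)) (LT.a (LT.b (LT.l 4101 4095 4096 4097) (LT.a (LT.l 4101 4095 4096 4097) (LT.l 4100 4095 4096 4097))) (LT.b (LT.l 4100 4095 4096 4097) (LT.a (LT.l 4100 4095 4096 4097) (LT.l 4099 4095 4096 4097))))))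

theorem c22 : chk P t22 1098639212544 570425344 1097498361856 570425344 = true := by decide +kernel

theorem b22 {lam : ℝ} (hlam : |(S : ℝ) * lam - ((P.lp : ℝ) - P.ln)| ≤ ((1 : ℕ) : ℝ)) : BoxS lam P 1098639212544 570425344 1097498361856 570425344 :=
  chk_sound hlam t22 1098639212544 570425344 1097498361856 570425344 (by norm_num) (by norm_num) c22

/-- Part of the subdivision. -/
def t23 : LT := (LT.a (LT.b (LT.a (LT.b (LT.l 4101 4095 4097 4097) (LT.a LT.z1 (LT.b (LT.l 4100 4095 4097 4096) LT.z1))) (LT.b (LT.a (LT.l 4101 4095 4096 4097) (LT.b (LT.l 4100 4095 4096 4097) (LT.l 4100 4095 4096 4097))) (LT.a (LT.b (LT.l 4100 4095 4096 4096) (LT.o 4099 4095 4096 4096)) (LT.o 4099 4095 4096 4096)))) (LT.a LT.z1 (LT.o 4098 4096 4096 4096))) (LT.b (LT.a (LT.b (LT.a (LT.b (LT.l 4100 4095 4096 4097) (LT.o 4099 4095 4096 4097)) (LT.b (LT.l 4099 4095 4096 4097) (LT.o 4099 4095 4096 4097))) (LT.o 4098 4096 4096 4096)) (LT.o 4098 4096 4096 4096)) (LT.o 4096 4096 4096 4096)))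

theorem c23 : chk P t23 1098639212544 570425344 1098639212544 570425344 = true := by decide +kernel

theorem b23 {lam : ℝ} (hlam : |(S : ℝ) * lam - ((P.lp : ℝ) - P.ln)| ≤ ((1 : ℕ) : ℝ)) : BoxS lam P 1098639212544 570425344 1098639212544 570425344 :=
  chk_sound hlam t23 1098639212544 570425344 1098639212544 570425344 (by norm_num) (by norm_num) c23

/-- Part of the subdivision. -/
def t24 : LT := (LT.a LT.z1 (LT.b (LT.a LT.z1 (LT.b (LT.a LT.z1 (LT.b (LT.a LT.z1 LT.z2) LT.z1)) LT.z1)) LT.z1))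

theorem c24 : chk P t24 1095216660480 2281701376 1099780063232 2281701376 = true := by decide +kernel

theorem b24 {lam : ℝ} (hlam : |(S : ℝ) * lam - ((P.lp : ℝ) - P.ln)| ≤ ((1 : ℕ) : ℝ)) : BoxS lam P 1095216660480 2281701376 1099780063232 2281701376 :=
  chk_sound hlam t24 1095216660480 2281701376 1099780063232 2281701376 (by norm_num) (by norm_num) c24

/-- Part of the subdivision. -/
def t25 : LT := (LT.b (LT.a (LT.b (LT.a (LT.b (LT.a (LT.l 4108 4093 4096 4099) (LT.l 4105 4094 4095 4099)) (LT.a (LT.b (LT.l 4104 4094 4096 4098) (LT.l 4102 4095 4096 4098)) (LT.b (LT.l 4102 4095 4095 4098) (LT.l 4100 4095 4095 4098)))) (LT.b (LT.l 4102 4095 4094 4099) (LT.a (LT.b (LT.l 4100 4095 4095 4098) LT.z2) LT.z2))) (LT.a (LT.b (LT.a (LT.b (LT.a (LT.l 4101 4095 4096 4097) (LT.l 4100 4095 4095 4097)) (LT.a (LT.b (LT.l 4099 4095 4096 4097) (LT.a (LT.l 4098 4095 4096 4097) (LT.l 4098 4096 4096 4097))) (LT.b (LT.l 4098 4096 4095 4097) (LT.l 4097 4096 4095 4097)))) (LT.b (LT.l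 4098 4096 4095 4097) LT.z2)) (LT.a (LT.b (LT.a (LT.o 4097 4096 4096 4096) LT.z2) LT.z2) LT.z2)) LT.z2)) LT.z2) LT.z2)

theorem c25 : chk P t25 1099780063232 2281701376 1095216660480 4563402752 = true := by decide +kernel

theorem b25 {lam : ℝ} (hlam : |(S : ℝ) * lam - ((P.lp : ℝ) - P.ln)| ≤ ((1 : ℕ) : ℝ)) : BoxS lam P 1099780063232 2281701376 1095216660480 4563402752 :=
  chk_sound hlam t25 1099780063232 2281701376 1095216660480 4563402752 (by norm_num) (by norm_num) c25

/-- Part of the subdivision. -/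
def t26 : LT := (LT.a LT.z1 LT.z2)

theorem c26 : chk P t26 1095216660480 4563402752 1104343465984 4563402752 = true := by decide +kernel

theorem b26 {lam : ℝ} (hlam : |(S : ℝ) * lam - ((P.lp : ℝ) - P.ln)| ≤ ((1 : ℕ) : ℝ)) : BoxS lam P 1095216660480 4563402752 1104343465984 4563402752 :=
  chk_sound hlam t26 1095216660480 4563402752 1104343465984 4563402752 (by norm_num) (by norm_num) c26

/-- Part of the subdivision. -/
def t27 : LT := LT.z2

theorem c27 : chk P t27 1104343465984 4563402752 1095216660480 9126805504 = true := by decide +kernel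

theorem b27 {lam : ℝ} (hlam : |(S : ℝ) * lam - ((P.lp : ℝ) - P.ln)| ≤ ((1 : ℕ) : ℝ)) : BoxS lam P 1104343465984 4563402752 1095216660480 9126805504 :=
  chk_sound hlam t27 1104343465984 4563402752 1095216660480 9126805504 (by norm_num) (by norm_num) c27

/-- Part of the subdivision. -/
def t28 : LT := LT.z2

theorem c28 : chk P t28 1095216660480 9126805504 1113470271488 9126805504 = true := by decide +kernel

theorem b28 {lam : ℝ} (hlam : |(S : ℝ) * lam - ((P.lp : ℝ) - P.ln)| ≤ ((1 : ℕ) : ℝ)) : BoxS lam P 1095216660480 9126805504 1113470271488 9126805504 :=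
  chk_sound hlam t28 1095216660480 9126805504 1113470271488 9126805504 (by norm_num) (by norm_num) c28

/-- Part of the subdivision. -/
def t29 : LT := LT.z2

theorem c29 : chk P t29 1113470271488 9126805504 1095216660480 18253611008 = true := by decide +kernel

theorem b29 {lam : ℝ} (hlam : |(S : ℝ) * lam - ((P.lp : ℝ) - P.ln)| ≤ ((1 : ℕ) : ℝ)) : BoxS lam P 1113470271488 9126805504 1095216660480 18253611008 :=
  chk_sound hlam t29 1113470271488 9126805504 1095216660480 18253611008 (by norm_num) (by norm_num) c29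

/-- Part of the subdivision. -/
def t30 : LT := LT.z2

theorem c30 : chk P t30 1095216660480 18253611008 1131723882496 18253611008 = true := by decide +kernel

theorem b30 {lam : ℝ} (hlam : |(S : ℝ) * lam - ((P.lp : ℝ) - P.ln)| ≤ ((1 : ℕ) : ℝ)) : BoxS lam P 1095216660480 18253611008 1131723882496 18253611008 :=
  chk_sound hlam t30 1095216660480 18253611008 1131723882496 18253611008 (by norm_num) (by norm_num) c30

/-- Part of the subdivision. -/
def t31 : LT := LT.z2

theorem c31 : chk P t31 1131723882496 18253611008 1095216660480 36507222016 = true := by decide +kernel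

theorem b31 {lam : ℝ} (hlam : |(S : ℝ) * lam - ((P.lp : ℝ) - P.ln)| ≤ ((1 : ℕ) : ℝ)) : BoxS lam P 1131723882496 18253611008 1095216660480 36507222016 :=
  chk_sound hlam t31 1131723882496 18253611008 1095216660480 36507222016 (by norm_num) (by norm_num) c31

/-- The whole box. -/
theorem box {lam : ℝ} (hlam : |(S : ℝ) * lam - ((P.lp : ℝ) - P.ln)| ≤ ((1 : ℕ) : ℝ)) : BoxS lam P 0 HH 0 HH :=
  (BoxS.sa' (x1 := 584115552256) (h := 292057776128) (by norm_num [HH]) (by norm_num) (b0 hlam) (BoxS.sb' (t1 := 584115552256) (h := 292057776128) (by norm_num [HH]) (by norm_num) (b1 hlam) (BoxS.sa' (x1 := 876173328384) (h := 146028888064) (by norm_num [HH]) (by norm_num) (b2 hlam) (BoxS.sb' (t1 := 876173328384) (h := 146028888064) (by norm_num [HH]) (by norm_num) (b3 hlam) (BoxS.sa' (x1 := 1022202216448) (h := 73014444032) (by norm_num [HH]) (by norm_num) (b4 hlam) (BoxS.sb' (t1 := 1022202216448) (h := 73014444032) (by norm_num [HH]) (by norm_num) (BoxS.sa' (x1 := 1095216660480)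 (h := 36507222016) (by norm_num [HH]) (by norm_num) (b5 hlam) (b6 hlam)) (BoxS.sa' (x1 := 1095216660480) (h := 36507222016) (by norm_num [HH]) (by norm_num) (BoxS.sb' (t1 := 1095216660480) (h := 36507222016) (by norm_num [HH]) (by norm_num) (BoxS.sa' (x1 := 1058709438464) (h := 18253611008) (by norm_num [HH]) (by norm_num) (b7 hlam) (BoxS.sb' (t1 := 1058709438464) (h := 18253611008) (by norm_num [HH]) (by norm_num) (b8 hlam) (b9 hlam))) (b10 hlam)) (BoxS.sb' (t1 := 1095216660480) (h := 36507222016) (by norm_num [HH]) (by norm_num) (BoxS.sa' (x1 := 1131723882496) (h := 18253611008) (by norm_num [HH]) (by norm_num) (BoxS.sb' (t1 := 1058709438464) (h := 18253611008) (by norm_num [HH]) (by norm_num) (b11 hlam) (BoxS.sa' (x1 := 1113470271488) (h := 9126805504) (by norm_num [HH]) (by norm_num) (BoxS.sb' (t1 := 1076963049472) (h := 9126805504) (by norm_num [HH]) (by norm_num) (b12 hlam) (BoxS.sa' (x1 := 1104343465984) (h := 4563402752) (by norm_num [HH]) (by norm_num)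 (BoxS.sb' (t1 := 1086089854976) (h := 4563402752) (by norm_num [HH]) (by norm_num) (b13 hlam) (BoxS.sa' (x1 := 1099780063232) (h := 2281701376) (by norm_num [HH]) (by norm_num) (b14 hlam) (b15 hlam))) (b16 hlam))) (b17 hlam))) (b18 hlam)) (BoxS.sa' (x1 := 1131723882496) (h := 18253611008) (by norm_num [HH]) (by norm_num) (BoxS.sb' (t1 := 1131723882496) (h := 18253611008) (by norm_num [HH]) (by norm_num) (BoxS.sa' (x1 := 1113470271488) (h := 9126805504) (by norm_num [HH]) (by norm_num) (BoxS.sb' (t1 := 1113470271488) (h := 9126805504) (by norm_num [HH]) (by norm_num) (BoxS.sa' (x1 := 1104343465984) (h := 4563402752) (by norm_num [HH]) (by norm_num) (BoxS.sb' (t1 := 1104343465984) (h := 4563402752) (by norm_num [HH]) (by norm_num) (BoxS.sa' (x1 := 1099780063232) (h := 2281701376) (by norm_num [HH]) (by norm_num) (BoxS.sb' (t1 := 1099780063232) (h := 2281701376) (by norm_num [HH]) (by norm_num) (BoxS.sa' (x1 := 1097498361856) (h := 1140850688) (by norm_num [HH])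 (by norm_num) (b19 hlam) (BoxS.sb' (t1 := 1097498361856) (h := 1140850688) (by norm_num [HH]) (by norm_num) (b20 hlam) (BoxS.sa' (x1 := 1098639212544) (h := 570425344) (by norm_num [HH]) (by norm_num) (b21 hlam) (BoxS.sb' (t1 := 1098639212544) (h := 570425344) (by norm_num [HH]) (by norm_num) (b22 hlam) (b23 hlam))))) (b24 hlam)) (b25 hlam)) (b26 hlam)) (b27 hlam)) (b28 hlam)) (b29 hlam)) (b30 hlam)) (b31 hlam))))))))))

end Vale.Agent.P154H.Tm.D21
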