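import Vale.Agent.P154H.Msg

set_option maxRecDepth 100000

/-!
The subdivision for `d = 22`.
-/

namespace Vale.Agent.P154H.Tm.D22

/-- A row. -/
def Ra : Row := Row.mk 0 525474 0 2606391 4717404 0 11560428 0 57340602 0 0 103782888 0 4384 0 12655104 0 64313676

/-- A row. -/
def Rb : Row := Row.mk 0 17631981600768 0 87455969574912 158289811734528 0 358387525016496 0 1750501434594879 0 0 3146548570546176 0 147102629888 0 424634826620928 0 2035763143932042
/-- A row. -/
def Q0 : Row := Row.mk 0 0 0 0 0 0 7473408 0 0 0 0 0 0 0 0 0 0 5346279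

/-- A row. -/
def Q1 : Row := Row.mk 0 0 0 0 0 0 0 0 296549376 0 0 0 0 0 0 0 0 173207163

/-- A row. -/
def Q2 : Row := Row.mk 0 0 0 0 0 0 0 0 0 0 1024 0 0 0 0 0 0 2901

/-- A row. -/
def Q3 : Row := Row.mk 0 1076170752 0 5337888768 9661243392 0 21664262208 0 105723614400 0 0 188894768064 0 8978432 0 0 0 126370109583

/-- A row. -/
def Q4 : Row := Row.mk 0 538085376 0 2668944384 4830621696 0 10632603648 0 51545567520 0 0 91786843200 0 4489216 0 0 0 62668008243

/-- A row. -/
def Q5 : Row := Row.mk 0 1076170752 0 5337888768 9661243392 0 20722284288 0 99938672352 0 0 177170576640 0 8978432 0 0 0 123993862929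

/-- A row. -/
def Q6 : Row := Row.mk 0 1076170752 0 5337888768 9661243392 0 20026978752 0 96074626560 0 0 169514742720 0 8978432 0 0 0 121685248701

/-- A row. -/
def Q7 : Row := Row.mk 0 1076170752 0 5337888768 9661243392 0 19196438976 0 91622522208 0 0 160449172224 0 8978432 0 0 0 119660774697

/-- A row. -/
def Q8 : Row := Row.mk 0 269042688 0 1334472192 2415310848 0 4596709392 0 21589475496 0 0 37460677776 0 2244608 0 0 0 29358959967

/-- A row. -/
def Q9 : Row := Row.mk 0 538085376 0 2668944384 4830621696 0 8669985984 0 40209521712 0 0 68804726400 0 4489216 0 0 0 57654356949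

/-- A row. -/
def Q10 : Row := Row.mk 0 1076170752 0 5337888768 9661243392 0 16135422144 0 73371375648 0 0 123746201472 0 8978432 0 0 0 110958160275

/-- A row. -/
def Q11 : Row := Row.mk 0 134521344 0 667236096 1207655424 0 1880197704 0 8266432884 0 0 13548225048 0 1122304 0 0 0 13768604127

/-- A row. -/
def Q12 : Row := Row.mk 0 134521344 0 667236096 1207655424 0 1675259568 0 7319174856 0 0 11480908752 0 1122304 0 0 0 13638833415

/-- A row. -/
def Q13 : Row := Row.mk 0 538085376 0 2668944384 4830621696 0 6066382272 0 25972601376 0 0 36653135712 0 4489216 0 0 0 60184689471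


/-- The data. -/
def P : Pb where
  lp := 0
  ln := 15362730667747999
  ab := 3298534883328
  r1 := [Ra, Rb]
  r2 := [Q0, Q1, Q2, Q3, Q4, Q5, Q6, Q7, Q8, Q9, Q10, Q11, Q12, Q13]

/-- Part of the subdivision. -/
def t0 : LT := (LT.b (LT.a (LT.l 4699 3821 4196 4196) (LT.l 4699 3821 4196 4196)) (LT.a LT.z1 (LT.b (LT.a LT.z1 (LT.b (LT.l 4695 3824 4196 4195) LT.z1)) LT.z1)))

theorem c0 : chk P t0 0 292057776128 0 584115552256 = true := by decide +kernel

theorem b0 {lam : ℝ} (hlam : |(S : ℝ) * lam - ((P.lp : ℝ) - P.ln)| ≤ ((1 : ℕ) : ℝ)) : BoxS lam P 0 292057776128 0 584115552256 :=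
  chk_sound hlam t0 0 292057776128 0 584115552256 (by norm_num) (by norm_num) c0

/-- Part of the subdivision. -/
def t1 : LT := (LT.a (LT.b (LT.a (LT.l 4696 3824 4195 4196) (LT.l 4683 3835 4189 4196)) (LT.a (LT.l 4696 3824 4195 4196) (LT.l 4683 3835 4189 4196))) (LT.b (LT.a (LT.l 4636 3873 4167 4196) (LT.b (LT.l 4475 3971 4099 4196) (LT.l 4475 3971 4099 4196))) (LT.a (LT.b (LT.l 4636 3873 4167 4196) (LT.l 4635 3874 4167 4196)) (LT.b (LT.a (LT.l 4536 3939 4124 4196) (LT.l 4390 4009 4067 4196)) (LT.a (LT.l 4535 3939 4124 4196) (LT.b (LT.l 4389 4009 4067 4196) (LT.l 4388 4009 4067 4196)))))))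

theorem c1 : chk P t1 584115552256 292057776128 0 292057776128 = true := by decide +kernel

theorem b1 {lam : ℝ} (hlam : |(S : ℝ) * lam - ((P.lp : ℝ) - P.ln)| ≤ ((1 : ℕ) : ℝ)) : BoxS lam P 584115552256 292057776128 0 292057776128 :=
  chk_sound hlam t1 584115552256 292057776128 0 292057776128 (by norm_num) (by norm_num) c1

/-- Part of the subdivision. -/
def t2 : LT := (LT.b (LT.a (LT.b (LT.l 4693 3827 4195 4195) (LT.l 4680 3838 4195 4189)) (LT.b (LT.l 4680 3838 4189 4195) (LT.l 4666 3849 4189 4189))) (LT.a LT.z1 (LT.b (LT.a LT.z1 (LT.b (LT.l 4629 3879 4185 4175) LT.z1)) LT.z1)))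

theorem c2 : chk P t2 584115552256 146028888064 584115552256 292057776128 = true := by decide +kernel

theorem b2 {lam : ℝ} (hlam : |(S : ℝ) * lam - ((P.lp : ℝ) - P.ln)| ≤ ((1 : ℕ) : ℝ)) : BoxS lam P 584115552256 146028888064 584115552256 292057776128 :=
  chk_sound hlam t2 584115552256 146028888064 584115552256 292057776128 (by norm_num) (by norm_num) c2

/-- Part of the subdivision. -/
def t3 : LT := (LT.a (LT.b (LT.a (LT.l 4650 3862 4175 4195) (LT.l 4608 3893 4156 4195)) (LT.a (LT.l 4636 3873 4175 4189) (LT.b (LT.l 4599 3899 4156 4191) (LT.l 4585 3908 4156 4185)))) (LT.b (LT.a (LT.b (LT.l 4533 3940 4124 4195) (LT.l 4529 3942 4124 4194)) (LT.b (LT.a (LT.l 4433 3991 4084 4195) (LT.l 4329 4032 4047 4195)) (LT.a (LT.l 4429 3992 4084 4194) (LT.l 4324 4033 4047 4194)))) (LT.a (LT.b (LT.a (LT.l 4546 3933 4134 4191) (LT.l 4493 3962 4112 4191)) (LT.a (LT.l 4531 3942 4134 4185) (LT.l 4477 3970 4112 4185))) (LT.b (LT.a (LT.l 4420 3996 4084 4191) (LT.l 4313 4037 4047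 4191)) (LT.a (LT.l 4402 4004 4084 4185) (LT.l 4292 4044 4047 4185))))))

theorem c3 : chk P t3 876173328384 146028888064 584115552256 146028888064 = true := by decide +kernel

theorem b3 {lam : ℝ} (hlam : |(S : ℝ) * lam - ((P.lp : ℝ) - P.ln)| ≤ ((1 : ℕ) : ℝ)) : BoxS lam P 876173328384 146028888064 584115552256 146028888064 :=
  chk_sound hlam t3 876173328384 146028888064 584115552256 146028888064 (by norm_num) (by norm_num) c3

/-- Part of the subdivision. -/
def t4 : LT := (LT.b (LT.a (LT.b (LT.l 4604 3896 4175 4175) (LT.a LT.z1 (LT.b (LT.l 4564 3922 4171 4162) LT.z1))) (LT.b (LT.a (LT.l 4573 3916 4162 4175) (LT.l 4543 3934 4150 4175)) (LT.a (LT.b (LT.l 4541 3936 4162 4162) (LT.l 4509 3953 4162 4150)) (LT.b (LT.l 4509 3953 4150 4162) (LT.a (LT.l 4485 3966 4153 4150) (LT.b (LT.l 4475 3971 4146 4153) (LT.l 4456 3980 4146 4146))))))) (LT.a LT.z1 (LT.b (LT.a LT.z1 (LT.b (LT.a LT.z1 (LT.b (LT.l 4433 3991 4146 4138) LT.z1)) LT.z1)) LT.z1)))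

theorem c4 : chk P t4 876173328384 73014444032 876173328384 146028888064 = true := by decide +kernel

theorem b4 {lam : ℝ} (hlam : |(S : ℝ) * lam - ((P.lp : ℝ) - P.ln)| ≤ ((1 : ℕ) : ℝ)) : BoxS lam P 876173328384 73014444032 876173328384 146028888064 :=
  chk_sound hlam t4 876173328384 73014444032 876173328384 146028888064 (by norm_num) (by norm_num) c4

/-- Part of the subdivision. -/
def t5 : LT := (LT.b (LT.a (LT.b (LT.l 4511 3952 4134 4178) (LT.l 4492 3962 4134 4171)) (LT.b (LT.l 4456 3980 4112 4178) (LT.l 4435 3990 4112 4171))) (LT.a (LT.b (LT.a (LT.l 4478 3969 4138 4162) (LT.l 4453 3982 4129 4162)) (LT.a (LT.b (LT.l 4453 3982 4138 4153) (LT.l 4433 3991 4138 4146)) (LT.b (LT.l 4427 3993 4129 4153) (LT.l 4406 4003 4129 4146)))) (LT.b (LT.a (LT.l 4423 3995 4118 4162) (LT.l 4388 4010 4106 4162)) (LT.a (LT.b (LT.l 4396 4007 4118 4153) (LT.l 4373 4015 4118 4146)) (LT.l 4347 4025 4106 4150)))))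

theorem c5 : chk P t5 1022202216448 36507222016 876173328384 73014444032 = true := by decide +kernel

theorem b5 {lam : ℝ} (hlam : |(S : ℝ) * lam - ((P.lp : ℝ) - P.ln)| ≤ ((1 : ℕ) : ℝ)) : BoxS lam P 1022202216448 36507222016 876173328384 73014444032 :=
  chk_sound hlam t5 1022202216448 36507222016 876173328384 73014444032 (by norm_num) (by norm_num) c5

/-- Part of the subdivision. -/
def t6 : LT := (LT.b (LT.a (LT.b (LT.l 4378 4014 4084 4178) (LT.l 4354 4023 4084 4171)) (LT.b (LT.l 4263 4053 4047 4178) (LT.a (LT.l 4269 4052 4057 4171) LT.z2))) (LT.a (LT.b (LT.a (LT.l 4346 4026 4092 4162) (LT.l 4294 4044 4076 4162)) (LT.a (LT.b (LT.l 4314 4037 4092 4153) (LT.l 4289 4045 4092 4146)) (LT.b (LT.l 4260 4054 4076 4153) (LT.l 4232 4062 4076 4146)))) (LT.b (LT.a (LT.l 4231 4063 4057 4162) LT.z2) (LT.a (LT.b (LT.l 4194 4073 4057 4153) LT.z2) LT.z2))))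

theorem c6 : chk P t6 1095216660480 36507222016 876173328384 73014444032 = true := by decide +kernel

theorem b6 {lam : ℝ} (hlam : |(S : ℝ) * lam - ((P.lp : ℝ) - P.ln)| ≤ ((1 : ℕ) : ℝ)) : BoxS lam P 1095216660480 36507222016 876173328384 73014444032 :=
  chk_sound hlam t6 1095216660480 36507222016 876173328384 73014444032 (by norm_num) (by norm_num) c6

/-- Part of the subdivision. -/
def t7 : LT := (LT.b (LT.a (LT.b (LT.a (LT.l 4415 3998 4140 4138) (LT.l 4402 4004 4136 4138)) (LT.a LT.z1 (LT.l 4374 4015 4136 4129))) (LT.b (LT.a (LT.l 4388 4010 4131 4138) (LT.l 4373 4016 4126 4138)) (LT.l 4351 4024 4129 4129))) (LT.a LT.z1 (LT.b (LT.l 4316 4036 4129 4118) LT.z1)))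

theorem c7 : chk P t7 1022202216448 18253611008 1022202216448 36507222016 = true := by decide +kernel

theorem b7 {lam : ℝ} (hlam : |(S : ℝ) * lam - ((P.lp : ℝ) - P.ln)| ≤ ((1 : ℕ) : ℝ)) : BoxS lam P 1022202216448 18253611008 1022202216448 36507222016 :=
  chk_sound hlam t7 1022202216448 18253611008 1022202216448 36507222016 (by norm_num) (by norm_num) c7

/-- Part of the subdivision. -/
def t8 : LT := (LT.a (LT.b (LT.l 4347 4025 4118 4138) (LT.l 4316 4036 4118 4129)) (LT.b (LT.l 4307 4039 4106 4138) (LT.a (LT.l 4285 4047 4109 4129) (LT.l 4262 4054 4103 4129))))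

theorem c8 : chk P t8 1058709438464 18253611008 1022202216448 18253611008 = true := by decide +kernel

theorem b8 {lam : ℝ} (hlam : |(S : ℝ) * lam - ((P.lp : ℝ) - P.ln)| ≤ ((1 : ℕ) : ℝ)) : BoxS lam P 1058709438464 18253611008 1022202216448 18253611008 :=
  chk_sound hlam t8 1058709438464 18253611008 1022202216448 18253611008 (by norm_num) (by norm_num) c8

/-- Part of the subdivision. -/
def t9 : LT := (LT.a (LT.b (LT.a (LT.l 4288 4045 4121 4118) (LT.b (LT.l 4278 4049 4115 4121) (LT.l 4257 4055 4115 4115))) (LT.a LT.z1 (LT.b (LT.l 4234 4062 4115 4109) LT.z1))) (LT.b (LT.a (LT.b (LT.l 4256 4055 4109 4121) (LT.l 4234 4062 4109 4115)) (LT.b (LT.l 4232 4063 4103 4121) (LT.a (LT.l 4216 4067 4104 4115) (LT.l 4202 4071 4101 4115)))) (LT.a (LT.b (LT.a (LT.l 4217 4067 4111 4109) (LT.l 4204 4070 4108 4109)) (LT.a LT.z1 (LT.b (LT.l 4185 4075 4108 4104) LT.z1))) (LT.b (LT.a (LT.b (LT.l 4198 4072 4104 4111) (LT.l 4185 4075 4104 4108)) (LT.b (LT.l 4184 4075 4101 4111) (LT.l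 4171 4079 4101 4108))) (LT.a (LT.b (LT.l 4171 4079 4104 4104) (LT.a LT.z1 (LT.l 4153 4083 4104 4101))) (LT.b (LT.a (LT.l 4160 4081 4102 4104) (LT.l 4153 4083 4100 4104)) (LT.a (LT.b (LT.l 4150 4084 4102 4102) (LT.l 4142 4086 4102 4100)) (LT.b (LT.l 4142 4086 4100 4102) (LT.l 4135 4087 4100 4100)))))))))

theorem c9 : chk P t9 1058709438464 18253611008 1058709438464 18253611008 = true := by decide +kernel

theorem b9 {lam : ℝ} (hlam : |(S : ℝ) * lam - ((P.lp : ℝ) - P.ln)| ≤ ((1 : ℕ) : ℝ)) : BoxS lam P 1058709438464 18253611008 1058709438464 18253611008 :=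
  chk_sound hlam t9 1058709438464 18253611008 1058709438464 18253611008 (by norm_num) (by norm_num) c9

/-- Part of the subdivision. -/
def t10 : LT := (LT.a LT.z1 (LT.b (LT.a LT.z1 (LT.b (LT.a LT.z1 (LT.b (LT.a LT.z1 (LT.b (LT.a LT.z1 (LT.b (LT.a LT.z1 (LT.l 4125 4090 4100 4098)) LT.z1)) LT.z1)) LT.z1)) LT.z1)) LT.z1))

theorem c10 : chk P t10 1022202216448 36507222016 1095216660480 36507222016 = true := by decide +kernel

theorem b10 {lam : ℝ} (hlam : |(S : ℝ) * lam - ((P.lp : ℝ) - P.ln)| ≤ ((1 : ℕ) : ℝ)) : BoxS lam P 1022202216448 36507222016 1095216660480 36507222016 :=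
  chk_sound hlam t10 1022202216448 36507222016 1095216660480 36507222016 (by norm_num) (by norm_num) c10

/-- Part of the subdivision. -/
def t11 : LT := (LT.a (LT.b (LT.a (LT.l 4272 4051 4096 4138) (LT.l 4245 4059 4088 4138)) (LT.a (LT.b (LT.l 4246 4059 4096 4131) (LT.l 4226 4064 4096 4126)) (LT.b (LT.l 4218 4066 4088 4131) (LT.l 4197 4072 4088 4126)))) (LT.b (LT.a (LT.l 4215 4067 4080 4138) (LT.l 4182 4076 4072 4138)) (LT.a (LT.b (LT.l 4187 4075 4080 4131) (LT.l 4165 4080 4080 4126)) LT.z2)))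

theorem c11 : chk P t11 1095216660480 18253611008 1022202216448 18253611008 = true := by decide +kernel

theorem b11 {lam : ℝ} (hlam : |(S : ℝ) * lam - ((P.lp : ℝ) - P.ln)| ≤ ((1 : ℕ) : ℝ)) : BoxS lam P 1095216660480 18253611008 1022202216448 18253611008 :=
  chk_sound hlam t11 1095216660480 18253611008 1022202216448 18253611008 (by norm_num) (by norm_num) c11

/-- Part of the subdivision. -/
def t12 : LT := (LT.a (LT.b (LT.l 4205 4070 4096 4121) (LT.a (LT.l 4189 4074 4098 4115) (LT.b (LT.l 4180 4076 4094 4117) (LT.l 4167 4080 4094 4114)))) (LT.b (LT.l 4175 4078 4088 4121) (LT.a (LT.b (LT.l 4165 4080 4090 4117) (LT.l 4152 4083 4090 4114)) (LT.l 4142 4086 4086 4115))))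

theorem c12 : chk P t12 1095216660480 9126805504 1058709438464 9126805504 = true := by decide +kernel

theorem b12 {lam : ℝ} (hlam : |(S : ℝ) * lam - ((P.lp : ℝ) - P.ln)| ≤ ((1 : ℕ) : ℝ)) : BoxS lam P 1095216660480 9126805504 1058709438464 9126805504 :=
  chk_sound hlam t12 1095216660480 9126805504 1058709438464 9126805504 (by norm_num) (by norm_num) c12

/-- Part of the subdivision. -/
def t13 : LT := (LT.a (LT.b (LT.l 4169 4079 4098 4111) (LT.a (LT.l 4160 4081 4098 4108) (LT.l 4152 4083 4097 4108))) (LT.b (LT.l 4154 4083 4094 4111) (LT.a (LT.l 4144 4085 4095 4108) (LT.l 4136 4087 4093 4108))))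

theorem c13 : chk P t13 1095216660480 4563402752 1076963049472 4563402752 = true := by decide +kernel

theorem b13 {lam : ℝ} (hlam : |(S : ℝ) * lam - ((P.lp : ℝ) - P.ln)| ≤ ((1 : ℕ) : ℝ)) : BoxS lam P 1095216660480 4563402752 1076963049472 4563402752 :=
  chk_sound hlam t13 1095216660480 4563402752 1076963049472 4563402752 (by norm_num) (by norm_num) c13

/-- Part of the subdivision. -/
def t14 : LT := (LT.b (LT.a (LT.b (LT.l 4149 4084 4098 4105) (LT.l 4142 4086 4098 4104)) (LT.b (LT.l 4141 4086 4097 4105) (LT.l 4134 4088 4097 4104))) (LT.a (LT.b (LT.l 4134 4087 4098 4102) (LT.a (LT.l 4129 4089 4099 4100) (LT.l 4125 4090 4098 4100))) (LT.b (LT.a (LT.l 4128 4089 4097 4102) (LT.l 4124 4090 4096 4102)) (LT.a (LT.b (LT.l 4123 4090 4097 4101) (LT.l 4119 4091 4097 4100)) (LT.b (LT.l 4119 4091 4096 4101) (LT.l 4115 4092 4096 4100))))))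

theorem c14 : chk P t14 1095216660480 2281701376 1086089854976 4563402752 = true := by decide +kernel

theorem b14 {lam : ℝ} (hlam : |(S : ℝ) * lam - ((P.lp : ℝ) - P.ln)| ≤ ((1 : ℕ) : ℝ)) : BoxS lam P 1095216660480 2281701376 1086089854976 4563402752 :=
  chk_sound hlam t14 1095216660480 2281701376 1086089854976 4563402752 (by norm_num) (by norm_num) c14

/-- Part of the subdivision. -/
def t15 : LT := (LT.b (LT.a (LT.b (LT.l 4134 4088 4095 4105) (LT.l 4126 4089 4095 4104)) (LT.b (LT.l 4125 4090 4093 4105) (LT.l 4118 4091 4093 4104))) (LT.a (LT.b (LT.a (LT.l 4120 4091 4095 4102) (LT.l 4116 4092 4094 4102)) (LT.a (LT.b (LT.l 4115 4092 4095 4101) (LT.l 4111 4093 4095 4100)) (LT.b (LT.l 4110 4093 4094 4101) (LT.l 4106 4094 4094 4100)))) (LT.b (LT.l 4110 4093 4093 4102) (LT.a (LT.b (LT.l 4106 4094 4093 4101) (LT.l 4102 4095 4093 4100)) LT.z2))))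

theorem c15 : chk P t15 1099780063232 2281701376 1086089854976 4563402752 = true := by decide +kernel

theorem b15 {lam : ℝ} (hlam : |(S : ℝ) * lam - ((P.lp : ℝ) - P.ln)| ≤ ((1 : ℕ) : ℝ)) : BoxS lam P 1099780063232 2281701376 1086089854976 4563402752 :=
  chk_sound hlam t15 1099780063232 2281701376 1086089854976 4563402752 (by norm_num) (by norm_num) c15

/-- Part of the subdivision. -/
def t16 : LT := (LT.b (LT.a (LT.b (LT.l 4138 4087 4090 4111) (LT.l 4124 4090 4090 4108)) (LT.b (LT.l 4121 4091 4086 4111) LT.z2)) (LT.a (LT.b (LT.a (LT.b (LT.l 4117 4091 4091 4105) (LT.l 4109 4093 4091 4104)) LT.z2) LT.z2) LT.z2))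

theorem c16 : chk P t16 1104343465984 4563402752 1076963049472 9126805504 = true := by decide +kernel

theorem b16 {lam : ℝ} (hlam : |(S : ℝ) * lam - ((P.lp : ℝ) - P.ln)| ≤ ((1 : ℕ) : ℝ)) : BoxS lam P 1104343465984 4563402752 1076963049472 9126805504 :=
  chk_sound hlam t16 1104343465984 4563402752 1076963049472 9126805504 (by norm_num) (by norm_num) c16

/-- Part of the subdivision. -/
def t17 : LT := (LT.b (LT.a (LT.b (LT.l 4141 4086 4080 4121) LT.z2) LT.z2) LT.z2)

theorem c17 : chk P t17 1113470271488 9126805504 1058709438464 18253611008 = true := by decide +kernel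

theorem b17 {lam : ℝ} (hlam : |(S : ℝ) * lam - ((P.lp : ℝ) - P.ln)| ≤ ((1 : ℕ) : ℝ)) : BoxS lam P 1113470271488 9126805504 1058709438464 18253611008 :=
  chk_sound hlam t17 1113470271488 9126805504 1058709438464 18253611008 (by norm_num) (by norm_num) c17

/-- Part of the subdivision. -/
def t18 : LT := LT.z2

theorem c18 : chk P t18 1131723882496 18253611008 1022202216448 36507222016 = true := by decide +kernel

theorem b18 {lam : ℝ} (hlam : |(S : ℝ) * lam - ((P.lp : ℝ) - P.ln)| ≤ ((1 : ℕ) : ℝ)) : BoxS lam P 1131723882496 18253611008 1022202216448 36507222016 :=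
  chk_sound hlam t18 1131723882496 18253611008 1022202216448 36507222016 (by norm_num) (by norm_num) c18

/-- Part of the subdivision. -/
def t19 : LT := (LT.b (LT.a (LT.b (LT.l 4123 4090 4099 4099) (LT.l 4119 4091 4099 4098)) (LT.b (LT.l 4119 4091 4098 4099) (LT.a (LT.l 4116 4092 4098 4098) (LT.l 4114 4092 4098 4098)))) (LT.a LT.z1 (LT.b (LT.a LT.z1 (LT.b (LT.l 4111 4093 4098 4097) LT.z1)) LT.z1)))

theorem c19 : chk P t19 1095216660480 1140850688 1095216660480 2281701376 = true := by decide +kernel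

theorem b19 {lam : ℝ} (hlam : |(S : ℝ) * lam - ((P.lp : ℝ) - P.ln)| ≤ ((1 : ℕ) : ℝ)) : BoxS lam P 1095216660480 1140850688 1095216660480 2281701376 :=
  chk_sound hlam t19 1095216660480 1140850688 1095216660480 2281701376 (by norm_num) (by norm_num) c19

/-- Part of the subdivision. -/
def t20 : LT := (LT.a (LT.b (LT.l 4115 4092 4097 4099) (LT.a (LT.l 4112 4093 4097 4098) (LT.b (LT.l 4111 4093 4097 4098) (LT.l 4109 4093 4097 4098)))) (LT.b (LT.a (LT.l 4112 4093 4096 4099) (LT.l 4110 4093 4096 4099)) (LT.a (LT.b (LT.l 4109 4093 4096 4098) (LT.l 4107 4094 4096 4098)) (LT.b (LT.l 4107 4094 4096 4098) (LT.l 4105 4094 4096 4098)))))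

theorem c20 : chk P t20 1097498361856 1140850688 1095216660480 1140850688 = true := by decide +kernel

theorem b20 {lam : ℝ} (hlam : |(S : ℝ) * lam - ((P.lp : ℝ) - P.ln)| ≤ ((1 : ℕ) : ℝ)) : BoxS lam P 1097498361856 1140850688 1095216660480 1140850688 :=
  chk_sound hlam t20 1097498361856 1140850688 1095216660480 1140850688 (by norm_num) (by norm_num) c20

/-- Part of the subdivision. -/
def t21 : LT := (LT.b (LT.a (LT.b (LT.l 4109 4093 4097 4097) (LT.l 4107 4094 4097 4097)) (LT.b (LT.l 4107 4094 4097 4097) (LT.a (LT.l 4105 4094 4097 4097) (LT.l 4104 4094 4097 4097)))) (LT.a LT.z1 (LT.b (LT.a LT.z1 (LT.b (LT.l 4102 4095 4097 4097) LT.z1)) LT.z1)))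

theorem c21 : chk P t21 1097498361856 570425344 1097498361856 1140850688 = true := by decide +kernel

theorem b21 {lam : ℝ} (hlam : |(S : ℝ) * lam - ((P.lp : ℝ) - P.ln)| ≤ ((1 : ℕ) : ℝ)) : BoxS lam P 1097498361856 570425344 1097498361856 1140850688 :=
  chk_sound hlam t21 1097498361856 570425344 1097498361856 1140850688 (by norm_num) (by norm_num) c21

/-- Part of the subdivision. -/
def t22 : LT := (LT.a (LT.b (LT.a (LT.l 4105 4094 4097 4097) (LT.l 4104 4094 4096 4097)) (LT.a (LT.b (LT.l 4103 4094 4097 4097) (LT.l 4102 4095 4097 4097)) (LT.b (LT.l 4102 4095 4096 4097) (LT.l 4101 4095 4096 4097)))) (LT.b (LT.a (LT.l 4103 4095 4096 4097) (LT.l 4102 4095 4096 4097)) (LT.a (LT.b (LT.l 4101 4095 4096 4097) (LT.a (LT.l 4101 4095 4096 4097) (LT.l 4100 4095 4096 4097))) (LT.b (LT.l 4100 4095 4096 4097) (LT.a (LT.l 4100 4095 4096 4097) (LT.l 4099 4095 4096 4097))))))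

theorem c22 : chk P t22 1098639212544 570425344 1097498361856 570425344 = true := by decide +kernel

theorem b22 {lam : ℝ} (hlam : |(S : ℝ) * lam - ((P.lp : ℝ) - P.ln)| ≤ ((1 : ℕ) : ℝ)) : BoxS lam P 1098639212544 570425344 1097498361856 570425344 :=
  chk_sound hlam t22 1098639212544 570425344 1097498361856 570425344 (by norm_num) (by norm_num) c22

/-- Part of the subdivision. -/
def t23 : LT := (LT.a (LT.b (LT.a (LT.b (LT.l 4101 4095 4097 4097) (LT.a LT.z1 (LT.b (LT.l 4100 4095 4097 4096) LT.z1))) (LT.b (LT.a (LT.l 4101 4095 4096 4097) (LT.b (LT.l 4100 4095 4096 4097) (LT.l 4100 4095 4096 4097))) (LT.a (LT.b (LT.l 4100 4095 4096 4096) (LT.o 4099 4095 4096 4096)) (LT.o 4099 4095 4096 4096)))) (LT.a LT.z1 (LT.o 4098 4096 4096 4096))) (LT.b (LT.a (LT.b (LT.a (LT.b (LT.l 4100 4095 4096 4097) (LT.o 4099 4095 4096 4097)) (LT.b (LT.l 4099 4095 4096 4097) (LT.o 4099 4095 4096 4097))) (LT.o 4098 4096 4096 4096)) (LT.o 4098 4096 4096 4096)) (LT.o 4096 4096 4096 4096)))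

theorem c23 : chk P t23 1098639212544 570425344 1098639212544 570425344 = true := by decide +kernel

theorem b23 {lam : ℝ} (hlam : |(S : ℝ) * lam - ((P.lp : ℝ) - P.ln)| ≤ ((1 : ℕ) : ℝ)) : BoxS lam P 1098639212544 570425344 1098639212544 570425344 :=
  chk_sound hlam t23 1098639212544 570425344 1098639212544 570425344 (by norm_num) (by norm_num) c23

/-- Part of the subdivision. -/
def t24 : LT := (LT.a LT.z1 (LT.b (LT.a LT.z1 (LT.b (LT.a LT.z1 (LT.b (LT.a LT.z1 LT.z2) LT.z1)) LT.z1)) LT.z1))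

theorem c24 : chk P t24 1095216660480 2281701376 1099780063232 2281701376 = true := by decide +kernel

theorem b24 {lam : ℝ} (hlam : |(S : ℝ) * lam - ((P.lp : ℝ) - P.ln)| ≤ ((1 : ℕ) : ℝ)) : BoxS lam P 1095216660480 2281701376 1099780063232 2281701376 :=
  chk_sound hlam t24 1095216660480 2281701376 1099780063232 2281701376 (by norm_num) (by norm_num) c24

/-- Part of the subdivision. -/
def t25 : LT := (LT.b (LT.a (LT.b (LT.a (LT.b (LT.a (LT.l 4108 4094 4096 4099) (LT.l 4105 4094 4095 4099)) (LT.a (LT.b (LT.l 4104 4094 4096 4098) (LT.l 4102 4095 4096 4098)) (LT.b (LT.l 4102 4095 4095 4098) (LT.l 4100 4095 4095 4098)))) (LT.b (LT.l 4102 4095 4094 4099) (LT.a (LT.b (LT.l 4100 4095 4095 4098) LT.z2) LT.z2))) (LT.a (LT.b (LT.a (LT.b (LT.a (LT.l 4101 4095 4096 4097) (LT.l 4100 4095 4095 4097)) (LT.a (LT.b (LT.l 4099 4095 4096 4097) (LT.a (LT.l 4098 4095 4096 4097) (LT.l 4098 4096 4096 4097))) (LT.b (LT.l 4098 4096 4095 4097) (LT.l 4097 4096 4095 4097)))) (LT.b (LT.l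 4098 4096 4095 4097) LT.z2)) (LT.a (LT.b (LT.a (LT.o 4097 4096 4096 4096) LT.z2) LT.z2) LT.z2)) LT.z2)) LT.z2) LT.z2)

theorem c25 : chk P t25 1099780063232 2281701376 1095216660480 4563402752 = true := by decide +kernel

theorem b25 {lam : ℝ} (hlam : |(S : ℝ) * lam - ((P.lp : ℝ) - P.ln)| ≤ ((1 : ℕ) : ℝ)) : BoxS lam P 1099780063232 2281701376 1095216660480 4563402752 :=
  chk_sound hlam t25 1099780063232 2281701376 1095216660480 4563402752 (by norm_num) (by norm_num) c25

/-- Part of the subdivision. -/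
def t26 : LT := (LT.a LT.z1 LT.z2)

theorem c26 : chk P t26 1095216660480 4563402752 1104343465984 4563402752 = true := by decide +kernel

theorem b26 {lam : ℝ} (hlam : |(S : ℝ) * lam - ((P.lp : ℝ) - P.ln)| ≤ ((1 : ℕ) : ℝ)) : BoxS lam P 1095216660480 4563402752 1104343465984 4563402752 :=
  chk_sound hlam t26 1095216660480 4563402752 1104343465984 4563402752 (by norm_num) (by norm_num) c26

/-- Part of the subdivision. -/
def t27 : LT := LT.z2

theorem c27 : chk P t27 1104343465984 4563402752 1095216660480 9126805504 = true := by decide +kernel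

theorem b27 {lam : ℝ} (hlam : |(S : ℝ) * lam - ((P.lp : ℝ) - P.ln)| ≤ ((1 : ℕ) : ℝ)) : BoxS lam P 1104343465984 4563402752 1095216660480 9126805504 :=
  chk_sound hlam t27 1104343465984 4563402752 1095216660480 9126805504 (by norm_num) (by norm_num) c27

/-- Part of the subdivision. -/
def t28 : LT := LT.z2

theorem c28 : chk P t28 1095216660480 9126805504 1113470271488 9126805504 = true := by decide +kernel

theorem b28 {lam : ℝ} (hlam : |(S : ℝ) * lam - ((P.lp : ℝ) - P.ln)| ≤ ((1 : ℕ) : ℝ)) : BoxS lam P 1095216660480 9126805504 1113470271488 9126805504 :=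
  chk_sound hlam t28 1095216660480 9126805504 1113470271488 9126805504 (by norm_num) (by norm_num) c28

/-- Part of the subdivision. -/
def t29 : LT := LT.z2

theorem c29 : chk P t29 1113470271488 9126805504 1095216660480 18253611008 = true := by decide +kernel

theorem b29 {lam : ℝ} (hlam : |(S : ℝ) * lam - ((P.lp : ℝ) - P.ln)| ≤ ((1 : ℕ) : ℝ)) : BoxS lam P 1113470271488 9126805504 1095216660480 18253611008 :=
  chk_sound hlam t29 1113470271488 9126805504 1095216660480 18253611008 (by norm_num) (by norm_num) c29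

/-- Part of the subdivision. -/
def t30 : LT := LT.z2

theorem c30 : chk P t30 1095216660480 18253611008 1131723882496 18253611008 = true := by decide +kernel

theorem b30 {lam : ℝ} (hlam : |(S : ℝ) * lam - ((P.lp : ℝ) - P.ln)| ≤ ((1 : ℕ) : ℝ)) : BoxS lam P 1095216660480 18253611008 1131723882496 18253611008 :=
  chk_sound hlam t30 1095216660480 18253611008 1131723882496 18253611008 (by norm_num) (by norm_num) c30

/-- Part of the subdivision. -/
def t31 : LT := LT.z2

theorem c31 : chk P t31 1131723882496 18253611008 1095216660480 36507222016 = true := by decide +kernel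

theorem b31 {lam : ℝ} (hlam : |(S : ℝ) * lam - ((P.lp : ℝ) - P.ln)| ≤ ((1 : ℕ) : ℝ)) : BoxS lam P 1131723882496 18253611008 1095216660480 36507222016 :=
  chk_sound hlam t31 1131723882496 18253611008 1095216660480 36507222016 (by norm_num) (by norm_num) c31

/-- The whole box. -/
theorem box {lam : ℝ} (hlam : |(S : ℝ) * lam - ((P.lp : ℝ) - P.ln)| ≤ ((1 : ℕ) : ℝ)) : BoxS lam P 0 HH 0 HH :=
  (BoxS.sa' (x1 := 584115552256) (h := 292057776128) (by norm_num [HH]) (by norm_num) (b0 hlam) (BoxS.sb' (t1 := 584115552256) (h := 292057776128) (by norm_num [HH]) (by norm_num) (b1 hlam) (BoxS.sa' (x1 := 876173328384) (h := 146028888064) (by norm_num [HH]) (by norm_num) (b2 hlam) (BoxS.sb' (t1 := 876173328384) (h := 146028888064) (by norm_num [HH]) (by norm_num) (b3 hlam) (BoxS.sa' (x1 := 1022202216448) (h := 73014444032) (by norm_num [HH]) (by norm_num) (b4 hlam) (BoxS.sb' (t1 := 1022202216448) (h := 73014444032) (by norm_num [HH]) (by norm_num) (BoxS.sa' (x1 := 1095216660480)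 (h := 36507222016) (by norm_num [HH]) (by norm_num) (b5 hlam) (b6 hlam)) (BoxS.sa' (x1 := 1095216660480) (h := 36507222016) (by norm_num [HH]) (by norm_num) (BoxS.sb' (t1 := 1095216660480) (h := 36507222016) (by norm_num [HH]) (by norm_num) (BoxS.sa' (x1 := 1058709438464) (h := 18253611008) (by norm_num [HH]) (by norm_num) (b7 hlam) (BoxS.sb' (t1 := 1058709438464) (h := 18253611008) (by norm_num [HH]) (by norm_num) (b8 hlam) (b9 hlam))) (b10 hlam)) (BoxS.sb' (t1 := 1095216660480) (h := 36507222016) (by norm_num [HH]) (by norm_num) (BoxS.sa' (x1 := 1131723882496) (h := 18253611008) (by norm_num [HH]) (by norm_num) (BoxS.sb' (t1 := 1058709438464) (h := 18253611008) (by norm_num [HH]) (by norm_num) (b11 hlam) (BoxS.sa' (x1 := 1113470271488) (h := 9126805504) (by norm_num [HH]) (by norm_num) (BoxS.sb' (t1 := 1076963049472) (h := 9126805504) (by norm_num [HH]) (by norm_num) (b12 hlam) (BoxS.sa' (x1 := 1104343465984) (h := 4563402752) (by norm_num [HH]) (by norm_num)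 (BoxS.sb' (t1 := 1086089854976) (h := 4563402752) (by norm_num [HH]) (by norm_num) (b13 hlam) (BoxS.sa' (x1 := 1099780063232) (h := 2281701376) (by norm_num [HH]) (by norm_num) (b14 hlam) (b15 hlam))) (b16 hlam))) (b17 hlam))) (b18 hlam)) (BoxS.sa' (x1 := 1131723882496) (h := 18253611008) (by norm_num [HH]) (by norm_num) (BoxS.sb' (t1 := 1131723882496) (h := 18253611008) (by norm_num [HH]) (by norm_num) (BoxS.sa' (x1 := 1113470271488) (h := 9126805504) (by norm_num [HH]) (by norm_num) (BoxS.sb' (t1 := 1113470271488) (h := 9126805504) (by norm_num [HH]) (by norm_num) (BoxS.sa' (x1 := 1104343465984) (h := 4563402752) (by norm_num [HH]) (by norm_num) (BoxS.sb' (t1 := 1104343465984) (h := 4563402752) (by norm_num [HH]) (by norm_num) (BoxS.sa' (x1 := 1099780063232) (h := 2281701376) (by norm_num [HH]) (by norm_num) (BoxS.sb' (t1 := 1099780063232) (h := 2281701376) (by norm_num [HH]) (by norm_num) (BoxS.sa' (x1 := 1097498361856) (h := 1140850688) (by norm_num [HH])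 (by norm_num) (b19 hlam) (BoxS.sb' (t1 := 1097498361856) (h := 1140850688) (by norm_num [HH]) (by norm_num) (b20 hlam) (BoxS.sa' (x1 := 1098639212544) (h := 570425344) (by norm_num [HH]) (by norm_num) (b21 hlam) (BoxS.sb' (t1 := 1098639212544) (h := 570425344) (by norm_num [HH]) (by norm_num) (b22 hlam) (b23 hlam))))) (b24 hlam)) (b25 hlam)) (b26 hlam)) (b27 hlam)) (b28 hlam)) (b29 hlam)) (b30 hlam)) (b31 hlam))))))))))

end Vale.Agent.P154H.Tm.D22
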