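import Vale.Agent.P154H.Msg

set_option maxRecDepth 100000

/-!
The subdivision for `d = 23`.
-/

namespace Vale.Agent.P154H.Tm.D23

/-- A row. -/
def Ra : Row := Row.mk 0 525474 0 2606391 4717404 0 12085902 0 59946993 0 0 108500292 0 4704 0 13860352 0 67376232

/-- A row. -/
def Rb : Row := Row.mk 0 4407995400192 0 21863992393728 39572452933632 0 93321987150096 0 455474529832221 0 0 818439830544384 0 39460012032 0 116269059670016 0 531803067048414
/-- A row. -/
def Q0 : Row := Row.mk 0 0 0 0 0 0 7473408 0 0 0 0 0 0 0 0 0 0 5346279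

/-- A row. -/
def Q1 : Row := Row.mk 0 0 0 0 0 0 0 0 296549376 0 0 0 0 0 0 0 0 173207163

/-- A row. -/
def Q2 : Row := Row.mk 0 0 0 0 0 0 0 0 0 0 512 0 0 0 0 0 0 1455

/-- A row. -/
def Q3 : Row := Row.mk 0 358723584 0 1779296256 3220414464 0 7517814720 0 36662336736 0 0 65477541056 0 3211264 0 0 0 44001472539

/-- A row. -/
def Q4 : Row := Row.mk 0 179361792 0 889648128 1610207232 0 3685159648 0 17863837680 0 0 31797445664 0 1605632 0 0 0 21798674211

/-- A row. -/
def Q5 : Row := Row.mk 0 358723584 0 1779296256 3220414464 0 7188466112 0 34616182144 0 0 61340542464 0 3211264 0 0 0 43143092325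

/-- A row. -/
def Q6 : Row := Row.mk 0 89680896 0 444824064 805103616 0 1734588336 0 8327109952 0 0 14665301696 0 802816 0 0 0 10644993045

/-- A row. -/
def Q7 : Row := Row.mk 0 89680896 0 444824064 805103616 0 1666638800 0 7925406080 0 0 13876649952 0 802816 0 0 0 10396178373

/-- A row. -/
def Q8 : Row := Row.mk 0 179361792 0 889648128 1610207232 0 3167849312 0 14950275648 0 0 25915351168 0 1605632 0 0 0 20401978929

/-- A row. -/
def Q9 : Row := Row.mk 0 179361792 0 889648128 1610207232 0 2996467136 0 13920478656 0 0 23804648800 0 1605632 0 0 0 20032440477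

/-- A row. -/
def Q10 : Row := Row.mk 0 358723584 0 1779296256 3220414464 0 5597211776 0 25413405888 0 0 42847387584 0 3211264 0 0 0 38584718277

/-- A row. -/
def Q11 : Row := Row.mk 0 179361792 0 889648128 1610207232 0 2545587264 0 11492935120 0 0 18794813344 0 1605632 0 0 0 19109722359

/-- A row. -/
def Q12 : Row := Row.mk 0 358723584 0 1779296256 3220414464 0 4638171072 0 20379718144 0 0 31942925440 0 3211264 0 0 0 38072059605

/-- A row. -/
def Q13 : Row := Row.mk 0 44840448 0 222412032 402551808 0 532838248 0 2265014448 0 0 3209518856 0 401408 0 0 0 5237008557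


/-- The data. -/
def P : Pb where
  lp := 0
  ln := 15025046999181107
  ab := 3298534883328
  r1 := [Ra, Rb]
  r2 := [Q0, Q1, Q2, Q3, Q4, Q5, Q6, Q7, Q8, Q9, Q10, Q11, Q12, Q13]

/-- Part of the subdivision. -/
def t0 : LT := (LT.b (LT.a (LT.l 4699 3829 4194 4194) (LT.l 4699 3829 4194 4194)) (LT.a LT.z1 (LT.b (LT.a LT.z1 (LT.b (LT.l 4695 3832 4194 4193) LT.z1)) LT.z1)))

theorem c0 : chk P t0 0 292057776128 0 584115552256 = true := by decide +kernel

theorem b0 {lam : ℝ} (hlam : |(S : ℝ) * lam - ((P.lp : ℝ) - P.ln)| ≤ ((1 : ℕ) : ℝ)) : BoxS lam P 0 292057776128 0 584115552256 :=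
  chk_sound hlam t0 0 292057776128 0 584115552256 (by norm_num) (by norm_num) c0

/-- Part of the subdivision. -/
def t1 : LT := (LT.a (LT.b (LT.a (LT.l 4696 3832 4193 4194) (LT.l 4683 3843 4187 4194)) (LT.a (LT.l 4696 3832 4193 4194) (LT.l 4683 3843 4187 4194))) (LT.b (LT.a (LT.l 4636 3879 4166 4194) (LT.b (LT.l 4475 3974 4099 4194) (LT.l 4475 3974 4099 4194))) (LT.a (LT.b (LT.l 4636 3879 4166 4194) (LT.l 4635 3880 4166 4194)) (LT.b (LT.a (LT.l 4536 3943 4123 4194) (LT.l 4390 4011 4068 4194)) (LT.a (LT.l 4535 3943 4123 4194) (LT.b (LT.l 4389 4011 4068 4194) (LT.l 4388 4012 4068 4194)))))))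

theorem c1 : chk P t1 584115552256 292057776128 0 292057776128 = true := by decide +kernel

theorem b1 {lam : ℝ} (hlam : |(S : ℝ) * lam - ((P.lp : ℝ) - P.ln)| ≤ ((1 : ℕ) : ℝ)) : BoxS lam P 584115552256 292057776128 0 292057776128 :=
  chk_sound hlam t1 584115552256 292057776128 0 292057776128 (by norm_num) (by norm_num) c1

/-- Part of the subdivision. -/
def t2 : LT := (LT.b (LT.a (LT.b (LT.l 4693 3834 4193 4193) (LT.l 4680 3845 4193 4187)) (LT.b (LT.l 4680 3845 4187 4193) (LT.l 4666 3856 4187 4187))) (LT.a LT.z1 (LT.b (LT.a LT.z1 (LT.b (LT.l 4629 3884 4184 4173) LT.z1)) LT.z1)))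

theorem c2 : chk P t2 584115552256 146028888064 584115552256 292057776128 = true := by decide +kernel

theorem b2 {lam : ℝ} (hlam : |(S : ℝ) * lam - ((P.lp : ℝ) - P.ln)| ≤ ((1 : ℕ) : ℝ)) : BoxS lam P 584115552256 146028888064 584115552256 292057776128 :=
  chk_sound hlam t2 584115552256 146028888064 584115552256 292057776128 (by norm_num) (by norm_num) c2

/-- Part of the subdivision. -/
def t3 : LT := (LT.a (LT.b (LT.a (LT.l 4650 3869 4173 4193) (LT.l 4608 3898 4155 4193)) (LT.a (LT.l 4636 3879 4173 4187) (LT.b (LT.l 4599 3904 4155 4189) (LT.l 4585 3913 4155 4184)))) (LT.b (LT.a (LT.b (LT.l 4533 3944 4123 4193) (LT.l 4529 3946 4123 4192)) (LT.b (LT.a (LT.l 4433 3993 4085 4193) (LT.l 4329 4033 4048 4193)) (LT.a (LT.l 4429 3995 4085 4192) (LT.l 4324 4035 4048 4192)))) (LT.a (LT.b (LT.a (LT.l 4546 3937 4133 4189) (LT.l 4493 3965 4112 4189)) (LT.a (LT.l 4531 3945 4133 4184) (LT.l 4477 3973 4112 4184))) (LT.b (LT.a (LT.l 4420 3999 4085 4189) (LT.l 4313 4039 4048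 4189)) (LT.a (LT.l 4402 4006 4085 4184) (LT.l 4292 4046 4048 4184))))))

theorem c3 : chk P t3 876173328384 146028888064 584115552256 146028888064 = true := by decide +kernel

theorem b3 {lam : ℝ} (hlam : |(S : ℝ) * lam - ((P.lp : ℝ) - P.ln)| ≤ ((1 : ℕ) : ℝ)) : BoxS lam P 876173328384 146028888064 584115552256 146028888064 :=
  chk_sound hlam t3 876173328384 146028888064 584115552256 146028888064 (by norm_num) (by norm_num) c3

/-- Part of the subdivision. -/
def t4 : LT := (LT.b (LT.a (LT.b (LT.l 4604 3901 4173 4173) (LT.a LT.z1 (LT.b (LT.l 4564 3926 4170 4161) LT.z1))) (LT.b (LT.a (LT.l 4573 3921 4161 4173) (LT.l 4543 3938 4149 4173)) (LT.a (LT.b (LT.l 4541 3940 4161 4161) (LT.l 4509 3957 4161 4149)) (LT.b (LT.l 4509 3957 4149 4161) (LT.a (LT.l 4485 3969 4152 4149) (LT.l 4466 3978 4145 4149)))))) (LT.a LT.z1 (LT.b (LT.a LT.z1 (LT.b (LT.a LT.z1 (LT.b (LT.l 4433 3993 4145 4137) LT.z1)) LT.z1)) LT.z1)))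

theorem c4 : chk P t4 876173328384 73014444032 876173328384 146028888064 = true := by decide +kernel

theorem b4 {lam : ℝ} (hlam : |(S : ℝ) * lam - ((P.lp : ℝ) - P.ln)| ≤ ((1 : ℕ) : ℝ)) : BoxS lam P 876173328384 73014444032 876173328384 146028888064 :=
  chk_sound hlam t4 876173328384 73014444032 876173328384 146028888064 (by norm_num) (by norm_num) c4

/-- Part of the subdivision. -/
def t5 : LT := (LT.b (LT.a (LT.b (LT.l 4511 3956 4133 4177) (LT.l 4492 3966 4133 4170)) (LT.b (LT.l 4456 3983 4112 4177) (LT.l 4435 3992 4112 4170))) (LT.a (LT.b (LT.a (LT.l 4478 3973 4137 4161) (LT.l 4453 3984 4128 4161)) (LT.a (LT.b (LT.l 4453 3984 4137 4152) (LT.l 4433 3993 4137 4145)) (LT.b (LT.l 4427 3996 4128 4152) (LT.l 4406 4005 4128 4145)))) (LT.b (LT.a (LT.l 4423 3997 4118 4161) (LT.l 4388 4012 4106 4161)) (LT.a (LT.b (LT.l 4396 4009 4118 4152) (LT.l 4373 4017 4118 4145)) (LT.b (LT.l 4359 4023 4106 4152) (LT.l 4335 4031 4106 4145))))))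

theorem c5 : chk P t5 1022202216448 36507222016 876173328384 73014444032 = true := by decide +kernel

theorem b5 {lam : ℝ} (hlam : |(S : ℝ) * lam - ((P.lp : ℝ) - P.ln)| ≤ ((1 : ℕ) : ℝ)) : BoxS lam P 1022202216448 36507222016 876173328384 73014444032 :=
  chk_sound hlam t5 1022202216448 36507222016 876173328384 73014444032 (by norm_num) (by norm_num) c5

/-- Part of the subdivision. -/
def t6 : LT := (LT.b (LT.a (LT.b (LT.l 4378 4016 4085 4177) (LT.l 4354 4025 4085 4170)) (LT.b (LT.l 4263 4054 4048 4177) (LT.a (LT.l 4269 4053 4058 4170) LT.z2))) (LT.a (LT.b (LT.a (LT.l 4346 4028 4092 4161) (LT.l 4294 4045 4076 4161)) (LT.a (LT.b (LT.l 4314 4038 4092 4152) (LT.l 4289 4046 4092 4145)) (LT.b (LT.l 4260 4055 4076 4152) (LT.l 4232 4063 4076 4145)))) (LT.b (LT.a (LT.l 4231 4063 4058 4161) LT.z2) (LT.a (LT.b (LT.l 4194 4073 4058 4152) LT.z2) LT.z2))))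

theorem c6 : chk P t6 1095216660480 36507222016 876173328384 73014444032 = true := by decide +kernel

theorem b6 {lam : ℝ} (hlam : |(S : ℝ) * lam - ((P.lp : ℝ) - P.ln)| ≤ ((1 : ℕ) : ℝ)) : BoxS lam P 1095216660480 36507222016 876173328384 73014444032 :=
  chk_sound hlam t6 1095216660480 36507222016 876173328384 73014444032 (by norm_num) (by norm_num) c6

/-- Part of the subdivision. -/
def t7 : LT := (LT.b (LT.a (LT.b (LT.a (LT.l 4415 4001 4139 4137) (LT.l 4402 4006 4135 4137)) (LT.a LT.z1 (LT.l 4374 4017 4135 4128))) (LT.b (LT.a (LT.l 4388 4012 4131 4137) (LT.l 4373 4018 4126 4137)) (LT.l 4351 4026 4128 4128))) (LT.a LT.z1 (LT.b (LT.l 4316 4038 4128 4118) LT.z1)))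

theorem c7 : chk P t7 1022202216448 18253611008 1022202216448 36507222016 = true := by decide +kernel

theorem b7 {lam : ℝ} (hlam : |(S : ℝ) * lam - ((P.lp : ℝ) - P.ln)| ≤ ((1 : ℕ) : ℝ)) : BoxS lam P 1022202216448 18253611008 1022202216448 36507222016 :=
  chk_sound hlam t7 1022202216448 18253611008 1022202216448 36507222016 (by norm_num) (by norm_num) c7

/-- Part of the subdivision. -/
def t8 : LT := (LT.a (LT.b (LT.l 4347 4027 4118 4137) (LT.l 4316 4038 4118 4128)) (LT.b (LT.l 4307 4041 4106 4137) (LT.a (LT.l 4285 4048 4109 4128) (LT.l 4262 4055 4103 4128))))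

theorem c8 : chk P t8 1058709438464 18253611008 1022202216448 18253611008 = true := by decide +kernel

theorem b8 {lam : ℝ} (hlam : |(S : ℝ) * lam - ((P.lp : ℝ) - P.ln)| ≤ ((1 : ℕ) : ℝ)) : BoxS lam P 1058709438464 18253611008 1022202216448 18253611008 :=
  chk_sound hlam t8 1058709438464 18253611008 1022202216448 18253611008 (by norm_num) (by norm_num) c8

/-- Part of the subdivision. -/
def t9 : LT := (LT.a (LT.b (LT.a (LT.l 4288 4047 4121 4118) (LT.b (LT.l 4278 4050 4115 4121) (LT.l 4257 4056 4115 4115))) (LT.a LT.z1 (LT.b (LT.l 4234 4063 4115 4109) LT.z1))) (LT.b (LT.a (LT.b (LT.l 4256 4056 4109 4121) (LT.l 4234 4063 4109 4115)) (LT.b (LT.l 4232 4063 4103 4121) (LT.a (LT.l 4216 4068 4104 4115) (LT.l 4202 4071 4101 4115)))) (LT.a (LT.b (LT.a (LT.l 4217 4067 4111 4109) (LT.l 4204 4071 4107 4109)) (LT.a LT.z1 (LT.b (LT.l 4185 4076 4107 4104) LT.z1))) (LT.b (LT.a (LT.b (LT.l 4198 4072 4104 4111) (LT.l 4185 4076 4104 4107)) (LT.b (LT.l 4184 4076 4101 4111) (LT.l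 4171 4079 4101 4107))) (LT.a (LT.b (LT.l 4171 4079 4104 4104) (LT.a LT.z1 (LT.l 4153 4083 4103 4101))) (LT.b (LT.a (LT.l 4160 4082 4102 4104) (LT.l 4153 4083 4100 4104)) (LT.a (LT.b (LT.l 4150 4084 4102 4102) (LT.l 4142 4086 4102 4100)) (LT.b (LT.l 4142 4086 4100 4102) (LT.l 4135 4088 4100 4100)))))))))

theorem c9 : chk P t9 1058709438464 18253611008 1058709438464 18253611008 = true := by decide +kernel

theorem b9 {lam : ℝ} (hlam : |(S : ℝ) * lam - ((P.lp : ℝ) - P.ln)| ≤ ((1 : ℕ) : ℝ)) : BoxS lam P 1058709438464 18253611008 1058709438464 18253611008 :=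
  chk_sound hlam t9 1058709438464 18253611008 1058709438464 18253611008 (by norm_num) (by norm_num) c9

/-- Part of the subdivision. -/
def t10 : LT := (LT.a LT.z1 (LT.b (LT.a LT.z1 (LT.b (LT.a LT.z1 (LT.b (LT.a LT.z1 (LT.b (LT.a LT.z1 (LT.b (LT.a LT.z1 (LT.l 4125 4090 4100 4098)) LT.z1)) LT.z1)) LT.z1)) LT.z1)) LT.z1))

theorem c10 : chk P t10 1022202216448 36507222016 1095216660480 36507222016 = true := by decide +kernel

theorem b10 {lam : ℝ} (hlam : |(S : ℝ) * lam - ((P.lp : ℝ) - P.ln)| ≤ ((1 : ℕ) : ℝ)) : BoxS lam P 1022202216448 36507222016 1095216660480 36507222016 :=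
  chk_sound hlam t10 1022202216448 36507222016 1095216660480 36507222016 (by norm_num) (by norm_num) c10

/-- Part of the subdivision. -/
def t11 : LT := (LT.a (LT.b (LT.a (LT.l 4272 4052 4096 4137) (LT.l 4245 4060 4088 4137)) (LT.a (LT.b (LT.l 4246 4059 4096 4131) (LT.l 4226 4065 4096 4126)) (LT.b (LT.l 4218 4067 4088 4131) (LT.l 4197 4073 4088 4126)))) (LT.b (LT.a (LT.l 4215 4068 4081 4137) (LT.l 4182 4076 4072 4137)) (LT.a (LT.b (LT.l 4187 4075 4081 4131) (LT.l 4165 4081 4081 4126)) LT.z2)))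

theorem c11 : chk P t11 1095216660480 18253611008 1022202216448 18253611008 = true := by decide +kernel

theorem b11 {lam : ℝ} (hlam : |(S : ℝ) * lam - ((P.lp : ℝ) - P.ln)| ≤ ((1 : ℕ) : ℝ)) : BoxS lam P 1095216660480 18253611008 1022202216448 18253611008 :=
  chk_sound hlam t11 1095216660480 18253611008 1022202216448 18253611008 (by norm_num) (by norm_num) c11

/-- Part of the subdivision. -/
def t12 : LT := (LT.a (LT.b (LT.l 4205 4071 4096 4121) (LT.a (LT.l 4189 4075 4098 4115) (LT.b (LT.l 4180 4077 4094 4116) (LT.l 4167 4080 4094 4114)))) (LT.b (LT.l 4175 4078 4088 4121) (LT.a (LT.b (LT.l 4165 4081 4090 4116) (LT.l 4152 4084 4090 4114)) (LT.l 4142 4086 4087 4115))))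

theorem c12 : chk P t12 1095216660480 9126805504 1058709438464 9126805504 = true := by decide +kernel

theorem b12 {lam : ℝ} (hlam : |(S : ℝ) * lam - ((P.lp : ℝ) - P.ln)| ≤ ((1 : ℕ) : ℝ)) : BoxS lam P 1095216660480 9126805504 1058709438464 9126805504 :=
  chk_sound hlam t12 1095216660480 9126805504 1058709438464 9126805504 (by norm_num) (by norm_num) c12

/-- Part of the subdivision. -/
def t13 : LT := (LT.a (LT.b (LT.l 4169 4079 4098 4111) (LT.a (LT.l 4160 4082 4098 4107) (LT.l 4152 4084 4097 4107))) (LT.b (LT.l 4154 4083 4094 4111) (LT.a (LT.l 4144 4085 4095 4107) (LT.l 4136 4087 4093 4107))))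

theorem c13 : chk P t13 1095216660480 4563402752 1076963049472 4563402752 = true := by decide +kernel

theorem b13 {lam : ℝ} (hlam : |(S : ℝ) * lam - ((P.lp : ℝ) - P.ln)| ≤ ((1 : ℕ) : ℝ)) : BoxS lam P 1095216660480 4563402752 1076963049472 4563402752 :=
  chk_sound hlam t13 1095216660480 4563402752 1076963049472 4563402752 (by norm_num) (by norm_num) c13

/-- Part of the subdivision. -/
def t14 : LT := (LT.b (LT.a (LT.b (LT.l 4149 4084 4098 4105) (LT.l 4142 4086 4098 4103)) (LT.b (LT.l 4141 4086 4097 4105) (LT.l 4134 4088 4097 4103))) (LT.a (LT.b (LT.l 4134 4088 4098 4102) (LT.a (LT.l 4129 4089 4099 4100) (LT.l 4125 4090 4098 4100))) (LT.b (LT.a (LT.l 4128 4089 4097 4102) (LT.l 4124 4090 4096 4102)) (LT.a (LT.b (LT.l 4123 4090 4097 4101) (LT.l 4119 4091 4097 4100)) (LT.b (LT.l 4119 4091 4096 4101) (LT.l 4115 4092 4096 4100))))))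

theorem c14 : chk P t14 1095216660480 2281701376 1086089854976 4563402752 = true := by decide +kernel

theorem b14 {lam : ℝ} (hlam : |(S : ℝ) * lam - ((P.lp : ℝ) - P.ln)| ≤ ((1 : ℕ) : ℝ)) : BoxS lam P 1095216660480 2281701376 1086089854976 4563402752 :=
  chk_sound hlam t14 1095216660480 2281701376 1086089854976 4563402752 (by norm_num) (by norm_num) c14

/-- Part of the subdivision. -/
def t15 : LT := (LT.b (LT.a (LT.b (LT.l 4134 4088 4095 4105) (LT.l 4126 4090 4095 4103)) (LT.b (LT.l 4125 4090 4093 4105) (LT.l 4118 4091 4093 4103))) (LT.a (LT.b (LT.a (LT.l 4120 4091 4095 4102) (LT.l 4116 4092 4094 4102)) (LT.a (LT.b (LT.l 4115 4092 4095 4101) (LT.l 4111 4093 4095 4100)) (LT.b (LT.l 4110 4093 4094 4101) (LT.l 4106 4094 4094 4100)))) (LT.b (LT.l 4110 4093 4093 4102) (LT.a (LT.b (LT.l 4106 4094 4094 4101) (LT.l 4102 4095 4094 4100)) LT.z2))))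

theorem c15 : chk P t15 1099780063232 2281701376 1086089854976 4563402752 = true := by decide +kernel

theorem b15 {lam : ℝ} (hlam : |(S : ℝ) * lam - ((P.lp : ℝ) - P.ln)| ≤ ((1 : ℕ) : ℝ)) : BoxS lam P 1099780063232 2281701376 1086089854976 4563402752 :=
  chk_sound hlam t15 1099780063232 2281701376 1086089854976 4563402752 (by norm_num) (by norm_num) c15

/-- Part of the subdivision. -/
def t16 : LT := (LT.b (LT.a (LT.b (LT.l 4138 4087 4090 4111) (LT.l 4124 4090 4090 4107)) (LT.b (LT.l 4121 4091 4087 4111) LT.z2)) (LT.a (LT.b (LT.a (LT.b (LT.l 4117 4092 4091 4105) (LT.l 4109 4093 4091 4103)) LT.z2) LT.z2) LT.z2))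

theorem c16 : chk P t16 1104343465984 4563402752 1076963049472 9126805504 = true := by decide +kernel

theorem b16 {lam : ℝ} (hlam : |(S : ℝ) * lam - ((P.lp : ℝ) - P.ln)| ≤ ((1 : ℕ) : ℝ)) : BoxS lam P 1104343465984 4563402752 1076963049472 9126805504 :=
  chk_sound hlam t16 1104343465984 4563402752 1076963049472 9126805504 (by norm_num) (by norm_num) c16

/-- Part of the subdivision. -/
def t17 : LT := (LT.b (LT.a (LT.b (LT.l 4141 4086 4081 4121) LT.z2) LT.z2) LT.z2)

theorem c17 : chk P t17 1113470271488 9126805504 1058709438464 18253611008 = true := by decide +kernel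

theorem b17 {lam : ℝ} (hlam : |(S : ℝ) * lam - ((P.lp : ℝ) - P.ln)| ≤ ((1 : ℕ) : ℝ)) : BoxS lam P 1113470271488 9126805504 1058709438464 18253611008 :=
  chk_sound hlam t17 1113470271488 9126805504 1058709438464 18253611008 (by norm_num) (by norm_num) c17

/-- Part of the subdivision. -/
def t18 : LT := LT.z2

theorem c18 : chk P t18 1131723882496 18253611008 1022202216448 36507222016 = true := by decide +kernel

theorem b18 {lam : ℝ} (hlam : |(S : ℝ) * lam - ((P.lp : ℝ) - P.ln)| ≤ ((1 : ℕ) : ℝ)) : BoxS lam P 1131723882496 18253611008 1022202216448 36507222016 :=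
  chk_sound hlam t18 1131723882496 18253611008 1022202216448 36507222016 (by norm_num) (by norm_num) c18

/-- Part of the subdivision. -/
def t19 : LT := (LT.b (LT.a (LT.b (LT.l 4123 4090 4099 4099) (LT.l 4119 4091 4099 4098)) (LT.b (LT.l 4119 4091 4098 4099) (LT.a (LT.l 4116 4092 4098 4098) (LT.l 4114 4092 4098 4098)))) (LT.a LT.z1 (LT.b (LT.a LT.z1 (LT.b (LT.l 4111 4093 4098 4097) LT.z1)) LT.z1)))

theorem c19 : chk P t19 1095216660480 1140850688 1095216660480 2281701376 = true := by decide +kernel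

theorem b19 {lam : ℝ} (hlam : |(S : ℝ) * lam - ((P.lp : ℝ) - P.ln)| ≤ ((1 : ℕ) : ℝ)) : BoxS lam P 1095216660480 1140850688 1095216660480 2281701376 :=
  chk_sound hlam t19 1095216660480 1140850688 1095216660480 2281701376 (by norm_num) (by norm_num) c19

/-- Part of the subdivision. -/
def t20 : LT := (LT.a (LT.b (LT.l 4115 4092 4097 4099) (LT.a (LT.l 4112 4093 4097 4098) (LT.b (LT.l 4111 4093 4097 4098) (LT.l 4109 4093 4097 4098)))) (LT.b (LT.a (LT.l 4112 4093 4096 4099) (LT.l 4110 4093 4096 4099)) (LT.a (LT.b (LT.l 4109 4093 4096 4098) (LT.l 4107 4094 4096 4098)) (LT.b (LT.l 4107 4094 4096 4098) (LT.l 4105 4094 4096 4098)))))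

theorem c20 : chk P t20 1097498361856 1140850688 1095216660480 1140850688 = true := by decide +kernel

theorem b20 {lam : ℝ} (hlam : |(S : ℝ) * lam - ((P.lp : ℝ) - P.ln)| ≤ ((1 : ℕ) : ℝ)) : BoxS lam P 1097498361856 1140850688 1095216660480 1140850688 :=
  chk_sound hlam t20 1097498361856 1140850688 1095216660480 1140850688 (by norm_num) (by norm_num) c20

/-- Part of the subdivision. -/
def t21 : LT := (LT.b (LT.a (LT.b (LT.l 4109 4093 4097 4097) (LT.l 4107 4094 4097 4097)) (LT.b (LT.l 4107 4094 4097 4097) (LT.a (LT.l 4105 4094 4097 4097) (LT.l 4104 4094 4097 4097)))) (LT.a LT.z1 (LT.b (LT.a LT.z1 (LT.b (LT.l 4102 4095 4097 4097) LT.z1)) LT.z1)))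

theorem c21 : chk P t21 1097498361856 570425344 1097498361856 1140850688 = true := by decide +kernel

theorem b21 {lam : ℝ} (hlam : |(S : ℝ) * lam - ((P.lp : ℝ) - P.ln)| ≤ ((1 : ℕ) : ℝ)) : BoxS lam P 1097498361856 570425344 1097498361856 1140850688 :=
  chk_sound hlam t21 1097498361856 570425344 1097498361856 1140850688 (by norm_num) (by norm_num) c21

/-- Part of the subdivision. -/
def t22 : LT := (LT.a (LT.b (LT.a (LT.l 4105 4094 4097 4097) (LT.l 4104 4094 4096 4097)) (LT.a (LT.b (LT.l 4103 4094 4097 4097) (LT.l 4102 4095 4097 4097)) (LT.b (LT.l 4102 4095 4096 4097) (LT.l 4101 4095 4096 4097)))) (LT.b (LT.a (LT.l 4103 4095 4096 4097) (LT.l 4102 4095 4096 4097)) (LT.a (LT.b (LT.l 4101 4095 4096 4097) (LT.a (LT.l 4101 4095 4096 4097) (LT.l 4100 4095 4096 4097))) (LT.b (LT.l 4100 4095 4096 4097) (LT.a (LT.l 4100 4095 4096 4097) (LT.l 4099 4095 4096 4097))))))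

theorem c22 : chk P t22 1098639212544 570425344 1097498361856 570425344 = true := by decide +kernel

theorem b22 {lam : ℝ} (hlam : |(S : ℝ) * lam - ((P.lp : ℝ) - P.ln)| ≤ ((1 : ℕ) : ℝ)) : BoxS lam P 1098639212544 570425344 1097498361856 570425344 :=
  chk_sound hlam t22 1098639212544 570425344 1097498361856 570425344 (by norm_num) (by norm_num) c22

/-- Part of the subdivision. -/
def t23 : LT := (LT.a (LT.b (LT.a (LT.b (LT.l 4101 4095 4097 4097) (LT.a LT.z1 (LT.b (LT.l 4100 4095 4097 4096) LT.z1))) (LT.b (LT.a (LT.l 4101 4095 4096 4097) (LT.b (LT.l 4100 4095 4096 4097) (LT.l 4100 4095 4096 4097))) (LT.a (LT.b (LT.l 4100 4095 4096 4096) (LT.o 4099 4095 4096 4096)) (LT.o 4099 4095 4096 4096)))) (LT.a LT.z1 (LT.o 4098 4096 4096 4096))) (LT.b (LT.a (LT.b (LT.a (LT.b (LT.l 4100 4095 4096 4097) (LT.o 4099 4095 4096 4097)) (LT.b (LT.l 4099 4095 4096 4097) (LT.o 4099 4095 4096 4097))) (LT.o 4098 4096 4096 4096)) (LT.o 4098 4096 4096 4096)) (LT.o 4096 4096 4096 4096)))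

theorem c23 : chk P t23 1098639212544 570425344 1098639212544 570425344 = true := by decide +kernel

theorem b23 {lam : ℝ} (hlam : |(S : ℝ) * lam - ((P.lp : ℝ) - P.ln)| ≤ ((1 : ℕ) : ℝ)) : BoxS lam P 1098639212544 570425344 1098639212544 570425344 :=
  chk_sound hlam t23 1098639212544 570425344 1098639212544 570425344 (by norm_num) (by norm_num) c23

/-- Part of the subdivision. -/
def t24 : LT := (LT.a LT.z1 (LT.b (LT.a LT.z1 (LT.b (LT.a LT.z1 (LT.b (LT.a LT.z1 LT.z2) LT.z1)) LT.z1)) LT.z1))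

theorem c24 : chk P t24 1095216660480 2281701376 1099780063232 2281701376 = true := by decide +kernel

theorem b24 {lam : ℝ} (hlam : |(S : ℝ) * lam - ((P.lp : ℝ) - P.ln)| ≤ ((1 : ℕ) : ℝ)) : BoxS lam P 1095216660480 2281701376 1099780063232 2281701376 :=
  chk_sound hlam t24 1095216660480 2281701376 1099780063232 2281701376 (by norm_num) (by norm_num) c24

/-- Part of the subdivision. -/
def t25 : LT := (LT.b (LT.a (LT.b (LT.a (LT.b (LT.a (LT.l 4108 4094 4096 4099) (LT.l 4105 4094 4095 4099)) (LT.a (LT.b (LT.l 4104 4094 4096 4098) (LT.l 4102 4095 4096 4098)) (LT.b (LT.l 4102 4095 4095 4098) (LT.l 4100 4095 4095 4098)))) (LT.b (LT.l 4102 4095 4094 4099) (LT.a (LT.b (LT.l 4100 4095 4095 4098) LT.z2) LT.z2))) (LT.a (LT.b (LT.a (LT.b (LT.a (LT.l 4101 4095 4096 4097) (LT.l 4100 4095 4095 4097)) (LT.a (LT.b (LT.l 4099 4095 4096 4097) (LT.a (LT.l 4098 4095 4096 4097) (LT.l 4098 4096 4096 4097))) (LT.b (LT.l 4098 4096 4095 4097) (LT.l 4097 4096 4095 4097)))) (LT.b (LT.l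 4098 4096 4095 4097) LT.z2)) (LT.a (LT.b (LT.a (LT.o 4097 4096 4096 4096) LT.z2) LT.z2) LT.z2)) LT.z2)) LT.z2) LT.z2)

theorem c25 : chk P t25 1099780063232 2281701376 1095216660480 4563402752 = true := by decide +kernel

theorem b25 {lam : ℝ} (hlam : |(S : ℝ) * lam - ((P.lp : ℝ) - P.ln)| ≤ ((1 : ℕ) : ℝ)) : BoxS lam P 1099780063232 2281701376 1095216660480 4563402752 :=
  chk_sound hlam t25 1099780063232 2281701376 1095216660480 4563402752 (by norm_num) (by norm_num) c25

/-- Part of the subdivision. -/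
def t26 : LT := (LT.a LT.z1 LT.z2)

theorem c26 : chk P t26 1095216660480 4563402752 1104343465984 4563402752 = true := by decide +kernel

theorem b26 {lam : ℝ} (hlam : |(S : ℝ) * lam - ((P.lp : ℝ) - P.ln)| ≤ ((1 : ℕ) : ℝ)) : BoxS lam P 1095216660480 4563402752 1104343465984 4563402752 :=
  chk_sound hlam t26 1095216660480 4563402752 1104343465984 4563402752 (by norm_num) (by norm_num) c26

/-- Part of the subdivision. -/
def t27 : LT := LT.z2

theorem c27 : chk P t27 1104343465984 4563402752 1095216660480 9126805504 = true := by decide +kernel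

theorem b27 {lam : ℝ} (hlam : |(S : ℝ) * lam - ((P.lp : ℝ) - P.ln)| ≤ ((1 : ℕ) : ℝ)) : BoxS lam P 1104343465984 4563402752 1095216660480 9126805504 :=
  chk_sound hlam t27 1104343465984 4563402752 1095216660480 9126805504 (by norm_num) (by norm_num) c27

/-- Part of the subdivision. -/
def t28 : LT := LT.z2

theorem c28 : chk P t28 1095216660480 9126805504 1113470271488 9126805504 = true := by decide +kernel

theorem b28 {lam : ℝ} (hlam : |(S : ℝ) * lam - ((P.lp : ℝ) - P.ln)| ≤ ((1 : ℕ) : ℝ)) : BoxS lam P 1095216660480 9126805504 1113470271488 9126805504 :=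
  chk_sound hlam t28 1095216660480 9126805504 1113470271488 9126805504 (by norm_num) (by norm_num) c28

/-- Part of the subdivision. -/
def t29 : LT := LT.z2

theorem c29 : chk P t29 1113470271488 9126805504 1095216660480 18253611008 = true := by decide +kernel

theorem b29 {lam : ℝ} (hlam : |(S : ℝ) * lam - ((P.lp : ℝ) - P.ln)| ≤ ((1 : ℕ) : ℝ)) : BoxS lam P 1113470271488 9126805504 1095216660480 18253611008 :=
  chk_sound hlam t29 1113470271488 9126805504 1095216660480 18253611008 (by norm_num) (by norm_num) c29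

/-- Part of the subdivision. -/
def t30 : LT := LT.z2

theorem c30 : chk P t30 1095216660480 18253611008 1131723882496 18253611008 = true := by decide +kernel

theorem b30 {lam : ℝ} (hlam : |(S : ℝ) * lam - ((P.lp : ℝ) - P.ln)| ≤ ((1 : ℕ) : ℝ)) : BoxS lam P 1095216660480 18253611008 1131723882496 18253611008 :=
  chk_sound hlam t30 1095216660480 18253611008 1131723882496 18253611008 (by norm_num) (by norm_num) c30

/-- Part of the subdivision. -/
def t31 : LT := LT.z2

theorem c31 : chk P t31 1131723882496 18253611008 1095216660480 36507222016 = true := by decide +kernel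

theorem b31 {lam : ℝ} (hlam : |(S : ℝ) * lam - ((P.lp : ℝ) - P.ln)| ≤ ((1 : ℕ) : ℝ)) : BoxS lam P 1131723882496 18253611008 1095216660480 36507222016 :=
  chk_sound hlam t31 1131723882496 18253611008 1095216660480 36507222016 (by norm_num) (by norm_num) c31

/-- The whole box. -/
theorem box {lam : ℝ} (hlam : |(S : ℝ) * lam - ((P.lp : ℝ) - P.ln)| ≤ ((1 : ℕ) : ℝ)) : BoxS lam P 0 HH 0 HH :=
  (BoxS.sa' (x1 := 584115552256) (h := 292057776128) (by norm_num [HH]) (by norm_num) (b0 hlam) (BoxS.sb' (t1 := 584115552256) (h := 292057776128) (by norm_num [HH]) (by norm_num) (b1 hlam) (BoxS.sa' (x1 := 876173328384) (h := 146028888064) (by norm_num [HH]) (by norm_num) (b2 hlam) (BoxS.sb' (t1 := 876173328384) (h := 146028888064) (by norm_num [HH]) (by norm_num) (b3 hlam) (BoxS.sa' (x1 := 1022202216448) (h := 73014444032) (by norm_num [HH]) (by norm_num) (b4 hlam) (BoxS.sb' (t1 := 1022202216448) (h := 73014444032) (by norm_num [HH]) (by norm_num) (BoxS.sa' (x1 := 1095216660480)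 (h := 36507222016) (by norm_num [HH]) (by norm_num) (b5 hlam) (b6 hlam)) (BoxS.sa' (x1 := 1095216660480) (h := 36507222016) (by norm_num [HH]) (by norm_num) (BoxS.sb' (t1 := 1095216660480) (h := 36507222016) (by norm_num [HH]) (by norm_num) (BoxS.sa' (x1 := 1058709438464) (h := 18253611008) (by norm_num [HH]) (by norm_num) (b7 hlam) (BoxS.sb' (t1 := 1058709438464) (h := 18253611008) (by norm_num [HH]) (by norm_num) (b8 hlam) (b9 hlam))) (b10 hlam)) (BoxS.sb' (t1 := 1095216660480) (h := 36507222016) (by norm_num [HH]) (by norm_num) (BoxS.sa' (x1 := 1131723882496) (h := 18253611008) (by norm_num [HH]) (by norm_num) (BoxS.sb' (t1 := 1058709438464) (h := 18253611008) (by norm_num [HH]) (by norm_num) (b11 hlam) (BoxS.sa' (x1 := 1113470271488) (h := 9126805504) (by norm_num [HH]) (by norm_num) (BoxS.sb' (t1 := 1076963049472) (h := 9126805504) (by norm_num [HH]) (by norm_num) (b12 hlam) (BoxS.sa' (x1 := 1104343465984) (h := 4563402752) (by norm_num [HH]) (by norm_num)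 (BoxS.sb' (t1 := 1086089854976) (h := 4563402752) (by norm_num [HH]) (by norm_num) (b13 hlam) (BoxS.sa' (x1 := 1099780063232) (h := 2281701376) (by norm_num [HH]) (by norm_num) (b14 hlam) (b15 hlam))) (b16 hlam))) (b17 hlam))) (b18 hlam)) (BoxS.sa' (x1 := 1131723882496) (h := 18253611008) (by norm_num [HH]) (by norm_num) (BoxS.sb' (t1 := 1131723882496) (h := 18253611008) (by norm_num [HH]) (by norm_num) (BoxS.sa' (x1 := 1113470271488) (h := 9126805504) (by norm_num [HH]) (by norm_num) (BoxS.sb' (t1 := 1113470271488) (h := 9126805504) (by norm_num [HH]) (by norm_num) (BoxS.sa' (x1 := 1104343465984) (h := 4563402752) (by norm_num [HH]) (by norm_num) (BoxS.sb' (t1 := 1104343465984) (h := 4563402752) (by norm_num [HH]) (by norm_num) (BoxS.sa' (x1 := 1099780063232) (h := 2281701376) (by norm_num [HH]) (by norm_num) (BoxS.sb' (t1 := 1099780063232) (h := 2281701376) (by norm_num [HH]) (by norm_num) (BoxS.sa' (x1 := 1097498361856) (h := 1140850688) (by norm_num [HH])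 (by norm_num) (b19 hlam) (BoxS.sb' (t1 := 1097498361856) (h := 1140850688) (by norm_num [HH]) (by norm_num) (b20 hlam) (BoxS.sa' (x1 := 1098639212544) (h := 570425344) (by norm_num [HH]) (by norm_num) (b21 hlam) (BoxS.sb' (t1 := 1098639212544) (h := 570425344) (by norm_num [HH]) (by norm_num) (b22 hlam) (b23 hlam))))) (b24 hlam)) (b25 hlam)) (b26 hlam)) (b27 hlam)) (b28 hlam)) (b29 hlam)) (b30 hlam)) (b31 hlam))))))))))

end Vale.Agent.P154H.Tm.D23
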