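import Vale.Agent.P154H.Msg

set_option maxRecDepth 100000

/-!
The subdivision for `d = 33`.
-/

namespace Vale.Agent.P154H.Tm.D33

/-- A row. -/
def Ra : Row := Row.mk 0 175158 0 868797 1572468 0 5780214 0 28670301 0 0 51891444 0 1824 0 9641984 0 32667264

/-- A row. -/
def Rb : Row := Row.mk 0 5877327200256 0 29151989858304 52763270578176 0 172061907385968 0 833321352391035 0 0 1492129622548480 0 61203283968 0 323531296473088 0 1005470859842610
/-- A row. -/
def Q0 : Row := Row.mk 0 0 0 0 0 0 7473408 0 0 0 0 0 0 0 0 0 0 5346279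

/-- A row. -/
def Q1 : Row := Row.mk 0 0 0 0 0 0 0 0 296549376 0 0 0 0 0 0 0 0 173207163

/-- A row. -/
def Q2 : Row := Row.mk 0 0 0 0 0 0 0 0 0 0 1024 0 0 0 0 0 0 2961

/-- A row. -/
def Q3 : Row := Row.mk 0 358723584 0 1779296256 3220414464 0 10367810368 0 49976539456 0 0 88567800128 0 3735552 0 0 0 63161381691

/-- A row. -/
def Q4 : Row := Row.mk 0 89680896 0 444824064 805103616 0 2494028032 0 11967172728 0 0 21063966000 0 933888 0 0 0 15567549939

/-- A row. -/
def Q5 : Row := Row.mk 0 358723584 0 1779296256 3220414464 0 9543488576 0 45303150240 0 0 79062739456 0 3735552 0 0 0 61151019141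

/-- A row. -/
def Q6 : Row := Row.mk 0 358723584 0 1779296256 3220414464 0 9011835328 0 42298709888 0 0 72908065728 0 3735552 0 0 0 59979608835

/-- A row. -/
def Q7 : Row := Row.mk 0 358723584 0 1779296256 3220414464 0 8378716736 0 38613847392 0 0 65741854528 0 3735552 0 0 0 57461935437

/-- A row. -/
def Q8 : Row := Row.mk 0 179361792 0 889648128 1610207232 0 3821370496 0 17349259984 0 0 28801850240 0 1867776 0 0 0 28069577421

/-- A row. -/
def Q9 : Row := Row.mk 0 358723584 0 1779296256 3220414464 0 7042592192 0 30672266016 0 0 48653714624 0 3735552 0 0 0 56925578415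

/-- A row. -/
def Q10 : Row := Row.mk 0 358723584 0 1779296256 3220414464 0 6234875008 0 26870755616 0 0 38173753408 0 3735552 0 0 0 62829090309


/-- The data. -/
def P : Pb where
  lp := 0
  ln := 12543617063929763
  ab := 3298534883328
  r1 := [Ra, Rb]
  r2 := [Q0, Q1, Q2, Q3, Q4, Q5, Q6, Q7, Q8, Q9, Q10]

/-- Part of the subdivision. -/
def t0 : LT := (LT.b (LT.a (LT.l 4699 3883 4179 4179) (LT.l 4699 3883 4179 4179)) (LT.a LT.z1 (LT.b (LT.l 4691 3888 4179 4176) LT.z1)))

theorem c0 : chk P t0 0 292057776128 0 584115552256 = true := by decide +kernel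

theorem b0 {lam : ℝ} (hlam : |(S : ℝ) * lam - ((P.lp : ℝ) - P.ln)| ≤ ((1 : ℕ) : ℝ)) : BoxS lam P 0 292057776128 0 584115552256 :=
  chk_sound hlam t0 0 292057776128 0 584115552256 (by norm_num) (by norm_num) c0

/-- Part of the subdivision. -/
def t1 : LT := (LT.a (LT.b (LT.l 4691 3888 4176 4179) (LT.l 4691 3888 4176 4179)) (LT.b (LT.a (LT.l 4636 3921 4155 4179) (LT.b (LT.l 4475 3996 4099 4179) (LT.l 4475 3996 4099 4179))) (LT.a (LT.b (LT.l 4636 3921 4155 4179) (LT.l 4635 3922 4155 4179)) (LT.b (LT.a (LT.l 4536 3971 4119 4179) (LT.l 4390 4026 4072 4179)) (LT.a (LT.l 4535 3971 4119 4179) (LT.b (LT.l 4389 4026 4072 4179) (LT.l 4388 4026 4072 4179)))))))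

theorem c1 : chk P t1 584115552256 292057776128 0 292057776128 = true := by decide +kernel

theorem b1 {lam : ℝ} (hlam : |(S : ℝ) * lam - ((P.lp : ℝ) - P.ln)| ≤ ((1 : ℕ) : ℝ)) : BoxS lam P 584115552256 292057776128 0 292057776128 :=
  chk_sound hlam t1 584115552256 292057776128 0 292057776128 (by norm_num) (by norm_num) c1

/-- Part of the subdivision. -/
def t2 : LT := (LT.b (LT.a (LT.l 4688 3890 4178 4176) (LT.b (LT.l 4680 3895 4173 4178) (LT.l 4666 3903 4173 4173))) (LT.a LT.z1 (LT.b (LT.a LT.z1 (LT.b (LT.l 4629 3925 4170 4161) LT.z1)) LT.z1)))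

theorem c2 : chk P t2 584115552256 146028888064 584115552256 292057776128 = true := by decide +kernel

theorem b2 {lam : ℝ} (hlam : |(S : ℝ) * lam - ((P.lp : ℝ) - P.ln)| ≤ ((1 : ℕ) : ℝ)) : BoxS lam P 584115552256 146028888064 584115552256 292057776128 :=
  chk_sound hlam t2 584115552256 146028888064 584115552256 292057776128 (by norm_num) (by norm_num) c2

/-- Part of the subdivision. -/
def t3 : LT := (LT.a (LT.b (LT.a (LT.l 4650 3913 4161 4178) (LT.l 4608 3936 4146 4178)) (LT.a (LT.l 4636 3921 4161 4173) (LT.b (LT.l 4599 3941 4146 4175) (LT.l 4585 3948 4146 4170)))) (LT.b (LT.a (LT.b (LT.l 4533 3972 4119 4178) (LT.l 4529 3974 4119 4177)) (LT.b (LT.a (LT.l 4433 4011 4086 4178) (LT.l 4329 4044 4056 4178)) (LT.a (LT.l 4429 4013 4086 4177) (LT.l 4324 4045 4056 4177)))) (LT.a (LT.b (LT.a (LT.l 4546 3967 4127 4175) (LT.l 4493 3989 4109 4175)) (LT.a (LT.l 4531 3973 4127 4170) (LT.l 4477 3995 4109 4170))) (LT.b (LT.a (LT.l 4420 4016 4086 4175) (LT.l 4313 4048 4056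 4175)) (LT.a (LT.l 4402 4022 4086 4170) (LT.l 4292 4054 4056 4170))))))

theorem c3 : chk P t3 876173328384 146028888064 584115552256 146028888064 = true := by decide +kernel

theorem b3 {lam : ℝ} (hlam : |(S : ℝ) * lam - ((P.lp : ℝ) - P.ln)| ≤ ((1 : ℕ) : ℝ)) : BoxS lam P 876173328384 146028888064 584115552256 146028888064 :=
  chk_sound hlam t3 876173328384 146028888064 584115552256 146028888064 (by norm_num) (by norm_num) c3

/-- Part of the subdivision. -/
def t4 : LT := (LT.b (LT.a (LT.b (LT.l 4604 3938 4161 4161) (LT.a LT.z1 (LT.b (LT.l 4564 3958 4158 4151) LT.z1))) (LT.b (LT.a (LT.l 4573 3954 4151 4161) (LT.l 4543 3968 4140 4161)) (LT.a (LT.b (LT.l 4541 3969 4151 4151) (LT.l 4509 3982 4151 4140)) (LT.b (LT.l 4509 3982 4140 4151) (LT.a (LT.l 4485 3992 4143 4140) (LT.b (LT.l 4475 3996 4137 4143) (LT.l 4456 4003 4137 4137))))))) (LT.a LT.z1 (LT.b (LT.a LT.z1 (LT.b (LT.a LT.z1 (LT.l 4420 4016 4137 4127)) LT.z1)) LT.z1)))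

theorem c4 : chk P t4 876173328384 73014444032 876173328384 146028888064 = true := by decide +kernel

theorem b4 {lam : ℝ} (hlam : |(S : ℝ) * lam - ((P.lp : ℝ) - P.ln)| ≤ ((1 : ℕ) : ℝ)) : BoxS lam P 876173328384 73014444032 876173328384 146028888064 :=
  chk_sound hlam t4 876173328384 73014444032 876173328384 146028888064 (by norm_num) (by norm_num) c4

/-- Part of the subdivision. -/
def t5 : LT := (LT.a (LT.b (LT.a (LT.b (LT.l 4511 3982 4127 4164) (LT.l 4492 3989 4127 4158)) (LT.b (LT.l 4456 4003 4109 4164) (LT.l 4435 4011 4109 4158))) (LT.a (LT.b (LT.a (LT.l 4478 3995 4131 4151) (LT.l 4453 4004 4123 4151)) (LT.a (LT.b (LT.l 4453 4004 4131 4143) (LT.l 4433 4012 4131 4137)) (LT.l 4417 4017 4123 4140))) (LT.b (LT.l 4406 4021 4109 4151) (LT.a (LT.l 4385 4027 4114 4140) (LT.b (LT.l 4359 4036 4104 4143) (LT.l 4335 4042 4104 4137)))))) (LT.b (LT.a (LT.b (LT.l 4378 4030 4086 4164) (LT.l 4354 4037 4086 4158)) (LT.b (LT.l 4263 4061 4056 4164) (LT.a (LT.l 4269 4060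 4065 4158) LT.z2))) (LT.a (LT.b (LT.a (LT.l 4346 4039 4093 4151) (LT.l 4294 4053 4080 4151)) (LT.a (LT.b (LT.l 4314 4048 4093 4143) (LT.l 4289 4055 4093 4137)) (LT.b (LT.l 4260 4062 4080 4143) (LT.l 4232 4069 4080 4137)))) (LT.b (LT.a (LT.l 4231 4069 4065 4151) LT.z2) (LT.a (LT.b (LT.l 4194 4077 4065 4143) LT.z2) LT.z2)))))

theorem c5 : chk P t5 1022202216448 73014444032 876173328384 73014444032 = true := by decide +kernel

theorem b5 {lam : ℝ} (hlam : |(S : ℝ) * lam - ((P.lp : ℝ) - P.ln)| ≤ ((1 : ℕ) : ℝ)) : BoxS lam P 1022202216448 73014444032 876173328384 73014444032 :=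
  chk_sound hlam t5 1022202216448 73014444032 876173328384 73014444032 (by norm_num) (by norm_num) c5

/-- Part of the subdivision. -/
def t6 : LT := (LT.b (LT.a (LT.l 4395 4024 4131 4127) (LT.b (LT.l 4381 4029 4123 4131) (LT.l 4351 4038 4123 4123))) (LT.a LT.z1 (LT.b (LT.l 4316 4048 4123 4114) LT.z1)))

theorem c6 : chk P t6 1022202216448 18253611008 1022202216448 36507222016 = true := by decide +kernel

theorem b6 {lam : ℝ} (hlam : |(S : ℝ) * lam - ((P.lp : ℝ) - P.ln)| ≤ ((1 : ℕ) : ℝ)) : BoxS lam P 1022202216448 18253611008 1022202216448 36507222016 :=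
  chk_sound hlam t6 1022202216448 18253611008 1022202216448 36507222016 (by norm_num) (by norm_num) c6

/-- Part of the subdivision. -/
def t7 : LT := (LT.a (LT.b (LT.l 4347 4039 4114 4131) (LT.l 4316 4048 4114 4123)) (LT.b (LT.l 4307 4050 4104 4131) (LT.a (LT.l 4285 4056 4107 4123) (LT.l 4262 4062 4102 4123))))

theorem c7 : chk P t7 1058709438464 18253611008 1022202216448 18253611008 = true := by decide +kernel

theorem b7 {lam : ℝ} (hlam : |(S : ℝ) * lam - ((P.lp : ℝ) - P.ln)| ≤ ((1 : ℕ) : ℝ)) : BoxS lam P 1058709438464 18253611008 1022202216448 18253611008 :=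
  chk_sound hlam t7 1058709438464 18253611008 1022202216448 18253611008 (by norm_num) (by norm_num) c7

/-- Part of the subdivision. -/
def t8 : LT := (LT.a (LT.b (LT.a (LT.l 4288 4055 4117 4114) (LT.b (LT.l 4278 4058 4112 4117) (LT.l 4257 4063 4112 4112))) (LT.a LT.z1 (LT.b (LT.l 4234 4068 4112 4107) LT.z1))) (LT.b (LT.a (LT.b (LT.l 4256 4063 4107 4117) (LT.l 4234 4068 4107 4112)) (LT.b (LT.l 4232 4069 4102 4117) (LT.a (LT.l 4216 4072 4103 4112) (LT.l 4202 4075 4100 4112)))) (LT.a (LT.b (LT.a (LT.l 4217 4072 4108 4107) (LT.l 4204 4075 4106 4107)) (LT.a LT.z1 (LT.b (LT.l 4185 4079 4106 4103) LT.z1))) (LT.b (LT.a (LT.b (LT.l 4198 4076 4103 4108) (LT.l 4185 4079 4103 4106)) (LT.b (LT.l 4184 4079 4100 4108) (LT.l 4171 4082 4100 4106))) (LT.a (LT.b (LT.l 4171 4082 4103 4103) (LT.a LT.z1 (LT.l 4153 4085 4102 4100))) (LT.b (LT.a (LT.l 4160 4084 4101 4103) (LT.l 4153 4085 4099 4103)) (LT.a (LT.b (LT.l 4150 4086 4101 4101) (LT.l 4142 4088 4101 4099)) (LT.b (LT.l 4142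 4088 4099 4101) (LT.a (LT.l 4136 4089 4100 4099) (LT.l 4133 4089 4099 4099))))))))))

theorem c8 : chk P t8 1058709438464 18253611008 1058709438464 18253611008 = true := by decide +kernel

theorem b8 {lam : ℝ} (hlam : |(S : ℝ) * lam - ((P.lp : ℝ) - P.ln)| ≤ ((1 : ℕ) : ℝ)) : BoxS lam P 1058709438464 18253611008 1058709438464 18253611008 :=
  chk_sound hlam t8 1058709438464 18253611008 1058709438464 18253611008 (by norm_num) (by norm_num) c8

/-- Part of the subdivision. -/
def t9 : LT := (LT.a LT.z1 (LT.b (LT.a LT.z1 (LT.b (LT.a LT.z1 (LT.b (LT.a LT.z1 (LT.b (LT.a LT.z1 (LT.b (LT.a LT.z1 (LT.l 4125 4091 4099 4098)) LT.z1)) LT.z1)) LT.z1)) LT.z1)) LT.z1))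

theorem c9 : chk P t9 1022202216448 36507222016 1095216660480 36507222016 = true := by decide +kernel

theorem b9 {lam : ℝ} (hlam : |(S : ℝ) * lam - ((P.lp : ℝ) - P.ln)| ≤ ((1 : ℕ) : ℝ)) : BoxS lam P 1022202216448 36507222016 1095216660480 36507222016 :=
  chk_sound hlam t9 1022202216448 36507222016 1095216660480 36507222016 (by norm_num) (by norm_num) c9

/-- Part of the subdivision. -/
def t10 : LT := (LT.a (LT.b (LT.a (LT.l 4272 4059 4096 4131) (LT.l 4245 4066 4090 4131)) (LT.a (LT.b (LT.l 4246 4066 4096 4125) (LT.l 4226 4070 4096 4121)) (LT.b (LT.l 4218 4072 4090 4125) (LT.l 4197 4076 4090 4121)))) (LT.b (LT.a (LT.l 4215 4073 4083 4131) (LT.l 4182 4080 4076 4131)) (LT.a (LT.b (LT.l 4187 4079 4083 4125) (LT.l 4165 4083 4083 4121)) LT.z2)))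

theorem c10 : chk P t10 1095216660480 18253611008 1022202216448 18253611008 = true := by decide +kernel

theorem b10 {lam : ℝ} (hlam : |(S : ℝ) * lam - ((P.lp : ℝ) - P.ln)| ≤ ((1 : ℕ) : ℝ)) : BoxS lam P 1095216660480 18253611008 1022202216448 18253611008 :=
  chk_sound hlam t10 1095216660480 18253611008 1022202216448 18253611008 (by norm_num) (by norm_num) c10

/-- Part of the subdivision. -/
def t11 : LT := (LT.a (LT.b (LT.l 4205 4075 4096 4117) (LT.a (LT.l 4189 4078 4097 4112) (LT.b (LT.l 4180 4080 4094 4113) (LT.l 4167 4083 4094 4111)))) (LT.b (LT.l 4175 4081 4090 4117) (LT.a (LT.b (LT.l 4165 4083 4091 4113) (LT.l 4152 4086 4091 4111)) (LT.l 4142 4088 4088 4112))))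

theorem c11 : chk P t11 1095216660480 9126805504 1058709438464 9126805504 = true := by decide +kernel

theorem b11 {lam : ℝ} (hlam : |(S : ℝ) * lam - ((P.lp : ℝ) - P.ln)| ≤ ((1 : ℕ) : ℝ)) : BoxS lam P 1095216660480 9126805504 1058709438464 9126805504 :=
  chk_sound hlam t11 1095216660480 9126805504 1058709438464 9126805504 (by norm_num) (by norm_num) c11

/-- Part of the subdivision. -/
def t12 : LT := (LT.a (LT.b (LT.l 4169 4082 4097 4108) (LT.a (LT.l 4160 4084 4098 4106) (LT.l 4152 4086 4097 4106))) (LT.b (LT.l 4154 4085 4094 4108) (LT.a (LT.l 4144 4087 4095 4106) (LT.l 4136 4089 4094 4106))))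

theorem c12 : chk P t12 1095216660480 4563402752 1076963049472 4563402752 = true := by decide +kernel

theorem b12 {lam : ℝ} (hlam : |(S : ℝ) * lam - ((P.lp : ℝ) - P.ln)| ≤ ((1 : ℕ) : ℝ)) : BoxS lam P 1095216660480 4563402752 1076963049472 4563402752 :=
  chk_sound hlam t12 1095216660480 4563402752 1076963049472 4563402752 (by norm_num) (by norm_num) c12

/-- Part of the subdivision. -/
def t13 : LT := (LT.b (LT.a (LT.b (LT.l 4149 4086 4098 4104) (LT.l 4142 4088 4098 4102)) (LT.b (LT.l 4141 4088 4097 4104) (LT.l 4134 4089 4097 4102))) (LT.a (LT.b (LT.l 4134 4089 4098 4101) (LT.a (LT.l 4129 4090 4098 4099) (LT.l 4125 4091 4098 4099))) (LT.b (LT.a (LT.l 4128 4090 4097 4101) (LT.l 4124 4091 4096 4101)) (LT.a (LT.b (LT.l 4123 4091 4097 4100) (LT.l 4119 4092 4097 4099)) (LT.b (LT.l 4119 4092 4096 4100) (LT.l 4115 4093 4096 4099))))))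

theorem c13 : chk P t13 1095216660480 2281701376 1086089854976 4563402752 = true := by decide +kernel

theorem b13 {lam : ℝ} (hlam : |(S : ℝ) * lam - ((P.lp : ℝ) - P.ln)| ≤ ((1 : ℕ) : ℝ)) : BoxS lam P 1095216660480 2281701376 1086089854976 4563402752 :=
  chk_sound hlam t13 1095216660480 2281701376 1086089854976 4563402752 (by norm_num) (by norm_num) c13

/-- Part of the subdivision. -/
def t14 : LT := (LT.b (LT.a (LT.b (LT.l 4134 4089 4095 4104) (LT.l 4126 4091 4095 4102)) (LT.b (LT.l 4125 4091 4094 4104) (LT.l 4118 4092 4094 4102))) (LT.a (LT.b (LT.a (LT.l 4120 4092 4095 4101) (LT.l 4116 4092 4095 4101)) (LT.a (LT.b (LT.l 4115 4093 4095 4100) (LT.l 4111 4093 4095 4099)) (LT.b (LT.l 4110 4093 4095 4100) (LT.l 4106 4094 4095 4099)))) (LT.b (LT.l 4110 4094 4094 4101) (LT.a (LT.b (LT.l 4106 4094 4094 4100) (LT.l 4102 4095 4094 4099)) LT.z2))))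

theorem c14 : chk P t14 1099780063232 2281701376 1086089854976 4563402752 = true := by decide +kernel

theorem b14 {lam : ℝ} (hlam : |(S : ℝ) * lam - ((P.lp : ℝ) - P.ln)| ≤ ((1 : ℕ) : ℝ)) : BoxS lam P 1099780063232 2281701376 1086089854976 4563402752 :=
  chk_sound hlam t14 1099780063232 2281701376 1086089854976 4563402752 (by norm_num) (by norm_num) c14

/-- Part of the subdivision. -/
def t15 : LT := (LT.b (LT.a (LT.b (LT.l 4138 4088 4091 4108) (LT.l 4124 4091 4091 4106)) (LT.b (LT.l 4121 4092 4088 4108) LT.z2)) (LT.a (LT.b (LT.a (LT.b (LT.l 4117 4092 4092 4104) (LT.l 4109 4094 4092 4102)) LT.z2) LT.z2) LT.z2))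

theorem c15 : chk P t15 1104343465984 4563402752 1076963049472 9126805504 = true := by decide +kernel

theorem b15 {lam : ℝ} (hlam : |(S : ℝ) * lam - ((P.lp : ℝ) - P.ln)| ≤ ((1 : ℕ) : ℝ)) : BoxS lam P 1104343465984 4563402752 1076963049472 9126805504 :=
  chk_sound hlam t15 1104343465984 4563402752 1076963049472 9126805504 (by norm_num) (by norm_num) c15

/-- Part of the subdivision. -/
def t16 : LT := (LT.b (LT.a (LT.b (LT.l 4141 4088 4083 4117) LT.z2) LT.z2) LT.z2)

theorem c16 : chk P t16 1113470271488 9126805504 1058709438464 18253611008 = true := by decide +kernel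

theorem b16 {lam : ℝ} (hlam : |(S : ℝ) * lam - ((P.lp : ℝ) - P.ln)| ≤ ((1 : ℕ) : ℝ)) : BoxS lam P 1113470271488 9126805504 1058709438464 18253611008 :=
  chk_sound hlam t16 1113470271488 9126805504 1058709438464 18253611008 (by norm_num) (by norm_num) c16

/-- Part of the subdivision. -/
def t17 : LT := LT.z2

theorem c17 : chk P t17 1131723882496 18253611008 1022202216448 36507222016 = true := by decide +kernel

theorem b17 {lam : ℝ} (hlam : |(S : ℝ) * lam - ((P.lp : ℝ) - P.ln)| ≤ ((1 : ℕ) : ℝ)) : BoxS lam P 1131723882496 18253611008 1022202216448 36507222016 :=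
  chk_sound hlam t17 1131723882496 18253611008 1022202216448 36507222016 (by norm_num) (by norm_num) c17

/-- Part of the subdivision. -/
def t18 : LT := (LT.b (LT.a (LT.b (LT.l 4123 4091 4098 4098) (LT.l 4119 4092 4098 4098)) (LT.b (LT.l 4119 4092 4098 4098) (LT.a (LT.l 4116 4092 4098 4098) (LT.l 4114 4093 4097 4098)))) (LT.a LT.z1 (LT.b (LT.a LT.z1 (LT.b (LT.l 4111 4093 4097 4097) LT.z1)) LT.z1)))

theorem c18 : chk P t18 1095216660480 1140850688 1095216660480 2281701376 = true := by decide +kernel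

theorem b18 {lam : ℝ} (hlam : |(S : ℝ) * lam - ((P.lp : ℝ) - P.ln)| ≤ ((1 : ℕ) : ℝ)) : BoxS lam P 1095216660480 1140850688 1095216660480 2281701376 :=
  chk_sound hlam t18 1095216660480 1140850688 1095216660480 2281701376 (by norm_num) (by norm_num) c18

/-- Part of the subdivision. -/
def t19 : LT := (LT.a (LT.b (LT.l 4115 4093 4097 4098) (LT.a (LT.l 4112 4093 4097 4098) (LT.b (LT.l 4111 4093 4097 4098) (LT.l 4109 4094 4097 4097)))) (LT.b (LT.a (LT.l 4112 4093 4096 4098) (LT.l 4110 4094 4096 4098)) (LT.a (LT.b (LT.l 4109 4094 4096 4098) (LT.l 4107 4094 4096 4097)) (LT.b (LT.l 4107 4094 4096 4098) (LT.l 4105 4095 4096 4097)))))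

theorem c19 : chk P t19 1097498361856 1140850688 1095216660480 1140850688 = true := by decide +kernel

theorem b19 {lam : ℝ} (hlam : |(S : ℝ) * lam - ((P.lp : ℝ) - P.ln)| ≤ ((1 : ℕ) : ℝ)) : BoxS lam P 1097498361856 1140850688 1095216660480 1140850688 :=
  chk_sound hlam t19 1097498361856 1140850688 1095216660480 1140850688 (by norm_num) (by norm_num) c19

/-- Part of the subdivision. -/
def t20 : LT := (LT.b (LT.a (LT.b (LT.l 4109 4094 4097 4097) (LT.l 4107 4094 4097 4097)) (LT.b (LT.l 4107 4094 4097 4097) (LT.a (LT.l 4105 4094 4097 4097) (LT.l 4104 4095 4097 4097)))) (LT.a LT.z1 (LT.b (LT.a LT.z1 (LT.b (LT.l 4102 4095 4097 4096) LT.z1)) LT.z1)))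

theorem c20 : chk P t20 1097498361856 570425344 1097498361856 1140850688 = true := by decide +kernel

theorem b20 {lam : ℝ} (hlam : |(S : ℝ) * lam - ((P.lp : ℝ) - P.ln)| ≤ ((1 : ℕ) : ℝ)) : BoxS lam P 1097498361856 570425344 1097498361856 1140850688 :=
  chk_sound hlam t20 1097498361856 570425344 1097498361856 1140850688 (by norm_num) (by norm_num) c20

/-- Part of the subdivision. -/
def t21 : LT := (LT.a (LT.b (LT.a (LT.l 4105 4094 4096 4097) (LT.l 4104 4095 4096 4097)) (LT.a (LT.b (LT.l 4103 4095 4096 4097) (LT.l 4102 4095 4096 4097)) (LT.b (LT.l 4102 4095 4096 4097) (LT.l 4101 4095 4096 4097)))) (LT.b (LT.a (LT.l 4103 4095 4096 4097) (LT.l 4102 4095 4096 4097)) (LT.a (LT.b (LT.l 4101 4095 4096 4097) (LT.a (LT.l 4101 4095 4096 4097) (LT.l 4100 4095 4096 4097))) (LT.b (LT.l 4100 4095 4096 4097) (LT.a (LT.b (LT.l 4100 4095 4096 4097) (LT.l 4099 4095 4096 4097)) (LT.b (LT.l 4099 4095 4096 4097) (LT.l 4099 4096 4096 4097)))))))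

theorem c21 : chk P t21 1098639212544 570425344 1097498361856 570425344 = true := by decide +kernel

theorem b21 {lam : ℝ} (hlam : |(S : ℝ) * lam - ((P.lp : ℝ) - P.ln)| ≤ ((1 : ℕ) : ℝ)) : BoxS lam P 1098639212544 570425344 1097498361856 570425344 :=
  chk_sound hlam t21 1098639212544 570425344 1097498361856 570425344 (by norm_num) (by norm_num) c21

/-- Part of the subdivision. -/
def t22 : LT := (LT.a (LT.b (LT.a (LT.b (LT.a (LT.l 4102 4095 4097 4096) (LT.l 4101 4095 4096 4096)) (LT.a LT.z1 (LT.b (LT.l 4100 4095 4096 4096) LT.z1))) (LT.b (LT.a (LT.l 4101 4095 4096 4096) (LT.b (LT.l 4100 4095 4096 4097) (LT.l 4100 4095 4096 4096))) (LT.a (LT.b (LT.l 4100 4095 4096 4096) (LT.o 4099 4095 4096 4096)) (LT.o 4099 4095 4096 4096)))) (LT.a LT.z1 (LT.o 4098 4096 4096 4096))) (LT.b (LT.a (LT.b (LT.a (LT.b (LT.l 4100 4095 4096 4097) (LT.o 4099 4095 4096 4096)) (LT.b (LT.l 4099 4095 4096 4097) (LT.o 4099 4096 4096 4096))) (LT.o 4098 4096 4096 4096)) (LT.o 4098 4096 4096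 4096)) (LT.o 4096 4096 4096 4096)))

theorem c22 : chk P t22 1098639212544 570425344 1098639212544 570425344 = true := by decide +kernel

theorem b22 {lam : ℝ} (hlam : |(S : ℝ) * lam - ((P.lp : ℝ) - P.ln)| ≤ ((1 : ℕ) : ℝ)) : BoxS lam P 1098639212544 570425344 1098639212544 570425344 :=
  chk_sound hlam t22 1098639212544 570425344 1098639212544 570425344 (by norm_num) (by norm_num) c22

/-- Part of the subdivision. -/
def t23 : LT := (LT.a LT.z1 (LT.b (LT.a LT.z1 (LT.b (LT.a LT.z1 (LT.b (LT.a LT.z1 LT.z2) LT.z1)) LT.z1)) LT.z1))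

theorem c23 : chk P t23 1095216660480 2281701376 1099780063232 2281701376 = true := by decide +kernel

theorem b23 {lam : ℝ} (hlam : |(S : ℝ) * lam - ((P.lp : ℝ) - P.ln)| ≤ ((1 : ℕ) : ℝ)) : BoxS lam P 1095216660480 2281701376 1099780063232 2281701376 :=
  chk_sound hlam t23 1095216660480 2281701376 1099780063232 2281701376 (by norm_num) (by norm_num) c23

/-- Part of the subdivision. -/
def t24 : LT := (LT.b (LT.a (LT.b (LT.a (LT.b (LT.a (LT.l 4108 4094 4096 4098) (LT.l 4105 4094 4095 4098)) (LT.a (LT.b (LT.l 4104 4095 4096 4098) (LT.l 4102 4095 4096 4097)) (LT.b (LT.l 4102 4095 4095 4098) (LT.l 4100 4095 4095 4097)))) (LT.b (LT.l 4102 4095 4095 4098) (LT.a (LT.b (LT.l 4100 4095 4095 4098) LT.z2) LT.z2))) (LT.a (LT.b (LT.a (LT.b (LT.a (LT.l 4101 4095 4096 4097) (LT.l 4100 4095 4096 4097)) (LT.a (LT.b (LT.l 4099 4095 4096 4097) (LT.a (LT.b (LT.l 4099 4096 4096 4097) (LT.o 4098 4096 4096 4097)) (LT.l 4098 4096 4096 4097))) (LT.b (LT.l 4098 4096 4096 4097) (LT.l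 4097 4096 4096 4097)))) (LT.b (LT.l 4098 4096 4095 4097) LT.z2)) (LT.a (LT.b (LT.a (LT.o 4097 4096 4096 4096) LT.z2) LT.z2) LT.z2)) LT.z2)) LT.z2) LT.z2)

theorem c24 : chk P t24 1099780063232 2281701376 1095216660480 4563402752 = true := by decide +kernel

theorem b24 {lam : ℝ} (hlam : |(S : ℝ) * lam - ((P.lp : ℝ) - P.ln)| ≤ ((1 : ℕ) : ℝ)) : BoxS lam P 1099780063232 2281701376 1095216660480 4563402752 :=
  chk_sound hlam t24 1099780063232 2281701376 1095216660480 4563402752 (by norm_num) (by norm_num) c24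

/-- Part of the subdivision. -/
def t25 : LT := (LT.a LT.z1 LT.z2)

theorem c25 : chk P t25 1095216660480 4563402752 1104343465984 4563402752 = true := by decide +kernel

theorem b25 {lam : ℝ} (hlam : |(S : ℝ) * lam - ((P.lp : ℝ) - P.ln)| ≤ ((1 : ℕ) : ℝ)) : BoxS lam P 1095216660480 4563402752 1104343465984 4563402752 :=
  chk_sound hlam t25 1095216660480 4563402752 1104343465984 4563402752 (by norm_num) (by norm_num) c25

/-- Part of the subdivision. -/
def t26 : LT := LT.z2

theorem c26 : chk P t26 1104343465984 4563402752 1095216660480 9126805504 = true := by decide +kernel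

theorem b26 {lam : ℝ} (hlam : |(S : ℝ) * lam - ((P.lp : ℝ) - P.ln)| ≤ ((1 : ℕ) : ℝ)) : BoxS lam P 1104343465984 4563402752 1095216660480 9126805504 :=
  chk_sound hlam t26 1104343465984 4563402752 1095216660480 9126805504 (by norm_num) (by norm_num) c26

/-- Part of the subdivision. -/
def t27 : LT := LT.z2

theorem c27 : chk P t27 1095216660480 9126805504 1113470271488 9126805504 = true := by decide +kernel

theorem b27 {lam : ℝ} (hlam : |(S : ℝ) * lam - ((P.lp : ℝ) - P.ln)| ≤ ((1 : ℕ) : ℝ)) : BoxS lam P 1095216660480 9126805504 1113470271488 9126805504 :=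
  chk_sound hlam t27 1095216660480 9126805504 1113470271488 9126805504 (by norm_num) (by norm_num) c27

/-- Part of the subdivision. -/
def t28 : LT := LT.z2

theorem c28 : chk P t28 1113470271488 9126805504 1095216660480 18253611008 = true := by decide +kernel

theorem b28 {lam : ℝ} (hlam : |(S : ℝ) * lam - ((P.lp : ℝ) - P.ln)| ≤ ((1 : ℕ) : ℝ)) : BoxS lam P 1113470271488 9126805504 1095216660480 18253611008 :=
  chk_sound hlam t28 1113470271488 9126805504 1095216660480 18253611008 (by norm_num) (by norm_num) c28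

/-- Part of the subdivision. -/
def t29 : LT := LT.z2

theorem c29 : chk P t29 1095216660480 18253611008 1131723882496 18253611008 = true := by decide +kernel

theorem b29 {lam : ℝ} (hlam : |(S : ℝ) * lam - ((P.lp : ℝ) - P.ln)| ≤ ((1 : ℕ) : ℝ)) : BoxS lam P 1095216660480 18253611008 1131723882496 18253611008 :=
  chk_sound hlam t29 1095216660480 18253611008 1131723882496 18253611008 (by norm_num) (by norm_num) c29

/-- Part of the subdivision. -/
def t30 : LT := LT.z2

theorem c30 : chk P t30 1131723882496 18253611008 1095216660480 36507222016 = true := by decide +kernel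

theorem b30 {lam : ℝ} (hlam : |(S : ℝ) * lam - ((P.lp : ℝ) - P.ln)| ≤ ((1 : ℕ) : ℝ)) : BoxS lam P 1131723882496 18253611008 1095216660480 36507222016 :=
  chk_sound hlam t30 1131723882496 18253611008 1095216660480 36507222016 (by norm_num) (by norm_num) c30

/-- The whole box. -/
theorem box {lam : ℝ} (hlam : |(S : ℝ) * lam - ((P.lp : ℝ) - P.ln)| ≤ ((1 : ℕ) : ℝ)) : BoxS lam P 0 HH 0 HH :=
  (BoxS.sa' (x1 := 584115552256) (h := 292057776128) (by norm_num [HH]) (by norm_num) (b0 hlam) (BoxS.sb' (t1 := 584115552256) (h := 292057776128) (by norm_num [HH]) (by norm_num) (b1 hlam) (BoxS.sa' (x1 := 876173328384) (h := 146028888064) (by norm_num [HH]) (by norm_num) (b2 hlam) (BoxS.sb' (t1 := 876173328384) (h := 146028888064) (by norm_num [HH]) (by norm_num) (b3 hlam) (BoxS.sa' (x1 := 1022202216448) (h := 73014444032) (by norm_num [HH]) (by norm_num) (b4 hlam) (BoxS.sb' (t1 := 1022202216448) (h := 73014444032) (by norm_num [HH]) (by norm_num) (b5 hlam) (BoxS.sa' (x1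 := 1095216660480) (h := 36507222016) (by norm_num [HH]) (by norm_num) (BoxS.sb' (t1 := 1095216660480) (h := 36507222016) (by norm_num [HH]) (by norm_num) (BoxS.sa' (x1 := 1058709438464) (h := 18253611008) (by norm_num [HH]) (by norm_num) (b6 hlam) (BoxS.sb' (t1 := 1058709438464) (h := 18253611008) (by norm_num [HH]) (by norm_num) (b7 hlam) (b8 hlam))) (b9 hlam)) (BoxS.sb' (t1 := 1095216660480) (h := 36507222016) (by norm_num [HH]) (by norm_num) (BoxS.sa' (x1 := 1131723882496) (h := 18253611008) (by norm_num [HH]) (by norm_num) (BoxS.sb' (t1 := 1058709438464) (h := 18253611008) (by norm_num [HH]) (by norm_num) (b10 hlam) (BoxS.sa' (x1 := 1113470271488) (h := 9126805504) (by norm_num [HH]) (by norm_num) (BoxS.sb' (t1 := 1076963049472) (h := 9126805504) (by norm_num [HH]) (by norm_num) (b11 hlam) (BoxS.sa' (x1 := 1104343465984) (h := 4563402752) (by norm_num [HH]) (by norm_num) (BoxS.sb' (t1 := 1086089854976) (h := 4563402752) (by norm_num [HH]) (by norm_num) (b12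 hlam) (BoxS.sa' (x1 := 1099780063232) (h := 2281701376) (by norm_num [HH]) (by norm_num) (b13 hlam) (b14 hlam))) (b15 hlam))) (b16 hlam))) (b17 hlam)) (BoxS.sa' (x1 := 1131723882496) (h := 18253611008) (by norm_num [HH]) (by norm_num) (BoxS.sb' (t1 := 1131723882496) (h := 18253611008) (by norm_num [HH]) (by norm_num) (BoxS.sa' (x1 := 1113470271488) (h := 9126805504) (by norm_num [HH]) (by norm_num) (BoxS.sb' (t1 := 1113470271488) (h := 9126805504) (by norm_num [HH]) (by norm_num) (BoxS.sa' (x1 := 1104343465984) (h := 4563402752) (by norm_num [HH]) (by norm_num) (BoxS.sb' (t1 := 1104343465984) (h := 4563402752) (by norm_num [HH]) (by norm_num) (BoxS.sa' (x1 := 1099780063232) (h := 2281701376) (by norm_num [HH]) (by norm_num) (BoxS.sb' (t1 := 1099780063232) (h := 2281701376) (by norm_num [HH]) (by norm_num) (BoxS.sa' (x1 := 1097498361856) (h := 1140850688) (by norm_num [HH]) (by norm_num) (b18 hlam) (BoxS.sb' (t1 := 1097498361856) (h := 1140850688) (by norm_num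 [HH]) (by norm_num) (b19 hlam) (BoxS.sa' (x1 := 1098639212544) (h := 570425344) (by norm_num [HH]) (by norm_num) (b20 hlam) (BoxS.sb' (t1 := 1098639212544) (h := 570425344) (by norm_num [HH]) (by norm_num) (b21 hlam) (b22 hlam))))) (b23 hlam)) (b24 hlam)) (b25 hlam)) (b26 hlam)) (b27 hlam)) (b28 hlam)) (b29 hlam)) (b30 hlam))))))))))

end Vale.Agent.P154H.Tm.D33
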