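import Vale.Agent.P154H.Msg

set_option maxRecDepth 100000

/-!
The subdivision for `d = 34`.
-/

namespace Vale.Agent.P154H.Tm.D34

/-- A row. -/
def Ra : Row := Row.mk 0 525474 0 2606391 4717404 0 17866116 0 88617294 0 0 160391736 0 4448 0 30733824 0 101064348

/-- A row. -/
def Rb : Row := Row.mk 0 17631981600768 0 87455969574912 158289811734528 0 529883866830672 0 2564292343808817 0 0 4589920356999168 0 149250113536 0 1031256007507968 0 3102882265299222
/-- A row. -/
def Q0 : Row := Row.mk 0 0 0 0 0 0 7473408 0 0 0 0 0 0 0 0 0 0 5346279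

/-- A row. -/
def Q1 : Row := Row.mk 0 0 0 0 0 0 0 0 296549376 0 0 0 0 0 0 0 0 173207163

/-- A row. -/
def Q2 : Row := Row.mk 0 0 0 0 0 0 0 0 0 0 256 0 0 0 0 0 0 741

/-- A row. -/
def Q3 : Row := Row.mk 0 134521344 0 667236096 1207655424 0 3975588024 0 19168404516 0 0 33916312752 0 1138688 0 0 0 24401278215

/-- A row. -/
def Q4 : Row := Row.mk 0 269042688 0 1334472192 2415310848 0 7591410192 0 36392616624 0 0 63902066160 0 2277376 0 0 0 47846254761

/-- A row. -/
def Q5 : Row := Row.mk 0 134521344 0 667236096 1207655424 0 3604480368 0 16987197756 0 0 29541395568 0 1138688 0 0 0 23320956609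

/-- A row. -/
def Q6 : Row := Row.mk 0 1076170752 0 5337888768 9661243392 0 26833388736 0 124910477856 0 0 213191230080 0 9109504 0 0 0 183981894939

/-- A row. -/
def Q7 : Row := Row.mk 0 1076170752 0 5337888768 9661243392 0 24559162368 0 111892470432 0 0 186172323072 0 9109504 0 0 0 179987709429

/-- A row. -/
def Q8 : Row := Row.mk 0 134521344 0 667236096 1207655424 0 2752185984 0 12230700396 0 0 19468468200 0 1138688 0 0 0 22385031291

/-- A row. -/
def Q9 : Row := Row.mk 0 16815168 0 83404512 150956928 0 300342171 0 1309085535 0 0 1868089152 0 142336 0 0 0 3031518690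


/-- The data. -/
def P : Pb where
  lp := 0
  ln := 12357775426277921
  ab := 3298534883328
  r1 := [Ra, Rb]
  r2 := [Q0, Q1, Q2, Q3, Q4, Q5, Q6, Q7, Q8, Q9]

/-- Part of the subdivision. -/
def t0 : LT := (LT.b (LT.a (LT.l 4699 3886 4178 4178) (LT.l 4699 3887 4178 4178)) (LT.a LT.z1 (LT.b (LT.l 4691 3891 4178 4175) LT.z1)))

theorem c0 : chk P t0 0 292057776128 0 584115552256 = true := by decide +kernel

theorem b0 {lam : ℝ} (hlam : |(S : ℝ) * lam - ((P.lp : ℝ) - P.ln)| ≤ ((1 : ℕ) : ℝ)) : BoxS lam P 0 292057776128 0 584115552256 :=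
  chk_sound hlam t0 0 292057776128 0 584115552256 (by norm_num) (by norm_num) c0

/-- Part of the subdivision. -/
def t1 : LT := (LT.a (LT.b (LT.l 4691 3891 4175 4178) (LT.l 4691 3891 4175 4178)) (LT.b (LT.a (LT.l 4636 3924 4154 4178) (LT.b (LT.l 4475 3998 4099 4178) (LT.l 4475 3998 4099 4178))) (LT.a (LT.b (LT.l 4636 3924 4154 4178) (LT.l 4635 3925 4154 4178)) (LT.b (LT.a (LT.l 4536 3973 4118 4178) (LT.l 4390 4027 4073 4178)) (LT.a (LT.l 4535 3973 4118 4178) (LT.b (LT.l 4389 4027 4073 4178) (LT.l 4388 4027 4073 4178)))))))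

theorem c1 : chk P t1 584115552256 292057776128 0 292057776128 = true := by decide +kernel

theorem b1 {lam : ℝ} (hlam : |(S : ℝ) * lam - ((P.lp : ℝ) - P.ln)| ≤ ((1 : ℕ) : ℝ)) : BoxS lam P 584115552256 292057776128 0 292057776128 :=
  chk_sound hlam t1 584115552256 292057776128 0 292057776128 (by norm_num) (by norm_num) c1

/-- Part of the subdivision. -/
def t2 : LT := (LT.b (LT.a (LT.l 4688 3893 4177 4175) (LT.b (LT.l 4680 3899 4172 4177) (LT.l 4666 3907 4172 4172))) (LT.a LT.z1 (LT.b (LT.a LT.z1 (LT.b (LT.l 4629 3928 4169 4160) LT.z1)) LT.z1)))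

theorem c2 : chk P t2 584115552256 146028888064 584115552256 292057776128 = true := by decide +kernel

theorem b2 {lam : ℝ} (hlam : |(S : ℝ) * lam - ((P.lp : ℝ) - P.ln)| ≤ ((1 : ℕ) : ℝ)) : BoxS lam P 584115552256 146028888064 584115552256 292057776128 :=
  chk_sound hlam t2 584115552256 146028888064 584115552256 292057776128 (by norm_num) (by norm_num) c2

/-- Part of the subdivision. -/
def t3 : LT := (LT.a (LT.b (LT.a (LT.l 4650 3916 4160 4177) (LT.l 4608 3939 4145 4177)) (LT.a (LT.l 4636 3924 4160 4172) (LT.b (LT.l 4599 3943 4145 4174) (LT.l 4585 3950 4145 4169)))) (LT.b (LT.a (LT.b (LT.l 4533 3974 4118 4177) (LT.l 4529 3976 4118 4176)) (LT.b (LT.a (LT.l 4433 4013 4087 4177) (LT.l 4329 4045 4057 4177)) (LT.a (LT.l 4429 4014 4087 4176) (LT.l 4324 4046 4057 4176)))) (LT.a (LT.b (LT.a (LT.l 4546 3969 4127 4174) (LT.l 4493 3991 4109 4174)) (LT.a (LT.l 4531 3975 4127 4169) (LT.l 4477 3997 4109 4169))) (LT.b (LT.a (LT.l 4420 4017 4087 4174) (LT.l 4313 4049 4057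 4174)) (LT.a (LT.l 4402 4023 4087 4169) (LT.l 4292 4055 4057 4169))))))

theorem c3 : chk P t3 876173328384 146028888064 584115552256 146028888064 = true := by decide +kernel

theorem b3 {lam : ℝ} (hlam : |(S : ℝ) * lam - ((P.lp : ℝ) - P.ln)| ≤ ((1 : ℕ) : ℝ)) : BoxS lam P 876173328384 146028888064 584115552256 146028888064 :=
  chk_sound hlam t3 876173328384 146028888064 584115552256 146028888064 (by norm_num) (by norm_num) c3

/-- Part of the subdivision. -/
def t4 : LT := (LT.b (LT.a (LT.b (LT.l 4604 3941 4160 4160) (LT.a LT.z1 (LT.b (LT.l 4564 3960 4157 4150) LT.z1))) (LT.b (LT.a (LT.l 4573 3956 4150 4160) (LT.l 4543 3970 4140 4160)) (LT.a (LT.b (LT.l 4541 3971 4150 4150) (LT.l 4509 3984 4150 4140)) (LT.b (LT.l 4509 3984 4140 4150) (LT.a (LT.l 4485 3994 4142 4140) (LT.b (LT.l 4475 3998 4137 4142) (LT.l 4456 4005 4137 4137))))))) (LT.a LT.z1 (LT.b (LT.a LT.z1 (LT.b (LT.a LT.z1 (LT.l 4420 4017 4137 4127)) LT.z1)) LT.z1)))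

theorem c4 : chk P t4 876173328384 73014444032 876173328384 146028888064 = true := by decide +kernel

theorem b4 {lam : ℝ} (hlam : |(S : ℝ) * lam - ((P.lp : ℝ) - P.ln)| ≤ ((1 : ℕ) : ℝ)) : BoxS lam P 876173328384 73014444032 876173328384 146028888064 :=
  chk_sound hlam t4 876173328384 73014444032 876173328384 146028888064 (by norm_num) (by norm_num) c4

/-- Part of the subdivision. -/
def t5 : LT := (LT.a (LT.b (LT.a (LT.b (LT.l 4511 3983 4127 4163) (LT.l 4492 3991 4127 4157)) (LT.b (LT.l 4456 4005 4109 4163) (LT.l 4435 4012 4109 4157))) (LT.a (LT.b (LT.a (LT.l 4478 3996 4130 4150) (LT.l 4453 4006 4123 4150)) (LT.a (LT.b (LT.l 4453 4006 4130 4142) (LT.l 4433 4013 4130 4137)) (LT.l 4417 4018 4123 4140))) (LT.b (LT.l 4406 4022 4109 4150) (LT.a (LT.l 4385 4029 4114 4140) (LT.b (LT.l 4359 4036 4104 4142) (LT.l 4335 4043 4104 4137)))))) (LT.b (LT.a (LT.b (LT.l 4378 4031 4087 4163) (LT.l 4354 4038 4087 4157)) (LT.b (LT.l 4263 4062 4057 4163) (LT.a (LT.l 4269 4060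 4065 4157) LT.z2))) (LT.a (LT.b (LT.a (LT.l 4346 4040 4093 4150) (LT.l 4294 4054 4080 4150)) (LT.a (LT.b (LT.l 4314 4049 4093 4142) (LT.l 4289 4056 4093 4137)) (LT.b (LT.l 4260 4063 4080 4142) (LT.l 4232 4069 4080 4137)))) (LT.b (LT.a (LT.l 4231 4069 4065 4150) LT.z2) (LT.a (LT.b (LT.l 4194 4077 4065 4142) LT.z2) LT.z2)))))

theorem c5 : chk P t5 1022202216448 73014444032 876173328384 73014444032 = true := by decide +kernel

theorem b5 {lam : ℝ} (hlam : |(S : ℝ) * lam - ((P.lp : ℝ) - P.ln)| ≤ ((1 : ℕ) : ℝ)) : BoxS lam P 1022202216448 73014444032 876173328384 73014444032 :=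
  chk_sound hlam t5 1022202216448 73014444032 876173328384 73014444032 (by norm_num) (by norm_num) c5

/-- Part of the subdivision. -/
def t6 : LT := (LT.b (LT.a (LT.b (LT.l 4409 4021 4130 4130) (LT.l 4381 4030 4130 4123)) (LT.b (LT.l 4381 4030 4123 4130) (LT.l 4351 4039 4123 4123))) (LT.a LT.z1 (LT.b (LT.l 4316 4049 4123 4114) LT.z1)))

theorem c6 : chk P t6 1022202216448 18253611008 1022202216448 36507222016 = true := by decide +kernel

theorem b6 {lam : ℝ} (hlam : |(S : ℝ) * lam - ((P.lp : ℝ) - P.ln)| ≤ ((1 : ℕ) : ℝ)) : BoxS lam P 1022202216448 18253611008 1022202216448 36507222016 :=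
  chk_sound hlam t6 1022202216448 18253611008 1022202216448 36507222016 (by norm_num) (by norm_num) c6

/-- Part of the subdivision. -/
def t7 : LT := (LT.a (LT.b (LT.l 4347 4040 4114 4130) (LT.l 4316 4049 4114 4123)) (LT.b (LT.l 4307 4051 4104 4130) (LT.a (LT.l 4285 4057 4107 4123) (LT.l 4262 4062 4101 4123))))

theorem c7 : chk P t7 1058709438464 18253611008 1022202216448 18253611008 = true := by decide +kernel

theorem b7 {lam : ℝ} (hlam : |(S : ℝ) * lam - ((P.lp : ℝ) - P.ln)| ≤ ((1 : ℕ) : ℝ)) : BoxS lam P 1058709438464 18253611008 1022202216448 18253611008 :=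
  chk_sound hlam t7 1058709438464 18253611008 1022202216448 18253611008 (by norm_num) (by norm_num) c7

/-- Part of the subdivision. -/
def t8 : LT := (LT.a (LT.b (LT.a (LT.l 4288 4056 4116 4114) (LT.b (LT.l 4278 4058 4112 4116) (LT.l 4257 4063 4112 4112))) (LT.a LT.z1 (LT.b (LT.l 4234 4069 4112 4107) LT.z1))) (LT.b (LT.a (LT.b (LT.l 4256 4064 4107 4116) (LT.l 4234 4069 4107 4112)) (LT.b (LT.l 4232 4069 4101 4116) (LT.a (LT.l 4216 4073 4103 4112) (LT.l 4202 4076 4100 4112)))) (LT.a (LT.b (LT.a (LT.l 4217 4073 4108 4107) (LT.l 4204 4075 4105 4107)) (LT.a LT.z1 (LT.b (LT.l 4185 4079 4105 4103) LT.z1))) (LT.b (LT.a (LT.b (LT.l 4198 4077 4103 4108) (LT.l 4185 4079 4103 4105)) (LT.b (LT.l 4184 4080 4100 4108) (LT.l 4171 4082 4100 4105))) (LT.a (LT.b (LT.l 4171 4082 4103 4103) (LT.a LT.z1 (LT.l 4153 4086 4102 4100))) (LT.b (LT.a (LT.l 4160 4084 4101 4103) (LT.l 4153 4086 4099 4103)) (LT.a (LT.b (LT.l 4150 4086 4101 4101) (LT.l 4142 4088 4101 4099)) (LT.b (LT.l 4142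 4088 4099 4101) (LT.l 4135 4089 4099 4099)))))))))

theorem c8 : chk P t8 1058709438464 18253611008 1058709438464 18253611008 = true := by decide +kernel

theorem b8 {lam : ℝ} (hlam : |(S : ℝ) * lam - ((P.lp : ℝ) - P.ln)| ≤ ((1 : ℕ) : ℝ)) : BoxS lam P 1058709438464 18253611008 1058709438464 18253611008 :=
  chk_sound hlam t8 1058709438464 18253611008 1058709438464 18253611008 (by norm_num) (by norm_num) c8

/-- Part of the subdivision. -/
def t9 : LT := (LT.a LT.z1 (LT.b (LT.a LT.z1 (LT.b (LT.a LT.z1 (LT.b (LT.a LT.z1 (LT.b (LT.a LT.z1 (LT.b (LT.a LT.z1 (LT.l 4125 4091 4099 4098)) LT.z1)) LT.z1)) LT.z1)) LT.z1)) LT.z1))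

theorem c9 : chk P t9 1022202216448 36507222016 1095216660480 36507222016 = true := by decide +kernel

theorem b9 {lam : ℝ} (hlam : |(S : ℝ) * lam - ((P.lp : ℝ) - P.ln)| ≤ ((1 : ℕ) : ℝ)) : BoxS lam P 1022202216448 36507222016 1095216660480 36507222016 :=
  chk_sound hlam t9 1022202216448 36507222016 1095216660480 36507222016 (by norm_num) (by norm_num) c9

/-- Part of the subdivision. -/
def t10 : LT := (LT.a (LT.b (LT.a (LT.l 4272 4060 4096 4130) (LT.l 4245 4066 4090 4130)) (LT.a (LT.b (LT.l 4246 4066 4096 4125) (LT.l 4226 4070 4096 4121)) (LT.b (LT.l 4218 4072 4090 4125) (LT.l 4197 4077 4090 4121)))) (LT.b (LT.a (LT.l 4215 4073 4083 4130) (LT.l 4182 4080 4076 4130)) (LT.a (LT.b (LT.l 4187 4079 4083 4125) (LT.l 4165 4083 4083 4121)) LT.z2)))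

theorem c10 : chk P t10 1095216660480 18253611008 1022202216448 18253611008 = true := by decide +kernel

theorem b10 {lam : ℝ} (hlam : |(S : ℝ) * lam - ((P.lp : ℝ) - P.ln)| ≤ ((1 : ℕ) : ℝ)) : BoxS lam P 1095216660480 18253611008 1022202216448 18253611008 :=
  chk_sound hlam t10 1095216660480 18253611008 1022202216448 18253611008 (by norm_num) (by norm_num) c10

/-- Part of the subdivision. -/
def t11 : LT := (LT.a (LT.b (LT.l 4205 4075 4096 4116) (LT.a (LT.l 4189 4079 4097 4112) (LT.b (LT.l 4180 4080 4094 4113) (LT.l 4167 4083 4094 4110)))) (LT.b (LT.l 4175 4081 4090 4116) (LT.a (LT.b (LT.l 4165 4083 4091 4113) (LT.l 4152 4086 4091 4110)) (LT.l 4142 4088 4088 4112))))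

theorem c11 : chk P t11 1095216660480 9126805504 1058709438464 9126805504 = true := by decide +kernel

theorem b11 {lam : ℝ} (hlam : |(S : ℝ) * lam - ((P.lp : ℝ) - P.ln)| ≤ ((1 : ℕ) : ℝ)) : BoxS lam P 1095216660480 9126805504 1058709438464 9126805504 :=
  chk_sound hlam t11 1095216660480 9126805504 1058709438464 9126805504 (by norm_num) (by norm_num) c11

/-- Part of the subdivision. -/
def t12 : LT := (LT.a (LT.b (LT.l 4169 4082 4097 4108) (LT.a (LT.l 4160 4084 4098 4105) (LT.l 4152 4086 4097 4105))) (LT.b (LT.l 4154 4085 4094 4108) (LT.a (LT.l 4144 4087 4095 4105) (LT.l 4136 4089 4094 4105))))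

theorem c12 : chk P t12 1095216660480 4563402752 1076963049472 4563402752 = true := by decide +kernel

theorem b12 {lam : ℝ} (hlam : |(S : ℝ) * lam - ((P.lp : ℝ) - P.ln)| ≤ ((1 : ℕ) : ℝ)) : BoxS lam P 1095216660480 4563402752 1076963049472 4563402752 :=
  chk_sound hlam t12 1095216660480 4563402752 1076963049472 4563402752 (by norm_num) (by norm_num) c12

/-- Part of the subdivision. -/
def t13 : LT := (LT.b (LT.a (LT.b (LT.l 4149 4086 4098 4103) (LT.l 4142 4088 4098 4102)) (LT.b (LT.l 4141 4088 4097 4103) (LT.l 4134 4089 4097 4102))) (LT.a (LT.b (LT.l 4134 4089 4098 4101) (LT.a (LT.l 4129 4090 4098 4099) (LT.l 4125 4091 4098 4099))) (LT.b (LT.a (LT.l 4128 4090 4097 4101) (LT.l 4124 4091 4096 4101)) (LT.a (LT.b (LT.l 4123 4091 4097 4100) (LT.l 4119 4092 4097 4099)) (LT.b (LT.l 4119 4092 4096 4100) (LT.l 4115 4093 4096 4099))))))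

theorem c13 : chk P t13 1095216660480 2281701376 1086089854976 4563402752 = true := by decide +kernel

theorem b13 {lam : ℝ} (hlam : |(S : ℝ) * lam - ((P.lp : ℝ) - P.ln)| ≤ ((1 : ℕ) : ℝ)) : BoxS lam P 1095216660480 2281701376 1086089854976 4563402752 :=
  chk_sound hlam t13 1095216660480 2281701376 1086089854976 4563402752 (by norm_num) (by norm_num) c13

/-- Part of the subdivision. -/
def t14 : LT := (LT.b (LT.a (LT.b (LT.l 4134 4089 4095 4103) (LT.l 4126 4091 4095 4102)) (LT.b (LT.l 4125 4091 4094 4103) (LT.l 4118 4092 4094 4102))) (LT.a (LT.b (LT.a (LT.l 4120 4092 4095 4101) (LT.l 4116 4092 4095 4101)) (LT.a (LT.b (LT.l 4115 4093 4095 4100) (LT.l 4111 4093 4095 4099)) (LT.b (LT.l 4110 4094 4095 4100) (LT.l 4106 4094 4095 4099)))) (LT.b (LT.l 4110 4094 4094 4101) (LT.a (LT.b (LT.l 4106 4094 4094 4100) (LT.l 4102 4095 4094 4099)) LT.z2))))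

theorem c14 : chk P t14 1099780063232 2281701376 1086089854976 4563402752 = true := by decide +kernel

theorem b14 {lam : ℝ} (hlam : |(S : ℝ) * lam - ((P.lp : ℝ) - P.ln)| ≤ ((1 : ℕ) : ℝ)) : BoxS lam P 1099780063232 2281701376 1086089854976 4563402752 :=
  chk_sound hlam t14 1099780063232 2281701376 1086089854976 4563402752 (by norm_num) (by norm_num) c14

/-- Part of the subdivision. -/
def t15 : LT := (LT.b (LT.a (LT.b (LT.l 4138 4088 4091 4108) (LT.l 4124 4091 4091 4105)) (LT.b (LT.l 4121 4092 4088 4108) LT.z2)) (LT.a (LT.b (LT.a (LT.b (LT.l 4117 4092 4092 4103) (LT.l 4109 4094 4092 4102)) LT.z2) LT.z2) LT.z2))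

theorem c15 : chk P t15 1104343465984 4563402752 1076963049472 9126805504 = true := by decide +kernel

theorem b15 {lam : ℝ} (hlam : |(S : ℝ) * lam - ((P.lp : ℝ) - P.ln)| ≤ ((1 : ℕ) : ℝ)) : BoxS lam P 1104343465984 4563402752 1076963049472 9126805504 :=
  chk_sound hlam t15 1104343465984 4563402752 1076963049472 9126805504 (by norm_num) (by norm_num) c15

/-- Part of the subdivision. -/
def t16 : LT := (LT.b (LT.a (LT.b (LT.l 4141 4088 4083 4116) LT.z2) LT.z2) LT.z2)

theorem c16 : chk P t16 1113470271488 9126805504 1058709438464 18253611008 = true := by decide +kernel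

theorem b16 {lam : ℝ} (hlam : |(S : ℝ) * lam - ((P.lp : ℝ) - P.ln)| ≤ ((1 : ℕ) : ℝ)) : BoxS lam P 1113470271488 9126805504 1058709438464 18253611008 :=
  chk_sound hlam t16 1113470271488 9126805504 1058709438464 18253611008 (by norm_num) (by norm_num) c16

/-- Part of the subdivision. -/
def t17 : LT := LT.z2

theorem c17 : chk P t17 1131723882496 18253611008 1022202216448 36507222016 = true := by decide +kernel

theorem b17 {lam : ℝ} (hlam : |(S : ℝ) * lam - ((P.lp : ℝ) - P.ln)| ≤ ((1 : ℕ) : ℝ)) : BoxS lam P 1131723882496 18253611008 1022202216448 36507222016 :=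
  chk_sound hlam t17 1131723882496 18253611008 1022202216448 36507222016 (by norm_num) (by norm_num) c17

/-- Part of the subdivision. -/
def t18 : LT := (LT.b (LT.a (LT.b (LT.l 4123 4091 4098 4098) (LT.l 4119 4092 4098 4098)) (LT.b (LT.l 4119 4092 4098 4098) (LT.a (LT.l 4116 4093 4098 4098) (LT.l 4114 4093 4097 4098)))) (LT.a LT.z1 (LT.b (LT.a LT.z1 (LT.b (LT.l 4111 4093 4097 4097) LT.z1)) LT.z1)))

theorem c18 : chk P t18 1095216660480 1140850688 1095216660480 2281701376 = true := by decide +kernel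

theorem b18 {lam : ℝ} (hlam : |(S : ℝ) * lam - ((P.lp : ℝ) - P.ln)| ≤ ((1 : ℕ) : ℝ)) : BoxS lam P 1095216660480 1140850688 1095216660480 2281701376 :=
  chk_sound hlam t18 1095216660480 1140850688 1095216660480 2281701376 (by norm_num) (by norm_num) c18

/-- Part of the subdivision. -/
def t19 : LT := (LT.a (LT.b (LT.l 4115 4093 4097 4098) (LT.a (LT.l 4112 4093 4097 4098) (LT.b (LT.l 4111 4093 4097 4098) (LT.l 4109 4094 4097 4097)))) (LT.b (LT.a (LT.l 4112 4093 4096 4098) (LT.l 4110 4094 4096 4098)) (LT.a (LT.b (LT.l 4109 4094 4096 4098) (LT.l 4107 4094 4096 4097)) (LT.b (LT.l 4107 4094 4096 4098) (LT.l 4105 4095 4096 4097)))))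

theorem c19 : chk P t19 1097498361856 1140850688 1095216660480 1140850688 = true := by decide +kernel

theorem b19 {lam : ℝ} (hlam : |(S : ℝ) * lam - ((P.lp : ℝ) - P.ln)| ≤ ((1 : ℕ) : ℝ)) : BoxS lam P 1097498361856 1140850688 1095216660480 1140850688 :=
  chk_sound hlam t19 1097498361856 1140850688 1095216660480 1140850688 (by norm_num) (by norm_num) c19

/-- Part of the subdivision. -/
def t20 : LT := (LT.b (LT.a (LT.b (LT.l 4109 4094 4097 4097) (LT.l 4107 4094 4097 4097)) (LT.b (LT.l 4107 4094 4097 4097) (LT.a (LT.l 4105 4094 4097 4097) (LT.l 4104 4095 4097 4097)))) (LT.a LT.z1 (LT.b (LT.a LT.z1 (LT.b (LT.l 4102 4095 4097 4096) LT.z1)) LT.z1)))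

theorem c20 : chk P t20 1097498361856 570425344 1097498361856 1140850688 = true := by decide +kernel

theorem b20 {lam : ℝ} (hlam : |(S : ℝ) * lam - ((P.lp : ℝ) - P.ln)| ≤ ((1 : ℕ) : ℝ)) : BoxS lam P 1097498361856 570425344 1097498361856 1140850688 :=
  chk_sound hlam t20 1097498361856 570425344 1097498361856 1140850688 (by norm_num) (by norm_num) c20

/-- Part of the subdivision. -/
def t21 : LT := (LT.a (LT.b (LT.a (LT.l 4105 4094 4096 4097) (LT.l 4104 4095 4096 4097)) (LT.a (LT.b (LT.l 4103 4095 4096 4097) (LT.l 4102 4095 4096 4097)) (LT.b (LT.l 4102 4095 4096 4097) (LT.l 4101 4095 4096 4097)))) (LT.b (LT.a (LT.l 4103 4095 4096 4097) (LT.l 4102 4095 4096 4097)) (LT.a (LT.b (LT.l 4101 4095 4096 4097) (LT.a (LT.l 4101 4095 4096 4097) (LT.l 4100 4095 4096 4097))) (LT.b (LT.l 4100 4095 4096 4097) (LT.a (LT.l 4100 4095 4096 4097) (LT.b (LT.l 4099 4095 4096 4097) (LT.l 4099 4096 4096 4097)))))))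

theorem c21 : chk P t21 1098639212544 570425344 1097498361856 570425344 = true := by decide +kernel

theorem b21 {lam : ℝ} (hlam : |(S : ℝ) * lam - ((P.lp : ℝ) - P.ln)| ≤ ((1 : ℕ) : ℝ)) : BoxS lam P 1098639212544 570425344 1097498361856 570425344 :=
  chk_sound hlam t21 1098639212544 570425344 1097498361856 570425344 (by norm_num) (by norm_num) c21

/-- Part of the subdivision. -/
def t22 : LT := (LT.a (LT.b (LT.a (LT.b (LT.l 4101 4095 4096 4096) (LT.a LT.z1 (LT.b (LT.l 4100 4095 4096 4096) LT.z1))) (LT.b (LT.a (LT.l 4101 4095 4096 4096) (LT.b (LT.l 4100 4095 4096 4097) (LT.l 4100 4095 4096 4096))) (LT.a (LT.b (LT.l 4100 4095 4096 4096) (LT.o 4099 4095 4096 4096)) (LT.o 4099 4095 4096 4096)))) (LT.a LT.z1 (LT.o 4098 4096 4096 4096))) (LT.b (LT.a (LT.b (LT.a (LT.b (LT.l 4100 4095 4096 4097) (LT.o 4099 4095 4096 4096)) (LT.b (LT.l 4099 4095 4096 4097) (LT.o 4099 4096 4096 4096))) (LT.o 4098 4096 4096 4096)) (LT.o 4098 4096 4096 4096)) (LT.o 4096 4096 4096 4096)))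

theorem c22 : chk P t22 1098639212544 570425344 1098639212544 570425344 = true := by decide +kernel

theorem b22 {lam : ℝ} (hlam : |(S : ℝ) * lam - ((P.lp : ℝ) - P.ln)| ≤ ((1 : ℕ) : ℝ)) : BoxS lam P 1098639212544 570425344 1098639212544 570425344 :=
  chk_sound hlam t22 1098639212544 570425344 1098639212544 570425344 (by norm_num) (by norm_num) c22

/-- Part of the subdivision. -/
def t23 : LT := (LT.a LT.z1 (LT.b (LT.a LT.z1 (LT.b (LT.a LT.z1 (LT.b (LT.a LT.z1 LT.z2) LT.z1)) LT.z1)) LT.z1))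

theorem c23 : chk P t23 1095216660480 2281701376 1099780063232 2281701376 = true := by decide +kernel

theorem b23 {lam : ℝ} (hlam : |(S : ℝ) * lam - ((P.lp : ℝ) - P.ln)| ≤ ((1 : ℕ) : ℝ)) : BoxS lam P 1095216660480 2281701376 1099780063232 2281701376 :=
  chk_sound hlam t23 1095216660480 2281701376 1099780063232 2281701376 (by norm_num) (by norm_num) c23

/-- Part of the subdivision. -/
def t24 : LT := (LT.b (LT.a (LT.b (LT.a (LT.b (LT.a (LT.l 4108 4094 4096 4098) (LT.l 4105 4094 4095 4098)) (LT.a (LT.b (LT.l 4104 4095 4096 4098) (LT.l 4102 4095 4096 4097)) (LT.b (LT.l 4102 4095 4095 4098) (LT.l 4100 4095 4095 4097)))) (LT.b (LT.l 4102 4095 4095 4098) (LT.a (LT.b (LT.l 4100 4095 4095 4098) LT.z2) LT.z2))) (LT.a (LT.b (LT.a (LT.b (LT.a (LT.l 4101 4095 4096 4097) (LT.l 4100 4095 4096 4097)) (LT.a (LT.b (LT.l 4099 4095 4096 4097) (LT.a (LT.b (LT.l 4099 4096 4096 4097) (LT.o 4098 4096 4096 4097)) (LT.l 4098 4096 4096 4097))) (LT.b (LT.l 4098 4096 4096 4097) (LT.l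 4097 4096 4096 4097)))) (LT.b (LT.l 4098 4096 4095 4097) LT.z2)) (LT.a (LT.b (LT.a (LT.o 4097 4096 4096 4096) LT.z2) LT.z2) LT.z2)) LT.z2)) LT.z2) LT.z2)

theorem c24 : chk P t24 1099780063232 2281701376 1095216660480 4563402752 = true := by decide +kernel

theorem b24 {lam : ℝ} (hlam : |(S : ℝ) * lam - ((P.lp : ℝ) - P.ln)| ≤ ((1 : ℕ) : ℝ)) : BoxS lam P 1099780063232 2281701376 1095216660480 4563402752 :=
  chk_sound hlam t24 1099780063232 2281701376 1095216660480 4563402752 (by norm_num) (by norm_num) c24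

/-- Part of the subdivision. -/
def t25 : LT := (LT.a LT.z1 LT.z2)

theorem c25 : chk P t25 1095216660480 4563402752 1104343465984 4563402752 = true := by decide +kernel

theorem b25 {lam : ℝ} (hlam : |(S : ℝ) * lam - ((P.lp : ℝ) - P.ln)| ≤ ((1 : ℕ) : ℝ)) : BoxS lam P 1095216660480 4563402752 1104343465984 4563402752 :=
  chk_sound hlam t25 1095216660480 4563402752 1104343465984 4563402752 (by norm_num) (by norm_num) c25

/-- Part of the subdivision. -/
def t26 : LT := LT.z2

theorem c26 : chk P t26 1104343465984 4563402752 1095216660480 9126805504 = true := by decide +kernel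

theorem b26 {lam : ℝ} (hlam : |(S : ℝ) * lam - ((P.lp : ℝ) - P.ln)| ≤ ((1 : ℕ) : ℝ)) : BoxS lam P 1104343465984 4563402752 1095216660480 9126805504 :=
  chk_sound hlam t26 1104343465984 4563402752 1095216660480 9126805504 (by norm_num) (by norm_num) c26

/-- Part of the subdivision. -/
def t27 : LT := LT.z2

theorem c27 : chk P t27 1095216660480 9126805504 1113470271488 9126805504 = true := by decide +kernel

theorem b27 {lam : ℝ} (hlam : |(S : ℝ) * lam - ((P.lp : ℝ) - P.ln)| ≤ ((1 : ℕ) : ℝ)) : BoxS lam P 1095216660480 9126805504 1113470271488 9126805504 :=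
  chk_sound hlam t27 1095216660480 9126805504 1113470271488 9126805504 (by norm_num) (by norm_num) c27

/-- Part of the subdivision. -/
def t28 : LT := LT.z2

theorem c28 : chk P t28 1113470271488 9126805504 1095216660480 18253611008 = true := by decide +kernel

theorem b28 {lam : ℝ} (hlam : |(S : ℝ) * lam - ((P.lp : ℝ) - P.ln)| ≤ ((1 : ℕ) : ℝ)) : BoxS lam P 1113470271488 9126805504 1095216660480 18253611008 :=
  chk_sound hlam t28 1113470271488 9126805504 1095216660480 18253611008 (by norm_num) (by norm_num) c28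

/-- Part of the subdivision. -/
def t29 : LT := LT.z2

theorem c29 : chk P t29 1095216660480 18253611008 1131723882496 18253611008 = true := by decide +kernel

theorem b29 {lam : ℝ} (hlam : |(S : ℝ) * lam - ((P.lp : ℝ) - P.ln)| ≤ ((1 : ℕ) : ℝ)) : BoxS lam P 1095216660480 18253611008 1131723882496 18253611008 :=
  chk_sound hlam t29 1095216660480 18253611008 1131723882496 18253611008 (by norm_num) (by norm_num) c29

/-- Part of the subdivision. -/
def t30 : LT := LT.z2

theorem c30 : chk P t30 1131723882496 18253611008 1095216660480 36507222016 = true := by decide +kernel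

theorem b30 {lam : ℝ} (hlam : |(S : ℝ) * lam - ((P.lp : ℝ) - P.ln)| ≤ ((1 : ℕ) : ℝ)) : BoxS lam P 1131723882496 18253611008 1095216660480 36507222016 :=
  chk_sound hlam t30 1131723882496 18253611008 1095216660480 36507222016 (by norm_num) (by norm_num) c30

/-- The whole box. -/
theorem box {lam : ℝ} (hlam : |(S : ℝ) * lam - ((P.lp : ℝ) - P.ln)| ≤ ((1 : ℕ) : ℝ)) : BoxS lam P 0 HH 0 HH :=
  (BoxS.sa' (x1 := 584115552256) (h := 292057776128) (by norm_num [HH]) (by norm_num) (b0 hlam) (BoxS.sb' (t1 := 584115552256) (h := 292057776128) (by norm_num [HH]) (by norm_num) (b1 hlam) (BoxS.sa' (x1 := 876173328384) (h := 146028888064) (by norm_num [HH]) (by norm_num) (b2 hlam) (BoxS.sb' (t1 := 876173328384) (h := 146028888064) (by norm_num [HH]) (by norm_num) (b3 hlam) (BoxS.sa' (x1 := 1022202216448) (h := 73014444032) (by norm_num [HH]) (by norm_num) (b4 hlam) (BoxS.sb' (t1 := 1022202216448) (h := 73014444032) (by norm_num [HH]) (by norm_num) (b5 hlam) (BoxS.sa' (x1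 := 1095216660480) (h := 36507222016) (by norm_num [HH]) (by norm_num) (BoxS.sb' (t1 := 1095216660480) (h := 36507222016) (by norm_num [HH]) (by norm_num) (BoxS.sa' (x1 := 1058709438464) (h := 18253611008) (by norm_num [HH]) (by norm_num) (b6 hlam) (BoxS.sb' (t1 := 1058709438464) (h := 18253611008) (by norm_num [HH]) (by norm_num) (b7 hlam) (b8 hlam))) (b9 hlam)) (BoxS.sb' (t1 := 1095216660480) (h := 36507222016) (by norm_num [HH]) (by norm_num) (BoxS.sa' (x1 := 1131723882496) (h := 18253611008) (by norm_num [HH]) (by norm_num) (BoxS.sb' (t1 := 1058709438464) (h := 18253611008) (by norm_num [HH]) (by norm_num) (b10 hlam) (BoxS.sa' (x1 := 1113470271488) (h := 9126805504) (by norm_num [HH]) (by norm_num) (BoxS.sb' (t1 := 1076963049472) (h := 9126805504) (by norm_num [HH]) (by norm_num) (b11 hlam) (BoxS.sa' (x1 := 1104343465984) (h := 4563402752) (by norm_num [HH]) (by norm_num) (BoxS.sb' (t1 := 1086089854976) (h := 4563402752) (by norm_num [HH]) (by norm_num) (b12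 hlam) (BoxS.sa' (x1 := 1099780063232) (h := 2281701376) (by norm_num [HH]) (by norm_num) (b13 hlam) (b14 hlam))) (b15 hlam))) (b16 hlam))) (b17 hlam)) (BoxS.sa' (x1 := 1131723882496) (h := 18253611008) (by norm_num [HH]) (by norm_num) (BoxS.sb' (t1 := 1131723882496) (h := 18253611008) (by norm_num [HH]) (by norm_num) (BoxS.sa' (x1 := 1113470271488) (h := 9126805504) (by norm_num [HH]) (by norm_num) (BoxS.sb' (t1 := 1113470271488) (h := 9126805504) (by norm_num [HH]) (by norm_num) (BoxS.sa' (x1 := 1104343465984) (h := 4563402752) (by norm_num [HH]) (by norm_num) (BoxS.sb' (t1 := 1104343465984) (h := 4563402752) (by norm_num [HH]) (by norm_num) (BoxS.sa' (x1 := 1099780063232) (h := 2281701376) (by norm_num [HH]) (by norm_num) (BoxS.sb' (t1 := 1099780063232) (h := 2281701376) (by norm_num [HH]) (by norm_num) (BoxS.sa' (x1 := 1097498361856) (h := 1140850688) (by norm_num [HH]) (by norm_num) (b18 hlam) (BoxS.sb' (t1 := 1097498361856) (h := 1140850688) (by norm_num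 [HH]) (by norm_num) (b19 hlam) (BoxS.sa' (x1 := 1098639212544) (h := 570425344) (by norm_num [HH]) (by norm_num) (b20 hlam) (BoxS.sb' (t1 := 1098639212544) (h := 570425344) (by norm_num [HH]) (by norm_num) (b21 hlam) (b22 hlam))))) (b23 hlam)) (b24 hlam)) (b25 hlam)) (b26 hlam)) (b27 hlam)) (b28 hlam)) (b29 hlam)) (b30 hlam))))))))))

end Vale.Agent.P154H.Tm.D34
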