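import Vale.Agent.P154H.Msg

set_option maxRecDepth 100000

/-!
The subdivision for `d = 35`.
-/

namespace Vale.Agent.P154H.Tm.D35

/-- A row. -/
def Ra : Row := Row.mk 0 525474 0 2606391 4717404 0 18391590 0 91223685 0 0 165109140 0 4832 0 32596480 0 104126904

/-- A row. -/
def Rb : Row := Row.mk 0 17631981600768 0 87455969574912 158289811734528 0 543477109185360 0 2628003892232817 0 0 4702258291089408 0 162135015424 0 1093756371599360 0 3188917480636566
/-- A row. -/
def Q0 : Row := Row.mk 0 0 0 0 0 0 7473408 0 0 0 0 0 0 0 0 0 0 5346279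

/-- A row. -/
def Q1 : Row := Row.mk 0 0 0 0 0 0 0 0 296549376 0 0 0 0 0 0 0 0 173207163

/-- A row. -/
def Q2 : Row := Row.mk 0 0 0 0 0 0 0 0 0 0 1024 0 0 0 0 0 0 2967

/-- A row. -/
def Q3 : Row := Row.mk 0 1076170752 0 5337888768 9661243392 0 32592888192 0 157074016224 0 0 277842312384 0 9895936 0 0 0 200400552063

/-- A row. -/
def Q4 : Row := Row.mk 0 538085376 0 2668944384 4830621696 0 15602242560 0 74494989168 0 0 130805581440 0 4947968 0 0 0 98205520311

/-- A row. -/
def Q5 : Row := Row.mk 0 1076170752 0 5337888768 9661243392 0 29497469376 0 139528897440 0 0 241813135104 0 9895936 0 0 0 193874223465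

/-- A row. -/
def Q6 : Row := Row.mk 0 1076170752 0 5337888768 9661243392 0 27400083456 0 127923004800 0 0 218157986112 0 9895936 0 0 0 188856643113

/-- A row. -/
def Q7 : Row := Row.mk 0 269042688 0 1334472192 2415310848 0 6252676176 0 28665897648 0 0 47661419760 0 2473984 0 0 0 46137981825

/-- A row. -/
def Q8 : Row := Row.mk 0 538085376 0 2668944384 4830621696 0 11295459072 0 50376977856 0 0 79891681152 0 4947968 0 0 0 93053207475

/-- A row. -/
def Q9 : Row := Row.mk 0 1076170752 0 5337888768 9661243392 0 19948641600 0 86102956512 0 0 122857283328 0 9895936 0 0 0 200218429791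


/-- The data. -/
def P : Pb where
  lp := 0
  ln := 12179956437330996
  ab := 3298534883328
  r1 := [Ra, Rb]
  r2 := [Q0, Q1, Q2, Q3, Q4, Q5, Q6, Q7, Q8, Q9]

/-- Part of the subdivision. -/
def t0 : LT := (LT.b (LT.a (LT.l 4699 3890 4177 4177) (LT.l 4699 3890 4177 4177)) (LT.a LT.z1 (LT.b (LT.l 4691 3895 4177 4174) LT.z1)))

theorem c0 : chk P t0 0 292057776128 0 584115552256 = true := by decide +kernel

theorem b0 {lam : ℝ} (hlam : |(S : ℝ) * lam - ((P.lp : ℝ) - P.ln)| ≤ ((1 : ℕ) : ℝ)) : BoxS lam P 0 292057776128 0 584115552256 :=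
  chk_sound hlam t0 0 292057776128 0 584115552256 (by norm_num) (by norm_num) c0

/-- Part of the subdivision. -/
def t1 : LT := (LT.a (LT.b (LT.l 4691 3895 4174 4177) (LT.l 4691 3895 4174 4177)) (LT.b (LT.a (LT.l 4636 3927 4153 4177) (LT.b (LT.l 4475 3999 4099 4177) (LT.l 4475 3999 4099 4177))) (LT.a (LT.b (LT.l 4636 3927 4153 4177) (LT.l 4635 3927 4153 4177)) (LT.b (LT.a (LT.l 4536 3975 4118 4177) (LT.l 4390 4028 4073 4177)) (LT.a (LT.l 4535 3975 4118 4177) (LT.b (LT.l 4389 4028 4073 4177) (LT.l 4388 4029 4073 4176)))))))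

theorem c1 : chk P t1 584115552256 292057776128 0 292057776128 = true := by decide +kernel

theorem b1 {lam : ℝ} (hlam : |(S : ℝ) * lam - ((P.lp : ℝ) - P.ln)| ≤ ((1 : ℕ) : ℝ)) : BoxS lam P 584115552256 292057776128 0 292057776128 :=
  chk_sound hlam t1 584115552256 292057776128 0 292057776128 (by norm_num) (by norm_num) c1

/-- Part of the subdivision. -/
def t2 : LT := (LT.b (LT.a (LT.l 4688 3897 4176 4174) (LT.b (LT.l 4680 3902 4171 4176) (LT.l 4666 3910 4171 4171))) (LT.a LT.z1 (LT.b (LT.a LT.z1 (LT.b (LT.l 4629 3931 4168 4159) LT.z1)) LT.z1)))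

theorem c2 : chk P t2 584115552256 146028888064 584115552256 292057776128 = true := by decide +kernel

theorem b2 {lam : ℝ} (hlam : |(S : ℝ) * lam - ((P.lp : ℝ) - P.ln)| ≤ ((1 : ℕ) : ℝ)) : BoxS lam P 584115552256 146028888064 584115552256 292057776128 :=
  chk_sound hlam t2 584115552256 146028888064 584115552256 292057776128 (by norm_num) (by norm_num) c2

/-- Part of the subdivision. -/
def t3 : LT := (LT.a (LT.b (LT.a (LT.l 4650 3919 4159 4176) (LT.l 4608 3941 4144 4176)) (LT.a (LT.l 4636 3927 4159 4171) (LT.b (LT.l 4599 3946 4144 4173) (LT.l 4585 3953 4144 4168)))) (LT.b (LT.a (LT.b (LT.l 4533 3976 4118 4176) (LT.l 4529 3978 4118 4175)) (LT.b (LT.a (LT.l 4433 4014 4087 4176) (LT.l 4329 4046 4057 4176)) (LT.a (LT.l 4429 4015 4087 4175) (LT.l 4324 4047 4057 4175)))) (LT.a (LT.b (LT.a (LT.l 4546 3971 4126 4173) (LT.l 4493 3992 4109 4173)) (LT.a (LT.l 4531 3977 4126 4168) (LT.l 4477 3998 4109 4168))) (LT.b (LT.a (LT.l 4420 4019 4087 4173) (LT.l 4313 4050 4057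 4173)) (LT.a (LT.l 4402 4024 4087 4168) (LT.l 4292 4055 4057 4168))))))

theorem c3 : chk P t3 876173328384 146028888064 584115552256 146028888064 = true := by decide +kernel

theorem b3 {lam : ℝ} (hlam : |(S : ℝ) * lam - ((P.lp : ℝ) - P.ln)| ≤ ((1 : ℕ) : ℝ)) : BoxS lam P 876173328384 146028888064 584115552256 146028888064 :=
  chk_sound hlam t3 876173328384 146028888064 584115552256 146028888064 (by norm_num) (by norm_num) c3

/-- Part of the subdivision. -/
def t4 : LT := (LT.b (LT.a (LT.b (LT.l 4604 3943 4159 4159) (LT.a LT.z1 (LT.b (LT.l 4564 3963 4156 4149) LT.z1))) (LT.b (LT.a (LT.l 4573 3958 4149 4159) (LT.l 4543 3972 4139 4159)) (LT.a (LT.b (LT.l 4541 3973 4149 4149) (LT.l 4509 3986 4149 4139)) (LT.b (LT.l 4509 3986 4139 4149) (LT.a (LT.l 4485 3995 4142 4139) (LT.b (LT.l 4475 3999 4136 4142) (LT.l 4456 4006 4136 4136))))))) (LT.a LT.z1 (LT.b (LT.a LT.z1 (LT.b (LT.a LT.z1 (LT.l 4420 4019 4136 4126)) LT.z1)) LT.z1)))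

theorem c4 : chk P t4 876173328384 73014444032 876173328384 146028888064 = true := by decide +kernel

theorem b4 {lam : ℝ} (hlam : |(S : ℝ) * lam - ((P.lp : ℝ) - P.ln)| ≤ ((1 : ℕ) : ℝ)) : BoxS lam P 876173328384 73014444032 876173328384 146028888064 :=
  chk_sound hlam t4 876173328384 73014444032 876173328384 146028888064 (by norm_num) (by norm_num) c4

/-- Part of the subdivision. -/
def t5 : LT := (LT.a (LT.b (LT.a (LT.b (LT.l 4511 3985 4126 4162) (LT.l 4492 3993 4126 4156)) (LT.b (LT.l 4456 4006 4109 4162) (LT.l 4435 4014 4109 4156))) (LT.a (LT.b (LT.a (LT.l 4478 3998 4130 4149) (LT.l 4453 4007 4122 4149)) (LT.a (LT.b (LT.l 4453 4007 4130 4142) (LT.l 4433 4014 4130 4136)) (LT.l 4417 4020 4122 4139))) (LT.b (LT.l 4406 4023 4109 4149) (LT.a (LT.l 4385 4030 4114 4139) (LT.b (LT.l 4359 4037 4104 4142) (LT.l 4335 4044 4104 4136)))))) (LT.b (LT.a (LT.b (LT.l 4378 4032 4087 4162) (LT.l 4354 4039 4087 4156)) (LT.b (LT.l 4263 4062 4057 4162) (LT.a (LT.l 4269 4061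 4065 4156) LT.z2))) (LT.a (LT.b (LT.a (LT.l 4346 4041 4093 4149) (LT.l 4294 4055 4080 4149)) (LT.a (LT.b (LT.l 4314 4050 4093 4142) (LT.l 4289 4056 4093 4136)) (LT.b (LT.l 4260 4063 4080 4142) (LT.l 4232 4069 4080 4136)))) (LT.b (LT.a (LT.l 4231 4070 4065 4149) LT.z2) (LT.a (LT.b (LT.l 4194 4078 4065 4142) LT.z2) LT.z2)))))

theorem c5 : chk P t5 1022202216448 73014444032 876173328384 73014444032 = true := by decide +kernel

theorem b5 {lam : ℝ} (hlam : |(S : ℝ) * lam - ((P.lp : ℝ) - P.ln)| ≤ ((1 : ℕ) : ℝ)) : BoxS lam P 1022202216448 73014444032 876173328384 73014444032 :=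
  chk_sound hlam t5 1022202216448 73014444032 876173328384 73014444032 (by norm_num) (by norm_num) c5

/-- Part of the subdivision. -/
def t6 : LT := (LT.b (LT.a (LT.b (LT.l 4409 4022 4130 4130) (LT.l 4381 4031 4130 4122)) (LT.b (LT.l 4381 4031 4122 4130) (LT.l 4351 4040 4122 4122))) (LT.a LT.z1 (LT.b (LT.l 4316 4049 4122 4114) LT.z1)))

theorem c6 : chk P t6 1022202216448 18253611008 1022202216448 36507222016 = true := by decide +kernel

theorem b6 {lam : ℝ} (hlam : |(S : ℝ) * lam - ((P.lp : ℝ) - P.ln)| ≤ ((1 : ℕ) : ℝ)) : BoxS lam P 1022202216448 18253611008 1022202216448 36507222016 :=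
  chk_sound hlam t6 1022202216448 18253611008 1022202216448 36507222016 (by norm_num) (by norm_num) c6

/-- Part of the subdivision. -/
def t7 : LT := (LT.a (LT.b (LT.l 4347 4041 4114 4130) (LT.l 4316 4049 4114 4122)) (LT.b (LT.l 4307 4052 4104 4130) (LT.a (LT.l 4285 4057 4107 4122) (LT.l 4262 4063 4101 4122))))

theorem c7 : chk P t7 1058709438464 18253611008 1022202216448 18253611008 = true := by decide +kernel

theorem b7 {lam : ℝ} (hlam : |(S : ℝ) * lam - ((P.lp : ℝ) - P.ln)| ≤ ((1 : ℕ) : ℝ)) : BoxS lam P 1058709438464 18253611008 1022202216448 18253611008 :=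
  chk_sound hlam t7 1058709438464 18253611008 1022202216448 18253611008 (by norm_num) (by norm_num) c7

/-- Part of the subdivision. -/
def t8 : LT := (LT.a (LT.b (LT.a (LT.l 4288 4056 4116 4114) (LT.b (LT.l 4278 4059 4111 4116) (LT.l 4257 4064 4111 4111))) (LT.a LT.z1 (LT.b (LT.l 4234 4069 4111 4107) LT.z1))) (LT.b (LT.a (LT.b (LT.l 4256 4064 4107 4116) (LT.l 4234 4069 4107 4111)) (LT.b (LT.l 4232 4070 4101 4116) (LT.a (LT.l 4216 4073 4103 4111) (LT.l 4202 4076 4100 4111)))) (LT.a (LT.b (LT.a (LT.l 4217 4073 4108 4107) (LT.l 4204 4076 4105 4107)) (LT.a LT.z1 (LT.b (LT.l 4185 4080 4105 4103) LT.z1))) (LT.b (LT.a (LT.b (LT.l 4198 4077 4103 4108) (LT.l 4185 4080 4103 4105)) (LT.b (LT.l 4184 4080 4100 4108) (LT.l 4171 4082 4100 4105))) (LT.a (LT.b (LT.l 4171 4082 4103 4103) (LT.a LT.z1 (LT.l 4153 4086 4102 4100))) (LT.b (LT.a (LT.l 4160 4084 4101 4103) (LT.l 4153 4086 4099 4103)) (LT.a (LT.b (LT.l 4150 4086 4101 4101) (LT.l 4142 4088 4101 4099)) (LT.b (LT.l 4142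 4088 4099 4101) (LT.a (LT.l 4136 4089 4100 4099) (LT.l 4133 4090 4099 4099))))))))))

theorem c8 : chk P t8 1058709438464 18253611008 1058709438464 18253611008 = true := by decide +kernel

theorem b8 {lam : ℝ} (hlam : |(S : ℝ) * lam - ((P.lp : ℝ) - P.ln)| ≤ ((1 : ℕ) : ℝ)) : BoxS lam P 1058709438464 18253611008 1058709438464 18253611008 :=
  chk_sound hlam t8 1058709438464 18253611008 1058709438464 18253611008 (by norm_num) (by norm_num) c8

/-- Part of the subdivision. -/
def t9 : LT := (LT.a LT.z1 (LT.b (LT.a LT.z1 (LT.b (LT.a LT.z1 (LT.b (LT.a LT.z1 (LT.b (LT.a LT.z1 (LT.b (LT.a LT.z1 (LT.l 4125 4091 4099 4098)) LT.z1)) LT.z1)) LT.z1)) LT.z1)) LT.z1))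

theorem c9 : chk P t9 1022202216448 36507222016 1095216660480 36507222016 = true := by decide +kernel

theorem b9 {lam : ℝ} (hlam : |(S : ℝ) * lam - ((P.lp : ℝ) - P.ln)| ≤ ((1 : ℕ) : ℝ)) : BoxS lam P 1022202216448 36507222016 1095216660480 36507222016 :=
  chk_sound hlam t9 1022202216448 36507222016 1095216660480 36507222016 (by norm_num) (by norm_num) c9

/-- Part of the subdivision. -/
def t10 : LT := (LT.a (LT.b (LT.a (LT.l 4272 4060 4096 4130) (LT.l 4245 4067 4090 4130)) (LT.a (LT.b (LT.l 4246 4067 4096 4124) (LT.l 4226 4071 4096 4120)) (LT.b (LT.l 4218 4073 4090 4124) (LT.l 4197 4077 4090 4120)))) (LT.b (LT.a (LT.l 4215 4073 4083 4130) (LT.l 4182 4080 4077 4130)) (LT.a (LT.b (LT.l 4187 4079 4083 4124) (LT.l 4165 4083 4083 4120)) LT.z2)))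

theorem c10 : chk P t10 1095216660480 18253611008 1022202216448 18253611008 = true := by decide +kernel

theorem b10 {lam : ℝ} (hlam : |(S : ℝ) * lam - ((P.lp : ℝ) - P.ln)| ≤ ((1 : ℕ) : ℝ)) : BoxS lam P 1095216660480 18253611008 1022202216448 18253611008 :=
  chk_sound hlam t10 1095216660480 18253611008 1022202216448 18253611008 (by norm_num) (by norm_num) c10

/-- Part of the subdivision. -/
def t11 : LT := (LT.a (LT.b (LT.l 4205 4075 4096 4116) (LT.a (LT.l 4189 4079 4097 4111) (LT.b (LT.l 4180 4081 4094 4113) (LT.l 4167 4083 4094 4110)))) (LT.b (LT.l 4175 4082 4090 4116) (LT.a (LT.b (LT.l 4165 4084 4091 4113) (LT.l 4152 4086 4091 4110)) (LT.l 4142 4088 4088 4111))))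

theorem c11 : chk P t11 1095216660480 9126805504 1058709438464 9126805504 = true := by decide +kernel

theorem b11 {lam : ℝ} (hlam : |(S : ℝ) * lam - ((P.lp : ℝ) - P.ln)| ≤ ((1 : ℕ) : ℝ)) : BoxS lam P 1095216660480 9126805504 1058709438464 9126805504 :=
  chk_sound hlam t11 1095216660480 9126805504 1058709438464 9126805504 (by norm_num) (by norm_num) c11

/-- Part of the subdivision. -/
def t12 : LT := (LT.a (LT.b (LT.l 4169 4083 4097 4108) (LT.a (LT.l 4160 4085 4098 4105) (LT.l 4152 4086 4097 4105))) (LT.b (LT.l 4154 4086 4094 4108) (LT.a (LT.l 4144 4087 4095 4105) (LT.l 4136 4089 4094 4105))))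

theorem c12 : chk P t12 1095216660480 4563402752 1076963049472 4563402752 = true := by decide +kernel

theorem b12 {lam : ℝ} (hlam : |(S : ℝ) * lam - ((P.lp : ℝ) - P.ln)| ≤ ((1 : ℕ) : ℝ)) : BoxS lam P 1095216660480 4563402752 1076963049472 4563402752 :=
  chk_sound hlam t12 1095216660480 4563402752 1076963049472 4563402752 (by norm_num) (by norm_num) c12

/-- Part of the subdivision. -/
def t13 : LT := (LT.b (LT.a (LT.b (LT.l 4149 4087 4098 4103) (LT.l 4142 4088 4098 4102)) (LT.b (LT.l 4141 4088 4097 4103) (LT.l 4134 4089 4097 4102))) (LT.a (LT.b (LT.l 4134 4089 4098 4101) (LT.a (LT.l 4129 4090 4098 4099) (LT.l 4125 4091 4098 4099))) (LT.b (LT.a (LT.l 4128 4090 4097 4101) (LT.l 4124 4091 4096 4101)) (LT.a (LT.b (LT.l 4123 4091 4097 4100) (LT.l 4119 4092 4097 4099)) (LT.b (LT.l 4119 4092 4096 4100) (LT.l 4115 4093 4096 4099))))))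

theorem c13 : chk P t13 1095216660480 2281701376 1086089854976 4563402752 = true := by decide +kernel

theorem b13 {lam : ℝ} (hlam : |(S : ℝ) * lam - ((P.lp : ℝ) - P.ln)| ≤ ((1 : ℕ) : ℝ)) : BoxS lam P 1095216660480 2281701376 1086089854976 4563402752 :=
  chk_sound hlam t13 1095216660480 2281701376 1086089854976 4563402752 (by norm_num) (by norm_num) c13

/-- Part of the subdivision. -/
def t14 : LT := (LT.b (LT.a (LT.b (LT.l 4134 4089 4095 4103) (LT.l 4126 4091 4095 4102)) (LT.b (LT.l 4125 4091 4094 4103) (LT.l 4118 4092 4094 4102))) (LT.a (LT.b (LT.a (LT.l 4120 4092 4095 4101) (LT.l 4116 4093 4095 4101)) (LT.a (LT.b (LT.l 4115 4093 4095 4100) (LT.l 4111 4094 4095 4099)) (LT.b (LT.l 4110 4094 4095 4100) (LT.l 4106 4094 4095 4099)))) (LT.b (LT.l 4110 4094 4094 4101) (LT.a (LT.b (LT.l 4106 4094 4094 4100) (LT.l 4102 4095 4094 4099)) LT.z2))))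

theorem c14 : chk P t14 1099780063232 2281701376 1086089854976 4563402752 = true := by decide +kernel

theorem b14 {lam : ℝ} (hlam : |(S : ℝ) * lam - ((P.lp : ℝ) - P.ln)| ≤ ((1 : ℕ) : ℝ)) : BoxS lam P 1099780063232 2281701376 1086089854976 4563402752 :=
  chk_sound hlam t14 1099780063232 2281701376 1086089854976 4563402752 (by norm_num) (by norm_num) c14

/-- Part of the subdivision. -/
def t15 : LT := (LT.b (LT.a (LT.b (LT.l 4138 4089 4091 4108) (LT.l 4124 4091 4091 4105)) (LT.b (LT.l 4121 4092 4088 4108) LT.z2)) (LT.a (LT.b (LT.a (LT.b (LT.l 4117 4092 4092 4103) (LT.l 4109 4094 4092 4102)) LT.z2) LT.z2) LT.z2))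

theorem c15 : chk P t15 1104343465984 4563402752 1076963049472 9126805504 = true := by decide +kernel

theorem b15 {lam : ℝ} (hlam : |(S : ℝ) * lam - ((P.lp : ℝ) - P.ln)| ≤ ((1 : ℕ) : ℝ)) : BoxS lam P 1104343465984 4563402752 1076963049472 9126805504 :=
  chk_sound hlam t15 1104343465984 4563402752 1076963049472 9126805504 (by norm_num) (by norm_num) c15

/-- Part of the subdivision. -/
def t16 : LT := (LT.b (LT.a (LT.b (LT.l 4141 4088 4083 4116) LT.z2) LT.z2) LT.z2)

theorem c16 : chk P t16 1113470271488 9126805504 1058709438464 18253611008 = true := by decide +kernel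

theorem b16 {lam : ℝ} (hlam : |(S : ℝ) * lam - ((P.lp : ℝ) - P.ln)| ≤ ((1 : ℕ) : ℝ)) : BoxS lam P 1113470271488 9126805504 1058709438464 18253611008 :=
  chk_sound hlam t16 1113470271488 9126805504 1058709438464 18253611008 (by norm_num) (by norm_num) c16

/-- Part of the subdivision. -/
def t17 : LT := LT.z2

theorem c17 : chk P t17 1131723882496 18253611008 1022202216448 36507222016 = true := by decide +kernel

theorem b17 {lam : ℝ} (hlam : |(S : ℝ) * lam - ((P.lp : ℝ) - P.ln)| ≤ ((1 : ℕ) : ℝ)) : BoxS lam P 1131723882496 18253611008 1022202216448 36507222016 :=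
  chk_sound hlam t17 1131723882496 18253611008 1022202216448 36507222016 (by norm_num) (by norm_num) c17

/-- Part of the subdivision. -/
def t18 : LT := (LT.b (LT.a (LT.b (LT.l 4123 4091 4098 4098) (LT.l 4119 4092 4098 4098)) (LT.b (LT.l 4119 4092 4098 4098) (LT.a (LT.l 4116 4093 4098 4098) (LT.l 4114 4093 4097 4098)))) (LT.a LT.z1 (LT.b (LT.a LT.z1 (LT.b (LT.l 4111 4093 4097 4097) LT.z1)) LT.z1)))

theorem c18 : chk P t18 1095216660480 1140850688 1095216660480 2281701376 = true := by decide +kernel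

theorem b18 {lam : ℝ} (hlam : |(S : ℝ) * lam - ((P.lp : ℝ) - P.ln)| ≤ ((1 : ℕ) : ℝ)) : BoxS lam P 1095216660480 1140850688 1095216660480 2281701376 :=
  chk_sound hlam t18 1095216660480 1140850688 1095216660480 2281701376 (by norm_num) (by norm_num) c18

/-- Part of the subdivision. -/
def t19 : LT := (LT.a (LT.b (LT.l 4115 4093 4097 4098) (LT.a (LT.l 4112 4093 4097 4098) (LT.b (LT.l 4111 4093 4097 4098) (LT.l 4109 4094 4097 4097)))) (LT.b (LT.a (LT.l 4112 4093 4096 4098) (LT.l 4110 4094 4096 4098)) (LT.a (LT.b (LT.l 4109 4094 4096 4098) (LT.l 4107 4094 4096 4097)) (LT.b (LT.l 4107 4094 4096 4098) (LT.l 4105 4095 4096 4097)))))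

theorem c19 : chk P t19 1097498361856 1140850688 1095216660480 1140850688 = true := by decide +kernel

theorem b19 {lam : ℝ} (hlam : |(S : ℝ) * lam - ((P.lp : ℝ) - P.ln)| ≤ ((1 : ℕ) : ℝ)) : BoxS lam P 1097498361856 1140850688 1095216660480 1140850688 :=
  chk_sound hlam t19 1097498361856 1140850688 1095216660480 1140850688 (by norm_num) (by norm_num) c19

/-- Part of the subdivision. -/
def t20 : LT := (LT.b (LT.a (LT.b (LT.l 4109 4094 4097 4097) (LT.l 4107 4094 4097 4097)) (LT.b (LT.l 4107 4094 4097 4097) (LT.a (LT.l 4105 4094 4097 4097) (LT.l 4104 4095 4097 4097)))) (LT.a LT.z1 (LT.b (LT.a LT.z1 (LT.b (LT.l 4102 4095 4097 4096) LT.z1)) LT.z1)))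

theorem c20 : chk P t20 1097498361856 570425344 1097498361856 1140850688 = true := by decide +kernel

theorem b20 {lam : ℝ} (hlam : |(S : ℝ) * lam - ((P.lp : ℝ) - P.ln)| ≤ ((1 : ℕ) : ℝ)) : BoxS lam P 1097498361856 570425344 1097498361856 1140850688 :=
  chk_sound hlam t20 1097498361856 570425344 1097498361856 1140850688 (by norm_num) (by norm_num) c20

/-- Part of the subdivision. -/
def t21 : LT := (LT.a (LT.b (LT.a (LT.l 4105 4094 4096 4097) (LT.l 4104 4095 4096 4097)) (LT.a (LT.b (LT.l 4103 4095 4096 4097) (LT.l 4102 4095 4096 4097)) (LT.b (LT.l 4102 4095 4096 4097) (LT.l 4101 4095 4096 4097)))) (LT.b (LT.a (LT.l 4103 4095 4096 4097) (LT.l 4102 4095 4096 4097)) (LT.a (LT.b (LT.l 4101 4095 4096 4097) (LT.a (LT.l 4101 4095 4096 4097) (LT.l 4100 4095 4096 4097))) (LT.b (LT.l 4100 4095 4096 4097) (LT.a (LT.b (LT.l 4100 4095 4096 4097) (LT.l 4099 4095 4096 4097)) (LT.b (LT.l 4099 4095 4096 4097) (LT.l 4099 4096 4096 4097)))))))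

theorem c21 : chk P t21 1098639212544 570425344 1097498361856 570425344 = true := by decide +kernel

theorem b21 {lam : ℝ} (hlam : |(S : ℝ) * lam - ((P.lp : ℝ) - P.ln)| ≤ ((1 : ℕ) : ℝ)) : BoxS lam P 1098639212544 570425344 1097498361856 570425344 :=
  chk_sound hlam t21 1098639212544 570425344 1097498361856 570425344 (by norm_num) (by norm_num) c21

/-- Part of the subdivision. -/
def t22 : LT := (LT.a (LT.b (LT.a (LT.b (LT.a (LT.l 4102 4095 4097 4096) (LT.l 4101 4095 4096 4096)) (LT.a LT.z1 (LT.b (LT.l 4100 4095 4096 4096) LT.z1))) (LT.b (LT.a (LT.l 4101 4095 4096 4096) (LT.b (LT.l 4100 4095 4096 4097) (LT.l 4100 4095 4096 4096))) (LT.a (LT.b (LT.l 4100 4095 4096 4096) (LT.o 4099 4095 4096 4096)) (LT.o 4099 4095 4096 4096)))) (LT.a LT.z1 (LT.o 4098 4096 4096 4096))) (LT.b (LT.a (LT.b (LT.a (LT.b (LT.l 4100 4095 4096 4097) (LT.o 4099 4095 4096 4096)) (LT.b (LT.l 4099 4095 4096 4097) (LT.o 4099 4096 4096 4096))) (LT.o 4098 4096 4096 4096)) (LT.o 4098 4096 4096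 4096)) (LT.o 4096 4096 4096 4096)))

theorem c22 : chk P t22 1098639212544 570425344 1098639212544 570425344 = true := by decide +kernel

theorem b22 {lam : ℝ} (hlam : |(S : ℝ) * lam - ((P.lp : ℝ) - P.ln)| ≤ ((1 : ℕ) : ℝ)) : BoxS lam P 1098639212544 570425344 1098639212544 570425344 :=
  chk_sound hlam t22 1098639212544 570425344 1098639212544 570425344 (by norm_num) (by norm_num) c22

/-- Part of the subdivision. -/
def t23 : LT := (LT.a LT.z1 (LT.b (LT.a LT.z1 (LT.b (LT.a LT.z1 (LT.b (LT.a LT.z1 LT.z2) LT.z1)) LT.z1)) LT.z1))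

theorem c23 : chk P t23 1095216660480 2281701376 1099780063232 2281701376 = true := by decide +kernel

theorem b23 {lam : ℝ} (hlam : |(S : ℝ) * lam - ((P.lp : ℝ) - P.ln)| ≤ ((1 : ℕ) : ℝ)) : BoxS lam P 1095216660480 2281701376 1099780063232 2281701376 :=
  chk_sound hlam t23 1095216660480 2281701376 1099780063232 2281701376 (by norm_num) (by norm_num) c23

/-- Part of the subdivision. -/
def t24 : LT := (LT.b (LT.a (LT.b (LT.a (LT.b (LT.a (LT.l 4108 4094 4096 4098) (LT.l 4105 4094 4095 4098)) (LT.a (LT.b (LT.l 4104 4095 4096 4098) (LT.l 4102 4095 4096 4097)) (LT.b (LT.l 4102 4095 4095 4098) (LT.l 4100 4095 4095 4097)))) (LT.b (LT.l 4102 4095 4095 4098) (LT.a (LT.b (LT.l 4100 4095 4095 4098) LT.z2) LT.z2))) (LT.a (LT.b (LT.a (LT.b (LT.a (LT.l 4101 4095 4096 4097) (LT.l 4100 4095 4096 4097)) (LT.a (LT.b (LT.l 4099 4095 4096 4097) (LT.a (LT.b (LT.l 4099 4096 4096 4097) (LT.o 4098 4096 4096 4097)) (LT.l 4098 4096 4096 4097))) (LT.b (LT.l 4098 4096 4096 4097) (LT.l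 4097 4096 4096 4097)))) (LT.b (LT.l 4098 4096 4095 4097) LT.z2)) (LT.a (LT.b (LT.a (LT.o 4097 4096 4096 4096) LT.z2) LT.z2) LT.z2)) LT.z2)) LT.z2) LT.z2)

theorem c24 : chk P t24 1099780063232 2281701376 1095216660480 4563402752 = true := by decide +kernel

theorem b24 {lam : ℝ} (hlam : |(S : ℝ) * lam - ((P.lp : ℝ) - P.ln)| ≤ ((1 : ℕ) : ℝ)) : BoxS lam P 1099780063232 2281701376 1095216660480 4563402752 :=
  chk_sound hlam t24 1099780063232 2281701376 1095216660480 4563402752 (by norm_num) (by norm_num) c24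

/-- Part of the subdivision. -/
def t25 : LT := (LT.a LT.z1 LT.z2)

theorem c25 : chk P t25 1095216660480 4563402752 1104343465984 4563402752 = true := by decide +kernel

theorem b25 {lam : ℝ} (hlam : |(S : ℝ) * lam - ((P.lp : ℝ) - P.ln)| ≤ ((1 : ℕ) : ℝ)) : BoxS lam P 1095216660480 4563402752 1104343465984 4563402752 :=
  chk_sound hlam t25 1095216660480 4563402752 1104343465984 4563402752 (by norm_num) (by norm_num) c25

/-- Part of the subdivision. -/
def t26 : LT := LT.z2

theorem c26 : chk P t26 1104343465984 4563402752 1095216660480 9126805504 = true := by decide +kernel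

theorem b26 {lam : ℝ} (hlam : |(S : ℝ) * lam - ((P.lp : ℝ) - P.ln)| ≤ ((1 : ℕ) : ℝ)) : BoxS lam P 1104343465984 4563402752 1095216660480 9126805504 :=
  chk_sound hlam t26 1104343465984 4563402752 1095216660480 9126805504 (by norm_num) (by norm_num) c26

/-- Part of the subdivision. -/
def t27 : LT := LT.z2

theorem c27 : chk P t27 1095216660480 9126805504 1113470271488 9126805504 = true := by decide +kernel

theorem b27 {lam : ℝ} (hlam : |(S : ℝ) * lam - ((P.lp : ℝ) - P.ln)| ≤ ((1 : ℕ) : ℝ)) : BoxS lam P 1095216660480 9126805504 1113470271488 9126805504 :=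
  chk_sound hlam t27 1095216660480 9126805504 1113470271488 9126805504 (by norm_num) (by norm_num) c27

/-- Part of the subdivision. -/
def t28 : LT := LT.z2

theorem c28 : chk P t28 1113470271488 9126805504 1095216660480 18253611008 = true := by decide +kernel

theorem b28 {lam : ℝ} (hlam : |(S : ℝ) * lam - ((P.lp : ℝ) - P.ln)| ≤ ((1 : ℕ) : ℝ)) : BoxS lam P 1113470271488 9126805504 1095216660480 18253611008 :=
  chk_sound hlam t28 1113470271488 9126805504 1095216660480 18253611008 (by norm_num) (by norm_num) c28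

/-- Part of the subdivision. -/
def t29 : LT := LT.z2

theorem c29 : chk P t29 1095216660480 18253611008 1131723882496 18253611008 = true := by decide +kernel

theorem b29 {lam : ℝ} (hlam : |(S : ℝ) * lam - ((P.lp : ℝ) - P.ln)| ≤ ((1 : ℕ) : ℝ)) : BoxS lam P 1095216660480 18253611008 1131723882496 18253611008 :=
  chk_sound hlam t29 1095216660480 18253611008 1131723882496 18253611008 (by norm_num) (by norm_num) c29

/-- Part of the subdivision. -/
def t30 : LT := LT.z2

theorem c30 : chk P t30 1131723882496 18253611008 1095216660480 36507222016 = true := by decide +kernel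

theorem b30 {lam : ℝ} (hlam : |(S : ℝ) * lam - ((P.lp : ℝ) - P.ln)| ≤ ((1 : ℕ) : ℝ)) : BoxS lam P 1131723882496 18253611008 1095216660480 36507222016 :=
  chk_sound hlam t30 1131723882496 18253611008 1095216660480 36507222016 (by norm_num) (by norm_num) c30

/-- The whole box. -/
theorem box {lam : ℝ} (hlam : |(S : ℝ) * lam - ((P.lp : ℝ) - P.ln)| ≤ ((1 : ℕ) : ℝ)) : BoxS lam P 0 HH 0 HH :=
  (BoxS.sa' (x1 := 584115552256) (h := 292057776128) (by norm_num [HH]) (by norm_num) (b0 hlam) (BoxS.sb' (t1 := 584115552256) (h := 292057776128) (by norm_num [HH]) (by norm_num) (b1 hlam) (BoxS.sa' (x1 := 876173328384) (h := 146028888064) (by norm_num [HH]) (by norm_num) (b2 hlam) (BoxS.sb' (t1 := 876173328384) (h := 146028888064) (by norm_num [HH]) (by norm_num) (b3 hlam) (BoxS.sa' (x1 := 1022202216448) (h := 73014444032) (by norm_num [HH]) (by norm_num) (b4 hlam) (BoxS.sb' (t1 := 1022202216448) (h := 73014444032) (by norm_num [HH]) (by norm_num) (b5 hlam) (BoxS.sa' (x1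 := 1095216660480) (h := 36507222016) (by norm_num [HH]) (by norm_num) (BoxS.sb' (t1 := 1095216660480) (h := 36507222016) (by norm_num [HH]) (by norm_num) (BoxS.sa' (x1 := 1058709438464) (h := 18253611008) (by norm_num [HH]) (by norm_num) (b6 hlam) (BoxS.sb' (t1 := 1058709438464) (h := 18253611008) (by norm_num [HH]) (by norm_num) (b7 hlam) (b8 hlam))) (b9 hlam)) (BoxS.sb' (t1 := 1095216660480) (h := 36507222016) (by norm_num [HH]) (by norm_num) (BoxS.sa' (x1 := 1131723882496) (h := 18253611008) (by norm_num [HH]) (by norm_num) (BoxS.sb' (t1 := 1058709438464) (h := 18253611008) (by norm_num [HH]) (by norm_num) (b10 hlam) (BoxS.sa' (x1 := 1113470271488) (h := 9126805504) (by norm_num [HH]) (by norm_num) (BoxS.sb' (t1 := 1076963049472) (h := 9126805504) (by norm_num [HH]) (by norm_num) (b11 hlam) (BoxS.sa' (x1 := 1104343465984) (h := 4563402752) (by norm_num [HH]) (by norm_num) (BoxS.sb' (t1 := 1086089854976) (h := 4563402752) (by norm_num [HH]) (by norm_num) (b12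 hlam) (BoxS.sa' (x1 := 1099780063232) (h := 2281701376) (by norm_num [HH]) (by norm_num) (b13 hlam) (b14 hlam))) (b15 hlam))) (b16 hlam))) (b17 hlam)) (BoxS.sa' (x1 := 1131723882496) (h := 18253611008) (by norm_num [HH]) (by norm_num) (BoxS.sb' (t1 := 1131723882496) (h := 18253611008) (by norm_num [HH]) (by norm_num) (BoxS.sa' (x1 := 1113470271488) (h := 9126805504) (by norm_num [HH]) (by norm_num) (BoxS.sb' (t1 := 1113470271488) (h := 9126805504) (by norm_num [HH]) (by norm_num) (BoxS.sa' (x1 := 1104343465984) (h := 4563402752) (by norm_num [HH]) (by norm_num) (BoxS.sb' (t1 := 1104343465984) (h := 4563402752) (by norm_num [HH]) (by norm_num) (BoxS.sa' (x1 := 1099780063232) (h := 2281701376) (by norm_num [HH]) (by norm_num) (BoxS.sb' (t1 := 1099780063232) (h := 2281701376) (by norm_num [HH]) (by norm_num) (BoxS.sa' (x1 := 1097498361856) (h := 1140850688) (by norm_num [HH]) (by norm_num) (b18 hlam) (BoxS.sb' (t1 := 1097498361856) (h := 1140850688) (by norm_num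 [HH]) (by norm_num) (b19 hlam) (BoxS.sa' (x1 := 1098639212544) (h := 570425344) (by norm_num [HH]) (by norm_num) (b20 hlam) (BoxS.sb' (t1 := 1098639212544) (h := 570425344) (by norm_num [HH]) (by norm_num) (b21 hlam) (b22 hlam))))) (b23 hlam)) (b24 hlam)) (b25 hlam)) (b26 hlam)) (b27 hlam)) (b28 hlam)) (b29 hlam)) (b30 hlam))))))))))

end Vale.Agent.P154H.Tm.D35
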