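import Vale.Agent.P154H.Msg

set_option maxRecDepth 100000

/-!
The subdivision for `d = 36`.
-/

namespace Vale.Agent.P154H.Tm.D36

/-- A row. -/
def Ra : Row := Row.mk 0 58386 0 289599 524156 0 2101896 0 10425564 0 0 18869616 0 576 0 3834880 0 11909940

/-- A row. -/
def Rb : Row := Row.mk 0 91833237504 0 455499841536 824426102784 0 2900865983184 0 14016164170377 0 0 25069854138368 0 905969664 0 6031744696320 0 17054800103334
/-- A row. -/
def Q0 : Row := Row.mk 0 0 0 0 0 0 7473408 0 0 0 0 0 0 0 0 0 0 5346279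

/-- A row. -/
def Q1 : Row := Row.mk 0 0 0 0 0 0 0 0 296549376 0 0 0 0 0 0 0 0 173207163

/-- A row. -/
def Q2 : Row := Row.mk 0 0 0 0 0 0 0 0 0 0 512 0 0 0 0 0 0 1485

/-- A row. -/
def Q3 : Row := Row.mk 0 22420224 0 111206016 201275904 0 695267240 0 3350091948 0 0 5922247508 0 221184 0 0 0 4288440453

/-- A row. -/
def Q4 : Row := Row.mk 0 179361792 0 889648128 1610207232 0 5341281056 0 25439996720 0 0 44591150080 0 1769472 0 0 0 33837306813

/-- A row. -/
def Q5 : Row := Row.mk 0 179361792 0 889648128 1610207232 0 5037388928 0 23775513440 0 0 41207365952 0 1769472 0 0 0 33084991599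

/-- A row. -/
def Q6 : Row := Row.mk 0 358723584 0 1779296256 3220414464 0 9370983808 0 43596525376 0 0 74358745856 0 3538944 0 0 0 64481134479

/-- A row. -/
def Q7 : Row := Row.mk 0 179361792 0 889648128 1610207232 0 4301394048 0 19547720368 0 0 32514180480 0 1769472 0 0 0 31560776097

/-- A row. -/
def Q8 : Row := Row.mk 0 179361792 0 889648128 1610207232 0 3885363488 0 17228470368 0 0 27299208480 0 1769472 0 0 0 31987164063

/-- A row. -/
def Q9 : Row := Row.mk 0 119574528 0 593098752 1073471488 0 2270113792 0 9840534080 0 0 14029292160 0 1179648 0 0 0 22912372129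


/-- The data. -/
def P : Pb where
  lp := 0
  ln := 12009599006321322
  ab := 3298534883328
  r1 := [Ra, Rb]
  r2 := [Q0, Q1, Q2, Q3, Q4, Q5, Q6, Q7, Q8, Q9]

/-- Part of the subdivision. -/
def t0 : LT := (LT.b (LT.a (LT.l 4699 3894 4176 4176) (LT.l 4699 3894 4176 4176)) (LT.a LT.z1 (LT.b (LT.l 4691 3898 4176 4173) LT.z1)))

theorem c0 : chk P t0 0 292057776128 0 584115552256 = true := by decide +kernel

theorem b0 {lam : ℝ} (hlam : |(S : ℝ) * lam - ((P.lp : ℝ) - P.ln)| ≤ ((1 : ℕ) : ℝ)) : BoxS lam P 0 292057776128 0 584115552256 :=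
  chk_sound hlam t0 0 292057776128 0 584115552256 (by norm_num) (by norm_num) c0

/-- Part of the subdivision. -/
def t1 : LT := (LT.a (LT.b (LT.l 4691 3898 4173 4176) (LT.l 4691 3898 4173 4176)) (LT.b (LT.a (LT.l 4636 3930 4152 4176) (LT.b (LT.l 4475 4001 4099 4176) (LT.l 4475 4001 4099 4176))) (LT.a (LT.b (LT.l 4636 3930 4152 4176) (LT.l 4635 3930 4152 4176)) (LT.b (LT.a (LT.l 4536 3977 4118 4176) (LT.l 4390 4029 4073 4176)) (LT.a (LT.l 4535 3977 4118 4176) (LT.b (LT.l 4389 4029 4073 4176) (LT.l 4388 4030 4073 4175)))))))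

theorem c1 : chk P t1 584115552256 292057776128 0 292057776128 = true := by decide +kernel

theorem b1 {lam : ℝ} (hlam : |(S : ℝ) * lam - ((P.lp : ℝ) - P.ln)| ≤ ((1 : ℕ) : ℝ)) : BoxS lam P 584115552256 292057776128 0 292057776128 :=
  chk_sound hlam t1 584115552256 292057776128 0 292057776128 (by norm_num) (by norm_num) c1

/-- Part of the subdivision. -/
def t2 : LT := (LT.b (LT.a (LT.l 4688 3900 4174 4173) (LT.b (LT.l 4680 3905 4170 4174) (LT.l 4666 3913 4170 4170))) (LT.a LT.z1 (LT.b (LT.a LT.z1 (LT.b (LT.l 4629 3934 4167 4159) LT.z1)) LT.z1)))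

theorem c2 : chk P t2 584115552256 146028888064 584115552256 292057776128 = true := by decide +kernel

theorem b2 {lam : ℝ} (hlam : |(S : ℝ) * lam - ((P.lp : ℝ) - P.ln)| ≤ ((1 : ℕ) : ℝ)) : BoxS lam P 584115552256 146028888064 584115552256 292057776128 :=
  chk_sound hlam t2 584115552256 146028888064 584115552256 292057776128 (by norm_num) (by norm_num) c2

/-- Part of the subdivision. -/
def t3 : LT := (LT.a (LT.b (LT.a (LT.l 4650 3922 4159 4174) (LT.l 4608 3944 4144 4174)) (LT.a (LT.l 4636 3930 4159 4170) (LT.b (LT.l 4599 3948 4144 4172) (LT.l 4585 3955 4144 4167)))) (LT.b (LT.a (LT.b (LT.l 4533 3978 4118 4175) (LT.l 4529 3980 4118 4174)) (LT.b (LT.a (LT.l 4433 4015 4087 4175) (LT.l 4329 4046 4058 4175)) (LT.a (LT.l 4429 4017 4087 4174) (LT.l 4324 4048 4058 4174)))) (LT.a (LT.b (LT.a (LT.l 4546 3973 4126 4172) (LT.l 4493 3994 4109 4172)) (LT.a (LT.l 4531 3979 4126 4167) (LT.l 4477 4000 4109 4167))) (LT.b (LT.a (LT.l 4420 4020 4087 4172) (LT.l 4313 4051 4058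 4172)) (LT.a (LT.l 4402 4025 4087 4167) (LT.l 4292 4056 4058 4167))))))

theorem c3 : chk P t3 876173328384 146028888064 584115552256 146028888064 = true := by decide +kernel

theorem b3 {lam : ℝ} (hlam : |(S : ℝ) * lam - ((P.lp : ℝ) - P.ln)| ≤ ((1 : ℕ) : ℝ)) : BoxS lam P 876173328384 146028888064 584115552256 146028888064 :=
  chk_sound hlam t3 876173328384 146028888064 584115552256 146028888064 (by norm_num) (by norm_num) c3

/-- Part of the subdivision. -/
def t4 : LT := (LT.b (LT.a (LT.b (LT.l 4604 3946 4159 4159) (LT.a LT.z1 (LT.b (LT.l 4564 3965 4156 4148) LT.z1))) (LT.b (LT.a (LT.l 4573 3961 4148 4159) (LT.l 4543 3974 4139 4159)) (LT.a (LT.b (LT.l 4541 3975 4148 4148) (LT.l 4509 3988 4148 4139)) (LT.b (LT.l 4509 3988 4139 4148) (LT.a (LT.l 4485 3997 4141 4139) (LT.b (LT.l 4475 4001 4136 4141) (LT.l 4456 4008 4136 4136))))))) (LT.a LT.z1 (LT.b (LT.a LT.z1 (LT.b (LT.a LT.z1 (LT.l 4420 4020 4136 4126)) LT.z1)) LT.z1)))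

theorem c4 : chk P t4 876173328384 73014444032 876173328384 146028888064 = true := by decide +kernel

theorem b4 {lam : ℝ} (hlam : |(S : ℝ) * lam - ((P.lp : ℝ) - P.ln)| ≤ ((1 : ℕ) : ℝ)) : BoxS lam P 876173328384 73014444032 876173328384 146028888064 :=
  chk_sound hlam t4 876173328384 73014444032 876173328384 146028888064 (by norm_num) (by norm_num) c4

/-- Part of the subdivision. -/
def t5 : LT := (LT.a (LT.b (LT.a (LT.b (LT.l 4511 3987 4126 4161) (LT.l 4492 3994 4126 4156)) (LT.b (LT.l 4456 4008 4109 4161) (LT.l 4435 4015 4109 4156))) (LT.a (LT.b (LT.a (LT.l 4478 4000 4129 4148) (LT.l 4453 4009 4122 4148)) (LT.a (LT.b (LT.l 4453 4009 4129 4141) (LT.l 4433 4015 4129 4136)) (LT.l 4417 4021 4122 4139))) (LT.b (LT.l 4406 4024 4109 4148) (LT.a (LT.l 4385 4031 4114 4139) (LT.b (LT.l 4359 4038 4104 4141) (LT.l 4335 4045 4104 4136)))))) (LT.b (LT.a (LT.b (LT.l 4378 4033 4087 4161) (LT.l 4354 4040 4087 4156)) (LT.b (LT.l 4263 4063 4058 4161) (LT.a (LT.l 4269 4062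 4066 4156) LT.z2))) (LT.a (LT.b (LT.a (LT.l 4346 4042 4093 4148) (LT.l 4294 4055 4080 4148)) (LT.a (LT.b (LT.l 4314 4050 4093 4141) (LT.l 4289 4057 4093 4136)) (LT.b (LT.l 4260 4064 4080 4141) (LT.l 4232 4070 4080 4136)))) (LT.b (LT.a (LT.l 4231 4070 4066 4148) LT.z2) (LT.a (LT.b (LT.l 4194 4078 4066 4141) LT.z2) LT.z2)))))

theorem c5 : chk P t5 1022202216448 73014444032 876173328384 73014444032 = true := by decide +kernel

theorem b5 {lam : ℝ} (hlam : |(S : ℝ) * lam - ((P.lp : ℝ) - P.ln)| ≤ ((1 : ℕ) : ℝ)) : BoxS lam P 1022202216448 73014444032 876173328384 73014444032 :=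
  chk_sound hlam t5 1022202216448 73014444032 876173328384 73014444032 (by norm_num) (by norm_num) c5

/-- Part of the subdivision. -/
def t6 : LT := (LT.b (LT.a (LT.l 4395 4027 4129 4126) (LT.b (LT.l 4381 4032 4122 4129) (LT.l 4351 4040 4122 4122))) (LT.a LT.z1 (LT.b (LT.l 4316 4050 4122 4114) LT.z1)))

theorem c6 : chk P t6 1022202216448 18253611008 1022202216448 36507222016 = true := by decide +kernel

theorem b6 {lam : ℝ} (hlam : |(S : ℝ) * lam - ((P.lp : ℝ) - P.ln)| ≤ ((1 : ℕ) : ℝ)) : BoxS lam P 1022202216448 18253611008 1022202216448 36507222016 :=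
  chk_sound hlam t6 1022202216448 18253611008 1022202216448 36507222016 (by norm_num) (by norm_num) c6

/-- Part of the subdivision. -/
def t7 : LT := (LT.a (LT.b (LT.l 4347 4042 4114 4129) (LT.l 4316 4050 4114 4122)) (LT.b (LT.l 4307 4052 4104 4129) (LT.a (LT.l 4285 4058 4106 4122) (LT.l 4262 4063 4101 4122))))

theorem c7 : chk P t7 1058709438464 18253611008 1022202216448 18253611008 = true := by decide +kernel

theorem b7 {lam : ℝ} (hlam : |(S : ℝ) * lam - ((P.lp : ℝ) - P.ln)| ≤ ((1 : ℕ) : ℝ)) : BoxS lam P 1058709438464 18253611008 1022202216448 18253611008 :=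
  chk_sound hlam t7 1058709438464 18253611008 1022202216448 18253611008 (by norm_num) (by norm_num) c7

/-- Part of the subdivision. -/
def t8 : LT := (LT.a (LT.b (LT.a (LT.l 4288 4057 4116 4114) (LT.b (LT.l 4278 4059 4111 4116) (LT.l 4257 4064 4111 4111))) (LT.a LT.z1 (LT.b (LT.l 4234 4069 4111 4106) LT.z1))) (LT.b (LT.a (LT.b (LT.l 4256 4065 4106 4116) (LT.l 4234 4069 4106 4111)) (LT.b (LT.l 4232 4070 4101 4116) (LT.a (LT.l 4216 4073 4103 4111) (LT.l 4202 4076 4100 4111)))) (LT.a (LT.b (LT.a (LT.l 4217 4073 4108 4106) (LT.l 4204 4076 4105 4106)) (LT.a LT.z1 (LT.b (LT.l 4185 4080 4105 4103) LT.z1))) (LT.b (LT.a (LT.b (LT.l 4198 4077 4103 4108) (LT.l 4185 4080 4103 4105)) (LT.b (LT.l 4184 4080 4100 4108) (LT.l 4171 4083 4100 4105))) (LT.a (LT.b (LT.l 4171 4082 4103 4103) (LT.a LT.z1 (LT.l 4153 4086 4102 4100))) (LT.b (LT.a (LT.l 4160 4085 4101 4103) (LT.l 4153 4086 4099 4103)) (LT.a (LT.b (LT.l 4150 4087 4101 4101) (LT.l 4142 4088 4101 4099)) (LT.b (LT.l 4142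 4088 4099 4101) (LT.a (LT.l 4136 4089 4100 4099) (LT.l 4133 4090 4099 4099))))))))))

theorem c8 : chk P t8 1058709438464 18253611008 1058709438464 18253611008 = true := by decide +kernel

theorem b8 {lam : ℝ} (hlam : |(S : ℝ) * lam - ((P.lp : ℝ) - P.ln)| ≤ ((1 : ℕ) : ℝ)) : BoxS lam P 1058709438464 18253611008 1058709438464 18253611008 :=
  chk_sound hlam t8 1058709438464 18253611008 1058709438464 18253611008 (by norm_num) (by norm_num) c8

/-- Part of the subdivision. -/
def t9 : LT := (LT.a LT.z1 (LT.b (LT.a LT.z1 (LT.b (LT.a LT.z1 (LT.b (LT.a LT.z1 (LT.b (LT.a LT.z1 (LT.b (LT.a LT.z1 (LT.l 4125 4091 4099 4098)) LT.z1)) LT.z1)) LT.z1)) LT.z1)) LT.z1))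

theorem c9 : chk P t9 1022202216448 36507222016 1095216660480 36507222016 = true := by decide +kernel

theorem b9 {lam : ℝ} (hlam : |(S : ℝ) * lam - ((P.lp : ℝ) - P.ln)| ≤ ((1 : ℕ) : ℝ)) : BoxS lam P 1022202216448 36507222016 1095216660480 36507222016 :=
  chk_sound hlam t9 1022202216448 36507222016 1095216660480 36507222016 (by norm_num) (by norm_num) c9

/-- Part of the subdivision. -/
def t10 : LT := (LT.a (LT.b (LT.a (LT.l 4272 4061 4096 4129) (LT.l 4245 4067 4090 4129)) (LT.a (LT.b (LT.l 4246 4067 4096 4124) (LT.l 4226 4071 4096 4120)) (LT.b (LT.l 4218 4073 4090 4124) (LT.l 4197 4077 4090 4120)))) (LT.b (LT.a (LT.l 4215 4074 4084 4129) (LT.l 4182 4080 4077 4129)) (LT.a (LT.b (LT.l 4187 4079 4084 4124) (LT.l 4165 4084 4084 4120)) LT.z2)))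

theorem c10 : chk P t10 1095216660480 18253611008 1022202216448 18253611008 = true := by decide +kernel

theorem b10 {lam : ℝ} (hlam : |(S : ℝ) * lam - ((P.lp : ℝ) - P.ln)| ≤ ((1 : ℕ) : ℝ)) : BoxS lam P 1095216660480 18253611008 1022202216448 18253611008 :=
  chk_sound hlam t10 1095216660480 18253611008 1022202216448 18253611008 (by norm_num) (by norm_num) c10

/-- Part of the subdivision. -/
def t11 : LT := (LT.a (LT.b (LT.l 4205 4076 4096 4116) (LT.a (LT.l 4189 4079 4097 4111) (LT.b (LT.l 4180 4081 4094 4112) (LT.l 4167 4083 4094 4110)))) (LT.b (LT.l 4175 4082 4090 4116) (LT.a (LT.b (LT.l 4165 4084 4091 4112) (LT.l 4152 4086 4091 4110)) (LT.l 4142 4088 4088 4111))))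

theorem c11 : chk P t11 1095216660480 9126805504 1058709438464 9126805504 = true := by decide +kernel

theorem b11 {lam : ℝ} (hlam : |(S : ℝ) * lam - ((P.lp : ℝ) - P.ln)| ≤ ((1 : ℕ) : ℝ)) : BoxS lam P 1095216660480 9126805504 1058709438464 9126805504 :=
  chk_sound hlam t11 1095216660480 9126805504 1058709438464 9126805504 (by norm_num) (by norm_num) c11

/-- Part of the subdivision. -/
def t12 : LT := (LT.a (LT.b (LT.l 4169 4083 4097 4108) (LT.a (LT.l 4160 4085 4098 4105) (LT.l 4152 4086 4097 4105))) (LT.b (LT.l 4154 4086 4094 4108) (LT.a (LT.l 4144 4088 4095 4105) (LT.l 4136 4089 4094 4105))))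

theorem c12 : chk P t12 1095216660480 4563402752 1076963049472 4563402752 = true := by decide +kernel

theorem b12 {lam : ℝ} (hlam : |(S : ℝ) * lam - ((P.lp : ℝ) - P.ln)| ≤ ((1 : ℕ) : ℝ)) : BoxS lam P 1095216660480 4563402752 1076963049472 4563402752 :=
  chk_sound hlam t12 1095216660480 4563402752 1076963049472 4563402752 (by norm_num) (by norm_num) c12

/-- Part of the subdivision. -/
def t13 : LT := (LT.b (LT.a (LT.b (LT.l 4149 4087 4098 4103) (LT.l 4142 4088 4098 4102)) (LT.b (LT.l 4141 4088 4097 4103) (LT.l 4134 4089 4097 4102))) (LT.a (LT.b (LT.l 4134 4089 4098 4101) (LT.a (LT.l 4129 4090 4098 4099) (LT.l 4125 4091 4098 4099))) (LT.b (LT.a (LT.l 4128 4090 4097 4101) (LT.l 4124 4091 4096 4101)) (LT.a (LT.b (LT.l 4123 4091 4097 4100) (LT.l 4119 4092 4097 4099)) (LT.b (LT.l 4119 4092 4096 4100) (LT.l 4115 4093 4096 4099))))))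

theorem c13 : chk P t13 1095216660480 2281701376 1086089854976 4563402752 = true := by decide +kernel

theorem b13 {lam : ℝ} (hlam : |(S : ℝ) * lam - ((P.lp : ℝ) - P.ln)| ≤ ((1 : ℕ) : ℝ)) : BoxS lam P 1095216660480 2281701376 1086089854976 4563402752 :=
  chk_sound hlam t13 1095216660480 2281701376 1086089854976 4563402752 (by norm_num) (by norm_num) c13

/-- Part of the subdivision. -/
def t14 : LT := (LT.b (LT.a (LT.b (LT.l 4134 4090 4095 4103) (LT.l 4126 4091 4095 4102)) (LT.b (LT.l 4125 4091 4094 4103) (LT.l 4118 4092 4094 4102))) (LT.a (LT.b (LT.a (LT.l 4120 4092 4095 4101) (LT.l 4116 4093 4095 4101)) (LT.a (LT.b (LT.l 4115 4093 4095 4100) (LT.l 4111 4094 4095 4099)) (LT.b (LT.l 4110 4094 4095 4100) (LT.l 4106 4094 4095 4099)))) (LT.b (LT.l 4110 4094 4094 4101) (LT.a (LT.b (LT.l 4106 4094 4094 4100) (LT.l 4102 4095 4094 4099)) LT.z2))))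

theorem c14 : chk P t14 1099780063232 2281701376 1086089854976 4563402752 = true := by decide +kernel

theorem b14 {lam : ℝ} (hlam : |(S : ℝ) * lam - ((P.lp : ℝ) - P.ln)| ≤ ((1 : ℕ) : ℝ)) : BoxS lam P 1099780063232 2281701376 1086089854976 4563402752 :=
  chk_sound hlam t14 1099780063232 2281701376 1086089854976 4563402752 (by norm_num) (by norm_num) c14

/-- Part of the subdivision. -/
def t15 : LT := (LT.b (LT.a (LT.b (LT.l 4138 4089 4091 4108) (LT.l 4124 4091 4091 4105)) (LT.b (LT.l 4121 4092 4088 4108) LT.z2)) (LT.a (LT.b (LT.a (LT.b (LT.l 4117 4092 4092 4103) (LT.l 4109 4094 4092 4102)) LT.z2) LT.z2) LT.z2))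

theorem c15 : chk P t15 1104343465984 4563402752 1076963049472 9126805504 = true := by decide +kernel

theorem b15 {lam : ℝ} (hlam : |(S : ℝ) * lam - ((P.lp : ℝ) - P.ln)| ≤ ((1 : ℕ) : ℝ)) : BoxS lam P 1104343465984 4563402752 1076963049472 9126805504 :=
  chk_sound hlam t15 1104343465984 4563402752 1076963049472 9126805504 (by norm_num) (by norm_num) c15

/-- Part of the subdivision. -/
def t16 : LT := (LT.b (LT.a (LT.b (LT.l 4141 4088 4084 4116) LT.z2) LT.z2) LT.z2)

theorem c16 : chk P t16 1113470271488 9126805504 1058709438464 18253611008 = true := by decide +kernel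

theorem b16 {lam : ℝ} (hlam : |(S : ℝ) * lam - ((P.lp : ℝ) - P.ln)| ≤ ((1 : ℕ) : ℝ)) : BoxS lam P 1113470271488 9126805504 1058709438464 18253611008 :=
  chk_sound hlam t16 1113470271488 9126805504 1058709438464 18253611008 (by norm_num) (by norm_num) c16

/-- Part of the subdivision. -/
def t17 : LT := LT.z2

theorem c17 : chk P t17 1131723882496 18253611008 1022202216448 36507222016 = true := by decide +kernel

theorem b17 {lam : ℝ} (hlam : |(S : ℝ) * lam - ((P.lp : ℝ) - P.ln)| ≤ ((1 : ℕ) : ℝ)) : BoxS lam P 1131723882496 18253611008 1022202216448 36507222016 :=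
  chk_sound hlam t17 1131723882496 18253611008 1022202216448 36507222016 (by norm_num) (by norm_num) c17

/-- Part of the subdivision. -/
def t18 : LT := (LT.b (LT.a (LT.b (LT.l 4123 4091 4098 4098) (LT.l 4119 4092 4098 4098)) (LT.b (LT.l 4119 4092 4098 4098) (LT.a (LT.l 4116 4093 4098 4098) (LT.l 4114 4093 4097 4098)))) (LT.a LT.z1 (LT.b (LT.a LT.z1 (LT.b (LT.l 4111 4094 4097 4097) LT.z1)) LT.z1)))

theorem c18 : chk P t18 1095216660480 1140850688 1095216660480 2281701376 = true := by decide +kernel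

theorem b18 {lam : ℝ} (hlam : |(S : ℝ) * lam - ((P.lp : ℝ) - P.ln)| ≤ ((1 : ℕ) : ℝ)) : BoxS lam P 1095216660480 1140850688 1095216660480 2281701376 :=
  chk_sound hlam t18 1095216660480 1140850688 1095216660480 2281701376 (by norm_num) (by norm_num) c18

/-- Part of the subdivision. -/
def t19 : LT := (LT.a (LT.b (LT.l 4115 4093 4097 4098) (LT.a (LT.l 4112 4093 4097 4098) (LT.b (LT.l 4111 4094 4097 4098) (LT.l 4109 4094 4097 4097)))) (LT.b (LT.a (LT.l 4112 4093 4096 4098) (LT.l 4110 4094 4096 4098)) (LT.a (LT.b (LT.l 4109 4094 4096 4098) (LT.l 4107 4094 4096 4097)) (LT.b (LT.l 4107 4094 4096 4098) (LT.l 4105 4095 4096 4097)))))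

theorem c19 : chk P t19 1097498361856 1140850688 1095216660480 1140850688 = true := by decide +kernel

theorem b19 {lam : ℝ} (hlam : |(S : ℝ) * lam - ((P.lp : ℝ) - P.ln)| ≤ ((1 : ℕ) : ℝ)) : BoxS lam P 1097498361856 1140850688 1095216660480 1140850688 :=
  chk_sound hlam t19 1097498361856 1140850688 1095216660480 1140850688 (by norm_num) (by norm_num) c19

/-- Part of the subdivision. -/
def t20 : LT := (LT.b (LT.a (LT.b (LT.l 4109 4094 4097 4097) (LT.l 4107 4094 4097 4097)) (LT.b (LT.l 4107 4094 4097 4097) (LT.a (LT.l 4105 4094 4097 4097) (LT.l 4104 4095 4097 4097)))) (LT.a LT.z1 (LT.b (LT.a LT.z1 (LT.b (LT.l 4102 4095 4097 4096) LT.z1)) LT.z1)))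

theorem c20 : chk P t20 1097498361856 570425344 1097498361856 1140850688 = true := by decide +kernel

theorem b20 {lam : ℝ} (hlam : |(S : ℝ) * lam - ((P.lp : ℝ) - P.ln)| ≤ ((1 : ℕ) : ℝ)) : BoxS lam P 1097498361856 570425344 1097498361856 1140850688 :=
  chk_sound hlam t20 1097498361856 570425344 1097498361856 1140850688 (by norm_num) (by norm_num) c20

/-- Part of the subdivision. -/
def t21 : LT := (LT.a (LT.b (LT.a (LT.l 4105 4094 4096 4097) (LT.l 4104 4095 4096 4097)) (LT.a (LT.b (LT.l 4103 4095 4096 4097) (LT.l 4102 4095 4096 4097)) (LT.b (LT.l 4102 4095 4096 4097) (LT.l 4101 4095 4096 4097)))) (LT.b (LT.a (LT.l 4103 4095 4096 4097) (LT.l 4102 4095 4096 4097)) (LT.a (LT.b (LT.l 4101 4095 4096 4097) (LT.a (LT.l 4101 4095 4096 4097) (LT.l 4100 4095 4096 4097))) (LT.b (LT.l 4100 4095 4096 4097) (LT.a (LT.b (LT.l 4100 4095 4096 4097) (LT.l 4099 4095 4096 4097)) (LT.b (LT.l 4099 4095 4096 4097) (LT.l 4099 4096 4096 4097)))))))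

theorem c21 : chk P t21 1098639212544 570425344 1097498361856 570425344 = true := by decide +kernel

theorem b21 {lam : ℝ} (hlam : |(S : ℝ) * lam - ((P.lp : ℝ) - P.ln)| ≤ ((1 : ℕ) : ℝ)) : BoxS lam P 1098639212544 570425344 1097498361856 570425344 :=
  chk_sound hlam t21 1098639212544 570425344 1097498361856 570425344 (by norm_num) (by norm_num) c21

/-- Part of the subdivision. -/
def t22 : LT := (LT.a (LT.b (LT.a (LT.b (LT.a (LT.l 4102 4095 4096 4096) (LT.l 4101 4095 4096 4096)) (LT.a LT.z1 (LT.b (LT.l 4100 4095 4096 4096) LT.z1))) (LT.b (LT.a (LT.l 4101 4095 4096 4096) (LT.b (LT.l 4100 4095 4096 4096) (LT.l 4100 4095 4096 4096))) (LT.a (LT.b (LT.l 4100 4095 4096 4096) (LT.o 4099 4095 4096 4096)) (LT.o 4099 4095 4096 4096)))) (LT.a LT.z1 (LT.o 4098 4096 4096 4096))) (LT.b (LT.a (LT.b (LT.a (LT.b (LT.l 4100 4095 4096 4096) (LT.o 4099 4095 4096 4096)) (LT.b (LT.l 4099 4095 4096 4096) (LT.o 4099 4096 4096 4096))) (LT.o 4098 4096 4096 4096)) (LT.o 4098 4096 4096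 4096)) (LT.o 4096 4096 4096 4096)))

theorem c22 : chk P t22 1098639212544 570425344 1098639212544 570425344 = true := by decide +kernel

theorem b22 {lam : ℝ} (hlam : |(S : ℝ) * lam - ((P.lp : ℝ) - P.ln)| ≤ ((1 : ℕ) : ℝ)) : BoxS lam P 1098639212544 570425344 1098639212544 570425344 :=
  chk_sound hlam t22 1098639212544 570425344 1098639212544 570425344 (by norm_num) (by norm_num) c22

/-- Part of the subdivision. -/
def t23 : LT := (LT.a LT.z1 (LT.b (LT.a LT.z1 (LT.b (LT.a LT.z1 (LT.b (LT.a LT.z1 LT.z2) LT.z1)) LT.z1)) LT.z1))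

theorem c23 : chk P t23 1095216660480 2281701376 1099780063232 2281701376 = true := by decide +kernel

theorem b23 {lam : ℝ} (hlam : |(S : ℝ) * lam - ((P.lp : ℝ) - P.ln)| ≤ ((1 : ℕ) : ℝ)) : BoxS lam P 1095216660480 2281701376 1099780063232 2281701376 :=
  chk_sound hlam t23 1095216660480 2281701376 1099780063232 2281701376 (by norm_num) (by norm_num) c23

/-- Part of the subdivision. -/
def t24 : LT := (LT.b (LT.a (LT.b (LT.a (LT.b (LT.a (LT.l 4108 4094 4096 4098) (LT.l 4105 4094 4095 4098)) (LT.a (LT.b (LT.l 4104 4095 4096 4098) (LT.l 4102 4095 4096 4097)) (LT.b (LT.l 4102 4095 4095 4098) (LT.l 4100 4095 4095 4097)))) (LT.b (LT.l 4102 4095 4095 4098) (LT.a (LT.b (LT.l 4100 4095 4095 4098) LT.z2) LT.z2))) (LT.a (LT.b (LT.a (LT.b (LT.a (LT.l 4101 4095 4096 4097) (LT.l 4100 4095 4096 4097)) (LT.a (LT.b (LT.l 4099 4095 4096 4097) (LT.a (LT.b (LT.l 4099 4096 4096 4097) (LT.o 4098 4096 4096 4097)) (LT.l 4098 4096 4096 4097))) (LT.b (LT.l 4098 4096 4096 4097) (LT.l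 4097 4096 4096 4097)))) (LT.b (LT.l 4098 4096 4095 4097) LT.z2)) (LT.a (LT.b (LT.a (LT.o 4097 4096 4096 4096) LT.z2) LT.z2) LT.z2)) LT.z2)) LT.z2) LT.z2)

theorem c24 : chk P t24 1099780063232 2281701376 1095216660480 4563402752 = true := by decide +kernel

theorem b24 {lam : ℝ} (hlam : |(S : ℝ) * lam - ((P.lp : ℝ) - P.ln)| ≤ ((1 : ℕ) : ℝ)) : BoxS lam P 1099780063232 2281701376 1095216660480 4563402752 :=
  chk_sound hlam t24 1099780063232 2281701376 1095216660480 4563402752 (by norm_num) (by norm_num) c24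

/-- Part of the subdivision. -/
def t25 : LT := (LT.a LT.z1 LT.z2)

theorem c25 : chk P t25 1095216660480 4563402752 1104343465984 4563402752 = true := by decide +kernel

theorem b25 {lam : ℝ} (hlam : |(S : ℝ) * lam - ((P.lp : ℝ) - P.ln)| ≤ ((1 : ℕ) : ℝ)) : BoxS lam P 1095216660480 4563402752 1104343465984 4563402752 :=
  chk_sound hlam t25 1095216660480 4563402752 1104343465984 4563402752 (by norm_num) (by norm_num) c25

/-- Part of the subdivision. -/
def t26 : LT := LT.z2

theorem c26 : chk P t26 1104343465984 4563402752 1095216660480 9126805504 = true := by decide +kernel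

theorem b26 {lam : ℝ} (hlam : |(S : ℝ) * lam - ((P.lp : ℝ) - P.ln)| ≤ ((1 : ℕ) : ℝ)) : BoxS lam P 1104343465984 4563402752 1095216660480 9126805504 :=
  chk_sound hlam t26 1104343465984 4563402752 1095216660480 9126805504 (by norm_num) (by norm_num) c26

/-- Part of the subdivision. -/
def t27 : LT := LT.z2

theorem c27 : chk P t27 1095216660480 9126805504 1113470271488 9126805504 = true := by decide +kernel

theorem b27 {lam : ℝ} (hlam : |(S : ℝ) * lam - ((P.lp : ℝ) - P.ln)| ≤ ((1 : ℕ) : ℝ)) : BoxS lam P 1095216660480 9126805504 1113470271488 9126805504 :=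
  chk_sound hlam t27 1095216660480 9126805504 1113470271488 9126805504 (by norm_num) (by norm_num) c27

/-- Part of the subdivision. -/
def t28 : LT := LT.z2

theorem c28 : chk P t28 1113470271488 9126805504 1095216660480 18253611008 = true := by decide +kernel

theorem b28 {lam : ℝ} (hlam : |(S : ℝ) * lam - ((P.lp : ℝ) - P.ln)| ≤ ((1 : ℕ) : ℝ)) : BoxS lam P 1113470271488 9126805504 1095216660480 18253611008 :=
  chk_sound hlam t28 1113470271488 9126805504 1095216660480 18253611008 (by norm_num) (by norm_num) c28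

/-- Part of the subdivision. -/
def t29 : LT := LT.z2

theorem c29 : chk P t29 1095216660480 18253611008 1131723882496 18253611008 = true := by decide +kernel

theorem b29 {lam : ℝ} (hlam : |(S : ℝ) * lam - ((P.lp : ℝ) - P.ln)| ≤ ((1 : ℕ) : ℝ)) : BoxS lam P 1095216660480 18253611008 1131723882496 18253611008 :=
  chk_sound hlam t29 1095216660480 18253611008 1131723882496 18253611008 (by norm_num) (by norm_num) c29

/-- Part of the subdivision. -/
def t30 : LT := LT.z2

theorem c30 : chk P t30 1131723882496 18253611008 1095216660480 36507222016 = true := by decide +kernel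

theorem b30 {lam : ℝ} (hlam : |(S : ℝ) * lam - ((P.lp : ℝ) - P.ln)| ≤ ((1 : ℕ) : ℝ)) : BoxS lam P 1131723882496 18253611008 1095216660480 36507222016 :=
  chk_sound hlam t30 1131723882496 18253611008 1095216660480 36507222016 (by norm_num) (by norm_num) c30

/-- The whole box. -/
theorem box {lam : ℝ} (hlam : |(S : ℝ) * lam - ((P.lp : ℝ) - P.ln)| ≤ ((1 : ℕ) : ℝ)) : BoxS lam P 0 HH 0 HH :=
  (BoxS.sa' (x1 := 584115552256) (h := 292057776128) (by norm_num [HH]) (by norm_num) (b0 hlam) (BoxS.sb' (t1 := 584115552256) (h := 292057776128) (by norm_num [HH]) (by norm_num) (b1 hlam) (BoxS.sa' (x1 := 876173328384) (h := 146028888064) (by norm_num [HH]) (by norm_num) (b2 hlam) (BoxS.sb' (t1 := 876173328384) (h := 146028888064) (by norm_num [HH]) (by norm_num) (b3 hlam) (BoxS.sa' (x1 := 1022202216448) (h := 73014444032) (by norm_num [HH]) (by norm_num) (b4 hlam) (BoxS.sb' (t1 := 1022202216448) (h := 73014444032) (by norm_num [HH]) (by norm_num) (b5 hlam) (BoxS.sa' (x1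 := 1095216660480) (h := 36507222016) (by norm_num [HH]) (by norm_num) (BoxS.sb' (t1 := 1095216660480) (h := 36507222016) (by norm_num [HH]) (by norm_num) (BoxS.sa' (x1 := 1058709438464) (h := 18253611008) (by norm_num [HH]) (by norm_num) (b6 hlam) (BoxS.sb' (t1 := 1058709438464) (h := 18253611008) (by norm_num [HH]) (by norm_num) (b7 hlam) (b8 hlam))) (b9 hlam)) (BoxS.sb' (t1 := 1095216660480) (h := 36507222016) (by norm_num [HH]) (by norm_num) (BoxS.sa' (x1 := 1131723882496) (h := 18253611008) (by norm_num [HH]) (by norm_num) (BoxS.sb' (t1 := 1058709438464) (h := 18253611008) (by norm_num [HH]) (by norm_num) (b10 hlam) (BoxS.sa' (x1 := 1113470271488) (h := 9126805504) (by norm_num [HH]) (by norm_num) (BoxS.sb' (t1 := 1076963049472) (h := 9126805504) (by norm_num [HH]) (by norm_num) (b11 hlam) (BoxS.sa' (x1 := 1104343465984) (h := 4563402752) (by norm_num [HH]) (by norm_num) (BoxS.sb' (t1 := 1086089854976) (h := 4563402752) (by norm_num [HH]) (by norm_num)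 (b12 hlam) (BoxS.sa' (x1 := 1099780063232) (h := 2281701376) (by norm_num [HH]) (by norm_num) (b13 hlam) (b14 hlam))) (b15 hlam))) (b16 hlam))) (b17 hlam)) (BoxS.sa' (x1 := 1131723882496) (h := 18253611008) (by norm_num [HH]) (by norm_num) (BoxS.sb' (t1 := 1131723882496) (h := 18253611008) (by norm_num [HH]) (by norm_num) (BoxS.sa' (x1 := 1113470271488) (h := 9126805504) (by norm_num [HH]) (by norm_num) (BoxS.sb' (t1 := 1113470271488) (h := 9126805504) (by norm_num [HH]) (by norm_num) (BoxS.sa' (x1 := 1104343465984) (h := 4563402752) (by norm_num [HH]) (by norm_num) (BoxS.sb' (t1 := 1104343465984) (h := 4563402752) (by norm_num [HH]) (by norm_num) (BoxS.sa' (x1 := 1099780063232) (h := 2281701376) (by norm_num [HH]) (by norm_num) (BoxS.sb' (t1 := 1099780063232) (h := 2281701376) (by norm_num [HH]) (by norm_num) (BoxS.sa' (x1 := 1097498361856) (h := 1140850688) (by norm_num [HH]) (by norm_num) (b18 hlam) (BoxS.sb' (t1 := 1097498361856) (h := 1140850688) (by norm_num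 [HH]) (by norm_num) (b19 hlam) (BoxS.sa' (x1 := 1098639212544) (h := 570425344) (by norm_num [HH]) (by norm_num) (b20 hlam) (BoxS.sb' (t1 := 1098639212544) (h := 570425344) (by norm_num [HH]) (by norm_num) (b21 hlam) (b22 hlam))))) (b23 hlam)) (b24 hlam)) (b25 hlam)) (b26 hlam)) (b27 hlam)) (b28 hlam)) (b29 hlam)) (b30 hlam))))))))))

end Vale.Agent.P154H.Tm.D36
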