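import Vale.Agent.P154H.Msg

set_option maxRecDepth 100000

/-!
The subdivision for `d = 6`.
-/

namespace Vale.Agent.P154H.Tm.D6

/-- A row. -/
def Ra : Row := Row.mk 0 175158 0 868797 1572468 0 1050948 0 5212782 0 0 9434808 0 160 0 273920 0 5104260

/-- A row. -/
def Rb : Row := Row.mk 0 1469331800064 0 7287997464576 13190817644544 0 8327266198704 0 40854691400079 0 0 73584305954816 0 1342177280 0 2297807503360 0 40793501878122
/-- A row. -/
def Q0 : Row := Row.mk 0 0 0 0 0 0 7473408 0 0 0 0 0 0 0 0 0 0 5346279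

/-- A row. -/
def Q1 : Row := Row.mk 0 0 0 0 0 0 0 0 296549376 0 0 0 0 0 0 0 0 173207163

/-- A row. -/
def Q2 : Row := Row.mk 0 0 0 0 0 0 0 0 0 0 512 0 0 0 0 0 0 1101

/-- A row. -/
def Q3 : Row := Row.mk 0 358723584 0 1779296256 3220414464 0 2029305728 0 9940259872 0 0 17846380224 0 327680 0 0 0 10098292005

/-- A row. -/
def Q4 : Row := Row.mk 0 358723584 0 1779296256 3220414464 0 2015206784 0 9865289312 0 0 17700273600 0 327680 0 0 0 10044478935

/-- A row. -/
def Q5 : Row := Row.mk 0 358723584 0 1779296256 3220414464 0 2004325376 0 9784883072 0 0 17540071424 0 327680 0 0 0 10009630935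

/-- A row. -/
def Q6 : Row := Row.mk 0 179361792 0 889648128 1610207232 0 994527360 0 4849482976 0 0 8682477440 0 163840 0 0 0 4986568695

/-- A row. -/
def Q7 : Row := Row.mk 0 179361792 0 889648128 1610207232 0 986191936 0 4801960208 0 0 8586814112 0 163840 0 0 0 4963161027

/-- A row. -/
def Q8 : Row := Row.mk 0 179361792 0 889648128 1610207232 0 977722368 0 4750079120 0 0 8482278752 0 163840 0 0 0 4939716705

/-- A row. -/
def Q9 : Row := Row.mk 0 89680896 0 444824064 805103616 0 483891424 0 2345602704 0 0 4184082768 0 81920 0 0 0 2449471593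

/-- A row. -/
def Q10 : Row := Row.mk 0 358723584 0 1779296256 3220414464 0 1911887296 0 9260925952 0 0 16487511296 0 327680 0 0 0 9743307933

/-- A row. -/
def Q11 : Row := Row.mk 0 179361792 0 889648128 1610207232 0 944701376 0 4563341824 0 0 8108331616 0 163840 0 0 0 4840850871

/-- A row. -/
def Q12 : Row := Row.mk 0 179361792 0 889648128 1610207232 0 934188128 0 4489638608 0 0 7961112864 0 163840 0 0 0 4807986309

/-- A row. -/
def Q13 : Row := Row.mk 0 179361792 0 889648128 1610207232 0 921337056 0 4406139056 0 0 7801279776 0 163840 0 0 0 4747914399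

/-- A row. -/
def Q14 : Row := Row.mk 0 358723584 0 1779296256 3220414464 0 1816968704 0 8641065472 0 0 15255998784 0 327680 0 0 0 9428526393

/-- A row. -/
def Q15 : Row := Row.mk 0 89680896 0 444824064 805103616 0 444301296 0 2114368040 0 0 3720265520 0 81920 0 0 0 2332531215

/-- A row. -/
def Q16 : Row := Row.mk 0 358723584 0 1779296256 3220414464 0 1747850624 0 8255771904 0 0 14476357440 0 327680 0 0 0 9242467749

/-- A row. -/
def Q17 : Row := Row.mk 0 358723584 0 1779296256 3220414464 0 1707564096 0 8029039200 0 0 14040370240 0 327680 0 0 0 9069138057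

/-- A row. -/
def Q18 : Row := Row.mk 0 179361792 0 889648128 1610207232 0 829418688 0 3900805104 0 0 6785996416 0 163840 0 0 0 4479303027

/-- A row. -/
def Q19 : Row := Row.mk 0 179361792 0 889648128 1610207232 0 811558816 0 3775614832 0 0 6535099232 0 163840 0 0 0 4424204037

/-- A row. -/
def Q20 : Row := Row.mk 0 358723584 0 1779296256 3220414464 0 1582358912 0 7275349824 0 0 12534038400 0 327680 0 0 0 8675898903

/-- A row. -/
def Q21 : Row := Row.mk 0 89680896 0 444824064 805103616 0 382987120 0 1746234944 0 0 2990893344 0 81920 0 0 0 2122344723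

/-- A row. -/
def Q22 : Row := Row.mk 0 358723584 0 1779296256 3220414464 0 1489852672 0 6686634848 0 0 11358951040 0 327680 0 0 0 8374501977

/-- A row. -/
def Q23 : Row := Row.mk 0 358723584 0 1779296256 3220414464 0 1430742208 0 6381053088 0 0 10720857152 0 327680 0 0 0 8260294983

/-- A row. -/
def Q24 : Row := Row.mk 0 358723584 0 1779296256 3220414464 0 1365374272 0 6027483744 0 0 10050940672 0 327680 0 0 0 7952692833

/-- A row. -/
def Q25 : Row := Row.mk 0 179361792 0 889648128 1610207232 0 650632224 0 2844820368 0 0 4675761472 0 163840 0 0 0 3904347393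

/-- A row. -/
def Q26 : Row := Row.mk 0 179361792 0 889648128 1610207232 0 619278208 0 2662132672 0 0 4313064992 0 163840 0 0 0 3793405251

/-- A row. -/
def Q27 : Row := Row.mk 0 179361792 0 889648128 1610207232 0 591417280 0 2476040240 0 0 3939674816 0 163840 0 0 0 3699432783

/-- A row. -/
def Q28 : Row := Row.mk 0 179361792 0 889648128 1610207232 0 557935008 0 2296144960 0 0 3558464640 0 163840 0 0 0 3638623449

/-- A row. -/
def Q29 : Row := Row.mk 0 179361792 0 889648128 1610207232 0 527853120 0 2103702496 0 0 3173012896 0 163840 0 0 0 3529577115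

/-- A row. -/
def Q30 : Row := Row.mk 0 358723584 0 1779296256 3220414464 0 998432448 0 3917130048 0 0 5575129664 0 327680 0 0 0 7303692399

/-- A row. -/
def Q31 : Row := Row.mk 0 89680896 0 444824064 805103616 0 233197728 0 889608304 0 0 1203508416 0 81920 0 0 0 1786831605

/-- A row. -/
def Q32 : Row := Row.mk 0 89680896 0 444824064 805103616 0 220915312 0 828257240 0 0 1010156576 0 81920 0 0 0 1894765329


/-- The data. -/
def P : Pb where
  lp := 0
  ln := 29417389580923127
  ab := 3298534883328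
  r1 := [Ra, Rb]
  r2 := [Q0, Q1, Q2, Q3, Q4, Q5, Q6, Q7, Q8, Q9, Q10, Q11, Q12, Q13, Q14, Q15, Q16, Q17, Q18, Q19, Q20, Q21, Q22, Q23, Q24, Q25, Q26, Q27, Q28, Q29, Q30, Q31, Q32]

/-- Part of the subdivision. -/
def t0 : LT := (LT.b (LT.a (LT.l 4699 3314 4275 4275) (LT.b (LT.l 4699 3314 4275 4275) (LT.l 4699 3315 4275 4275))) (LT.a LT.z1 (LT.b (LT.a LT.z1 (LT.b (LT.l 4695 3330 4275 4273) LT.z1)) LT.z1)))

theorem c0 : chk P t0 0 292057776128 0 584115552256 = true := by decide +kernel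

theorem b0 {lam : ℝ} (hlam : |(S : ℝ) * lam - ((P.lp : ℝ) - P.ln)| ≤ ((1 : ℕ) : ℝ)) : BoxS lam P 0 292057776128 0 584115552256 :=
  chk_sound hlam t0 0 292057776128 0 584115552256 (by norm_num) (by norm_num) c0

/-- Part of the subdivision. -/
def t1 : LT := (LT.a (LT.b (LT.a (LT.l 4696 3328 4273 4275) (LT.l 4683 3383 4262 4275)) (LT.a (LT.l 4696 3329 4273 4275) (LT.l 4683 3384 4262 4275))) (LT.b (LT.a (LT.l 4636 3537 4225 4275) (LT.b (LT.a (LT.l 4536 3742 4148 4275) (LT.l 4390 3916 4039 4275)) (LT.a (LT.l 4536 3742 4148 4275) (LT.l 4390 3916 4039 4275)))) (LT.a (LT.b (LT.l 4636 3537 4225 4275) (LT.a (LT.l 4653 3488 4239 4275) (LT.l 4611 3598 4207 4275))) (LT.b (LT.a (LT.l 4536 3742 4148 4275) (LT.l 4390 3916 4039 4275)) (LT.a (LT.l 4535 3743 4148 4275) (LT.b (LT.l 4389 3916 4039 4275) (LT.a (LT.l 4435 3871 4073 4274) (LT.l 4332 3964 3998 4274))))))))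

theorem c1 : chk P t1 584115552256 292057776128 0 292057776128 = true := by decide +kernel

theorem b1 {lam : ℝ} (hlam : |(S : ℝ) * lam - ((P.lp : ℝ) - P.ln)| ≤ ((1 : ℕ) : ℝ)) : BoxS lam P 584115552256 292057776128 0 292057776128 :=
  chk_sound hlam t1 584115552256 292057776128 0 292057776128 (by norm_num) (by norm_num) c1

/-- Part of the subdivision. -/
def t2 : LT := (LT.b (LT.a (LT.b (LT.l 4693 3343 4273 4273) (LT.l 4680 3396 4273 4262)) (LT.b (LT.l 4680 3396 4262 4273) (LT.a (LT.l 4672 3426 4266 4262) (LT.b (LT.l 4664 3450 4257 4266) (LT.l 4652 3490 4257 4257))))) (LT.a LT.z1 (LT.b (LT.a LT.z1 (LT.b (LT.a LT.z1 (LT.l 4624 3568 4253 4239)) LT.z1)) LT.z1)))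

theorem c2 : chk P t2 584115552256 146028888064 584115552256 292057776128 = true := by decide +kernel

theorem b2 {lam : ℝ} (hlam : |(S : ℝ) * lam - ((P.lp : ℝ) - P.ln)| ≤ ((1 : ℕ) : ℝ)) : BoxS lam P 584115552256 146028888064 584115552256 292057776128 :=
  chk_sound hlam t2 584115552256 146028888064 584115552256 292057776128 (by norm_num) (by norm_num) c2

/-- Part of the subdivision. -/
def t3 : LT := (LT.a (LT.b (LT.a (LT.l 4650 3497 4239 4273) (LT.l 4608 3606 4207 4273)) (LT.a (LT.b (LT.l 4641 3521 4239 4266) (LT.a (LT.l 4636 3537 4245 4257) (LT.l 4620 3577 4233 4257))) (LT.b (LT.l 4599 3625 4207 4266) (LT.a (LT.l 4599 3626 4217 4257) (LT.l 4570 3684 4195 4257))))) (LT.b (LT.a (LT.b (LT.l 4533 3746 4148 4273) (LT.a (LT.l 4553 3713 4166 4271) (LT.l 4501 3792 4127 4271))) (LT.b (LT.a (LT.l 4433 3873 4073 4273) (LT.l 4329 3966 3998 4273)) (LT.a (LT.l 4429 3878 4073 4271) (LT.l 4324 3970 3998 4271)))) (LT.a (LT.b (LT.a (LT.l 4546 3726 4166 4266) (LT.l 4493 3803 4127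 4266)) (LT.a (LT.l 4531 3750 4166 4257) (LT.l 4477 3824 4127 4257))) (LT.b (LT.a (LT.l 4420 3887 4073 4266) (LT.l 4313 3978 3998 4266)) (LT.a (LT.l 4402 3905 4073 4257) (LT.l 4292 3993 3998 4257))))))

theorem c3 : chk P t3 876173328384 146028888064 584115552256 146028888064 = true := by decide +kernel

theorem b3 {lam : ℝ} (hlam : |(S : ℝ) * lam - ((P.lp : ℝ) - P.ln)| ≤ ((1 : ℕ) : ℝ)) : BoxS lam P 876173328384 146028888064 584115552256 146028888064 :=
  chk_sound hlam t3 876173328384 146028888064 584115552256 146028888064 (by norm_num) (by norm_num) c3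

/-- Part of the subdivision. -/
def t4 : LT := (LT.b (LT.a (LT.b (LT.l 4619 3579 4245 4245) (LT.l 4603 3617 4245 4233)) (LT.b (LT.l 4603 3617 4233 4245) (LT.a (LT.l 4591 3642 4236 4233) (LT.l 4582 3662 4229 4233)))) (LT.a LT.z1 (LT.b (LT.a LT.z1 (LT.b (LT.l 4565 3692 4229 4221) LT.z1)) LT.z1)))

theorem c4 : chk P t4 876173328384 36507222016 876173328384 73014444032 = true := by decide +kernel

theorem b4 {lam : ℝ} (hlam : |(S : ℝ) * lam - ((P.lp : ℝ) - P.ln)| ≤ ((1 : ℕ) : ℝ)) : BoxS lam P 876173328384 36507222016 876173328384 73014444032 :=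
  chk_sound hlam t4 876173328384 36507222016 876173328384 73014444032 (by norm_num) (by norm_num) c4

/-- Part of the subdivision. -/
def t5 : LT := (LT.a (LT.b (LT.l 4581 3662 4217 4245) (LT.a (LT.l 4570 3683 4221 4233) (LT.l 4557 3706 4212 4233))) (LT.b (LT.l 4552 3716 4195 4245) (LT.a (LT.l 4542 3732 4201 4233) (LT.l 4524 3759 4189 4233))))

theorem c5 : chk P t5 949187772416 36507222016 876173328384 36507222016 = true := by decide +kernel

theorem b5 {lam : ℝ} (hlam : |(S : ℝ) * lam - ((P.lp : ℝ) - P.ln)| ≤ ((1 : ℕ) : ℝ)) : BoxS lam P 949187772416 36507222016 876173328384 36507222016 :=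
  chk_sound hlam t5 949187772416 36507222016 876173328384 36507222016 (by norm_num) (by norm_num) c5

/-- Part of the subdivision. -/
def t6 : LT := (LT.a (LT.b (LT.a (LT.b (LT.l 4554 3712 4221 4221) (LT.a LT.z1 (LT.l 4537 3740 4219 4212))) (LT.b (LT.a (LT.l 4544 3729 4214 4221) (LT.l 4537 3740 4209 4221)) (LT.a (LT.l 4530 3750 4214 4212) (LT.b (LT.l 4527 3756 4209 4214) (LT.l 4519 3767 4209 4209))))) (LT.a LT.z1 (LT.b (LT.a LT.z1 (LT.l 4507 3784 4209 4201)) LT.z1))) (LT.b (LT.a (LT.b (LT.l 4525 3759 4201 4221) (LT.a (LT.l 4515 3773 4204 4212) (LT.l 4506 3785 4198 4212))) (LT.b (LT.l 4507 3785 4189 4221) (LT.l 4492 3804 4189 4212))) (LT.a (LT.b (LT.a (LT.b (LT.l 4503 3790 4204 4204) (LT.l 4494 3801 4204 4198)) (LT.l 4490 3807 4198 4201)) (LT.a LT.z1 (LT.b (LT.l 4476 3825 4198 4192) LT.z1))) (LT.b (LT.a (LT.l 4480 3819 4192 4201) (LT.l 4470 3832 4185 4201)) (LT.a (LT.l 4461 3843 4192 4189) (LT.l 4450 3855 4185 4189))))))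

theorem c6 : chk P t6 949187772416 36507222016 949187772416 36507222016 = true := by decide +kernel

theorem b6 {lam : ℝ} (hlam : |(S : ℝ) * lam - ((P.lp : ℝ) - P.ln)| ≤ ((1 : ℕ) : ℝ)) : BoxS lam P 949187772416 36507222016 949187772416 36507222016 :=
  chk_sound hlam t6 949187772416 36507222016 949187772416 36507222016 (by norm_num) (by norm_num) c6

/-- Part of the subdivision. -/
def t7 : LT := (LT.a LT.z1 (LT.b (LT.a LT.z1 (LT.b (LT.a LT.z1 (LT.b (LT.a LT.z1 (LT.l 4427 3880 4185 4174)) LT.z1)) LT.z1)) LT.z1))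

theorem c7 : chk P t7 876173328384 73014444032 1022202216448 73014444032 = true := by decide +kernel

theorem b7 {lam : ℝ} (hlam : |(S : ℝ) * lam - ((P.lp : ℝ) - P.ln)| ≤ ((1 : ℕ) : ℝ)) : BoxS lam P 876173328384 73014444032 1022202216448 73014444032 :=
  chk_sound hlam t7 876173328384 73014444032 1022202216448 73014444032 (by norm_num) (by norm_num) c7

/-- Part of the subdivision. -/
def t8 : LT := (LT.b (LT.a (LT.b (LT.l 4511 3778 4166 4245) (LT.l 4492 3804 4166 4233)) (LT.b (LT.l 4456 3849 4127 4245) (LT.l 4435 3872 4127 4233))) (LT.a (LT.b (LT.a (LT.b (LT.l 4485 3813 4174 4221) (LT.l 4470 3832 4174 4212)) (LT.l 4453 3852 4158 4217)) (LT.a (LT.b (LT.l 4453 3852 4174 4201) (LT.a (LT.l 4439 3867 4178 4189) (LT.l 4426 3881 4170 4189))) (LT.b (LT.l 4427 3880 4158 4201) (LT.l 4406 3901 4158 4189)))) (LT.b (LT.a (LT.l 4423 3884 4138 4217) (LT.l 4388 3918 4115 4217)) (LT.a (LT.b (LT.l 4396 3910 4138 4201) (LT.l 4373 3930 4138 4189)) (LT.b (LT.l 4359 3943 4115 4201)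 (LT.l 4335 3962 4115 4189))))))

theorem c8 : chk P t8 1022202216448 36507222016 876173328384 73014444032 = true := by decide +kernel

theorem b8 {lam : ℝ} (hlam : |(S : ℝ) * lam - ((P.lp : ℝ) - P.ln)| ≤ ((1 : ℕ) : ℝ)) : BoxS lam P 1022202216448 36507222016 876173328384 73014444032 :=
  chk_sound hlam t8 1022202216448 36507222016 876173328384 73014444032 (by norm_num) (by norm_num) c8

/-- Part of the subdivision. -/
def t9 : LT := (LT.b (LT.a (LT.b (LT.l 4378 3927 4073 4245) (LT.l 4354 3947 4073 4233)) (LT.b (LT.l 4263 4011 3998 4245) (LT.a (LT.l 4269 4008 4019 4233) LT.z2))) (LT.a (LT.b (LT.a (LT.l 4346 3953 4088 4217) (LT.l 4294 3991 4057 4217)) (LT.a (LT.b (LT.l 4314 3977 4088 4201) (LT.l 4289 3995 4088 4189)) (LT.b (LT.l 4260 4013 4057 4201) (LT.l 4232 4030 4057 4189)))) (LT.b (LT.a (LT.l 4231 4030 4019 4217) LT.z2) (LT.a (LT.b (LT.l 4194 4051 4019 4201) LT.z2) LT.z2))))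

theorem c9 : chk P t9 1095216660480 36507222016 876173328384 73014444032 = true := by decide +kernel

theorem b9 {lam : ℝ} (hlam : |(S : ℝ) * lam - ((P.lp : ℝ) - P.ln)| ≤ ((1 : ℕ) : ℝ)) : BoxS lam P 1095216660480 36507222016 876173328384 73014444032 :=
  chk_sound hlam t9 1095216660480 36507222016 876173328384 73014444032 (by norm_num) (by norm_num) c9

/-- Part of the subdivision. -/
def t10 : LT := (LT.b (LT.a (LT.b (LT.a (LT.l 4415 3892 4178 4174) (LT.l 4402 3904 4170 4174)) (LT.a LT.z1 (LT.l 4374 3930 4170 4158))) (LT.b (LT.a (LT.l 4388 3917 4162 4174) (LT.l 4373 3931 4153 4174)) (LT.a (LT.l 4359 3943 4162 4158) (LT.l 4343 3956 4153 4158)))) (LT.a LT.z1 (LT.b (LT.l 4316 3976 4158 4138) LT.z1)))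

theorem c10 : chk P t10 1022202216448 18253611008 1022202216448 36507222016 = true := by decide +kernel

theorem b10 {lam : ℝ} (hlam : |(S : ℝ) * lam - ((P.lp : ℝ) - P.ln)| ≤ ((1 : ℕ) : ℝ)) : BoxS lam P 1022202216448 18253611008 1022202216448 36507222016 :=
  chk_sound hlam t10 1022202216448 18253611008 1022202216448 36507222016 (by norm_num) (by norm_num) c10

/-- Part of the subdivision. -/
def t11 : LT := (LT.a (LT.b (LT.l 4347 3952 4138 4174) (LT.l 4316 3976 4138 4158)) (LT.b (LT.l 4307 3982 4115 4174) (LT.a (LT.l 4285 3997 4121 4158) (LT.l 4262 4012 4109 4158))))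

theorem c11 : chk P t11 1058709438464 18253611008 1022202216448 18253611008 = true := by decide +kernel

theorem b11 {lam : ℝ} (hlam : |(S : ℝ) * lam - ((P.lp : ℝ) - P.ln)| ≤ ((1 : ℕ) : ℝ)) : BoxS lam P 1058709438464 18253611008 1022202216448 18253611008 :=
  chk_sound hlam t11 1058709438464 18253611008 1022202216448 18253611008 (by norm_num) (by norm_num) c11

/-- Part of the subdivision. -/
def t12 : LT := (LT.a (LT.b (LT.a (LT.l 4288 3995 4143 4138) (LT.b (LT.l 4278 4002 4133 4143) (LT.l 4257 4015 4133 4133))) (LT.a LT.z1 (LT.b (LT.l 4234 4029 4133 4121) LT.z1))) (LT.b (LT.a (LT.b (LT.l 4256 4016 4121 4143) (LT.l 4234 4029 4121 4133)) (LT.b (LT.l 4232 4030 4109 4143) (LT.a (LT.l 4216 4039 4112 4133) (LT.l 4202 4046 4106 4133)))) (LT.a (LT.b (LT.a (LT.l 4217 4039 4124 4121) (LT.l 4204 4045 4118 4121)) (LT.a LT.z1 (LT.b (LT.l 4185 4056 4118 4112) LT.z1))) (LT.b (LT.a (LT.b (LT.l 4198 4049 4112 4124) (LT.l 4185 4056 4112 4118)) (LT.b (LT.l 4184 4056 4106 4124) (LT.l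 4171 4063 4106 4118))) (LT.a (LT.b (LT.l 4171 4062 4112 4112) (LT.a LT.z1 (LT.l 4153 4071 4111 4106))) (LT.b (LT.a (LT.l 4160 4068 4107 4112) (LT.l 4153 4071 4104 4112)) (LT.a (LT.b (LT.l 4150 4073 4107 4107) (LT.l 4142 4076 4107 4104)) (LT.b (LT.l 4142 4076 4104 4107) (LT.l 4135 4080 4104 4104)))))))))

theorem c12 : chk P t12 1058709438464 18253611008 1058709438464 18253611008 = true := by decide +kernel

theorem b12 {lam : ℝ} (hlam : |(S : ℝ) * lam - ((P.lp : ℝ) - P.ln)| ≤ ((1 : ℕ) : ℝ)) : BoxS lam P 1058709438464 18253611008 1058709438464 18253611008 :=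
  chk_sound hlam t12 1058709438464 18253611008 1058709438464 18253611008 (by norm_num) (by norm_num) c12

/-- Part of the subdivision. -/
def t13 : LT := (LT.a LT.z1 (LT.b (LT.a LT.z1 (LT.b (LT.a LT.z1 (LT.b (LT.a LT.z1 (LT.b (LT.a LT.z1 (LT.b (LT.a LT.z1 (LT.l 4125 4084 4103 4101)) LT.z1)) LT.z1)) LT.z1)) LT.z1)) LT.z1))

theorem c13 : chk P t13 1022202216448 36507222016 1095216660480 36507222016 = true := by decide +kernel

theorem b13 {lam : ℝ} (hlam : |(S : ℝ) * lam - ((P.lp : ℝ) - P.ln)| ≤ ((1 : ℕ) : ℝ)) : BoxS lam P 1022202216448 36507222016 1095216660480 36507222016 :=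
  chk_sound hlam t13 1022202216448 36507222016 1095216660480 36507222016 (by norm_num) (by norm_num) c13

/-- Part of the subdivision. -/
def t14 : LT := (LT.a (LT.b (LT.a (LT.l 4272 4006 4096 4174) (LT.l 4245 4022 4081 4174)) (LT.a (LT.b (LT.l 4246 4022 4096 4162) (LT.l 4226 4033 4096 4153)) (LT.b (LT.l 4218 4038 4081 4162) (LT.l 4197 4049 4081 4153)))) (LT.b (LT.a (LT.l 4215 4039 4065 4174) (LT.l 4182 4057 4048 4174)) (LT.a (LT.b (LT.l 4187 4055 4065 4162) (LT.l 4165 4065 4065 4153)) LT.z2)))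

theorem c14 : chk P t14 1095216660480 18253611008 1022202216448 18253611008 = true := by decide +kernel

theorem b14 {lam : ℝ} (hlam : |(S : ℝ) * lam - ((P.lp : ℝ) - P.ln)| ≤ ((1 : ℕ) : ℝ)) : BoxS lam P 1095216660480 18253611008 1022202216448 18253611008 :=
  chk_sound hlam t14 1095216660480 18253611008 1022202216448 18253611008 (by norm_num) (by norm_num) c14

/-- Part of the subdivision. -/
def t15 : LT := (LT.a (LT.b (LT.l 4205 4045 4096 4143) (LT.a (LT.l 4189 4054 4099 4133) (LT.l 4174 4061 4092 4133))) (LT.b (LT.l 4175 4061 4081 4143) (LT.a (LT.b (LT.l 4165 4066 4085 4135) (LT.l 4152 4072 4085 4130)) (LT.l 4142 4076 4077 4133))))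

theorem c15 : chk P t15 1095216660480 9126805504 1058709438464 9126805504 = true := by decide +kernel

theorem b15 {lam : ℝ} (hlam : |(S : ℝ) * lam - ((P.lp : ℝ) - P.ln)| ≤ ((1 : ℕ) : ℝ)) : BoxS lam P 1095216660480 9126805504 1058709438464 9126805504 :=
  chk_sound hlam t15 1095216660480 9126805504 1058709438464 9126805504 (by norm_num) (by norm_num) c15

/-- Part of the subdivision. -/
def t16 : LT := (LT.a (LT.b (LT.l 4169 4063 4099 4124) (LT.a (LT.l 4160 4068 4101 4118) (LT.l 4152 4071 4097 4118))) (LT.b (LT.l 4154 4070 4092 4124) (LT.a (LT.l 4144 4075 4094 4118) (LT.l 4136 4079 4090 4118))))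

theorem c16 : chk P t16 1095216660480 4563402752 1076963049472 4563402752 = true := by decide +kernel

theorem b16 {lam : ℝ} (hlam : |(S : ℝ) * lam - ((P.lp : ℝ) - P.ln)| ≤ ((1 : ℕ) : ℝ)) : BoxS lam P 1095216660480 4563402752 1076963049472 4563402752 :=
  chk_sound hlam t16 1095216660480 4563402752 1076963049472 4563402752 (by norm_num) (by norm_num) c16

/-- Part of the subdivision. -/
def t17 : LT := (LT.b (LT.a (LT.b (LT.l 4149 4073 4101 4114) (LT.l 4142 4076 4101 4111)) (LT.b (LT.l 4141 4076 4097 4114) (LT.l 4134 4080 4097 4111))) (LT.a (LT.b (LT.l 4134 4080 4101 4107) (LT.a (LT.l 4129 4082 4102 4104) (LT.l 4125 4084 4100 4104))) (LT.b (LT.a (LT.l 4128 4082 4098 4107) (LT.l 4124 4084 4096 4107)) (LT.a (LT.b (LT.l 4123 4085 4098 4105) (LT.l 4119 4086 4098 4103)) (LT.b (LT.l 4119 4087 4096 4105) (LT.l 4115 4088 4096 4103))))))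

theorem c17 : chk P t17 1095216660480 2281701376 1086089854976 4563402752 = true := by decide +kernel

theorem b17 {lam : ℝ} (hlam : |(S : ℝ) * lam - ((P.lp : ℝ) - P.ln)| ≤ ((1 : ℕ) : ℝ)) : BoxS lam P 1095216660480 2281701376 1086089854976 4563402752 :=
  chk_sound hlam t17 1095216660480 2281701376 1086089854976 4563402752 (by norm_num) (by norm_num) c17

/-- Part of the subdivision. -/
def t18 : LT := (LT.b (LT.a (LT.b (LT.l 4134 4080 4094 4114) (LT.l 4126 4083 4094 4111)) (LT.b (LT.l 4125 4084 4090 4114) (LT.l 4118 4087 4090 4111))) (LT.a (LT.b (LT.a (LT.l 4120 4086 4095 4107) (LT.l 4116 4088 4093 4107)) (LT.a (LT.b (LT.l 4115 4088 4095 4105) (LT.l 4111 4090 4095 4103)) (LT.b (LT.l 4110 4090 4093 4105) (LT.l 4106 4092 4093 4103)))) (LT.b (LT.l 4110 4090 4090 4107) (LT.a (LT.b (LT.l 4106 4092 4091 4105) (LT.l 4102 4094 4091 4103)) LT.z2))))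

theorem c18 : chk P t18 1099780063232 2281701376 1086089854976 4563402752 = true := by decide +kernel

theorem b18 {lam : ℝ} (hlam : |(S : ℝ) * lam - ((P.lp : ℝ) - P.ln)| ≤ ((1 : ℕ) : ℝ)) : BoxS lam P 1099780063232 2281701376 1086089854976 4563402752 :=
  chk_sound hlam t18 1099780063232 2281701376 1086089854976 4563402752 (by norm_num) (by norm_num) c18

/-- Part of the subdivision. -/
def t19 : LT := (LT.b (LT.a (LT.b (LT.l 4138 4078 4085 4124) (LT.l 4124 4084 4085 4118)) (LT.b (LT.l 4121 4085 4077 4124) LT.z2)) (LT.a (LT.b (LT.a (LT.b (LT.l 4117 4087 4087 4114) (LT.l 4109 4091 4087 4111)) LT.z2) LT.z2) LT.z2))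

theorem c19 : chk P t19 1104343465984 4563402752 1076963049472 9126805504 = true := by decide +kernel

theorem b19 {lam : ℝ} (hlam : |(S : ℝ) * lam - ((P.lp : ℝ) - P.ln)| ≤ ((1 : ℕ) : ℝ)) : BoxS lam P 1104343465984 4563402752 1076963049472 9126805504 :=
  chk_sound hlam t19 1104343465984 4563402752 1076963049472 9126805504 (by norm_num) (by norm_num) c19

/-- Part of the subdivision. -/
def t20 : LT := (LT.b (LT.a (LT.b (LT.l 4141 4076 4065 4143) LT.z2) LT.z2) LT.z2)

theorem c20 : chk P t20 1113470271488 9126805504 1058709438464 18253611008 = true := by decide +kernel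

theorem b20 {lam : ℝ} (hlam : |(S : ℝ) * lam - ((P.lp : ℝ) - P.ln)| ≤ ((1 : ℕ) : ℝ)) : BoxS lam P 1113470271488 9126805504 1058709438464 18253611008 :=
  chk_sound hlam t20 1113470271488 9126805504 1058709438464 18253611008 (by norm_num) (by norm_num) c20

/-- Part of the subdivision. -/
def t21 : LT := LT.z2

theorem c21 : chk P t21 1131723882496 18253611008 1022202216448 36507222016 = true := by decide +kernel

theorem b21 {lam : ℝ} (hlam : |(S : ℝ) * lam - ((P.lp : ℝ) - P.ln)| ≤ ((1 : ℕ) : ℝ)) : BoxS lam P 1131723882496 18253611008 1022202216448 36507222016 :=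
  chk_sound hlam t21 1131723882496 18253611008 1022202216448 36507222016 (by norm_num) (by norm_num) c21

/-- Part of the subdivision. -/
def t22 : LT := (LT.b (LT.a (LT.b (LT.l 4123 4085 4102 4102) (LT.l 4119 4086 4102 4100)) (LT.b (LT.l 4119 4086 4100 4102) (LT.a (LT.l 4116 4088 4100 4100) (LT.l 4114 4089 4099 4100)))) (LT.a LT.z1 (LT.b (LT.a LT.z1 (LT.b (LT.l 4111 4090 4099 4099) LT.z1)) LT.z1)))

theorem c22 : chk P t22 1095216660480 1140850688 1095216660480 2281701376 = true := by decide +kernel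

theorem b22 {lam : ℝ} (hlam : |(S : ℝ) * lam - ((P.lp : ℝ) - P.ln)| ≤ ((1 : ℕ) : ℝ)) : BoxS lam P 1095216660480 1140850688 1095216660480 2281701376 :=
  chk_sound hlam t22 1095216660480 1140850688 1095216660480 2281701376 (by norm_num) (by norm_num) c22

/-- Part of the subdivision. -/
def t23 : LT := (LT.a (LT.b (LT.l 4115 4088 4098 4102) (LT.a (LT.l 4112 4089 4099 4100) (LT.b (LT.l 4111 4090 4098 4100) (LT.l 4109 4091 4098 4099)))) (LT.b (LT.a (LT.l 4112 4089 4097 4102) (LT.l 4110 4090 4096 4102)) (LT.a (LT.b (LT.l 4109 4091 4097 4100) (LT.l 4107 4092 4097 4099)) (LT.b (LT.l 4107 4092 4096 4100) (LT.l 4105 4092 4096 4099)))))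

theorem c23 : chk P t23 1097498361856 1140850688 1095216660480 1140850688 = true := by decide +kernel

theorem b23 {lam : ℝ} (hlam : |(S : ℝ) * lam - ((P.lp : ℝ) - P.ln)| ≤ ((1 : ℕ) : ℝ)) : BoxS lam P 1097498361856 1140850688 1095216660480 1140850688 :=
  chk_sound hlam t23 1097498361856 1140850688 1095216660480 1140850688 (by norm_num) (by norm_num) c23

/-- Part of the subdivision. -/
def t24 : LT := (LT.b (LT.a (LT.b (LT.l 4109 4091 4099 4099) (LT.l 4107 4092 4099 4098)) (LT.b (LT.l 4107 4092 4098 4099) (LT.a (LT.l 4105 4092 4098 4098) (LT.l 4104 4093 4098 4098)))) (LT.a LT.z1 (LT.b (LT.a LT.z1 (LT.b (LT.l 4102 4093 4098 4097) LT.z1)) LT.z1)))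

theorem c24 : chk P t24 1097498361856 570425344 1097498361856 1140850688 = true := by decide +kernel

theorem b24 {lam : ℝ} (hlam : |(S : ℝ) * lam - ((P.lp : ℝ) - P.ln)| ≤ ((1 : ℕ) : ℝ)) : BoxS lam P 1097498361856 570425344 1097498361856 1140850688 :=
  chk_sound hlam t24 1097498361856 570425344 1097498361856 1140850688 (by norm_num) (by norm_num) c24

/-- Part of the subdivision. -/
def t25 : LT := (LT.a (LT.b (LT.a (LT.l 4105 4092 4097 4099) (LT.l 4104 4093 4097 4099)) (LT.a (LT.b (LT.l 4103 4093 4097 4098) (LT.l 4102 4093 4097 4098)) (LT.b (LT.l 4102 4093 4097 4098) (LT.l 4101 4094 4097 4098)))) (LT.b (LT.a (LT.l 4103 4093 4096 4099) (LT.l 4102 4094 4096 4099)) (LT.a (LT.b (LT.l 4101 4094 4096 4098) (LT.a (LT.l 4101 4094 4096 4098) (LT.l 4100 4094 4096 4098))) (LT.b (LT.l 4100 4094 4096 4098) (LT.a (LT.l 4100 4095 4096 4098) (LT.l 4099 4095 4096 4098))))))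

theorem c25 : chk P t25 1098639212544 570425344 1097498361856 570425344 = true := by decide +kernel

theorem b25 {lam : ℝ} (hlam : |(S : ℝ) * lam - ((P.lp : ℝ) - P.ln)| ≤ ((1 : ℕ) : ℝ)) : BoxS lam P 1098639212544 570425344 1097498361856 570425344 :=
  chk_sound hlam t25 1098639212544 570425344 1097498361856 570425344 (by norm_num) (by norm_num) c25

/-- Part of the subdivision. -/
def t26 : LT := (LT.a (LT.b (LT.a (LT.b (LT.l 4101 4094 4097 4097) (LT.a LT.z1 (LT.l 4100 4094 4097 4097))) (LT.b (LT.a (LT.l 4101 4094 4097 4097) (LT.l 4100 4094 4097 4097)) (LT.a (LT.b (LT.l 4100 4094 4097 4097) (LT.o 4099 4095 4097 4097)) (LT.o 4099 4095 4097 4097)))) (LT.a LT.z1 (LT.o 4098 4095 4097 4096))) (LT.b (LT.a (LT.b (LT.a (LT.b (LT.l 4100 4094 4096 4097) (LT.o 4099 4095 4096 4097)) (LT.b (LT.l 4099 4095 4096 4097) (LT.o 4099 4095 4096 4097))) (LT.o 4098 4095 4096 4097)) (LT.o 4098 4095 4096 4097)) (LT.o 4096 4096 4096 4096)))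

theorem c26 : chk P t26 1098639212544 570425344 1098639212544 570425344 = true := by decide +kernel

theorem b26 {lam : ℝ} (hlam : |(S : ℝ) * lam - ((P.lp : ℝ) - P.ln)| ≤ ((1 : ℕ) : ℝ)) : BoxS lam P 1098639212544 570425344 1098639212544 570425344 :=
  chk_sound hlam t26 1098639212544 570425344 1098639212544 570425344 (by norm_num) (by norm_num) c26

/-- Part of the subdivision. -/
def t27 : LT := (LT.a LT.z1 (LT.b (LT.a LT.z1 (LT.b (LT.a LT.z1 (LT.b (LT.a LT.z1 LT.z2) LT.z1)) LT.z1)) LT.z1))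

theorem c27 : chk P t27 1095216660480 2281701376 1099780063232 2281701376 = true := by decide +kernel

theorem b27 {lam : ℝ} (hlam : |(S : ℝ) * lam - ((P.lp : ℝ) - P.ln)| ≤ ((1 : ℕ) : ℝ)) : BoxS lam P 1095216660480 2281701376 1099780063232 2281701376 :=
  chk_sound hlam t27 1095216660480 2281701376 1099780063232 2281701376 (by norm_num) (by norm_num) c27

/-- Part of the subdivision. -/
def t28 : LT := (LT.b (LT.a (LT.b (LT.a (LT.b (LT.a (LT.l 4108 4091 4095 4102) (LT.l 4105 4092 4094 4102)) (LT.a (LT.b (LT.l 4104 4093 4095 4100) (LT.l 4102 4093 4095 4099)) (LT.b (LT.l 4102 4093 4094 4100) (LT.l 4100 4094 4094 4099)))) (LT.b (LT.l 4102 4093 4093 4102) (LT.a (LT.b (LT.l 4100 4094 4093 4100) LT.z2) LT.z2))) (LT.a (LT.b (LT.a (LT.b (LT.a (LT.l 4101 4094 4095 4099) (LT.l 4100 4094 4095 4099)) (LT.a (LT.b (LT.l 4099 4095 4095 4098) (LT.l 4098 4095 4095 4098)) (LT.b (LT.l 4098 4095 4095 4098) (LT.l 4097 4096 4095 4098)))) (LT.b (LT.l 4098 4095 4094 4099) LT.z2)) (LT.a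 (LT.b (LT.a (LT.o 4097 4096 4095 4097) LT.z2) LT.z2) LT.z2)) LT.z2)) LT.z2) LT.z2)

theorem c28 : chk P t28 1099780063232 2281701376 1095216660480 4563402752 = true := by decide +kernel

theorem b28 {lam : ℝ} (hlam : |(S : ℝ) * lam - ((P.lp : ℝ) - P.ln)| ≤ ((1 : ℕ) : ℝ)) : BoxS lam P 1099780063232 2281701376 1095216660480 4563402752 :=
  chk_sound hlam t28 1099780063232 2281701376 1095216660480 4563402752 (by norm_num) (by norm_num) c28

/-- Part of the subdivision. -/
def t29 : LT := (LT.a LT.z1 LT.z2)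

theorem c29 : chk P t29 1095216660480 4563402752 1104343465984 4563402752 = true := by decide +kernel

theorem b29 {lam : ℝ} (hlam : |(S : ℝ) * lam - ((P.lp : ℝ) - P.ln)| ≤ ((1 : ℕ) : ℝ)) : BoxS lam P 1095216660480 4563402752 1104343465984 4563402752 :=
  chk_sound hlam t29 1095216660480 4563402752 1104343465984 4563402752 (by norm_num) (by norm_num) c29

/-- Part of the subdivision. -/
def t30 : LT := LT.z2

theorem c30 : chk P t30 1104343465984 4563402752 1095216660480 9126805504 = true := by decide +kernel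

theorem b30 {lam : ℝ} (hlam : |(S : ℝ) * lam - ((P.lp : ℝ) - P.ln)| ≤ ((1 : ℕ) : ℝ)) : BoxS lam P 1104343465984 4563402752 1095216660480 9126805504 :=
  chk_sound hlam t30 1104343465984 4563402752 1095216660480 9126805504 (by norm_num) (by norm_num) c30

/-- Part of the subdivision. -/
def t31 : LT := LT.z2

theorem c31 : chk P t31 1095216660480 9126805504 1113470271488 9126805504 = true := by decide +kernel

theorem b31 {lam : ℝ} (hlam : |(S : ℝ) * lam - ((P.lp : ℝ) - P.ln)| ≤ ((1 : ℕ) : ℝ)) : BoxS lam P 1095216660480 9126805504 1113470271488 9126805504 :=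
  chk_sound hlam t31 1095216660480 9126805504 1113470271488 9126805504 (by norm_num) (by norm_num) c31

/-- Part of the subdivision. -/
def t32 : LT := LT.z2

theorem c32 : chk P t32 1113470271488 9126805504 1095216660480 18253611008 = true := by decide +kernel

theorem b32 {lam : ℝ} (hlam : |(S : ℝ) * lam - ((P.lp : ℝ) - P.ln)| ≤ ((1 : ℕ) : ℝ)) : BoxS lam P 1113470271488 9126805504 1095216660480 18253611008 :=
  chk_sound hlam t32 1113470271488 9126805504 1095216660480 18253611008 (by norm_num) (by norm_num) c32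

/-- Part of the subdivision. -/
def t33 : LT := LT.z2

theorem c33 : chk P t33 1095216660480 18253611008 1131723882496 18253611008 = true := by decide +kernel

theorem b33 {lam : ℝ} (hlam : |(S : ℝ) * lam - ((P.lp : ℝ) - P.ln)| ≤ ((1 : ℕ) : ℝ)) : BoxS lam P 1095216660480 18253611008 1131723882496 18253611008 :=
  chk_sound hlam t33 1095216660480 18253611008 1131723882496 18253611008 (by norm_num) (by norm_num) c33

/-- Part of the subdivision. -/
def t34 : LT := LT.z2

theorem c34 : chk P t34 1131723882496 18253611008 1095216660480 36507222016 = true := by decide +kernel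

theorem b34 {lam : ℝ} (hlam : |(S : ℝ) * lam - ((P.lp : ℝ) - P.ln)| ≤ ((1 : ℕ) : ℝ)) : BoxS lam P 1131723882496 18253611008 1095216660480 36507222016 :=
  chk_sound hlam t34 1131723882496 18253611008 1095216660480 36507222016 (by norm_num) (by norm_num) c34

/-- The whole box. -/
theorem box {lam : ℝ} (hlam : |(S : ℝ) * lam - ((P.lp : ℝ) - P.ln)| ≤ ((1 : ℕ) : ℝ)) : BoxS lam P 0 HH 0 HH :=
  (BoxS.sa' (x1 := 584115552256) (h := 292057776128) (by norm_num [HH]) (by norm_num) (b0 hlam) (BoxS.sb' (t1 := 584115552256) (h := 292057776128) (by norm_num [HH]) (by norm_num) (b1 hlam) (BoxS.sa' (x1 := 876173328384) (h := 146028888064) (by norm_num [HH]) (by norm_num) (b2 hlam) (BoxS.sb' (t1 := 876173328384) (h := 146028888064) (by norm_num [HH]) (by norm_num) (b3 hlam) (BoxS.sa' (x1 := 1022202216448) (h := 73014444032) (by norm_num [HH]) (by norm_num) (BoxS.sb' (t1 := 1022202216448) (h := 73014444032) (by norm_num [HH]) (by norm_num) (BoxS.sa' (x1 := 949187772416) (h := 36507222016)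 (by norm_num [HH]) (by norm_num) (b4 hlam) (BoxS.sb' (t1 := 949187772416) (h := 36507222016) (by norm_num [HH]) (by norm_num) (b5 hlam) (b6 hlam))) (b7 hlam)) (BoxS.sb' (t1 := 1022202216448) (h := 73014444032) (by norm_num [HH]) (by norm_num) (BoxS.sa' (x1 := 1095216660480) (h := 36507222016) (by norm_num [HH]) (by norm_num) (b8 hlam) (b9 hlam)) (BoxS.sa' (x1 := 1095216660480) (h := 36507222016) (by norm_num [HH]) (by norm_num) (BoxS.sb' (t1 := 1095216660480) (h := 36507222016) (by norm_num [HH]) (by norm_num) (BoxS.sa' (x1 := 1058709438464) (h := 18253611008) (by norm_num [HH]) (by norm_num) (b10 hlam) (BoxS.sb' (t1 := 1058709438464) (h := 18253611008) (by norm_num [HH]) (by norm_num) (b11 hlam) (b12 hlam))) (b13 hlam)) (BoxS.sb' (t1 := 1095216660480) (h := 36507222016) (by norm_num [HH]) (by norm_num) (BoxS.sa' (x1 := 1131723882496) (h := 18253611008) (by norm_num [HH]) (by norm_num) (BoxS.sb' (t1 := 1058709438464) (h := 18253611008) (by norm_num [HH]) (by norm_num)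 (b14 hlam) (BoxS.sa' (x1 := 1113470271488) (h := 9126805504) (by norm_num [HH]) (by norm_num) (BoxS.sb' (t1 := 1076963049472) (h := 9126805504) (by norm_num [HH]) (by norm_num) (b15 hlam) (BoxS.sa' (x1 := 1104343465984) (h := 4563402752) (by norm_num [HH]) (by norm_num) (BoxS.sb' (t1 := 1086089854976) (h := 4563402752) (by norm_num [HH]) (by norm_num) (b16 hlam) (BoxS.sa' (x1 := 1099780063232) (h := 2281701376) (by norm_num [HH]) (by norm_num) (b17 hlam) (b18 hlam))) (b19 hlam))) (b20 hlam))) (b21 hlam)) (BoxS.sa' (x1 := 1131723882496) (h := 18253611008) (by norm_num [HH]) (by norm_num) (BoxS.sb' (t1 := 1131723882496) (h := 18253611008) (by norm_num [HH]) (by norm_num) (BoxS.sa' (x1 := 1113470271488) (h := 9126805504) (by norm_num [HH]) (by norm_num) (BoxS.sb' (t1 := 1113470271488) (h := 9126805504) (by norm_num [HH]) (by norm_num) (BoxS.sa' (x1 := 1104343465984) (h := 4563402752) (by norm_num [HH]) (by norm_num) (BoxS.sb' (t1 := 1104343465984) (h := 4563402752)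 (by norm_num [HH]) (by norm_num) (BoxS.sa' (x1 := 1099780063232) (h := 2281701376) (by norm_num [HH]) (by norm_num) (BoxS.sb' (t1 := 1099780063232) (h := 2281701376) (by norm_num [HH]) (by norm_num) (BoxS.sa' (x1 := 1097498361856) (h := 1140850688) (by norm_num [HH]) (by norm_num) (b22 hlam) (BoxS.sb' (t1 := 1097498361856) (h := 1140850688) (by norm_num [HH]) (by norm_num) (b23 hlam) (BoxS.sa' (x1 := 1098639212544) (h := 570425344) (by norm_num [HH]) (by norm_num) (b24 hlam) (BoxS.sb' (t1 := 1098639212544) (h := 570425344) (by norm_num [HH]) (by norm_num) (b25 hlam) (b26 hlam))))) (b27 hlam)) (b28 hlam)) (b29 hlam)) (b30 hlam)) (b31 hlam)) (b32 hlam)) (b33 hlam)) (b34 hlam))))))))))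

end Vale.Agent.P154H.Tm.D6
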