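import Vale.Agent.P154H.Msg

set_option maxRecDepth 100000

/-!
The subdivision for `d = 7`.
-/

namespace Vale.Agent.P154H.Tm.D7

/-- A row. -/
def Ra : Row := Row.mk 0 175158 0 868797 1572468 0 1226106 0 6081579 0 0 11007276 0 544 0 383488 0 6125112

/-- A row. -/
def Rb : Row := Row.mk 0 2938663600128 0 14575994929152 26381635289088 0 20106507080016 0 99303219135057 0 0 179390586626048 0 9126805504 0 6433861009408 0 100840021664214
/-- A row. -/
def Q0 : Row := Row.mk 0 0 0 0 0 0 7473408 0 0 0 0 0 0 0 0 0 0 5346279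

/-- A row. -/
def Q1 : Row := Row.mk 0 0 0 0 0 0 0 0 296549376 0 0 0 0 0 0 0 0 173207163

/-- A row. -/
def Q2 : Row := Row.mk 0 0 0 0 0 0 0 0 0 0 512 0 0 0 0 0 0 1191

/-- A row. -/
def Q3 : Row := Row.mk 0 358723584 0 1779296256 3220414464 0 2450136000 0 12100169152 0 0 21828945280 0 1114112 0 0 0 12373672143

/-- A row. -/
def Q4 : Row := Row.mk 0 358723584 0 1779296256 3220414464 0 2444229504 0 12050163552 0 0 21730618432 0 1114112 0 0 0 12350839383

/-- A row. -/
def Q5 : Row := Row.mk 0 179361792 0 889648128 1610207232 0 1215778336 0 5997954480 0 0 10809509024 0 557056 0 0 0 6161008119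

/-- A row. -/
def Q6 : Row := Row.mk 0 358723584 0 1779296256 3220414464 0 2422394752 0 11931677440 0 0 21492521216 0 1114112 0 0 0 12288553833

/-- A row. -/
def Q7 : Row := Row.mk 0 179361792 0 889648128 1610207232 0 1204991488 0 5930444384 0 0 10674566496 0 557056 0 0 0 6128298333

/-- A row. -/
def Q8 : Row := Row.mk 0 358723584 0 1779296256 3220414464 0 2396905408 0 11779016736 0 0 21186694080 0 1114112 0 0 0 12213314121

/-- A row. -/
def Q9 : Row := Row.mk 0 358723584 0 1779296256 3220414464 0 2383776960 0 11685987328 0 0 21002661568 0 1114112 0 0 0 12167653665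

/-- A row. -/
def Q10 : Row := Row.mk 0 358723584 0 1779296256 3220414464 0 2364305984 0 11585516992 0 0 20794628160 0 1114112 0 0 0 12130063929

/-- A row. -/
def Q11 : Row := Row.mk 0 44840448 0 222412032 402551808 0 293446840 0 1433490764 0 0 2569954176 0 139264 0 0 0 1509856719

/-- A row. -/
def Q12 : Row := Row.mk 0 89680896 0 444824064 805103616 0 580807120 0 2833943152 0 0 5073615072 0 278528 0 0 0 3001993167

/-- A row. -/
def Q13 : Row := Row.mk 0 89680896 0 444824064 805103616 0 574479616 0 2796853408 0 0 4998926880 0 278528 0 0 0 2984359521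

/-- A row. -/
def Q14 : Row := Row.mk 0 358723584 0 1779296256 3220414464 0 2266287808 0 11020323392 0 0 19659632896 0 1114112 0 0 0 11847481947

/-- A row. -/
def Q15 : Row := Row.mk 0 179361792 0 889648128 1610207232 0 1118266912 0 5415848624 0 0 9641248992 0 557056 0 0 0 5878368009

/-- A row. -/
def Q16 : Row := Row.mk 0 89680896 0 444824064 805103616 0 549805200 0 2655257832 0 0 4715002608 0 278528 0 0 0 2911735929

/-- A row. -/
def Q17 : Row := Row.mk 0 358723584 0 1779296256 3220414464 0 2165321984 0 10382152416 0 0 18387961152 0 1114112 0 0 0 11526460863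

/-- A row. -/
def Q18 : Row := Row.mk 0 358723584 0 1779296256 3220414464 0 2114120320 0 10121839424 0 0 17861987520 0 1114112 0 0 0 11386682103

/-- A row. -/
def Q19 : Row := Row.mk 0 358723584 0 1779296256 3220414464 0 2064468544 0 9830185632 0 0 17277844160 0 1114112 0 0 0 11237245755

/-- A row. -/
def Q20 : Row := Row.mk 0 179361792 0 889648128 1610207232 0 1006007264 0 4753176848 0 0 8315759936 0 557056 0 0 0 5535990111

/-- A row. -/
def Q21 : Row := Row.mk 0 179361792 0 889648128 1610207232 0 973762432 0 4575959264 0 0 7959813024 0 557056 0 0 0 5441322765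

/-- A row. -/
def Q22 : Row := Row.mk 0 358723584 0 1779296256 3220414464 0 1883455168 0 8761678336 0 0 15139471808 0 1114112 0 0 0 10682684619

/-- A row. -/
def Q23 : Row := Row.mk 0 89680896 0 444824064 805103616 0 454496912 0 2083825616 0 0 3572360352 0 278528 0 0 0 2617247535

/-- A row. -/
def Q24 : Row := Row.mk 0 44840448 0 222412032 402551808 0 218457568 0 984114052 0 0 1671206776 0 139264 0 0 0 1278926151

/-- A row. -/
def Q25 : Row := Row.mk 0 89680896 0 444824064 805103616 0 413430144 0 1848266480 0 0 3095542496 0 278528 0 0 0 2503280175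

/-- A row. -/
def Q26 : Row := Row.mk 0 358723584 0 1779296256 3220414464 0 1566585152 0 6880794400 0 0 11331531648 0 1114112 0 0 0 9801941433

/-- A row. -/
def Q27 : Row := Row.mk 0 44840448 0 222412032 402551808 0 183513112 0 788985556 0 0 1278240816 0 139264 0 0 0 1174252149

/-- A row. -/
def Q28 : Row := Row.mk 0 358723584 0 1779296256 3220414464 0 1366960000 0 5736851648 0 0 9077155264 0 1114112 0 0 0 9054401949

/-- A row. -/
def Q29 : Row := Row.mk 0 358723584 0 1779296256 3220414464 0 1261714048 0 5229625056 0 0 7901188736 0 1114112 0 0 0 9115571265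

/-- A row. -/
def Q30 : Row := Row.mk 0 358723584 0 1779296256 3220414464 0 1192455360 0 4784301856 0 0 6718781952 0 1114112 0 0 0 9576824139

/-- A row. -/
def Q31 : Row := Row.mk 0 358723584 0 1779296256 3220414464 0 1096929920 0 4308753568 0 0 5502186048 0 1114112 0 0 0 9852291051


/-- The data. -/
def P : Pb where
  lp := 0
  ln := 27235210556858266
  ab := 3298534883328
  r1 := [Ra, Rb]
  r2 := [Q0, Q1, Q2, Q3, Q4, Q5, Q6, Q7, Q8, Q9, Q10, Q11, Q12, Q13, Q14, Q15, Q16, Q17, Q18, Q19, Q20, Q21, Q22, Q23, Q24, Q25, Q26, Q27, Q28, Q29, Q30, Q31]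

/-- Part of the subdivision. -/
def t0 : LT := (LT.b (LT.a (LT.l 4699 3434 4263 4263) (LT.l 4699 3434 4263 4263)) (LT.a LT.z1 (LT.b (LT.a LT.z1 (LT.b (LT.l 4695 3446 4263 4261) LT.z1)) LT.z1)))

theorem c0 : chk P t0 0 292057776128 0 584115552256 = true := by decide +kernel

theorem b0 {lam : ℝ} (hlam : |(S : ℝ) * lam - ((P.lp : ℝ) - P.ln)| ≤ ((1 : ℕ) : ℝ)) : BoxS lam P 0 292057776128 0 584115552256 :=
  chk_sound hlam t0 0 292057776128 0 584115552256 (by norm_num) (by norm_num) c0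

/-- Part of the subdivision. -/
def t1 : LT := (LT.a (LT.b (LT.a (LT.l 4696 3445 4261 4263) (LT.l 4683 3485 4252 4263)) (LT.a (LT.l 4696 3445 4261 4263) (LT.l 4683 3486 4252 4263))) (LT.b (LT.a (LT.l 4636 3606 4217 4263) (LT.b (LT.a (LT.l 4536 3778 4144 4263) (LT.l 4390 3931 4043 4263)) (LT.a (LT.l 4536 3778 4144 4263) (LT.l 4390 3931 4043 4263)))) (LT.a (LT.b (LT.l 4636 3606 4217 4263) (LT.a (LT.l 4653 3566 4230 4263) (LT.l 4611 3656 4199 4263))) (LT.b (LT.a (LT.l 4536 3778 4144 4263) (LT.l 4390 3931 4043 4263)) (LT.a (LT.l 4535 3778 4144 4263) (LT.b (LT.l 4389 3932 4043 4263) (LT.a (LT.l 4435 3891 4075 4263) (LT.l 4332 3975 4006 4263))))))))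

theorem c1 : chk P t1 584115552256 292057776128 0 292057776128 = true := by decide +kernel

theorem b1 {lam : ℝ} (hlam : |(S : ℝ) * lam - ((P.lp : ℝ) - P.ln)| ≤ ((1 : ℕ) : ℝ)) : BoxS lam P 584115552256 292057776128 0 292057776128 :=
  chk_sound hlam t1 584115552256 292057776128 0 292057776128 (by norm_num) (by norm_num) c1

/-- Part of the subdivision. -/
def t2 : LT := (LT.b (LT.a (LT.b (LT.l 4693 3455 4261 4261) (LT.l 4680 3495 4261 4252)) (LT.b (LT.l 4680 3495 4252 4261) (LT.a (LT.l 4672 3518 4255 4252) (LT.l 4659 3550 4246 4252)))) (LT.a LT.z1 (LT.b (LT.a LT.z1 (LT.b (LT.l 4629 3621 4246 4230) LT.z1)) LT.z1)))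

theorem c2 : chk P t2 584115552256 146028888064 584115552256 292057776128 = true := by decide +kernel

theorem b2 {lam : ℝ} (hlam : |(S : ℝ) * lam - ((P.lp : ℝ) - P.ln)| ≤ ((1 : ℕ) : ℝ)) : BoxS lam P 584115552256 146028888064 584115552256 292057776128 :=
  chk_sound hlam t2 584115552256 146028888064 584115552256 292057776128 (by norm_num) (by norm_num) c2

/-- Part of the subdivision. -/
def t3 : LT := (LT.a (LT.b (LT.a (LT.l 4650 3573 4230 4261) (LT.l 4608 3662 4199 4261)) (LT.a (LT.b (LT.l 4641 3593 4230 4255) (LT.l 4629 3621 4230 4246)) (LT.b (LT.l 4599 3678 4199 4255) (LT.a (LT.l 4599 3679 4209 4246) (LT.l 4570 3728 4188 4246))))) (LT.b (LT.a (LT.b (LT.l 4533 3781 4144 4262) (LT.l 4529 3786 4144 4260)) (LT.b (LT.a (LT.l 4433 3893 4075 4262) (LT.l 4329 3977 4006 4262)) (LT.a (LT.l 4429 3897 4075 4260) (LT.l 4324 3980 4006 4260)))) (LT.a (LT.b (LT.a (LT.l 4546 3764 4161 4255) (LT.l 4493 3831 4125 4255)) (LT.a (LT.l 4531 3784 4161 4246) (LT.l 4477 3849 4125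 4246))) (LT.b (LT.a (LT.l 4420 3906 4075 4255) (LT.l 4313 3987 4006 4255)) (LT.a (LT.l 4402 3922 4075 4246) (LT.l 4292 4001 4006 4246))))))

theorem c3 : chk P t3 876173328384 146028888064 584115552256 146028888064 = true := by decide +kernel

theorem b3 {lam : ℝ} (hlam : |(S : ℝ) * lam - ((P.lp : ℝ) - P.ln)| ≤ ((1 : ℕ) : ℝ)) : BoxS lam P 876173328384 146028888064 584115552256 146028888064 :=
  chk_sound hlam t3 876173328384 146028888064 584115552256 146028888064 (by norm_num) (by norm_num) c3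

/-- Part of the subdivision. -/
def t4 : LT := (LT.b (LT.a (LT.b (LT.a (LT.l 4612 3655 4235 4230) (LT.b (LT.l 4603 3671 4224 4235) (LT.l 4587 3700 4224 4224))) (LT.a LT.z1 (LT.b (LT.l 4564 3737 4224 4209) LT.z1))) (LT.b (LT.a (LT.b (LT.l 4581 3709 4209 4235) (LT.l 4564 3737 4209 4224)) (LT.b (LT.l 4552 3755 4188 4235) (LT.l 4534 3780 4188 4224))) (LT.a (LT.b (LT.a (LT.l 4547 3761 4213 4209) (LT.b (LT.l 4540 3771 4204 4213) (LT.l 4527 3790 4204 4204))) (LT.a LT.z1 (LT.b (LT.l 4511 3810 4204 4194) LT.z1))) (LT.b (LT.a (LT.b (LT.l 4525 3792 4194 4213) (LT.l 4511 3810 4194 4204)) (LT.b (LT.l 4507 3815 4182 4213) (LT.l 4492 3832 4182 4204))) (LT.a (LT.b (LT.l 4495 3829 4194 4194) (LT.l 4475 3851 4194 4182)) (LT.b (LT.l 4475 3851 4182 4194) (LT.a (LT.l 4461 3866 4185 4182) (LT.l 4450 3877 4179 4182)))))))) (LT.a LT.z1 (LT.b (LT.a LT.z1 (LT.b (LT.a LT.z1 (LT.b (LT.a LT.z1 (LT.l 4427 3899 4179 4169)) LT.z1)) LT.z1)) LT.z1)))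

theorem c4 : chk P t4 876173328384 73014444032 876173328384 146028888064 = true := by decide +kernel

theorem b4 {lam : ℝ} (hlam : |(S : ℝ) * lam - ((P.lp : ℝ) - P.ln)| ≤ ((1 : ℕ) : ℝ)) : BoxS lam P 876173328384 73014444032 876173328384 146028888064 :=
  chk_sound hlam t4 876173328384 73014444032 876173328384 146028888064 (by norm_num) (by norm_num) c4

/-- Part of the subdivision. -/
def t5 : LT := (LT.b (LT.a (LT.b (LT.l 4511 3809 4161 4235) (LT.l 4492 3832 4161 4224)) (LT.b (LT.l 4456 3871 4125 4235) (LT.l 4435 3892 4125 4224))) (LT.a (LT.b (LT.a (LT.l 4478 3848 4169 4209) (LT.l 4453 3874 4153 4209)) (LT.a (LT.b (LT.l 4453 3874 4169 4194) (LT.a (LT.l 4439 3888 4172 4182) (LT.l 4426 3900 4165 4182))) (LT.b (LT.l 4427 3899 4153 4194) (LT.l 4406 3918 4153 4182)))) (LT.b (LT.a (LT.l 4423 3903 4135 4209) (LT.l 4388 3933 4114 4209)) (LT.a (LT.b (LT.l 4396 3926 4135 4194) (LT.l 4373 3944 4135 4182)) (LT.b (LT.l 4359 3956 4114 4194) (LT.l 4335 3973 4114 4182))))))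

theorem c5 : chk P t5 1022202216448 36507222016 876173328384 73014444032 = true := by decide +kernel

theorem b5 {lam : ℝ} (hlam : |(S : ℝ) * lam - ((P.lp : ℝ) - P.ln)| ≤ ((1 : ℕ) : ℝ)) : BoxS lam P 1022202216448 36507222016 876173328384 73014444032 :=
  chk_sound hlam t5 1022202216448 36507222016 876173328384 73014444032 (by norm_num) (by norm_num) c5

/-- Part of the subdivision. -/
def t6 : LT := (LT.b (LT.a (LT.b (LT.l 4378 3941 4075 4235) (LT.l 4354 3959 4075 4224)) (LT.b (LT.l 4263 4018 4006 4235) (LT.a (LT.l 4269 4015 4025 4224) LT.z2))) (LT.a (LT.b (LT.a (LT.l 4346 3965 4089 4209) (LT.l 4294 3999 4060 4209)) (LT.a (LT.b (LT.l 4314 3987 4089 4194) (LT.l 4289 4003 4089 4182)) (LT.b (LT.l 4260 4020 4060 4194) (LT.l 4232 4035 4060 4182)))) (LT.b (LT.a (LT.l 4231 4035 4025 4209) LT.z2) (LT.a (LT.b (LT.l 4194 4054 4025 4194) LT.z2) LT.z2))))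

theorem c6 : chk P t6 1095216660480 36507222016 876173328384 73014444032 = true := by decide +kernel

theorem b6 {lam : ℝ} (hlam : |(S : ℝ) * lam - ((P.lp : ℝ) - P.ln)| ≤ ((1 : ℕ) : ℝ)) : BoxS lam P 1095216660480 36507222016 876173328384 73014444032 :=
  chk_sound hlam t6 1095216660480 36507222016 876173328384 73014444032 (by norm_num) (by norm_num) c6

/-- Part of the subdivision. -/
def t7 : LT := (LT.b (LT.a (LT.b (LT.a (LT.l 4415 3910 4172 4169) (LT.l 4402 3921 4165 4169)) (LT.a LT.z1 (LT.l 4374 3944 4165 4153))) (LT.b (LT.a (LT.l 4388 3933 4157 4169) (LT.l 4373 3945 4149 4169)) (LT.a (LT.l 4359 3955 4157 4153) (LT.b (LT.l 4351 3961 4149 4157) (LT.l 4334 3973 4149 4149))))) (LT.a LT.z1 (LT.b (LT.a LT.z1 (LT.b (LT.l 4317 3985 4149 4140) LT.z1)) LT.z1)))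

theorem c7 : chk P t7 1022202216448 18253611008 1022202216448 36507222016 = true := by decide +kernel

theorem b7 {lam : ℝ} (hlam : |(S : ℝ) * lam - ((P.lp : ℝ) - P.ln)| ≤ ((1 : ℕ) : ℝ)) : BoxS lam P 1022202216448 18253611008 1022202216448 36507222016 :=
  chk_sound hlam t7 1022202216448 18253611008 1022202216448 36507222016 (by norm_num) (by norm_num) c7

/-- Part of the subdivision. -/
def t8 : LT := (LT.a (LT.b (LT.a (LT.l 4356 3958 4140 4169) (LT.l 4338 3971 4130 4169)) (LT.a (LT.b (LT.l 4333 3974 4140 4157) (LT.l 4317 3985 4140 4149)) (LT.b (LT.l 4314 3987 4130 4157) (LT.l 4297 3998 4130 4149)))) (LT.b (LT.a (LT.l 4318 3984 4119 4169) (LT.l 4296 3999 4108 4169)) (LT.a (LT.b (LT.l 4294 4000 4119 4157) (LT.l 4276 4011 4119 4149)) (LT.b (LT.l 4271 4014 4108 4157) (LT.l 4252 4024 4108 4149)))))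

theorem c8 : chk P t8 1058709438464 18253611008 1022202216448 18253611008 = true := by decide +kernel

theorem b8 {lam : ℝ} (hlam : |(S : ℝ) * lam - ((P.lp : ℝ) - P.ln)| ≤ ((1 : ℕ) : ℝ)) : BoxS lam P 1058709438464 18253611008 1022202216448 18253611008 :=
  chk_sound hlam t8 1058709438464 18253611008 1022202216448 18253611008 (by norm_num) (by norm_num) c8

/-- Part of the subdivision. -/
def t9 : LT := (LT.a (LT.b (LT.a (LT.b (LT.l 4298 3997 4140 4140) (LT.l 4278 4009 4140 4130)) (LT.b (LT.l 4278 4009 4130 4140) (LT.l 4257 4021 4130 4130))) (LT.a LT.z1 (LT.b (LT.l 4234 4034 4130 4119) LT.z1))) (LT.b (LT.a (LT.b (LT.l 4256 4022 4119 4140) (LT.l 4234 4034 4119 4130)) (LT.b (LT.l 4232 4035 4108 4140) (LT.a (LT.l 4216 4044 4111 4130) (LT.l 4202 4050 4105 4130)))) (LT.a (LT.b (LT.a (LT.l 4217 4043 4122 4119) (LT.l 4204 4049 4117 4119)) (LT.a LT.z1 (LT.b (LT.l 4185 4059 4117 4111) LT.z1))) (LT.b (LT.a (LT.b (LT.l 4198 4053 4111 4122) (LT.l 4185 4059 4111 4117)) (LT.b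 (LT.l 4184 4059 4105 4122) (LT.l 4171 4065 4105 4117))) (LT.a (LT.b (LT.l 4171 4065 4111 4111) (LT.a LT.z1 (LT.l 4153 4073 4109 4105))) (LT.b (LT.a (LT.l 4160 4070 4107 4111) (LT.l 4153 4073 4103 4111)) (LT.a (LT.b (LT.l 4150 4074 4107 4107) (LT.l 4142 4078 4107 4103)) (LT.b (LT.l 4142 4078 4103 4107) (LT.l 4135 4081 4103 4103)))))))))

theorem c9 : chk P t9 1058709438464 18253611008 1058709438464 18253611008 = true := by decide +kernel

theorem b9 {lam : ℝ} (hlam : |(S : ℝ) * lam - ((P.lp : ℝ) - P.ln)| ≤ ((1 : ℕ) : ℝ)) : BoxS lam P 1058709438464 18253611008 1058709438464 18253611008 :=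
  chk_sound hlam t9 1058709438464 18253611008 1058709438464 18253611008 (by norm_num) (by norm_num) c9

/-- Part of the subdivision. -/
def t10 : LT := (LT.a LT.z1 (LT.b (LT.a LT.z1 (LT.b (LT.a LT.z1 (LT.b (LT.a LT.z1 (LT.b (LT.a LT.z1 (LT.b (LT.a LT.z1 (LT.l 4125 4085 4103 4100)) LT.z1)) LT.z1)) LT.z1)) LT.z1)) LT.z1))

theorem c10 : chk P t10 1022202216448 36507222016 1095216660480 36507222016 = true := by decide +kernel

theorem b10 {lam : ℝ} (hlam : |(S : ℝ) * lam - ((P.lp : ℝ) - P.ln)| ≤ ((1 : ℕ) : ℝ)) : BoxS lam P 1022202216448 36507222016 1095216660480 36507222016 :=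
  chk_sound hlam t10 1022202216448 36507222016 1095216660480 36507222016 (by norm_num) (by norm_num) c10

/-- Part of the subdivision. -/
def t11 : LT := (LT.a (LT.b (LT.a (LT.l 4272 4013 4096 4169) (LT.l 4245 4028 4082 4169)) (LT.a (LT.b (LT.l 4246 4028 4096 4157) (LT.l 4226 4038 4096 4149)) (LT.b (LT.l 4218 4043 4082 4157) (LT.l 4197 4053 4082 4149)))) (LT.b (LT.a (LT.l 4215 4044 4068 4169) (LT.l 4182 4060 4052 4169)) (LT.a (LT.b (LT.l 4187 4058 4068 4157) (LT.l 4165 4068 4068 4149)) LT.z2)))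

theorem c11 : chk P t11 1095216660480 18253611008 1022202216448 18253611008 = true := by decide +kernel

theorem b11 {lam : ℝ} (hlam : |(S : ℝ) * lam - ((P.lp : ℝ) - P.ln)| ≤ ((1 : ℕ) : ℝ)) : BoxS lam P 1095216660480 18253611008 1022202216448 18253611008 :=
  chk_sound hlam t11 1095216660480 18253611008 1022202216448 18253611008 (by norm_num) (by norm_num) c11

/-- Part of the subdivision. -/
def t12 : LT := (LT.a (LT.b (LT.l 4205 4049 4096 4140) (LT.a (LT.l 4189 4057 4099 4130) (LT.l 4174 4064 4092 4130))) (LT.b (LT.l 4175 4063 4082 4140) (LT.a (LT.b (LT.l 4165 4068 4086 4133) (LT.l 4152 4073 4086 4127)) (LT.l 4142 4078 4079 4130))))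

theorem c12 : chk P t12 1095216660480 9126805504 1058709438464 9126805504 = true := by decide +kernel

theorem b12 {lam : ℝ} (hlam : |(S : ℝ) * lam - ((P.lp : ℝ) - P.ln)| ≤ ((1 : ℕ) : ℝ)) : BoxS lam P 1095216660480 9126805504 1058709438464 9126805504 :=
  chk_sound hlam t12 1095216660480 9126805504 1058709438464 9126805504 (by norm_num) (by norm_num) c12

/-- Part of the subdivision. -/
def t13 : LT := (LT.a (LT.b (LT.l 4169 4066 4099 4122) (LT.a (LT.l 4160 4070 4100 4117) (LT.l 4152 4073 4097 4117))) (LT.b (LT.l 4154 4072 4092 4122) (LT.a (LT.l 4144 4077 4094 4117) (LT.l 4136 4080 4091 4117))))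

theorem c13 : chk P t13 1095216660480 4563402752 1076963049472 4563402752 = true := by decide +kernel

theorem b13 {lam : ℝ} (hlam : |(S : ℝ) * lam - ((P.lp : ℝ) - P.ln)| ≤ ((1 : ℕ) : ℝ)) : BoxS lam P 1095216660480 4563402752 1076963049472 4563402752 :=
  chk_sound hlam t13 1095216660480 4563402752 1076963049472 4563402752 (by norm_num) (by norm_num) c13

/-- Part of the subdivision. -/
def t14 : LT := (LT.b (LT.a (LT.b (LT.l 4149 4075 4100 4112) (LT.l 4142 4078 4100 4109)) (LT.b (LT.l 4141 4078 4097 4112) (LT.l 4134 4081 4097 4109))) (LT.a (LT.b (LT.l 4134 4081 4100 4107) (LT.a (LT.l 4129 4083 4101 4103) (LT.l 4125 4085 4100 4103))) (LT.b (LT.a (LT.l 4128 4083 4098 4107) (LT.l 4124 4085 4096 4107)) (LT.a (LT.b (LT.l 4123 4086 4098 4104) (LT.l 4119 4087 4098 4103)) (LT.b (LT.l 4119 4087 4096 4104) (LT.l 4115 4089 4096 4103))))))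

theorem c14 : chk P t14 1095216660480 2281701376 1086089854976 4563402752 = true := by decide +kernel

theorem b14 {lam : ℝ} (hlam : |(S : ℝ) * lam - ((P.lp : ℝ) - P.ln)| ≤ ((1 : ℕ) : ℝ)) : BoxS lam P 1095216660480 2281701376 1086089854976 4563402752 :=
  chk_sound hlam t14 1095216660480 2281701376 1086089854976 4563402752 (by norm_num) (by norm_num) c14

/-- Part of the subdivision. -/
def t15 : LT := (LT.b (LT.a (LT.b (LT.l 4134 4081 4094 4112) (LT.l 4126 4084 4094 4109)) (LT.b (LT.l 4125 4085 4091 4112) (LT.l 4118 4088 4091 4109))) (LT.a (LT.b (LT.a (LT.l 4120 4087 4095 4107) (LT.l 4116 4088 4093 4107)) (LT.a (LT.b (LT.l 4115 4089 4095 4104) (LT.l 4111 4090 4095 4103)) (LT.b (LT.l 4110 4090 4093 4104) (LT.l 4106 4092 4093 4103)))) (LT.b (LT.l 4110 4091 4091 4107) (LT.a (LT.b (LT.l 4106 4092 4092 4104) (LT.l 4102 4094 4092 4103)) LT.z2))))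

theorem c15 : chk P t15 1099780063232 2281701376 1086089854976 4563402752 = true := by decide +kernel

theorem b15 {lam : ℝ} (hlam : |(S : ℝ) * lam - ((P.lp : ℝ) - P.ln)| ≤ ((1 : ℕ) : ℝ)) : BoxS lam P 1099780063232 2281701376 1086089854976 4563402752 :=
  chk_sound hlam t15 1099780063232 2281701376 1086089854976 4563402752 (by norm_num) (by norm_num) c15

/-- Part of the subdivision. -/
def t16 : LT := (LT.b (LT.a (LT.b (LT.l 4138 4079 4086 4122) (LT.l 4124 4085 4086 4117)) (LT.b (LT.l 4121 4086 4079 4122) LT.z2)) (LT.a (LT.b (LT.a (LT.b (LT.l 4117 4088 4087 4112) (LT.l 4109 4091 4087 4109)) LT.z2) LT.z2) LT.z2))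

theorem c16 : chk P t16 1104343465984 4563402752 1076963049472 9126805504 = true := by decide +kernel

theorem b16 {lam : ℝ} (hlam : |(S : ℝ) * lam - ((P.lp : ℝ) - P.ln)| ≤ ((1 : ℕ) : ℝ)) : BoxS lam P 1104343465984 4563402752 1076963049472 9126805504 :=
  chk_sound hlam t16 1104343465984 4563402752 1076963049472 9126805504 (by norm_num) (by norm_num) c16

/-- Part of the subdivision. -/
def t17 : LT := (LT.b (LT.a (LT.b (LT.l 4141 4078 4068 4140) LT.z2) LT.z2) LT.z2)

theorem c17 : chk P t17 1113470271488 9126805504 1058709438464 18253611008 = true := by decide +kernel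

theorem b17 {lam : ℝ} (hlam : |(S : ℝ) * lam - ((P.lp : ℝ) - P.ln)| ≤ ((1 : ℕ) : ℝ)) : BoxS lam P 1113470271488 9126805504 1058709438464 18253611008 :=
  chk_sound hlam t17 1113470271488 9126805504 1058709438464 18253611008 (by norm_num) (by norm_num) c17

/-- Part of the subdivision. -/
def t18 : LT := LT.z2

theorem c18 : chk P t18 1131723882496 18253611008 1022202216448 36507222016 = true := by decide +kernel

theorem b18 {lam : ℝ} (hlam : |(S : ℝ) * lam - ((P.lp : ℝ) - P.ln)| ≤ ((1 : ℕ) : ℝ)) : BoxS lam P 1131723882496 18253611008 1022202216448 36507222016 :=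
  chk_sound hlam t18 1131723882496 18253611008 1022202216448 36507222016 (by norm_num) (by norm_num) c18

/-- Part of the subdivision. -/
def t19 : LT := (LT.b (LT.a (LT.b (LT.l 4123 4086 4101 4101) (LT.l 4119 4087 4101 4100)) (LT.b (LT.l 4119 4087 4100 4101) (LT.a (LT.l 4116 4088 4100 4100) (LT.l 4114 4089 4099 4100)))) (LT.a LT.z1 (LT.b (LT.a LT.z1 (LT.b (LT.l 4111 4090 4099 4098) LT.z1)) LT.z1)))

theorem c19 : chk P t19 1095216660480 1140850688 1095216660480 2281701376 = true := by decide +kernel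

theorem b19 {lam : ℝ} (hlam : |(S : ℝ) * lam - ((P.lp : ℝ) - P.ln)| ≤ ((1 : ℕ) : ℝ)) : BoxS lam P 1095216660480 1140850688 1095216660480 2281701376 :=
  chk_sound hlam t19 1095216660480 1140850688 1095216660480 2281701376 (by norm_num) (by norm_num) c19

/-- Part of the subdivision. -/
def t20 : LT := (LT.a (LT.b (LT.l 4115 4089 4098 4101) (LT.a (LT.l 4112 4090 4098 4100) (LT.b (LT.l 4111 4090 4098 4100) (LT.l 4109 4091 4098 4099)))) (LT.b (LT.a (LT.l 4112 4090 4097 4101) (LT.l 4110 4091 4096 4101)) (LT.a (LT.b (LT.l 4109 4091 4097 4100) (LT.l 4107 4092 4097 4099)) (LT.b (LT.l 4107 4092 4096 4100) (LT.l 4105 4093 4096 4099)))))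

theorem c20 : chk P t20 1097498361856 1140850688 1095216660480 1140850688 = true := by decide +kernel

theorem b20 {lam : ℝ} (hlam : |(S : ℝ) * lam - ((P.lp : ℝ) - P.ln)| ≤ ((1 : ℕ) : ℝ)) : BoxS lam P 1097498361856 1140850688 1095216660480 1140850688 :=
  chk_sound hlam t20 1097498361856 1140850688 1095216660480 1140850688 (by norm_num) (by norm_num) c20

/-- Part of the subdivision. -/
def t21 : LT := (LT.b (LT.a (LT.b (LT.l 4109 4091 4098 4098) (LT.l 4107 4092 4098 4098)) (LT.b (LT.l 4107 4092 4098 4098) (LT.a (LT.l 4105 4093 4098 4098) (LT.l 4104 4093 4097 4098)))) (LT.a LT.z1 (LT.b (LT.a LT.z1 (LT.b (LT.l 4102 4094 4097 4097) LT.z1)) LT.z1)))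

theorem c21 : chk P t21 1097498361856 570425344 1097498361856 1140850688 = true := by decide +kernel

theorem b21 {lam : ℝ} (hlam : |(S : ℝ) * lam - ((P.lp : ℝ) - P.ln)| ≤ ((1 : ℕ) : ℝ)) : BoxS lam P 1097498361856 570425344 1097498361856 1140850688 :=
  chk_sound hlam t21 1097498361856 570425344 1097498361856 1140850688 (by norm_num) (by norm_num) c21

/-- Part of the subdivision. -/
def t22 : LT := (LT.a (LT.b (LT.a (LT.l 4105 4093 4097 4098) (LT.l 4104 4093 4097 4098)) (LT.a (LT.b (LT.l 4103 4093 4097 4098) (LT.l 4102 4094 4097 4097)) (LT.b (LT.l 4102 4094 4097 4098) (LT.l 4101 4094 4097 4097)))) (LT.b (LT.a (LT.l 4103 4093 4096 4098) (LT.l 4102 4094 4096 4098)) (LT.a (LT.b (LT.l 4101 4094 4096 4098) (LT.a (LT.l 4101 4094 4096 4097) (LT.l 4100 4094 4096 4097))) (LT.b (LT.l 4100 4094 4096 4098) (LT.a (LT.l 4100 4095 4096 4097) (LT.l 4099 4095 4096 4097))))))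

theorem c22 : chk P t22 1098639212544 570425344 1097498361856 570425344 = true := by decide +kernel

theorem b22 {lam : ℝ} (hlam : |(S : ℝ) * lam - ((P.lp : ℝ) - P.ln)| ≤ ((1 : ℕ) : ℝ)) : BoxS lam P 1098639212544 570425344 1097498361856 570425344 :=
  chk_sound hlam t22 1098639212544 570425344 1097498361856 570425344 (by norm_num) (by norm_num) c22

/-- Part of the subdivision. -/
def t23 : LT := (LT.a (LT.b (LT.a (LT.b (LT.l 4101 4094 4097 4097) (LT.a LT.z1 (LT.l 4100 4094 4097 4097))) (LT.b (LT.a (LT.l 4101 4094 4097 4097) (LT.l 4100 4094 4097 4097)) (LT.a (LT.b (LT.l 4100 4095 4097 4097) (LT.o 4099 4095 4097 4097)) (LT.o 4099 4095 4097 4097)))) (LT.a LT.z1 (LT.o 4098 4095 4097 4096))) (LT.b (LT.a (LT.b (LT.a (LT.b (LT.l 4100 4095 4096 4097) (LT.o 4099 4095 4096 4097)) (LT.b (LT.l 4099 4095 4096 4097) (LT.o 4099 4095 4096 4097))) (LT.o 4098 4095 4096 4097)) (LT.o 4098 4095 4096 4097)) (LT.o 4096 4096 4096 4096)))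

theorem c23 : chk P t23 1098639212544 570425344 1098639212544 570425344 = true := by decide +kernel

theorem b23 {lam : ℝ} (hlam : |(S : ℝ) * lam - ((P.lp : ℝ) - P.ln)| ≤ ((1 : ℕ) : ℝ)) : BoxS lam P 1098639212544 570425344 1098639212544 570425344 :=
  chk_sound hlam t23 1098639212544 570425344 1098639212544 570425344 (by norm_num) (by norm_num) c23

/-- Part of the subdivision. -/
def t24 : LT := (LT.a LT.z1 (LT.b (LT.a LT.z1 (LT.b (LT.a LT.z1 (LT.b (LT.a LT.z1 LT.z2) LT.z1)) LT.z1)) LT.z1))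

theorem c24 : chk P t24 1095216660480 2281701376 1099780063232 2281701376 = true := by decide +kernel

theorem b24 {lam : ℝ} (hlam : |(S : ℝ) * lam - ((P.lp : ℝ) - P.ln)| ≤ ((1 : ℕ) : ℝ)) : BoxS lam P 1095216660480 2281701376 1099780063232 2281701376 :=
  chk_sound hlam t24 1095216660480 2281701376 1099780063232 2281701376 (by norm_num) (by norm_num) c24

/-- Part of the subdivision. -/
def t25 : LT := (LT.b (LT.a (LT.b (LT.a (LT.b (LT.a (LT.l 4108 4092 4095 4101) (LT.l 4105 4092 4094 4101)) (LT.a (LT.b (LT.l 4104 4093 4095 4100) (LT.l 4102 4094 4095 4099)) (LT.b (LT.l 4102 4094 4094 4100) (LT.l 4100 4094 4094 4099)))) (LT.b (LT.l 4102 4094 4093 4101) (LT.a (LT.b (LT.l 4100 4094 4094 4100) LT.z2) LT.z2))) (LT.a (LT.b (LT.a (LT.b (LT.a (LT.l 4101 4094 4095 4098) (LT.l 4100 4095 4095 4098)) (LT.a (LT.b (LT.l 4099 4095 4095 4098) (LT.l 4098 4095 4095 4097)) (LT.b (LT.l 4098 4095 4095 4098) (LT.l 4097 4096 4095 4097)))) (LT.b (LT.l 4098 4095 4094 4098) LT.z2)) (LT.a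 (LT.b (LT.a (LT.o 4097 4096 4095 4097) LT.z2) LT.z2) LT.z2)) LT.z2)) LT.z2) LT.z2)

theorem c25 : chk P t25 1099780063232 2281701376 1095216660480 4563402752 = true := by decide +kernel

theorem b25 {lam : ℝ} (hlam : |(S : ℝ) * lam - ((P.lp : ℝ) - P.ln)| ≤ ((1 : ℕ) : ℝ)) : BoxS lam P 1099780063232 2281701376 1095216660480 4563402752 :=
  chk_sound hlam t25 1099780063232 2281701376 1095216660480 4563402752 (by norm_num) (by norm_num) c25

/-- Part of the subdivision. -/
def t26 : LT := (LT.a LT.z1 LT.z2)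

theorem c26 : chk P t26 1095216660480 4563402752 1104343465984 4563402752 = true := by decide +kernel

theorem b26 {lam : ℝ} (hlam : |(S : ℝ) * lam - ((P.lp : ℝ) - P.ln)| ≤ ((1 : ℕ) : ℝ)) : BoxS lam P 1095216660480 4563402752 1104343465984 4563402752 :=
  chk_sound hlam t26 1095216660480 4563402752 1104343465984 4563402752 (by norm_num) (by norm_num) c26

/-- Part of the subdivision. -/
def t27 : LT := LT.z2

theorem c27 : chk P t27 1104343465984 4563402752 1095216660480 9126805504 = true := by decide +kernel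

theorem b27 {lam : ℝ} (hlam : |(S : ℝ) * lam - ((P.lp : ℝ) - P.ln)| ≤ ((1 : ℕ) : ℝ)) : BoxS lam P 1104343465984 4563402752 1095216660480 9126805504 :=
  chk_sound hlam t27 1104343465984 4563402752 1095216660480 9126805504 (by norm_num) (by norm_num) c27

/-- Part of the subdivision. -/
def t28 : LT := LT.z2

theorem c28 : chk P t28 1095216660480 9126805504 1113470271488 9126805504 = true := by decide +kernel

theorem b28 {lam : ℝ} (hlam : |(S : ℝ) * lam - ((P.lp : ℝ) - P.ln)| ≤ ((1 : ℕ) : ℝ)) : BoxS lam P 1095216660480 9126805504 1113470271488 9126805504 :=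
  chk_sound hlam t28 1095216660480 9126805504 1113470271488 9126805504 (by norm_num) (by norm_num) c28

/-- Part of the subdivision. -/
def t29 : LT := LT.z2

theorem c29 : chk P t29 1113470271488 9126805504 1095216660480 18253611008 = true := by decide +kernel

theorem b29 {lam : ℝ} (hlam : |(S : ℝ) * lam - ((P.lp : ℝ) - P.ln)| ≤ ((1 : ℕ) : ℝ)) : BoxS lam P 1113470271488 9126805504 1095216660480 18253611008 :=
  chk_sound hlam t29 1113470271488 9126805504 1095216660480 18253611008 (by norm_num) (by norm_num) c29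

/-- Part of the subdivision. -/
def t30 : LT := LT.z2

theorem c30 : chk P t30 1095216660480 18253611008 1131723882496 18253611008 = true := by decide +kernel

theorem b30 {lam : ℝ} (hlam : |(S : ℝ) * lam - ((P.lp : ℝ) - P.ln)| ≤ ((1 : ℕ) : ℝ)) : BoxS lam P 1095216660480 18253611008 1131723882496 18253611008 :=
  chk_sound hlam t30 1095216660480 18253611008 1131723882496 18253611008 (by norm_num) (by norm_num) c30

/-- Part of the subdivision. -/
def t31 : LT := LT.z2

theorem c31 : chk P t31 1131723882496 18253611008 1095216660480 36507222016 = true := by decide +kernel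

theorem b31 {lam : ℝ} (hlam : |(S : ℝ) * lam - ((P.lp : ℝ) - P.ln)| ≤ ((1 : ℕ) : ℝ)) : BoxS lam P 1131723882496 18253611008 1095216660480 36507222016 :=
  chk_sound hlam t31 1131723882496 18253611008 1095216660480 36507222016 (by norm_num) (by norm_num) c31

/-- The whole box. -/
theorem box {lam : ℝ} (hlam : |(S : ℝ) * lam - ((P.lp : ℝ) - P.ln)| ≤ ((1 : ℕ) : ℝ)) : BoxS lam P 0 HH 0 HH :=
  (BoxS.sa' (x1 := 584115552256) (h := 292057776128) (by norm_num [HH]) (by norm_num) (b0 hlam) (BoxS.sb' (t1 := 584115552256) (h := 292057776128) (by norm_num [HH]) (by norm_num) (b1 hlam) (BoxS.sa' (x1 := 876173328384) (h := 146028888064) (by norm_num [HH]) (by norm_num) (b2 hlam) (BoxS.sb' (t1 := 876173328384) (h := 146028888064) (by norm_num [HH]) (by norm_num) (b3 hlam) (BoxS.sa' (x1 := 1022202216448) (h := 73014444032) (by norm_num [HH]) (by norm_num) (b4 hlam) (BoxS.sb' (t1 := 1022202216448) (h := 73014444032) (by norm_num [HH]) (by norm_num) (BoxS.sa' (x1 := 1095216660480)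 (h := 36507222016) (by norm_num [HH]) (by norm_num) (b5 hlam) (b6 hlam)) (BoxS.sa' (x1 := 1095216660480) (h := 36507222016) (by norm_num [HH]) (by norm_num) (BoxS.sb' (t1 := 1095216660480) (h := 36507222016) (by norm_num [HH]) (by norm_num) (BoxS.sa' (x1 := 1058709438464) (h := 18253611008) (by norm_num [HH]) (by norm_num) (b7 hlam) (BoxS.sb' (t1 := 1058709438464) (h := 18253611008) (by norm_num [HH]) (by norm_num) (b8 hlam) (b9 hlam))) (b10 hlam)) (BoxS.sb' (t1 := 1095216660480) (h := 36507222016) (by norm_num [HH]) (by norm_num) (BoxS.sa' (x1 := 1131723882496) (h := 18253611008) (by norm_num [HH]) (by norm_num) (BoxS.sb' (t1 := 1058709438464) (h := 18253611008) (by norm_num [HH]) (by norm_num) (b11 hlam) (BoxS.sa' (x1 := 1113470271488) (h := 9126805504) (by norm_num [HH]) (by norm_num) (BoxS.sb' (t1 := 1076963049472) (h := 9126805504) (by norm_num [HH]) (by norm_num) (b12 hlam) (BoxS.sa' (x1 := 1104343465984) (h := 4563402752) (by norm_num [HH]) (by norm_num)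 (BoxS.sb' (t1 := 1086089854976) (h := 4563402752) (by norm_num [HH]) (by norm_num) (b13 hlam) (BoxS.sa' (x1 := 1099780063232) (h := 2281701376) (by norm_num [HH]) (by norm_num) (b14 hlam) (b15 hlam))) (b16 hlam))) (b17 hlam))) (b18 hlam)) (BoxS.sa' (x1 := 1131723882496) (h := 18253611008) (by norm_num [HH]) (by norm_num) (BoxS.sb' (t1 := 1131723882496) (h := 18253611008) (by norm_num [HH]) (by norm_num) (BoxS.sa' (x1 := 1113470271488) (h := 9126805504) (by norm_num [HH]) (by norm_num) (BoxS.sb' (t1 := 1113470271488) (h := 9126805504) (by norm_num [HH]) (by norm_num) (BoxS.sa' (x1 := 1104343465984) (h := 4563402752) (by norm_num [HH]) (by norm_num) (BoxS.sb' (t1 := 1104343465984) (h := 4563402752) (by norm_num [HH]) (by norm_num) (BoxS.sa' (x1 := 1099780063232) (h := 2281701376) (by norm_num [HH]) (by norm_num) (BoxS.sb' (t1 := 1099780063232) (h := 2281701376) (by norm_num [HH]) (by norm_num) (BoxS.sa' (x1 := 1097498361856) (h := 1140850688) (by norm_num [HH])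 (by norm_num) (b19 hlam) (BoxS.sb' (t1 := 1097498361856) (h := 1140850688) (by norm_num [HH]) (by norm_num) (b20 hlam) (BoxS.sa' (x1 := 1098639212544) (h := 570425344) (by norm_num [HH]) (by norm_num) (b21 hlam) (BoxS.sb' (t1 := 1098639212544) (h := 570425344) (by norm_num [HH]) (by norm_num) (b22 hlam) (b23 hlam))))) (b24 hlam)) (b25 hlam)) (b26 hlam)) (b27 hlam)) (b28 hlam)) (b29 hlam)) (b30 hlam)) (b31 hlam))))))))))

end Vale.Agent.P154H.Tm.D7
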