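import Vale.Agent.P154H.Msg

set_option maxRecDepth 100000

/-!
The subdivision for `d = 8`.
-/

namespace Vale.Agent.P154H.Tm.D8

/-- A row. -/
def Ra : Row := Row.mk 0 525474 0 2606391 4717404 0 4203792 0 20851128 0 0 37739232 0 2272 0 1533952 0 21437892

/-- A row. -/
def Rb : Row := Row.mk 0 2203997700096 0 10931996196864 19786226466816 0 17168936212368 0 84733648562277 0 0 153021384204288 0 9529458688 0 6433861009408 0 87999256516878
/-- A row. -/
def Q0 : Row := Row.mk 0 0 0 0 0 0 7473408 0 0 0 0 0 0 0 0 0 0 5346279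

/-- A row. -/
def Q1 : Row := Row.mk 0 0 0 0 0 0 0 0 296549376 0 0 0 0 0 0 0 0 173207163

/-- A row. -/
def Q2 : Row := Row.mk 0 0 0 0 0 0 0 0 0 0 1024 0 0 0 0 0 0 2499

/-- A row. -/
def Q3 : Row := Row.mk 0 67260672 0 333618048 603827712 0 522968244 0 2579461428 0 0 4650799188 0 290816 0 0 0 2701216701

/-- A row. -/
def Q4 : Row := Row.mk 0 33630336 0 166809024 301913856 0 260266668 0 1282583946 0 0 2311102350 0 145408 0 0 0 1346959287

/-- A row. -/
def Q5 : Row := Row.mk 0 1076170752 0 5337888768 9661243392 0 8284835328 0 40784372352 0 0 73426335552 0 4653056 0 0 0 43007943123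

/-- A row. -/
def Q6 : Row := Row.mk 0 33630336 0 166809024 301913856 0 257154408 0 1265018529 0 0 2275509024 0 145408 0 0 0 1338976827

/-- A row. -/
def Q7 : Row := Row.mk 0 1076170752 0 5337888768 9661243392 0 8179529088 0 40123591680 0 0 72112344192 0 4653056 0 0 0 42668247843

/-- A row. -/
def Q8 : Row := Row.mk 0 1076170752 0 5337888768 9661243392 0 8104359552 0 39719969664 0 0 71301515520 0 4653056 0 0 0 42452696763

/-- A row. -/
def Q9 : Row := Row.mk 0 1076170752 0 5337888768 9661243392 0 8026535232 0 39265682112 0 0 70368949632 0 4653056 0 0 0 42289176555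

/-- A row. -/
def Q10 : Row := Row.mk 0 1076170752 0 5337888768 9661243392 0 7936264512 0 38730826656 0 0 69298280640 0 4653056 0 0 0 42019521381

/-- A row. -/
def Q11 : Row := Row.mk 0 67260672 0 333618048 603827712 0 489368436 0 2382267750 0 0 4254565320 0 290816 0 0 0 2605433391

/-- A row. -/
def Q12 : Row := Row.mk 0 1076170752 0 5337888768 9661243392 0 7732084992 0 37406165856 0 0 66671709888 0 4653056 0 0 0 41333982237

/-- A row. -/
def Q13 : Row := Row.mk 0 1076170752 0 5337888768 9661243392 0 7589397504 0 36614369376 0 0 65074123200 0 4653056 0 0 0 40943460195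

/-- A row. -/
def Q14 : Row := Row.mk 0 1076170752 0 5337888768 9661243392 0 7433756352 0 35722337760 0 0 63259750464 0 4653056 0 0 0 40559922099

/-- A row. -/
def Q15 : Row := Row.mk 0 269042688 0 1334472192 2415310848 0 1812710880 0 8674479768 0 0 15301377408 0 1163264 0 0 0 10004985315

/-- A row. -/
def Q16 : Row := Row.mk 0 1076170752 0 5337888768 9661243392 0 7079185728 0 33521400384 0 0 58890259584 0 4653056 0 0 0 39383151219

/-- A row. -/
def Q17 : Row := Row.mk 0 1076170752 0 5337888768 9661243392 0 6822016704 0 32232910176 0 0 56294396160 0 4653056 0 0 0 38656062513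

/-- A row. -/
def Q18 : Row := Row.mk 0 538085376 0 2668944384 4830621696 0 3286995936 0 15385597680 0 0 26701272864 0 2326528 0 0 0 18901781937

/-- A row. -/
def Q19 : Row := Row.mk 0 1076170752 0 5337888768 9661243392 0 6325788864 0 29171991744 0 0 50203075584 0 4653056 0 0 0 37034628003

/-- A row. -/
def Q20 : Row := Row.mk 0 538085376 0 2668944384 4830621696 0 3015952992 0 13749785952 0 0 23346165024 0 2326528 0 0 0 18292832649

/-- A row. -/
def Q21 : Row := Row.mk 0 1076170752 0 5337888768 9661243392 0 5713145856 0 25606892352 0 0 42879317568 0 4653056 0 0 0 35654127507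

/-- A row. -/
def Q22 : Row := Row.mk 0 538085376 0 2668944384 4830621696 0 2682778848 0 11796081504 0 0 19393692192 0 2326528 0 0 0 17356497417

/-- A row. -/
def Q23 : Row := Row.mk 0 538085376 0 2668944384 4830621696 0 2496213984 0 10787054832 0 0 17229045600 0 2326528 0 0 0 17147496429

/-- A row. -/
def Q24 : Row := Row.mk 0 1076170752 0 5337888768 9661243392 0 4625947392 0 19307971872 0 0 29954565504 0 4653056 0 0 0 32972106087

/-- A row. -/
def Q25 : Row := Row.mk 0 67260672 0 333618048 603827712 0 264725736 0 1081968132 0 0 1585299072 0 290816 0 0 0 2074195449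

/-- A row. -/
def Q26 : Row := Row.mk 0 1076170752 0 5337888768 9661243392 0 3885231360 0 15502290240 0 0 20589086016 0 4653056 0 0 0 34833515931


/-- The data. -/
def P : Pb where
  lp := 0
  ln := 25476206690103090
  ab := 3298534883328
  r1 := [Ra, Rb]
  r2 := [Q0, Q1, Q2, Q3, Q4, Q5, Q6, Q7, Q8, Q9, Q10, Q11, Q12, Q13, Q14, Q15, Q16, Q17, Q18, Q19, Q20, Q21, Q22, Q23, Q24, Q25, Q26]

/-- Part of the subdivision. -/
def t0 : LT := (LT.b (LT.a (LT.l 4699 3513 4254 4254) (LT.l 4699 3514 4254 4254)) (LT.a LT.z1 (LT.b (LT.a LT.z1 (LT.b (LT.l 4695 3523 4254 4252) LT.z1)) LT.z1)))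

theorem c0 : chk P t0 0 292057776128 0 584115552256 = true := by decide +kernel

theorem b0 {lam : ℝ} (hlam : |(S : ℝ) * lam - ((P.lp : ℝ) - P.ln)| ≤ ((1 : ℕ) : ℝ)) : BoxS lam P 0 292057776128 0 584115552256 :=
  chk_sound hlam t0 0 292057776128 0 584115552256 (by norm_num) (by norm_num) c0

/-- Part of the subdivision. -/
def t1 : LT := (LT.a (LT.b (LT.a (LT.l 4696 3522 4252 4254) (LT.l 4683 3554 4243 4254)) (LT.a (LT.l 4696 3522 4252 4254) (LT.l 4683 3555 4243 4254))) (LT.b (LT.a (LT.l 4636 3655 4210 4254) (LT.b (LT.l 4475 3870 4102 4254) (LT.a (LT.l 4536 3805 4141 4254) (LT.l 4390 3944 4047 4254)))) (LT.a (LT.b (LT.l 4636 3655 4210 4254) (LT.l 4635 3656 4210 4254)) (LT.b (LT.a (LT.l 4536 3805 4141 4254) (LT.l 4390 3944 4047 4254)) (LT.a (LT.l 4535 3805 4141 4254) (LT.b (LT.l 4389 3944 4047 4254) (LT.a (LT.l 4435 3907 4076 4253) (LT.l 4332 3984 4012 4253))))))))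

theorem c1 : chk P t1 584115552256 292057776128 0 292057776128 = true := by decide +kernel

theorem b1 {lam : ℝ} (hlam : |(S : ℝ) * lam - ((P.lp : ℝ) - P.ln)| ≤ ((1 : ℕ) : ℝ)) : BoxS lam P 584115552256 292057776128 0 292057776128 :=
  chk_sound hlam t1 584115552256 292057776128 0 292057776128 (by norm_num) (by norm_num) c1

/-- Part of the subdivision. -/
def t2 : LT := (LT.b (LT.a (LT.b (LT.l 4693 3530 4252 4252) (LT.l 4680 3562 4252 4243)) (LT.b (LT.l 4680 3562 4243 4252) (LT.a (LT.l 4672 3581 4246 4243) (LT.l 4659 3608 4238 4243)))) (LT.a LT.z1 (LT.b (LT.a LT.z1 (LT.b (LT.l 4629 3668 4238 4222) LT.z1)) LT.z1)))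

theorem c2 : chk P t2 584115552256 146028888064 584115552256 292057776128 = true := by decide +kernel

theorem b2 {lam : ℝ} (hlam : |(S : ℝ) * lam - ((P.lp : ℝ) - P.ln)| ≤ ((1 : ℕ) : ℝ)) : BoxS lam P 584115552256 146028888064 584115552256 292057776128 :=
  chk_sound hlam t2 584115552256 146028888064 584115552256 292057776128 (by norm_num) (by norm_num) c2

/-- Part of the subdivision. -/
def t3 : LT := (LT.a (LT.b (LT.a (LT.l 4650 3627 4222 4252) (LT.l 4608 3703 4193 4252)) (LT.a (LT.b (LT.l 4641 3644 4222 4246) (LT.l 4629 3668 4222 4238)) (LT.b (LT.l 4599 3717 4193 4246) (LT.a (LT.l 4599 3718 4202 4238) (LT.l 4570 3760 4183 4238))))) (LT.b (LT.a (LT.b (LT.l 4533 3808 4141 4253) (LT.l 4529 3812 4141 4250)) (LT.b (LT.a (LT.l 4433 3909 4076 4253) (LT.l 4329 3985 4012 4253)) (LT.a (LT.l 4429 3912 4076 4250) (LT.l 4324 3988 4012 4250)))) (LT.a (LT.b (LT.a (LT.l 4546 3792 4157 4246) (LT.l 4493 3852 4123 4246)) (LT.a (LT.l 4531 3811 4157 4238) (LT.l 4477 3869 4123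 4238))) (LT.b (LT.a (LT.l 4420 3920 4076 4246) (LT.l 4313 3995 4012 4246)) (LT.a (LT.l 4402 3935 4076 4238) (LT.l 4292 4008 4012 4238))))))

theorem c3 : chk P t3 876173328384 146028888064 584115552256 146028888064 = true := by decide +kernel

theorem b3 {lam : ℝ} (hlam : |(S : ℝ) * lam - ((P.lp : ℝ) - P.ln)| ≤ ((1 : ℕ) : ℝ)) : BoxS lam P 876173328384 146028888064 584115552256 146028888064 :=
  chk_sound hlam t3 876173328384 146028888064 584115552256 146028888064 (by norm_num) (by norm_num) c3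

/-- Part of the subdivision. -/
def t4 : LT := (LT.b (LT.a (LT.b (LT.a (LT.l 4612 3697 4227 4222) (LT.l 4595 3723 4216 4222)) (LT.a LT.z1 (LT.b (LT.l 4564 3768 4216 4202) LT.z1))) (LT.b (LT.a (LT.b (LT.l 4581 3744 4202 4227) (LT.l 4564 3768 4202 4216)) (LT.b (LT.l 4552 3785 4183 4227) (LT.l 4534 3807 4183 4216))) (LT.a (LT.b (LT.a (LT.l 4547 3790 4206 4202) (LT.l 4534 3807 4198 4202)) (LT.a LT.z1 (LT.l 4502 3843 4198 4183))) (LT.b (LT.a (LT.l 4518 3825 4188 4202) (LT.l 4500 3845 4177 4202)) (LT.a (LT.b (LT.l 4495 3851 4188 4188) (LT.l 4475 3870 4188 4177)) (LT.b (LT.l 4475 3870 4177 4188) (LT.l 4456 3889 4177 4177))))))) (LT.a LT.z1 (LT.b (LT.a LT.z1 (LT.b (LT.a LT.z1 (LT.b (LT.a LT.z1 (LT.l 4427 3914 4174 4164)) LT.z1)) LT.z1)) LT.z1)))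

theorem c4 : chk P t4 876173328384 73014444032 876173328384 146028888064 = true := by decide +kernel

theorem b4 {lam : ℝ} (hlam : |(S : ℝ) * lam - ((P.lp : ℝ) - P.ln)| ≤ ((1 : ℕ) : ℝ)) : BoxS lam P 876173328384 73014444032 876173328384 146028888064 :=
  chk_sound hlam t4 876173328384 73014444032 876173328384 146028888064 (by norm_num) (by norm_num) c4

/-- Part of the subdivision. -/
def t5 : LT := (LT.b (LT.a (LT.b (LT.l 4511 3833 4157 4227) (LT.l 4492 3853 4157 4216)) (LT.b (LT.l 4456 3889 4123 4227) (LT.l 4435 3907 4123 4216))) (LT.a (LT.b (LT.a (LT.l 4478 3867 4164 4202) (LT.l 4453 3891 4150 4202)) (LT.a (LT.b (LT.l 4453 3891 4164 4188) (LT.a (LT.l 4439 3904 4168 4177) (LT.l 4426 3915 4161 4177))) (LT.b (LT.l 4427 3914 4150 4188) (LT.l 4406 3931 4150 4177)))) (LT.b (LT.a (LT.l 4423 3917 4133 4202) (LT.l 4388 3945 4113 4202)) (LT.a (LT.b (LT.l 4396 3939 4133 4188) (LT.l 4373 3956 4133 4177)) (LT.b (LT.l 4359 3966 4113 4188) (LT.l 4335 3981 4113 4177))))))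

theorem c5 : chk P t5 1022202216448 36507222016 876173328384 73014444032 = true := by decide +kernel

theorem b5 {lam : ℝ} (hlam : |(S : ℝ) * lam - ((P.lp : ℝ) - P.ln)| ≤ ((1 : ℕ) : ℝ)) : BoxS lam P 1022202216448 36507222016 876173328384 73014444032 :=
  chk_sound hlam t5 1022202216448 36507222016 876173328384 73014444032 (by norm_num) (by norm_num) c5

/-- Part of the subdivision. -/
def t6 : LT := (LT.b (LT.a (LT.b (LT.l 4378 3953 4076 4227) (LT.l 4354 3969 4076 4216)) (LT.b (LT.l 4263 4024 4012 4227) (LT.a (LT.l 4269 4020 4030 4216) LT.z2))) (LT.a (LT.b (LT.a (LT.l 4346 3975 4090 4202) (LT.l 4294 4006 4062 4202)) (LT.a (LT.b (LT.l 4314 3994 4090 4188) (LT.l 4289 4009 4090 4177)) (LT.b (LT.l 4260 4025 4062 4188) (LT.l 4232 4039 4062 4177)))) (LT.b (LT.a (LT.l 4231 4040 4030 4202) LT.z2) (LT.a (LT.b (LT.l 4194 4057 4030 4188) LT.z2) LT.z2))))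

theorem c6 : chk P t6 1095216660480 36507222016 876173328384 73014444032 = true := by decide +kernel

theorem b6 {lam : ℝ} (hlam : |(S : ℝ) * lam - ((P.lp : ℝ) - P.ln)| ≤ ((1 : ℕ) : ℝ)) : BoxS lam P 1095216660480 36507222016 876173328384 73014444032 :=
  chk_sound hlam t6 1095216660480 36507222016 876173328384 73014444032 (by norm_num) (by norm_num) c6

/-- Part of the subdivision. -/
def t7 : LT := (LT.b (LT.a (LT.b (LT.a (LT.l 4415 3924 4168 4164) (LT.l 4402 3934 4161 4164)) (LT.a LT.z1 (LT.l 4374 3955 4161 4150))) (LT.b (LT.a (LT.l 4388 3945 4154 4164) (LT.l 4373 3956 4146 4164)) (LT.a (LT.b (LT.l 4367 3960 4154 4154) (LT.l 4351 3971 4154 4146)) (LT.b (LT.l 4351 3971 4146 4154) (LT.l 4334 3982 4146 4146))))) (LT.a LT.z1 (LT.b (LT.a LT.z1 (LT.b (LT.l 4317 3993 4146 4137) LT.z1)) LT.z1)))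

theorem c7 : chk P t7 1022202216448 18253611008 1022202216448 36507222016 = true := by decide +kernel

theorem b7 {lam : ℝ} (hlam : |(S : ℝ) * lam - ((P.lp : ℝ) - P.ln)| ≤ ((1 : ℕ) : ℝ)) : BoxS lam P 1022202216448 18253611008 1022202216448 36507222016 :=
  chk_sound hlam t7 1022202216448 18253611008 1022202216448 36507222016 (by norm_num) (by norm_num) c7

/-- Part of the subdivision. -/
def t8 : LT := (LT.a (LT.b (LT.a (LT.l 4356 3968 4137 4164) (LT.l 4338 3980 4128 4164)) (LT.a (LT.b (LT.l 4333 3983 4137 4154) (LT.l 4317 3993 4137 4146)) (LT.b (LT.l 4314 3994 4128 4154) (LT.l 4297 4005 4128 4146)))) (LT.b (LT.a (LT.l 4318 3992 4118 4164) (LT.l 4296 4005 4107 4164)) (LT.a (LT.b (LT.l 4294 4007 4118 4154) (LT.l 4276 4017 4118 4146)) (LT.l 4262 4024 4107 4150))))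

theorem c8 : chk P t8 1058709438464 18253611008 1022202216448 18253611008 = true := by decide +kernel

theorem b8 {lam : ℝ} (hlam : |(S : ℝ) * lam - ((P.lp : ℝ) - P.ln)| ≤ ((1 : ℕ) : ℝ)) : BoxS lam P 1058709438464 18253611008 1022202216448 18253611008 :=
  chk_sound hlam t8 1058709438464 18253611008 1022202216448 18253611008 (by norm_num) (by norm_num) c8

/-- Part of the subdivision. -/
def t9 : LT := (LT.a (LT.b (LT.a (LT.b (LT.l 4298 4004 4137 4137) (LT.l 4278 4015 4137 4128)) (LT.b (LT.l 4278 4015 4128 4137) (LT.l 4257 4026 4128 4128))) (LT.a LT.z1 (LT.b (LT.l 4234 4038 4128 4118) LT.z1))) (LT.b (LT.a (LT.b (LT.l 4256 4027 4118 4137) (LT.l 4234 4038 4118 4128)) (LT.b (LT.l 4232 4039 4107 4137) (LT.a (LT.l 4216 4047 4110 4128) (LT.l 4202 4053 4104 4128)))) (LT.a (LT.b (LT.a (LT.l 4217 4047 4121 4118) (LT.l 4204 4052 4115 4118)) (LT.a LT.z1 (LT.b (LT.l 4185 4061 4115 4110) LT.z1))) (LT.b (LT.a (LT.b (LT.l 4198 4055 4110 4121) (LT.l 4185 4061 4110 4115)) (LT.b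 (LT.l 4184 4061 4104 4121) (LT.l 4171 4067 4104 4115))) (LT.a (LT.b (LT.l 4171 4067 4110 4110) (LT.a LT.z1 (LT.l 4153 4074 4109 4104))) (LT.b (LT.a (LT.l 4160 4071 4106 4110) (LT.l 4153 4074 4103 4110)) (LT.a (LT.b (LT.l 4150 4076 4106 4106) (LT.l 4142 4079 4106 4103)) (LT.b (LT.l 4142 4079 4103 4106) (LT.l 4135 4082 4103 4103)))))))))

theorem c9 : chk P t9 1058709438464 18253611008 1058709438464 18253611008 = true := by decide +kernel

theorem b9 {lam : ℝ} (hlam : |(S : ℝ) * lam - ((P.lp : ℝ) - P.ln)| ≤ ((1 : ℕ) : ℝ)) : BoxS lam P 1058709438464 18253611008 1058709438464 18253611008 :=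
  chk_sound hlam t9 1058709438464 18253611008 1058709438464 18253611008 (by norm_num) (by norm_num) c9

/-- Part of the subdivision. -/
def t10 : LT := (LT.a LT.z1 (LT.b (LT.a LT.z1 (LT.b (LT.a LT.z1 (LT.b (LT.a LT.z1 (LT.b (LT.a LT.z1 (LT.b (LT.a LT.z1 (LT.l 4125 4085 4102 4100)) LT.z1)) LT.z1)) LT.z1)) LT.z1)) LT.z1))

theorem c10 : chk P t10 1022202216448 36507222016 1095216660480 36507222016 = true := by decide +kernel

theorem b10 {lam : ℝ} (hlam : |(S : ℝ) * lam - ((P.lp : ℝ) - P.ln)| ≤ ((1 : ℕ) : ℝ)) : BoxS lam P 1022202216448 36507222016 1095216660480 36507222016 :=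
  chk_sound hlam t10 1022202216448 36507222016 1095216660480 36507222016 (by norm_num) (by norm_num) c10

/-- Part of the subdivision. -/
def t11 : LT := (LT.a (LT.b (LT.a (LT.l 4272 4019 4096 4164) (LT.l 4245 4033 4083 4164)) (LT.a (LT.b (LT.l 4246 4033 4096 4154) (LT.l 4226 4042 4096 4146)) (LT.b (LT.l 4218 4046 4083 4154) (LT.l 4197 4056 4083 4146)))) (LT.b (LT.a (LT.l 4215 4047 4070 4164) (LT.l 4182 4062 4055 4164)) (LT.a (LT.b (LT.l 4187 4060 4070 4154) (LT.l 4165 4069 4070 4146)) LT.z2)))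

theorem c11 : chk P t11 1095216660480 18253611008 1022202216448 18253611008 = true := by decide +kernel

theorem b11 {lam : ℝ} (hlam : |(S : ℝ) * lam - ((P.lp : ℝ) - P.ln)| ≤ ((1 : ℕ) : ℝ)) : BoxS lam P 1095216660480 18253611008 1022202216448 18253611008 :=
  chk_sound hlam t11 1095216660480 18253611008 1022202216448 18253611008 (by norm_num) (by norm_num) c11

/-- Part of the subdivision. -/
def t12 : LT := (LT.a (LT.b (LT.l 4205 4052 4096 4137) (LT.a (LT.l 4189 4059 4099 4128) (LT.l 4174 4066 4093 4128))) (LT.b (LT.l 4175 4065 4083 4137) (LT.a (LT.b (LT.l 4165 4070 4086 4130) (LT.l 4152 4075 4086 4125)) (LT.l 4142 4079 4080 4128))))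

theorem c12 : chk P t12 1095216660480 9126805504 1058709438464 9126805504 = true := by decide +kernel

theorem b12 {lam : ℝ} (hlam : |(S : ℝ) * lam - ((P.lp : ℝ) - P.ln)| ≤ ((1 : ℕ) : ℝ)) : BoxS lam P 1095216660480 9126805504 1058709438464 9126805504 :=
  chk_sound hlam t12 1095216660480 9126805504 1058709438464 9126805504 (by norm_num) (by norm_num) c12

/-- Part of the subdivision. -/
def t13 : LT := (LT.a (LT.b (LT.l 4169 4068 4099 4121) (LT.a (LT.l 4160 4072 4100 4115) (LT.l 4152 4075 4097 4115))) (LT.b (LT.l 4154 4074 4093 4121) (LT.a (LT.l 4144 4078 4094 4115) (LT.l 4136 4081 4091 4115))))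

theorem c13 : chk P t13 1095216660480 4563402752 1076963049472 4563402752 = true := by decide +kernel

theorem b13 {lam : ℝ} (hlam : |(S : ℝ) * lam - ((P.lp : ℝ) - P.ln)| ≤ ((1 : ℕ) : ℝ)) : BoxS lam P 1095216660480 4563402752 1076963049472 4563402752 :=
  chk_sound hlam t13 1095216660480 4563402752 1076963049472 4563402752 (by norm_num) (by norm_num) c13

/-- Part of the subdivision. -/
def t14 : LT := (LT.b (LT.a (LT.b (LT.l 4149 4076 4100 4111) (LT.l 4142 4079 4100 4109)) (LT.b (LT.l 4141 4079 4097 4111) (LT.l 4134 4082 4097 4109))) (LT.a (LT.b (LT.l 4134 4082 4100 4106) (LT.a (LT.l 4129 4084 4101 4103) (LT.l 4125 4085 4099 4103))) (LT.b (LT.a (LT.l 4128 4084 4098 4106) (LT.l 4124 4086 4096 4106)) (LT.a (LT.b (LT.l 4123 4086 4098 4104) (LT.l 4119 4088 4098 4102)) (LT.b (LT.l 4119 4088 4096 4104) (LT.l 4115 4089 4096 4102))))))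

theorem c14 : chk P t14 1095216660480 2281701376 1086089854976 4563402752 = true := by decide +kernel

theorem b14 {lam : ℝ} (hlam : |(S : ℝ) * lam - ((P.lp : ℝ) - P.ln)| ≤ ((1 : ℕ) : ℝ)) : BoxS lam P 1095216660480 2281701376 1086089854976 4563402752 :=
  chk_sound hlam t14 1095216660480 2281701376 1086089854976 4563402752 (by norm_num) (by norm_num) c14

/-- Part of the subdivision. -/
def t15 : LT := (LT.b (LT.a (LT.b (LT.l 4134 4082 4094 4111) (LT.l 4126 4085 4094 4109)) (LT.b (LT.l 4125 4085 4091 4111) (LT.l 4118 4088 4091 4109))) (LT.a (LT.b (LT.a (LT.l 4120 4087 4095 4106) (LT.l 4116 4089 4093 4106)) (LT.a (LT.b (LT.l 4115 4089 4095 4104) (LT.l 4111 4091 4095 4102)) (LT.b (LT.l 4110 4091 4093 4104) (LT.l 4106 4092 4093 4102)))) (LT.b (LT.l 4110 4091 4091 4106) (LT.a (LT.b (LT.l 4106 4092 4092 4104) (LT.l 4102 4094 4092 4102)) LT.z2))))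

theorem c15 : chk P t15 1099780063232 2281701376 1086089854976 4563402752 = true := by decide +kernel

theorem b15 {lam : ℝ} (hlam : |(S : ℝ) * lam - ((P.lp : ℝ) - P.ln)| ≤ ((1 : ℕ) : ℝ)) : BoxS lam P 1099780063232 2281701376 1086089854976 4563402752 :=
  chk_sound hlam t15 1099780063232 2281701376 1086089854976 4563402752 (by norm_num) (by norm_num) c15

/-- Part of the subdivision. -/
def t16 : LT := (LT.b (LT.a (LT.b (LT.l 4138 4080 4086 4121) (LT.l 4124 4086 4086 4115)) (LT.b (LT.l 4121 4087 4080 4121) LT.z2)) (LT.a (LT.b (LT.a (LT.b (LT.l 4117 4088 4088 4111) (LT.l 4109 4091 4088 4109)) LT.z2) LT.z2) LT.z2))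

theorem c16 : chk P t16 1104343465984 4563402752 1076963049472 9126805504 = true := by decide +kernel

theorem b16 {lam : ℝ} (hlam : |(S : ℝ) * lam - ((P.lp : ℝ) - P.ln)| ≤ ((1 : ℕ) : ℝ)) : BoxS lam P 1104343465984 4563402752 1076963049472 9126805504 :=
  chk_sound hlam t16 1104343465984 4563402752 1076963049472 9126805504 (by norm_num) (by norm_num) c16

/-- Part of the subdivision. -/
def t17 : LT := (LT.b (LT.a (LT.b (LT.l 4141 4079 4070 4137) LT.z2) LT.z2) LT.z2)

theorem c17 : chk P t17 1113470271488 9126805504 1058709438464 18253611008 = true := by decide +kernel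

theorem b17 {lam : ℝ} (hlam : |(S : ℝ) * lam - ((P.lp : ℝ) - P.ln)| ≤ ((1 : ℕ) : ℝ)) : BoxS lam P 1113470271488 9126805504 1058709438464 18253611008 :=
  chk_sound hlam t17 1113470271488 9126805504 1058709438464 18253611008 (by norm_num) (by norm_num) c17

/-- Part of the subdivision. -/
def t18 : LT := LT.z2

theorem c18 : chk P t18 1131723882496 18253611008 1022202216448 36507222016 = true := by decide +kernel

theorem b18 {lam : ℝ} (hlam : |(S : ℝ) * lam - ((P.lp : ℝ) - P.ln)| ≤ ((1 : ℕ) : ℝ)) : BoxS lam P 1131723882496 18253611008 1022202216448 36507222016 :=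
  chk_sound hlam t18 1131723882496 18253611008 1022202216448 36507222016 (by norm_num) (by norm_num) c18

/-- Part of the subdivision. -/
def t19 : LT := (LT.b (LT.a (LT.b (LT.l 4123 4086 4101 4101) (LT.l 4119 4088 4101 4099)) (LT.b (LT.l 4119 4088 4099 4101) (LT.a (LT.l 4116 4089 4100 4099) (LT.l 4114 4090 4099 4099)))) (LT.a LT.z1 (LT.b (LT.a LT.z1 (LT.b (LT.l 4111 4091 4099 4098) LT.z1)) LT.z1)))

theorem c19 : chk P t19 1095216660480 1140850688 1095216660480 2281701376 = true := by decide +kernel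

theorem b19 {lam : ℝ} (hlam : |(S : ℝ) * lam - ((P.lp : ℝ) - P.ln)| ≤ ((1 : ℕ) : ℝ)) : BoxS lam P 1095216660480 1140850688 1095216660480 2281701376 :=
  chk_sound hlam t19 1095216660480 1140850688 1095216660480 2281701376 (by norm_num) (by norm_num) c19

/-- Part of the subdivision. -/
def t20 : LT := (LT.a (LT.b (LT.l 4115 4089 4098 4101) (LT.a (LT.l 4112 4090 4098 4099) (LT.b (LT.l 4111 4091 4098 4100) (LT.l 4109 4091 4098 4099)))) (LT.b (LT.a (LT.l 4112 4090 4097 4101) (LT.l 4110 4091 4096 4101)) (LT.a (LT.b (LT.l 4109 4091 4097 4100) (LT.l 4107 4092 4097 4099)) (LT.b (LT.l 4107 4092 4096 4100) (LT.l 4105 4093 4096 4099)))))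

theorem c20 : chk P t20 1097498361856 1140850688 1095216660480 1140850688 = true := by decide +kernel

theorem b20 {lam : ℝ} (hlam : |(S : ℝ) * lam - ((P.lp : ℝ) - P.ln)| ≤ ((1 : ℕ) : ℝ)) : BoxS lam P 1097498361856 1140850688 1095216660480 1140850688 :=
  chk_sound hlam t20 1097498361856 1140850688 1095216660480 1140850688 (by norm_num) (by norm_num) c20

/-- Part of the subdivision. -/
def t21 : LT := (LT.b (LT.a (LT.b (LT.l 4109 4091 4098 4098) (LT.l 4107 4092 4098 4098)) (LT.b (LT.l 4107 4092 4098 4098) (LT.a (LT.l 4105 4093 4098 4098) (LT.l 4104 4093 4097 4098)))) (LT.a LT.z1 (LT.b (LT.a LT.z1 (LT.b (LT.l 4102 4094 4097 4097) LT.z1)) LT.z1)))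

theorem c21 : chk P t21 1097498361856 570425344 1097498361856 1140850688 = true := by decide +kernel

theorem b21 {lam : ℝ} (hlam : |(S : ℝ) * lam - ((P.lp : ℝ) - P.ln)| ≤ ((1 : ℕ) : ℝ)) : BoxS lam P 1097498361856 570425344 1097498361856 1140850688 :=
  chk_sound hlam t21 1097498361856 570425344 1097498361856 1140850688 (by norm_num) (by norm_num) c21

/-- Part of the subdivision. -/
def t22 : LT := (LT.a (LT.b (LT.a (LT.l 4105 4093 4097 4098) (LT.l 4104 4093 4097 4098)) (LT.a (LT.b (LT.l 4103 4093 4097 4098) (LT.l 4102 4094 4097 4097)) (LT.b (LT.l 4102 4094 4097 4098) (LT.l 4101 4094 4097 4097)))) (LT.b (LT.a (LT.l 4103 4094 4096 4098) (LT.l 4102 4094 4096 4098)) (LT.a (LT.b (LT.l 4101 4094 4096 4098) (LT.a (LT.l 4101 4094 4096 4097) (LT.l 4100 4095 4096 4097))) (LT.b (LT.l 4100 4094 4096 4098) (LT.a (LT.l 4100 4095 4096 4097) (LT.l 4099 4095 4096 4097))))))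

theorem c22 : chk P t22 1098639212544 570425344 1097498361856 570425344 = true := by decide +kernel

theorem b22 {lam : ℝ} (hlam : |(S : ℝ) * lam - ((P.lp : ℝ) - P.ln)| ≤ ((1 : ℕ) : ℝ)) : BoxS lam P 1098639212544 570425344 1097498361856 570425344 :=
  chk_sound hlam t22 1098639212544 570425344 1097498361856 570425344 (by norm_num) (by norm_num) c22

/-- Part of the subdivision. -/
def t23 : LT := (LT.a (LT.b (LT.a (LT.b (LT.l 4101 4094 4097 4097) (LT.a LT.z1 (LT.l 4100 4095 4097 4097))) (LT.b (LT.a (LT.l 4101 4094 4097 4097) (LT.l 4100 4095 4096 4097)) (LT.a (LT.b (LT.l 4100 4095 4097 4097) (LT.o 4099 4095 4097 4096)) (LT.o 4099 4095 4096 4097)))) (LT.a LT.z1 (LT.o 4098 4095 4097 4096))) (LT.b (LT.a (LT.b (LT.a (LT.b (LT.l 4100 4095 4096 4097) (LT.o 4099 4095 4096 4097)) (LT.b (LT.l 4099 4095 4096 4097) (LT.o 4099 4095 4096 4097))) (LT.o 4098 4095 4096 4097)) (LT.o 4098 4095 4096 4097)) (LT.o 4096 4096 4096 4096)))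

theorem c23 : chk P t23 1098639212544 570425344 1098639212544 570425344 = true := by decide +kernel

theorem b23 {lam : ℝ} (hlam : |(S : ℝ) * lam - ((P.lp : ℝ) - P.ln)| ≤ ((1 : ℕ) : ℝ)) : BoxS lam P 1098639212544 570425344 1098639212544 570425344 :=
  chk_sound hlam t23 1098639212544 570425344 1098639212544 570425344 (by norm_num) (by norm_num) c23

/-- Part of the subdivision. -/
def t24 : LT := (LT.a LT.z1 (LT.b (LT.a LT.z1 (LT.b (LT.a LT.z1 (LT.b (LT.a LT.z1 LT.z2) LT.z1)) LT.z1)) LT.z1))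

theorem c24 : chk P t24 1095216660480 2281701376 1099780063232 2281701376 = true := by decide +kernel

theorem b24 {lam : ℝ} (hlam : |(S : ℝ) * lam - ((P.lp : ℝ) - P.ln)| ≤ ((1 : ℕ) : ℝ)) : BoxS lam P 1095216660480 2281701376 1099780063232 2281701376 :=
  chk_sound hlam t24 1095216660480 2281701376 1099780063232 2281701376 (by norm_num) (by norm_num) c24

/-- Part of the subdivision. -/
def t25 : LT := (LT.b (LT.a (LT.b (LT.a (LT.b (LT.a (LT.l 4108 4092 4095 4101) (LT.l 4105 4093 4095 4101)) (LT.a (LT.b (LT.l 4104 4093 4095 4100) (LT.l 4102 4094 4095 4099)) (LT.b (LT.l 4102 4094 4095 4100) (LT.l 4100 4094 4095 4099)))) (LT.b (LT.l 4102 4094 4093 4101) (LT.a (LT.b (LT.l 4100 4094 4094 4100) LT.z2) LT.z2))) (LT.a (LT.b (LT.a (LT.b (LT.a (LT.l 4101 4094 4095 4098) (LT.l 4100 4095 4095 4098)) (LT.a (LT.b (LT.l 4099 4095 4095 4098) (LT.l 4098 4095 4095 4097)) (LT.b (LT.l 4098 4095 4095 4098) (LT.l 4097 4096 4095 4097)))) (LT.b (LT.l 4098 4095 4095 4098) LT.z2)) (LT.a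 (LT.b (LT.a (LT.o 4097 4096 4095 4097) LT.z2) LT.z2) LT.z2)) LT.z2)) LT.z2) LT.z2)

theorem c25 : chk P t25 1099780063232 2281701376 1095216660480 4563402752 = true := by decide +kernel

theorem b25 {lam : ℝ} (hlam : |(S : ℝ) * lam - ((P.lp : ℝ) - P.ln)| ≤ ((1 : ℕ) : ℝ)) : BoxS lam P 1099780063232 2281701376 1095216660480 4563402752 :=
  chk_sound hlam t25 1099780063232 2281701376 1095216660480 4563402752 (by norm_num) (by norm_num) c25

/-- Part of the subdivision. -/
def t26 : LT := (LT.a LT.z1 LT.z2)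

theorem c26 : chk P t26 1095216660480 4563402752 1104343465984 4563402752 = true := by decide +kernel

theorem b26 {lam : ℝ} (hlam : |(S : ℝ) * lam - ((P.lp : ℝ) - P.ln)| ≤ ((1 : ℕ) : ℝ)) : BoxS lam P 1095216660480 4563402752 1104343465984 4563402752 :=
  chk_sound hlam t26 1095216660480 4563402752 1104343465984 4563402752 (by norm_num) (by norm_num) c26

/-- Part of the subdivision. -/
def t27 : LT := LT.z2

theorem c27 : chk P t27 1104343465984 4563402752 1095216660480 9126805504 = true := by decide +kernel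

theorem b27 {lam : ℝ} (hlam : |(S : ℝ) * lam - ((P.lp : ℝ) - P.ln)| ≤ ((1 : ℕ) : ℝ)) : BoxS lam P 1104343465984 4563402752 1095216660480 9126805504 :=
  chk_sound hlam t27 1104343465984 4563402752 1095216660480 9126805504 (by norm_num) (by norm_num) c27

/-- Part of the subdivision. -/
def t28 : LT := LT.z2

theorem c28 : chk P t28 1095216660480 9126805504 1113470271488 9126805504 = true := by decide +kernel

theorem b28 {lam : ℝ} (hlam : |(S : ℝ) * lam - ((P.lp : ℝ) - P.ln)| ≤ ((1 : ℕ) : ℝ)) : BoxS lam P 1095216660480 9126805504 1113470271488 9126805504 :=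
  chk_sound hlam t28 1095216660480 9126805504 1113470271488 9126805504 (by norm_num) (by norm_num) c28

/-- Part of the subdivision. -/
def t29 : LT := LT.z2

theorem c29 : chk P t29 1113470271488 9126805504 1095216660480 18253611008 = true := by decide +kernel

theorem b29 {lam : ℝ} (hlam : |(S : ℝ) * lam - ((P.lp : ℝ) - P.ln)| ≤ ((1 : ℕ) : ℝ)) : BoxS lam P 1113470271488 9126805504 1095216660480 18253611008 :=
  chk_sound hlam t29 1113470271488 9126805504 1095216660480 18253611008 (by norm_num) (by norm_num) c29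

/-- Part of the subdivision. -/
def t30 : LT := LT.z2

theorem c30 : chk P t30 1095216660480 18253611008 1131723882496 18253611008 = true := by decide +kernel

theorem b30 {lam : ℝ} (hlam : |(S : ℝ) * lam - ((P.lp : ℝ) - P.ln)| ≤ ((1 : ℕ) : ℝ)) : BoxS lam P 1095216660480 18253611008 1131723882496 18253611008 :=
  chk_sound hlam t30 1095216660480 18253611008 1131723882496 18253611008 (by norm_num) (by norm_num) c30

/-- Part of the subdivision. -/
def t31 : LT := LT.z2

theorem c31 : chk P t31 1131723882496 18253611008 1095216660480 36507222016 = true := by decide +kernel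

theorem b31 {lam : ℝ} (hlam : |(S : ℝ) * lam - ((P.lp : ℝ) - P.ln)| ≤ ((1 : ℕ) : ℝ)) : BoxS lam P 1131723882496 18253611008 1095216660480 36507222016 :=
  chk_sound hlam t31 1131723882496 18253611008 1095216660480 36507222016 (by norm_num) (by norm_num) c31

/-- The whole box. -/
theorem box {lam : ℝ} (hlam : |(S : ℝ) * lam - ((P.lp : ℝ) - P.ln)| ≤ ((1 : ℕ) : ℝ)) : BoxS lam P 0 HH 0 HH :=
  (BoxS.sa' (x1 := 584115552256) (h := 292057776128) (by norm_num [HH]) (by norm_num) (b0 hlam) (BoxS.sb' (t1 := 584115552256) (h := 292057776128) (by norm_num [HH]) (by norm_num) (b1 hlam) (BoxS.sa' (x1 := 876173328384) (h := 146028888064) (by norm_num [HH]) (by norm_num) (b2 hlam) (BoxS.sb' (t1 := 876173328384) (h := 146028888064) (by norm_num [HH]) (by norm_num) (b3 hlam) (BoxS.sa' (x1 := 1022202216448) (h := 73014444032) (by norm_num [HH]) (by norm_num) (b4 hlam) (BoxS.sb' (t1 := 1022202216448) (h := 73014444032) (by norm_num [HH]) (by norm_num) (BoxS.sa' (x1 := 1095216660480)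 (h := 36507222016) (by norm_num [HH]) (by norm_num) (b5 hlam) (b6 hlam)) (BoxS.sa' (x1 := 1095216660480) (h := 36507222016) (by norm_num [HH]) (by norm_num) (BoxS.sb' (t1 := 1095216660480) (h := 36507222016) (by norm_num [HH]) (by norm_num) (BoxS.sa' (x1 := 1058709438464) (h := 18253611008) (by norm_num [HH]) (by norm_num) (b7 hlam) (BoxS.sb' (t1 := 1058709438464) (h := 18253611008) (by norm_num [HH]) (by norm_num) (b8 hlam) (b9 hlam))) (b10 hlam)) (BoxS.sb' (t1 := 1095216660480) (h := 36507222016) (by norm_num [HH]) (by norm_num) (BoxS.sa' (x1 := 1131723882496) (h := 18253611008) (by norm_num [HH]) (by norm_num) (BoxS.sb' (t1 := 1058709438464) (h := 18253611008) (by norm_num [HH]) (by norm_num) (b11 hlam) (BoxS.sa' (x1 := 1113470271488) (h := 9126805504) (by norm_num [HH]) (by norm_num) (BoxS.sb' (t1 := 1076963049472) (h := 9126805504) (by norm_num [HH]) (by norm_num) (b12 hlam) (BoxS.sa' (x1 := 1104343465984) (h := 4563402752) (by norm_num [HH]) (by norm_num)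 (BoxS.sb' (t1 := 1086089854976) (h := 4563402752) (by norm_num [HH]) (by norm_num) (b13 hlam) (BoxS.sa' (x1 := 1099780063232) (h := 2281701376) (by norm_num [HH]) (by norm_num) (b14 hlam) (b15 hlam))) (b16 hlam))) (b17 hlam))) (b18 hlam)) (BoxS.sa' (x1 := 1131723882496) (h := 18253611008) (by norm_num [HH]) (by norm_num) (BoxS.sb' (t1 := 1131723882496) (h := 18253611008) (by norm_num [HH]) (by norm_num) (BoxS.sa' (x1 := 1113470271488) (h := 9126805504) (by norm_num [HH]) (by norm_num) (BoxS.sb' (t1 := 1113470271488) (h := 9126805504) (by norm_num [HH]) (by norm_num) (BoxS.sa' (x1 := 1104343465984) (h := 4563402752) (by norm_num [HH]) (by norm_num) (BoxS.sb' (t1 := 1104343465984) (h := 4563402752) (by norm_num [HH]) (by norm_num) (BoxS.sa' (x1 := 1099780063232) (h := 2281701376) (by norm_num [HH]) (by norm_num) (BoxS.sb' (t1 := 1099780063232) (h := 2281701376) (by norm_num [HH]) (by norm_num) (BoxS.sa' (x1 := 1097498361856) (h := 1140850688) (by norm_num [HH])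 (by norm_num) (b19 hlam) (BoxS.sb' (t1 := 1097498361856) (h := 1140850688) (by norm_num [HH]) (by norm_num) (b20 hlam) (BoxS.sa' (x1 := 1098639212544) (h := 570425344) (by norm_num [HH]) (by norm_num) (b21 hlam) (BoxS.sb' (t1 := 1098639212544) (h := 570425344) (by norm_num [HH]) (by norm_num) (b22 hlam) (b23 hlam))))) (b24 hlam)) (b25 hlam)) (b26 hlam)) (b27 hlam)) (b28 hlam)) (b29 hlam)) (b30 hlam)) (b31 hlam))))))))))

end Vale.Agent.P154H.Tm.D8
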