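import Vale.Agent.P154H.Msg

set_option maxRecDepth 100000

/-!
The subdivision for `d = 9`.
-/

namespace Vale.Agent.P154H.Tm.D9

/-- A row. -/
def Ra : Row := Row.mk 0 175158 0 868797 1572468 0 1576422 0 7819173 0 0 14152212 0 896 0 657408 0 8166816

/-- A row. -/
def Rb : Row := Row.mk 0 5877327200256 0 29151989858304 52763270578176 0 51312302255664 0 253057410252615 0 0 456851102228480 0 30064771072 0 22058952032256 0 267473952581178
/-- A row. -/
def Q0 : Row := Row.mk 0 0 0 0 0 0 7473408 0 0 0 0 0 0 0 0 0 0 5346279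

/-- A row. -/
def Q1 : Row := Row.mk 0 0 0 0 0 0 0 0 296549376 0 0 0 0 0 0 0 0 173207163

/-- A row. -/
def Q2 : Row := Row.mk 0 0 0 0 0 0 0 0 0 0 1024 0 0 0 0 0 0 2583

/-- A row. -/
def Q3 : Row := Row.mk 0 89680896 0 444824064 805103616 0 780738896 0 3849561688 0 0 6936156288 0 458752 0 0 0 4108349631

/-- A row. -/
def Q4 : Row := Row.mk 0 89680896 0 444824064 805103616 0 777061968 0 3822844408 0 0 6882153248 0 458752 0 0 0 4098971121

/-- A row. -/
def Q5 : Row := Row.mk 0 179361792 0 889648128 1610207232 0 1543671008 0 7582089088 0 0 13638000800 0 917504 0 0 0 8163825999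

/-- A row. -/
def Q6 : Row := Row.mk 0 358723584 0 1779296256 3220414464 0 3063170176 0 15015717888 0 0 26980536192 0 1835008 0 0 0 16250548869

/-- A row. -/
def Q7 : Row := Row.mk 0 89680896 0 444824064 805103616 0 757900704 0 3712097952 0 0 6659022848 0 458752 0 0 0 4046169759

/-- A row. -/
def Q8 : Row := Row.mk 0 358723584 0 1779296256 3220414464 0 2996626240 0 14647857248 0 0 26235470592 0 1835008 0 0 0 16077963405

/-- A row. -/
def Q9 : Row := Row.mk 0 358723584 0 1779296256 3220414464 0 2955430848 0 14414001440 0 0 25769847808 0 1835008 0 0 0 15947599119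

/-- A row. -/
def Q10 : Row := Row.mk 0 358723584 0 1779296256 3220414464 0 2912480256 0 14150492992 0 0 25230309056 0 1835008 0 0 0 15854756187

/-- A row. -/
def Q11 : Row := Row.mk 0 22420224 0 111206016 201275904 0 178520528 0 864861874 0 0 1537965780 0 114688 0 0 0 979850913

/-- A row. -/
def Q12 : Row := Row.mk 0 358723584 0 1779296256 3220414464 0 2800778112 0 13474742208 0 0 23890770432 0 1835008 0 0 0 15481274709

/-- A row. -/
def Q13 : Row := Row.mk 0 179361792 0 889648128 1610207232 0 1367027584 0 6536871136 0 0 11534904032 0 917504 0 0 0 7666993371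

/-- A row. -/
def Q14 : Row := Row.mk 0 179361792 0 889648128 1610207232 0 1321655968 0 6304050288 0 0 11067004608 0 917504 0 0 0 7536047475

/-- A row. -/
def Q15 : Row := Row.mk 0 358723584 0 1779296256 3220414464 0 2564140992 0 12067468576 0 0 21074313024 0 1835008 0 0 0 14766220275

/-- A row. -/
def Q16 : Row := Row.mk 0 179361792 0 889648128 1610207232 0 1229015808 0 5736277664 0 0 9941485792 0 917504 0 0 0 7223019729

/-- A row. -/
def Q17 : Row := Row.mk 0 44840448 0 222412032 402551808 0 292757472 0 1354142564 0 0 2319364256 0 229376 0 0 0 1778714001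

/-- A row. -/
def Q18 : Row := Row.mk 0 358723584 0 1779296256 3220414464 0 2218882688 0 10091243744 0 0 17090150336 0 1835008 0 0 0 13791656649

/-- A row. -/
def Q19 : Row := Row.mk 0 89680896 0 444824064 805103616 0 513577712 0 2327105432 0 0 3873802464 0 458752 0 0 0 3341288907

/-- A row. -/
def Q20 : Row := Row.mk 0 179361792 0 889648128 1610207232 0 966649728 0 4222303760 0 0 6892284736 0 917504 0 0 0 6461402097

/-- A row. -/
def Q21 : Row := Row.mk 0 179361792 0 889648128 1610207232 0 885066464 0 3791445888 0 0 5991559552 0 917504 0 0 0 6304989501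

/-- A row. -/
def Q22 : Row := Row.mk 0 358723584 0 1779296256 3220414464 0 1625890752 0 6748478656 0 0 10128101696 0 1835008 0 0 0 12618361419

/-- A row. -/
def Q23 : Row := Row.mk 0 358723584 0 1779296256 3220414464 0 1501190848 0 6076696992 0 0 8195536448 0 1835008 0 0 0 13706207823


/-- The data. -/
def P : Pb where
  lp := 0
  ln := 24019198012642645
  ab := 3298534883328
  r1 := [Ra, Rb]
  r2 := [Q0, Q1, Q2, Q3, Q4, Q5, Q6, Q7, Q8, Q9, Q10, Q11, Q12, Q13, Q14, Q15, Q16, Q17, Q18, Q19, Q20, Q21, Q22, Q23]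

/-- Part of the subdivision. -/
def t0 : LT := (LT.b (LT.a (LT.l 4699 3570 4246 4246) (LT.l 4699 3571 4246 4246)) (LT.a LT.z1 (LT.b (LT.a LT.z1 (LT.b (LT.l 4695 3579 4246 4244) LT.z1)) LT.z1)))

theorem c0 : chk P t0 0 292057776128 0 584115552256 = true := by decide +kernel

theorem b0 {lam : ℝ} (hlam : |(S : ℝ) * lam - ((P.lp : ℝ) - P.ln)| ≤ ((1 : ℕ) : ℝ)) : BoxS lam P 0 292057776128 0 584115552256 :=
  chk_sound hlam t0 0 292057776128 0 584115552256 (by norm_num) (by norm_num) c0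

/-- Part of the subdivision. -/
def t1 : LT := (LT.a (LT.b (LT.a (LT.l 4696 3578 4244 4246) (LT.l 4683 3605 4235 4246)) (LT.a (LT.l 4696 3578 4244 4246) (LT.l 4683 3606 4235 4246))) (LT.b (LT.a (LT.l 4636 3692 4204 4246) (LT.b (LT.l 4475 3886 4101 4246) (LT.a (LT.l 4536 3826 4139 4246) (LT.l 4390 3953 4050 4246)))) (LT.a (LT.b (LT.l 4636 3693 4204 4246) (LT.l 4635 3693 4204 4246)) (LT.b (LT.a (LT.l 4536 3826 4139 4246) (LT.l 4390 3954 4050 4246)) (LT.a (LT.l 4535 3827 4139 4246) (LT.b (LT.l 4389 3954 4050 4246) (LT.a (LT.l 4435 3920 4078 4245) (LT.l 4332 3991 4017 4245))))))))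

theorem c1 : chk P t1 584115552256 292057776128 0 292057776128 = true := by decide +kernel

theorem b1 {lam : ℝ} (hlam : |(S : ℝ) * lam - ((P.lp : ℝ) - P.ln)| ≤ ((1 : ℕ) : ℝ)) : BoxS lam P 584115552256 292057776128 0 292057776128 :=
  chk_sound hlam t1 584115552256 292057776128 0 292057776128 (by norm_num) (by norm_num) c1

/-- Part of the subdivision. -/
def t2 : LT := (LT.b (LT.a (LT.b (LT.l 4693 3585 4244 4244) (LT.l 4680 3612 4244 4235)) (LT.b (LT.l 4680 3612 4235 4244) (LT.a (LT.l 4672 3628 4239 4235) (LT.l 4659 3651 4230 4235)))) (LT.a LT.z1 (LT.b (LT.a LT.z1 (LT.b (LT.l 4629 3704 4230 4215) LT.z1)) LT.z1)))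

theorem c2 : chk P t2 584115552256 146028888064 584115552256 292057776128 = true := by decide +kernel

theorem b2 {lam : ℝ} (hlam : |(S : ℝ) * lam - ((P.lp : ℝ) - P.ln)| ≤ ((1 : ℕ) : ℝ)) : BoxS lam P 584115552256 146028888064 584115552256 292057776128 :=
  chk_sound hlam t2 584115552256 146028888064 584115552256 292057776128 (by norm_num) (by norm_num) c2

/-- Part of the subdivision. -/
def t3 : LT := (LT.a (LT.b (LT.a (LT.l 4650 3668 4215 4244) (LT.l 4608 3735 4188 4244)) (LT.a (LT.b (LT.l 4641 3683 4215 4239) (LT.l 4629 3704 4215 4230)) (LT.b (LT.l 4599 3748 4188 4239) (LT.l 4585 3766 4188 4230)))) (LT.b (LT.a (LT.b (LT.l 4533 3829 4139 4245) (LT.l 4529 3833 4139 4243)) (LT.b (LT.a (LT.l 4433 3921 4078 4245) (LT.l 4329 3992 4017 4245)) (LT.a (LT.l 4429 3925 4078 4243) (LT.l 4324 3995 4017 4243)))) (LT.a (LT.b (LT.a (LT.l 4546 3815 4154 4239) (LT.l 4493 3869 4122 4239)) (LT.a (LT.l 4531 3831 4154 4230) (LT.l 4477 3884 4122 4230))) (LT.b (LT.a (LT.l 4420 3932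 4078 4239) (LT.l 4313 4001 4017 4239)) (LT.a (LT.l 4402 3945 4078 4230) (LT.l 4292 4013 4017 4230))))))

theorem c3 : chk P t3 876173328384 146028888064 584115552256 146028888064 = true := by decide +kernel

theorem b3 {lam : ℝ} (hlam : |(S : ℝ) * lam - ((P.lp : ℝ) - P.ln)| ≤ ((1 : ℕ) : ℝ)) : BoxS lam P 876173328384 146028888064 584115552256 146028888064 :=
  chk_sound hlam t3 876173328384 146028888064 584115552256 146028888064 (by norm_num) (by norm_num) c3

/-- Part of the subdivision. -/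
def t4 : LT := (LT.b (LT.a (LT.b (LT.a (LT.l 4612 3729 4220 4215) (LT.l 4595 3753 4210 4215)) (LT.a LT.z1 (LT.b (LT.l 4564 3793 4210 4196) LT.z1))) (LT.b (LT.a (LT.b (LT.l 4581 3772 4196 4220) (LT.l 4564 3793 4196 4210)) (LT.b (LT.l 4552 3808 4178 4220) (LT.l 4534 3828 4178 4210))) (LT.a (LT.b (LT.l 4541 3820 4196 4196) (LT.a LT.z1 (LT.l 4502 3861 4192 4178))) (LT.b (LT.a (LT.l 4518 3845 4183 4196) (LT.l 4500 3863 4173 4196)) (LT.a (LT.b (LT.l 4495 3868 4183 4183) (LT.l 4475 3886 4183 4173)) (LT.b (LT.l 4475 3886 4173 4183) (LT.l 4456 3903 4173 4173))))))) (LT.a LT.z1 (LT.b (LT.a LT.z1 (LT.b (LT.a LT.z1 (LT.b (LT.a LT.z1 (LT.l 4427 3926 4170 4161)) LT.z1)) LT.z1)) LT.z1)))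

theorem c4 : chk P t4 876173328384 73014444032 876173328384 146028888064 = true := by decide +kernel

theorem b4 {lam : ℝ} (hlam : |(S : ℝ) * lam - ((P.lp : ℝ) - P.ln)| ≤ ((1 : ℕ) : ℝ)) : BoxS lam P 876173328384 73014444032 876173328384 146028888064 :=
  chk_sound hlam t4 876173328384 73014444032 876173328384 146028888064 (by norm_num) (by norm_num) c4

/-- Part of the subdivision. -/
def t5 : LT := (LT.b (LT.a (LT.b (LT.l 4511 3852 4154 4220) (LT.l 4492 3870 4154 4210)) (LT.b (LT.l 4456 3903 4122 4220) (LT.l 4435 3920 4122 4210))) (LT.a (LT.b (LT.a (LT.l 4478 3883 4161 4196) (LT.l 4453 3905 4147 4196)) (LT.a (LT.b (LT.l 4453 3905 4161 4183) (LT.a (LT.l 4439 3917 4164 4173) (LT.l 4426 3927 4157 4173))) (LT.b (LT.l 4427 3926 4147 4183) (LT.a (LT.l 4413 3937 4150 4173) (LT.l 4398 3948 4143 4173))))) (LT.b (LT.a (LT.l 4423 3929 4131 4196) (LT.l 4388 3955 4112 4196)) (LT.a (LT.b (LT.l 4396 3949 4131 4183) (LT.l 4373 3965 4131 4173)) (LT.b (LT.l 4359 3974 4112 4183)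 (LT.l 4335 3989 4112 4173))))))

theorem c5 : chk P t5 1022202216448 36507222016 876173328384 73014444032 = true := by decide +kernel

theorem b5 {lam : ℝ} (hlam : |(S : ℝ) * lam - ((P.lp : ℝ) - P.ln)| ≤ ((1 : ℕ) : ℝ)) : BoxS lam P 1022202216448 36507222016 876173328384 73014444032 :=
  chk_sound hlam t5 1022202216448 36507222016 876173328384 73014444032 (by norm_num) (by norm_num) c5

/-- Part of the subdivision. -/
def t6 : LT := (LT.b (LT.a (LT.b (LT.l 4378 3962 4078 4220) (LT.l 4354 3977 4078 4210)) (LT.b (LT.l 4263 4028 4017 4220) (LT.a (LT.l 4269 4025 4034 4210) LT.z2))) (LT.a (LT.b (LT.a (LT.l 4346 3982 4090 4196) (LT.l 4294 4012 4064 4196)) (LT.a (LT.b (LT.l 4314 4001 4090 4183) (LT.l 4289 4015 4090 4173)) (LT.b (LT.l 4260 4029 4064 4183) (LT.l 4232 4042 4064 4173)))) (LT.b (LT.a (LT.l 4231 4043 4034 4196) LT.z2) (LT.a (LT.b (LT.l 4194 4059 4034 4183) LT.z2) LT.z2))))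

theorem c6 : chk P t6 1095216660480 36507222016 876173328384 73014444032 = true := by decide +kernel

theorem b6 {lam : ℝ} (hlam : |(S : ℝ) * lam - ((P.lp : ℝ) - P.ln)| ≤ ((1 : ℕ) : ℝ)) : BoxS lam P 1095216660480 36507222016 876173328384 73014444032 :=
  chk_sound hlam t6 1095216660480 36507222016 876173328384 73014444032 (by norm_num) (by norm_num) c6

/-- Part of the subdivision. -/
def t7 : LT := (LT.b (LT.a (LT.b (LT.a (LT.l 4415 3935 4164 4161) (LT.l 4402 3945 4157 4161)) (LT.a LT.z1 (LT.l 4374 3964 4157 4147))) (LT.b (LT.a (LT.l 4388 3955 4150 4161) (LT.l 4373 3965 4143 4161)) (LT.a (LT.b (LT.l 4367 3969 4150 4150) (LT.l 4351 3979 4150 4143)) (LT.b (LT.l 4351 3979 4143 4150) (LT.l 4334 3989 4143 4143))))) (LT.a LT.z1 (LT.b (LT.a LT.z1 (LT.b (LT.l 4317 3999 4143 4135) LT.z1)) LT.z1)))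

theorem c7 : chk P t7 1022202216448 18253611008 1022202216448 36507222016 = true := by decide +kernel

theorem b7 {lam : ℝ} (hlam : |(S : ℝ) * lam - ((P.lp : ℝ) - P.ln)| ≤ ((1 : ℕ) : ℝ)) : BoxS lam P 1022202216448 18253611008 1022202216448 36507222016 :=
  chk_sound hlam t7 1022202216448 18253611008 1022202216448 36507222016 (by norm_num) (by norm_num) c7

/-- Part of the subdivision. -/
def t8 : LT := (LT.a (LT.b (LT.a (LT.l 4356 3976 4135 4161) (LT.l 4338 3987 4126 4161)) (LT.a (LT.b (LT.l 4333 3990 4135 4150) (LT.l 4317 3999 4135 4143)) (LT.b (LT.l 4314 4001 4126 4150) (LT.l 4297 4010 4126 4143)))) (LT.b (LT.a (LT.l 4318 3999 4117 4161) (LT.l 4296 4011 4107 4161)) (LT.a (LT.b (LT.l 4294 4012 4117 4150) (LT.l 4276 4021 4117 4143)) (LT.l 4262 4029 4107 4147))))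

theorem c8 : chk P t8 1058709438464 18253611008 1022202216448 18253611008 = true := by decide +kernel

theorem b8 {lam : ℝ} (hlam : |(S : ℝ) * lam - ((P.lp : ℝ) - P.ln)| ≤ ((1 : ℕ) : ℝ)) : BoxS lam P 1058709438464 18253611008 1022202216448 18253611008 :=
  chk_sound hlam t8 1058709438464 18253611008 1022202216448 18253611008 (by norm_num) (by norm_num) c8

/-- Part of the subdivision. -/
def t9 : LT := (LT.a (LT.b (LT.a (LT.b (LT.l 4298 4010 4135 4135) (LT.l 4278 4020 4135 4126)) (LT.b (LT.l 4278 4020 4126 4135) (LT.l 4257 4031 4126 4126))) (LT.a LT.z1 (LT.b (LT.l 4234 4042 4126 4117) LT.z1))) (LT.b (LT.a (LT.b (LT.l 4256 4031 4117 4135) (LT.l 4234 4042 4117 4126)) (LT.b (LT.l 4232 4043 4107 4135) (LT.a (LT.l 4216 4050 4109 4126) (LT.l 4202 4056 4104 4126)))) (LT.a (LT.b (LT.a (LT.l 4217 4049 4119 4117) (LT.l 4204 4055 4114 4117)) (LT.a LT.z1 (LT.b (LT.l 4185 4063 4114 4109) LT.z1))) (LT.b (LT.a (LT.b (LT.l 4198 4058 4109 4119) (LT.l 4185 4063 4109 4114)) (LT.b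 (LT.l 4184 4064 4104 4119) (LT.l 4171 4069 4104 4114))) (LT.a (LT.b (LT.l 4171 4069 4109 4109) (LT.a LT.z1 (LT.l 4153 4076 4108 4104))) (LT.b (LT.a (LT.l 4160 4073 4105 4109) (LT.l 4153 4076 4103 4109)) (LT.a (LT.b (LT.l 4150 4077 4105 4105) (LT.l 4142 4080 4105 4103)) (LT.b (LT.l 4142 4080 4103 4105) (LT.l 4135 4083 4103 4103)))))))))

theorem c9 : chk P t9 1058709438464 18253611008 1058709438464 18253611008 = true := by decide +kernel

theorem b9 {lam : ℝ} (hlam : |(S : ℝ) * lam - ((P.lp : ℝ) - P.ln)| ≤ ((1 : ℕ) : ℝ)) : BoxS lam P 1058709438464 18253611008 1058709438464 18253611008 :=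
  chk_sound hlam t9 1058709438464 18253611008 1058709438464 18253611008 (by norm_num) (by norm_num) c9

/-- Part of the subdivision. -/
def t10 : LT := (LT.a LT.z1 (LT.b (LT.a LT.z1 (LT.b (LT.a LT.z1 (LT.b (LT.a LT.z1 (LT.b (LT.a LT.z1 (LT.b (LT.a LT.z1 (LT.l 4125 4086 4102 4100)) LT.z1)) LT.z1)) LT.z1)) LT.z1)) LT.z1))

theorem c10 : chk P t10 1022202216448 36507222016 1095216660480 36507222016 = true := by decide +kernel

theorem b10 {lam : ℝ} (hlam : |(S : ℝ) * lam - ((P.lp : ℝ) - P.ln)| ≤ ((1 : ℕ) : ℝ)) : BoxS lam P 1022202216448 36507222016 1095216660480 36507222016 :=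
  chk_sound hlam t10 1022202216448 36507222016 1095216660480 36507222016 (by norm_num) (by norm_num) c10

/-- Part of the subdivision. -/
def t11 : LT := (LT.a (LT.b (LT.a (LT.l 4272 4024 4096 4161) (LT.l 4245 4037 4084 4161)) (LT.a (LT.b (LT.l 4246 4036 4096 4150) (LT.l 4226 4045 4096 4143)) (LT.b (LT.l 4218 4049 4084 4150) (LT.l 4197 4058 4084 4143)))) (LT.b (LT.a (LT.l 4215 4050 4071 4161) (LT.l 4182 4064 4057 4161)) (LT.a (LT.b (LT.l 4187 4062 4071 4150) (LT.l 4165 4071 4071 4143)) LT.z2)))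

theorem c11 : chk P t11 1095216660480 18253611008 1022202216448 18253611008 = true := by decide +kernel

theorem b11 {lam : ℝ} (hlam : |(S : ℝ) * lam - ((P.lp : ℝ) - P.ln)| ≤ ((1 : ℕ) : ℝ)) : BoxS lam P 1095216660480 18253611008 1022202216448 18253611008 :=
  chk_sound hlam t11 1095216660480 18253611008 1022202216448 18253611008 (by norm_num) (by norm_num) c11

/-- Part of the subdivision. -/
def t12 : LT := (LT.a (LT.b (LT.l 4205 4055 4096 4135) (LT.a (LT.l 4189 4062 4098 4126) (LT.b (LT.l 4180 4065 4093 4128) (LT.l 4167 4070 4093 4124)))) (LT.b (LT.l 4175 4067 4084 4135) (LT.a (LT.b (LT.l 4165 4071 4087 4128) (LT.l 4152 4076 4087 4124)) (LT.l 4142 4080 4081 4126))))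

theorem c12 : chk P t12 1095216660480 9126805504 1058709438464 9126805504 = true := by decide +kernel

theorem b12 {lam : ℝ} (hlam : |(S : ℝ) * lam - ((P.lp : ℝ) - P.ln)| ≤ ((1 : ℕ) : ℝ)) : BoxS lam P 1095216660480 9126805504 1058709438464 9126805504 :=
  chk_sound hlam t12 1095216660480 9126805504 1058709438464 9126805504 (by norm_num) (by norm_num) c12

/-- Part of the subdivision. -/
def t13 : LT := (LT.a (LT.b (LT.l 4169 4069 4098 4119) (LT.a (LT.l 4160 4073 4100 4114) (LT.l 4152 4076 4097 4114))) (LT.b (LT.l 4154 4075 4093 4119) (LT.a (LT.l 4144 4079 4094 4114) (LT.l 4136 4082 4091 4114))))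

theorem c13 : chk P t13 1095216660480 4563402752 1076963049472 4563402752 = true := by decide +kernel

theorem b13 {lam : ℝ} (hlam : |(S : ℝ) * lam - ((P.lp : ℝ) - P.ln)| ≤ ((1 : ℕ) : ℝ)) : BoxS lam P 1095216660480 4563402752 1076963049472 4563402752 :=
  chk_sound hlam t13 1095216660480 4563402752 1076963049472 4563402752 (by norm_num) (by norm_num) c13

/-- Part of the subdivision. -/
def t14 : LT := (LT.b (LT.a (LT.b (LT.l 4149 4077 4100 4110) (LT.l 4142 4080 4100 4108)) (LT.b (LT.l 4141 4080 4097 4110) (LT.l 4134 4083 4097 4108))) (LT.a (LT.b (LT.l 4134 4083 4100 4105) (LT.a (LT.l 4129 4085 4101 4103) (LT.l 4125 4086 4099 4103))) (LT.b (LT.a (LT.l 4128 4085 4098 4105) (LT.l 4124 4086 4096 4105)) (LT.a (LT.b (LT.l 4123 4087 4098 4103) (LT.l 4119 4088 4098 4102)) (LT.b (LT.l 4119 4088 4096 4103) (LT.l 4115 4090 4096 4102))))))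

theorem c14 : chk P t14 1095216660480 2281701376 1086089854976 4563402752 = true := by decide +kernel

theorem b14 {lam : ℝ} (hlam : |(S : ℝ) * lam - ((P.lp : ℝ) - P.ln)| ≤ ((1 : ℕ) : ℝ)) : BoxS lam P 1095216660480 2281701376 1086089854976 4563402752 :=
  chk_sound hlam t14 1095216660480 2281701376 1086089854976 4563402752 (by norm_num) (by norm_num) c14

/-- Part of the subdivision. -/
def t15 : LT := (LT.b (LT.a (LT.b (LT.l 4134 4083 4094 4110) (LT.l 4126 4086 4094 4108)) (LT.b (LT.l 4125 4086 4091 4110) (LT.l 4118 4089 4091 4108))) (LT.a (LT.b (LT.a (LT.l 4120 4088 4095 4105) (LT.l 4116 4089 4094 4105)) (LT.a (LT.b (LT.l 4115 4090 4095 4103) (LT.l 4111 4091 4095 4102)) (LT.b (LT.l 4110 4091 4094 4103) (LT.l 4106 4093 4094 4102)))) (LT.b (LT.l 4110 4091 4091 4105) (LT.a (LT.b (LT.l 4106 4093 4092 4103) (LT.l 4102 4094 4092 4102)) LT.z2))))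

theorem c15 : chk P t15 1099780063232 2281701376 1086089854976 4563402752 = true := by decide +kernel

theorem b15 {lam : ℝ} (hlam : |(S : ℝ) * lam - ((P.lp : ℝ) - P.ln)| ≤ ((1 : ℕ) : ℝ)) : BoxS lam P 1099780063232 2281701376 1086089854976 4563402752 :=
  chk_sound hlam t15 1099780063232 2281701376 1086089854976 4563402752 (by norm_num) (by norm_num) c15

/-- Part of the subdivision. -/
def t16 : LT := (LT.b (LT.a (LT.b (LT.l 4138 4081 4087 4119) (LT.l 4124 4086 4087 4114)) (LT.b (LT.l 4121 4087 4081 4119) LT.z2)) (LT.a (LT.b (LT.a (LT.b (LT.l 4117 4089 4088 4110) (LT.l 4109 4092 4088 4108)) LT.z2) LT.z2) LT.z2))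

theorem c16 : chk P t16 1104343465984 4563402752 1076963049472 9126805504 = true := by decide +kernel

theorem b16 {lam : ℝ} (hlam : |(S : ℝ) * lam - ((P.lp : ℝ) - P.ln)| ≤ ((1 : ℕ) : ℝ)) : BoxS lam P 1104343465984 4563402752 1076963049472 9126805504 :=
  chk_sound hlam t16 1104343465984 4563402752 1076963049472 9126805504 (by norm_num) (by norm_num) c16

/-- Part of the subdivision. -/
def t17 : LT := (LT.b (LT.a (LT.b (LT.l 4141 4080 4071 4135) LT.z2) LT.z2) LT.z2)

theorem c17 : chk P t17 1113470271488 9126805504 1058709438464 18253611008 = true := by decide +kernel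

theorem b17 {lam : ℝ} (hlam : |(S : ℝ) * lam - ((P.lp : ℝ) - P.ln)| ≤ ((1 : ℕ) : ℝ)) : BoxS lam P 1113470271488 9126805504 1058709438464 18253611008 :=
  chk_sound hlam t17 1113470271488 9126805504 1058709438464 18253611008 (by norm_num) (by norm_num) c17

/-- Part of the subdivision. -/
def t18 : LT := LT.z2

theorem c18 : chk P t18 1131723882496 18253611008 1022202216448 36507222016 = true := by decide +kernel

theorem b18 {lam : ℝ} (hlam : |(S : ℝ) * lam - ((P.lp : ℝ) - P.ln)| ≤ ((1 : ℕ) : ℝ)) : BoxS lam P 1131723882496 18253611008 1022202216448 36507222016 :=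
  chk_sound hlam t18 1131723882496 18253611008 1022202216448 36507222016 (by norm_num) (by norm_num) c18

/-- Part of the subdivision. -/
def t19 : LT := (LT.b (LT.a (LT.b (LT.l 4123 4087 4101 4101) (LT.l 4119 4088 4101 4099)) (LT.b (LT.l 4119 4088 4099 4101) (LT.a (LT.l 4116 4089 4100 4099) (LT.l 4114 4090 4099 4099)))) (LT.a LT.z1 (LT.b (LT.a LT.z1 (LT.b (LT.l 4111 4091 4099 4098) LT.z1)) LT.z1)))

theorem c19 : chk P t19 1095216660480 1140850688 1095216660480 2281701376 = true := by decide +kernel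

theorem b19 {lam : ℝ} (hlam : |(S : ℝ) * lam - ((P.lp : ℝ) - P.ln)| ≤ ((1 : ℕ) : ℝ)) : BoxS lam P 1095216660480 1140850688 1095216660480 2281701376 :=
  chk_sound hlam t19 1095216660480 1140850688 1095216660480 2281701376 (by norm_num) (by norm_num) c19

/-- Part of the subdivision. -/
def t20 : LT := (LT.a (LT.b (LT.l 4115 4090 4098 4101) (LT.a (LT.l 4112 4091 4098 4099) (LT.b (LT.l 4111 4091 4097 4100) (LT.l 4109 4092 4097 4099)))) (LT.b (LT.a (LT.l 4112 4091 4097 4101) (LT.l 4110 4091 4096 4101)) (LT.a (LT.b (LT.l 4109 4092 4097 4100) (LT.l 4107 4092 4097 4099)) (LT.b (LT.l 4107 4092 4096 4100) (LT.l 4105 4093 4096 4099)))))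

theorem c20 : chk P t20 1097498361856 1140850688 1095216660480 1140850688 = true := by decide +kernel

theorem b20 {lam : ℝ} (hlam : |(S : ℝ) * lam - ((P.lp : ℝ) - P.ln)| ≤ ((1 : ℕ) : ℝ)) : BoxS lam P 1097498361856 1140850688 1095216660480 1140850688 :=
  chk_sound hlam t20 1097498361856 1140850688 1095216660480 1140850688 (by norm_num) (by norm_num) c20

/-- Part of the subdivision. -/
def t21 : LT := (LT.b (LT.a (LT.b (LT.l 4109 4092 4098 4098) (LT.l 4107 4092 4098 4097)) (LT.b (LT.l 4107 4092 4097 4098) (LT.a (LT.l 4105 4093 4098 4097) (LT.l 4104 4093 4097 4097)))) (LT.a LT.z1 (LT.b (LT.a LT.z1 (LT.b (LT.l 4102 4094 4097 4097) LT.z1)) LT.z1)))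

theorem c21 : chk P t21 1097498361856 570425344 1097498361856 1140850688 = true := by decide +kernel

theorem b21 {lam : ℝ} (hlam : |(S : ℝ) * lam - ((P.lp : ℝ) - P.ln)| ≤ ((1 : ℕ) : ℝ)) : BoxS lam P 1097498361856 570425344 1097498361856 1140850688 :=
  chk_sound hlam t21 1097498361856 570425344 1097498361856 1140850688 (by norm_num) (by norm_num) c21

/-- Part of the subdivision. -/
def t22 : LT := (LT.a (LT.b (LT.a (LT.l 4105 4093 4097 4098) (LT.l 4104 4093 4097 4098)) (LT.a (LT.b (LT.l 4103 4093 4097 4098) (LT.l 4102 4094 4097 4097)) (LT.b (LT.l 4102 4094 4097 4098) (LT.l 4101 4094 4097 4097)))) (LT.b (LT.a (LT.l 4103 4094 4096 4098) (LT.l 4102 4094 4096 4098)) (LT.a (LT.b (LT.l 4101 4094 4096 4098) (LT.a (LT.l 4101 4094 4096 4097) (LT.l 4100 4095 4096 4097))) (LT.b (LT.l 4100 4095 4096 4098) (LT.a (LT.l 4100 4095 4096 4097) (LT.l 4099 4095 4096 4097))))))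

theorem c22 : chk P t22 1098639212544 570425344 1097498361856 570425344 = true := by decide +kernel

theorem b22 {lam : ℝ} (hlam : |(S : ℝ) * lam - ((P.lp : ℝ) - P.ln)| ≤ ((1 : ℕ) : ℝ)) : BoxS lam P 1098639212544 570425344 1097498361856 570425344 :=
  chk_sound hlam t22 1098639212544 570425344 1097498361856 570425344 (by norm_num) (by norm_num) c22

/-- Part of the subdivision. -/
def t23 : LT := (LT.a (LT.b (LT.a (LT.b (LT.l 4101 4094 4097 4097) (LT.a LT.z1 (LT.l 4100 4095 4097 4097))) (LT.b (LT.a (LT.l 4101 4094 4097 4097) (LT.l 4100 4095 4096 4097)) (LT.a (LT.b (LT.l 4100 4095 4097 4097) (LT.o 4099 4095 4097 4096)) (LT.o 4099 4095 4096 4097)))) (LT.a LT.z1 (LT.o 4098 4095 4097 4096))) (LT.b (LT.a (LT.b (LT.a (LT.b (LT.l 4100 4095 4096 4097) (LT.o 4099 4095 4096 4097)) (LT.b (LT.l 4099 4095 4096 4097) (LT.o 4099 4095 4096 4097))) (LT.o 4098 4095 4096 4097)) (LT.o 4098 4095 4096 4097)) (LT.o 4096 4096 4096 4096)))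

theorem c23 : chk P t23 1098639212544 570425344 1098639212544 570425344 = true := by decide +kernel

theorem b23 {lam : ℝ} (hlam : |(S : ℝ) * lam - ((P.lp : ℝ) - P.ln)| ≤ ((1 : ℕ) : ℝ)) : BoxS lam P 1098639212544 570425344 1098639212544 570425344 :=
  chk_sound hlam t23 1098639212544 570425344 1098639212544 570425344 (by norm_num) (by norm_num) c23

/-- Part of the subdivision. -/
def t24 : LT := (LT.a LT.z1 (LT.b (LT.a LT.z1 (LT.b (LT.a LT.z1 (LT.b (LT.a LT.z1 LT.z2) LT.z1)) LT.z1)) LT.z1))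

theorem c24 : chk P t24 1095216660480 2281701376 1099780063232 2281701376 = true := by decide +kernel

theorem b24 {lam : ℝ} (hlam : |(S : ℝ) * lam - ((P.lp : ℝ) - P.ln)| ≤ ((1 : ℕ) : ℝ)) : BoxS lam P 1095216660480 2281701376 1099780063232 2281701376 :=
  chk_sound hlam t24 1095216660480 2281701376 1099780063232 2281701376 (by norm_num) (by norm_num) c24

/-- Part of the subdivision. -/
def t25 : LT := (LT.b (LT.a (LT.b (LT.a (LT.b (LT.a (LT.l 4108 4092 4095 4101) (LT.l 4105 4093 4095 4101)) (LT.a (LT.b (LT.l 4104 4093 4095 4100) (LT.l 4102 4094 4095 4099)) (LT.b (LT.l 4102 4094 4095 4100) (LT.l 4100 4095 4095 4099)))) (LT.b (LT.l 4102 4094 4094 4101) (LT.a (LT.b (LT.l 4100 4095 4094 4100) LT.z2) LT.z2))) (LT.a (LT.b (LT.a (LT.b (LT.a (LT.l 4101 4094 4095 4098) (LT.l 4100 4095 4095 4098)) (LT.a (LT.b (LT.l 4099 4095 4095 4098) (LT.l 4098 4095 4095 4097)) (LT.b (LT.l 4098 4095 4095 4098) (LT.l 4097 4096 4095 4097)))) (LT.b (LT.l 4098 4095 4095 4098) LT.z2)) (LT.a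 (LT.b (LT.a (LT.o 4097 4096 4095 4097) LT.z2) LT.z2) LT.z2)) LT.z2)) LT.z2) LT.z2)

theorem c25 : chk P t25 1099780063232 2281701376 1095216660480 4563402752 = true := by decide +kernel

theorem b25 {lam : ℝ} (hlam : |(S : ℝ) * lam - ((P.lp : ℝ) - P.ln)| ≤ ((1 : ℕ) : ℝ)) : BoxS lam P 1099780063232 2281701376 1095216660480 4563402752 :=
  chk_sound hlam t25 1099780063232 2281701376 1095216660480 4563402752 (by norm_num) (by norm_num) c25

/-- Part of the subdivision. -/
def t26 : LT := (LT.a LT.z1 LT.z2)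

theorem c26 : chk P t26 1095216660480 4563402752 1104343465984 4563402752 = true := by decide +kernel

theorem b26 {lam : ℝ} (hlam : |(S : ℝ) * lam - ((P.lp : ℝ) - P.ln)| ≤ ((1 : ℕ) : ℝ)) : BoxS lam P 1095216660480 4563402752 1104343465984 4563402752 :=
  chk_sound hlam t26 1095216660480 4563402752 1104343465984 4563402752 (by norm_num) (by norm_num) c26

/-- Part of the subdivision. -/
def t27 : LT := LT.z2

theorem c27 : chk P t27 1104343465984 4563402752 1095216660480 9126805504 = true := by decide +kernel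

theorem b27 {lam : ℝ} (hlam : |(S : ℝ) * lam - ((P.lp : ℝ) - P.ln)| ≤ ((1 : ℕ) : ℝ)) : BoxS lam P 1104343465984 4563402752 1095216660480 9126805504 :=
  chk_sound hlam t27 1104343465984 4563402752 1095216660480 9126805504 (by norm_num) (by norm_num) c27

/-- Part of the subdivision. -/
def t28 : LT := LT.z2

theorem c28 : chk P t28 1095216660480 9126805504 1113470271488 9126805504 = true := by decide +kernel

theorem b28 {lam : ℝ} (hlam : |(S : ℝ) * lam - ((P.lp : ℝ) - P.ln)| ≤ ((1 : ℕ) : ℝ)) : BoxS lam P 1095216660480 9126805504 1113470271488 9126805504 :=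
  chk_sound hlam t28 1095216660480 9126805504 1113470271488 9126805504 (by norm_num) (by norm_num) c28

/-- Part of the subdivision. -/
def t29 : LT := LT.z2

theorem c29 : chk P t29 1113470271488 9126805504 1095216660480 18253611008 = true := by decide +kernel

theorem b29 {lam : ℝ} (hlam : |(S : ℝ) * lam - ((P.lp : ℝ) - P.ln)| ≤ ((1 : ℕ) : ℝ)) : BoxS lam P 1113470271488 9126805504 1095216660480 18253611008 :=
  chk_sound hlam t29 1113470271488 9126805504 1095216660480 18253611008 (by norm_num) (by norm_num) c29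

/-- Part of the subdivision. -/
def t30 : LT := LT.z2

theorem c30 : chk P t30 1095216660480 18253611008 1131723882496 18253611008 = true := by decide +kernel

theorem b30 {lam : ℝ} (hlam : |(S : ℝ) * lam - ((P.lp : ℝ) - P.ln)| ≤ ((1 : ℕ) : ℝ)) : BoxS lam P 1095216660480 18253611008 1131723882496 18253611008 :=
  chk_sound hlam t30 1095216660480 18253611008 1131723882496 18253611008 (by norm_num) (by norm_num) c30

/-- Part of the subdivision. -/
def t31 : LT := LT.z2

theorem c31 : chk P t31 1131723882496 18253611008 1095216660480 36507222016 = true := by decide +kernel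

theorem b31 {lam : ℝ} (hlam : |(S : ℝ) * lam - ((P.lp : ℝ) - P.ln)| ≤ ((1 : ℕ) : ℝ)) : BoxS lam P 1131723882496 18253611008 1095216660480 36507222016 :=
  chk_sound hlam t31 1131723882496 18253611008 1095216660480 36507222016 (by norm_num) (by norm_num) c31

/-- The whole box. -/
theorem box {lam : ℝ} (hlam : |(S : ℝ) * lam - ((P.lp : ℝ) - P.ln)| ≤ ((1 : ℕ) : ℝ)) : BoxS lam P 0 HH 0 HH :=
  (BoxS.sa' (x1 := 584115552256) (h := 292057776128) (by norm_num [HH]) (by norm_num) (b0 hlam) (BoxS.sb' (t1 := 584115552256) (h := 292057776128) (by norm_num [HH]) (by norm_num) (b1 hlam) (BoxS.sa' (x1 := 876173328384) (h := 146028888064) (by norm_num [HH]) (by norm_num) (b2 hlam) (BoxS.sb' (t1 := 876173328384) (h := 146028888064) (by norm_num [HH]) (by norm_num) (b3 hlam) (BoxS.sa' (x1 := 1022202216448) (h := 73014444032) (by norm_num [HH]) (by norm_num) (b4 hlam) (BoxS.sb' (t1 := 1022202216448) (h := 73014444032) (by norm_num [HH]) (by norm_num) (BoxS.sa' (x1 := 1095216660480)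 (h := 36507222016) (by norm_num [HH]) (by norm_num) (b5 hlam) (b6 hlam)) (BoxS.sa' (x1 := 1095216660480) (h := 36507222016) (by norm_num [HH]) (by norm_num) (BoxS.sb' (t1 := 1095216660480) (h := 36507222016) (by norm_num [HH]) (by norm_num) (BoxS.sa' (x1 := 1058709438464) (h := 18253611008) (by norm_num [HH]) (by norm_num) (b7 hlam) (BoxS.sb' (t1 := 1058709438464) (h := 18253611008) (by norm_num [HH]) (by norm_num) (b8 hlam) (b9 hlam))) (b10 hlam)) (BoxS.sb' (t1 := 1095216660480) (h := 36507222016) (by norm_num [HH]) (by norm_num) (BoxS.sa' (x1 := 1131723882496) (h := 18253611008) (by norm_num [HH]) (by norm_num) (BoxS.sb' (t1 := 1058709438464) (h := 18253611008) (by norm_num [HH]) (by norm_num) (b11 hlam) (BoxS.sa' (x1 := 1113470271488) (h := 9126805504) (by norm_num [HH]) (by norm_num) (BoxS.sb' (t1 := 1076963049472) (h := 9126805504) (by norm_num [HH]) (by norm_num) (b12 hlam) (BoxS.sa' (x1 := 1104343465984) (h := 4563402752) (by norm_num [HH]) (by norm_num)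 (BoxS.sb' (t1 := 1086089854976) (h := 4563402752) (by norm_num [HH]) (by norm_num) (b13 hlam) (BoxS.sa' (x1 := 1099780063232) (h := 2281701376) (by norm_num [HH]) (by norm_num) (b14 hlam) (b15 hlam))) (b16 hlam))) (b17 hlam))) (b18 hlam)) (BoxS.sa' (x1 := 1131723882496) (h := 18253611008) (by norm_num [HH]) (by norm_num) (BoxS.sb' (t1 := 1131723882496) (h := 18253611008) (by norm_num [HH]) (by norm_num) (BoxS.sa' (x1 := 1113470271488) (h := 9126805504) (by norm_num [HH]) (by norm_num) (BoxS.sb' (t1 := 1113470271488) (h := 9126805504) (by norm_num [HH]) (by norm_num) (BoxS.sa' (x1 := 1104343465984) (h := 4563402752) (by norm_num [HH]) (by norm_num) (BoxS.sb' (t1 := 1104343465984) (h := 4563402752) (by norm_num [HH]) (by norm_num) (BoxS.sa' (x1 := 1099780063232) (h := 2281701376) (by norm_num [HH]) (by norm_num) (BoxS.sb' (t1 := 1099780063232) (h := 2281701376) (by norm_num [HH]) (by norm_num) (BoxS.sa' (x1 := 1097498361856) (h := 1140850688) (by norm_num [HH])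 (by norm_num) (b19 hlam) (BoxS.sb' (t1 := 1097498361856) (h := 1140850688) (by norm_num [HH]) (by norm_num) (b20 hlam) (BoxS.sa' (x1 := 1098639212544) (h := 570425344) (by norm_num [HH]) (by norm_num) (b21 hlam) (BoxS.sb' (t1 := 1098639212544) (h := 570425344) (by norm_num [HH]) (by norm_num) (b22 hlam) (b23 hlam))))) (b24 hlam)) (b25 hlam)) (b26 hlam)) (b27 hlam)) (b28 hlam)) (b29 hlam)) (b30 hlam)) (b31 hlam))))))))))

end Vale.Agent.P154H.Tm.D9
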