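import Vale.Agent.P154H.Msg

set_option maxRecDepth 100000

/-!
The subdivision for `d = 2`, positive eigenvalue.
-/

namespace Vale.Agent.P154H.Tm.P2

/-- A row. -/
def Ra : Row := Row.mk 0 341658 0 2902095 5112252 0 683316 0 5804190 0 0 10224504 0 1088 0 60928 0 3100788

/-- A row. -/
def Rb : Row := Row.mk 0 1433017516032 0 12172268666880 21442339012608 0 2855121189912 0 24234539952441 0 0 42677719240704 0 4563402752 0 255550554112 0 12933798050718
/-- A row. -/
def Q0 : Row := Row.mk 0 0 0 0 0 0 4859136 0 0 0 0 0 0 0 0 0 0 3486105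

/-- A row. -/
def Q1 : Row := Row.mk 0 0 0 0 0 0 0 0 165096960 0 0 0 0 0 0 0 0 96294107

/-- A row. -/
def Q2 : Row := Row.mk 0 0 0 0 0 0 0 0 0 0 512 0 0 0 0 0 0 915

/-- A row. -/
def Q3 : Row := Row.mk 0 174928896 0 1485872640 2617473024 0 348456480 0 2957676912 0 0 5207470176 0 557056 0 0 0 1581409377

/-- A row. -/
def Q4 : Row := Row.mk 0 349857792 0 2971745280 5234946048 0 696704736 0 5912565120 0 0 10409463648 0 1114112 0 0 0 3161887281

/-- A row. -/
def Q5 : Row := Row.mk 0 699715584 0 5943490560 10469892096 0 1392656640 0 11819099328 0 0 20806865664 0 2228224 0 0 0 6321504753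

/-- A row. -/
def Q6 : Row := Row.mk 0 699715584 0 5943490560 10469892096 0 1392069504 0 11812070784 0 0 20793645696 0 2228224 0 0 0 6317230257

/-- A row. -/
def Q7 : Row := Row.mk 0 699715584 0 5943490560 10469892096 0 1391199360 0 11804679552 0 0 20779107648 0 2228224 0 0 0 6313875561

/-- A row. -/
def Q8 : Row := Row.mk 0 699715584 0 5943490560 10469892096 0 1390580160 0 11796472032 0 0 20763091968 0 2228224 0 0 0 6310802997

/-- A row. -/
def Q9 : Row := Row.mk 0 699715584 0 5943490560 10469892096 0 1389437760 0 11787720384 0 0 20745478656 0 2228224 0 0 0 6307681131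

/-- A row. -/
def Q10 : Row := Row.mk 0 349857792 0 2971745280 5234946048 0 694369152 0 5888872224 0 0 10363053984 0 1114112 0 0 0 3151907415

/-- A row. -/
def Q11 : Row := Row.mk 0 699715584 0 5943490560 10469892096 0 1387729344 0 11766544224 0 0 20704820352 0 2228224 0 0 0 6297440265

/-- A row. -/
def Q12 : Row := Row.mk 0 174928896 0 1485872640 2617473024 0 346630704 0 2938677264 0 0 5170353936 0 557056 0 0 0 1573246287

/-- A row. -/
def Q13 : Row := Row.mk 0 699715584 0 5943490560 10469892096 0 1385252352 0 11741649600 0 0 20655694656 0 2228224 0 0 0 6287934789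

/-- A row. -/
def Q14 : Row := Row.mk 0 174928896 0 1485872640 2617473024 0 345930048 0 2931841464 0 0 5156854416 0 557056 0 0 0 1570602465

/-- A row. -/
def Q15 : Row := Row.mk 0 1810890752 0 7022051328 12884901888 0 3565025280 0 13852200576 0 0 25356779520 0 0 0 0 0 8826943935

/-- A row. -/
def Q16 : Row := Row.mk 0 1810890752 0 7022051328 12884901888 0 3564431360 0 13838271360 0 0 25333727232 0 0 0 0 0 8810818671

/-- A row. -/
def Q17 : Row := Row.mk 0 1810890752 0 7022051328 12884901888 0 3560175872 0 13825467136 0 0 25307578368 0 0 0 0 0 8799678411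

/-- A row. -/
def Q18 : Row := Row.mk 0 1810890752 0 7022051328 12884901888 0 3557606144 0 13810948608 0 0 25279807488 0 0 0 0 0 8788167531

/-- A row. -/
def Q19 : Row := Row.mk 0 1810890752 0 7022051328 12884901888 0 3557661440 0 13794179968 0 0 25250365440 0 0 0 0 0 8776046571

/-- A row. -/
def Q20 : Row := Row.mk 0 1810890752 0 7022051328 12884901888 0 3557689088 0 13776661248 0 0 25219203072 0 0 0 0 0 8764499583

/-- A row. -/
def Q21 : Row := Row.mk 0 1810890752 0 7022051328 12884901888 0 3554829056 0 13759838976 0 0 25186172928 0 0 0 0 0 8754035787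

/-- A row. -/
def Q22 : Row := Row.mk 0 1810890752 0 7022051328 12884901888 0 3552162560 0 13741409536 0 0 25151176704 0 0 0 0 0 8740462743

/-- A row. -/
def Q23 : Row := Row.mk 0 1810890752 0 7022051328 12884901888 0 3550048768 0 13721908608 0 0 25114066944 0 0 0 0 0 8728421391

/-- A row. -/
def Q24 : Row := Row.mk 0 1810890752 0 7022051328 12884901888 0 3549178368 0 13701979136 0 0 25074696192 0 0 0 0 0 8724132579

/-- A row. -/
def Q25 : Row := Row.mk 0 1810890752 0 7022051328 12884901888 0 3541027072 0 13682424576 0 0 25033015296 0 0 0 0 0 8707380327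

/-- A row. -/
def Q26 : Row := Row.mk 0 1810890752 0 7022051328 12884901888 0 3539783424 0 13666673792 0 0 25004163072 0 0 0 0 0 8695725735

/-- A row. -/
def Q27 : Row := Row.mk 0 4698931200 0 6199705600 12884901888 0 9174481152 0 12056202368 0 0 24965824512 0 0 0 0 0 12321757959

/-- A row. -/
def Q28 : Row := Row.mk 0 4698931200 0 6199705600 12884901888 0 9153903104 0 12030281984 0 0 24901484544 0 0 0 0 0 12297270243

/-- A row. -/
def Q29 : Row := Row.mk 0 4698931200 0 6199705600 12884901888 0 9135046144 0 12000908672 0 0 24831983616 0 0 0 0 0 12272646915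

/-- A row. -/
def Q30 : Row := Row.mk 0 4698931200 0 6199705600 12884901888 0 9073670912 0 11984826752 0 0 24756977664 0 0 0 0 0 12217457595

/-- A row. -/
def Q31 : Row := Row.mk 0 4698931200 0 6199705600 12884901888 0 9138236672 0 11911795456 0 0 24675975168 0 0 0 0 0 12215982063

/-- A row. -/
def Q32 : Row := Row.mk 0 4698931200 0 6199705600 12884901888 0 9160176896 0 11860522240 0 0 24588435456 0 0 0 0 0 12236199327

/-- A row. -/
def Q33 : Row := Row.mk 0 4698931200 0 6199705600 12884901888 0 9134579968 0 11816486016 0 0 24493916160 0 0 0 0 0 12179248383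

/-- A row. -/
def Q34 : Row := Row.mk 0 4698931200 0 6199705600 12884901888 0 9107047168 0 11769848192 0 0 24391876608 0 0 0 0 0 12123319395

/-- A row. -/
def Q35 : Row := Row.mk 0 4698931200 0 6199705600 12884901888 0 9079120128 0 11719521024 0 0 24281235456 0 0 0 0 0 12069729603

/-- A row. -/
def Q36 : Row := Row.mk 0 38374735872 0 0 12884901888 0 73832251648 0 0 0 0 24068997120 0 0 0 0 0 72819596583

/-- A row. -/
def Q37 : Row := Row.mk 0 38374735872 0 0 12884901888 0 73246406912 0 0 0 0 23728865280 0 0 0 0 0 72082501839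

/-- A row. -/
def Q38 : Row := Row.mk 0 12791578624 0 0 4294967296 0 24181443328 0 0 0 0 7773552640 0 0 0 0 0 23733618341

/-- A row. -/
def Q39 : Row := Row.mk 0 38374735872 0 0 12884901888 0 71701720832 0 0 0 0 22830809088 0 0 0 0 0 70142588847

/-- A row. -/
def Q40 : Row := Row.mk 0 38374735872 0 0 12884901888 0 70691057920 0 0 0 0 22243000320 0 0 0 0 0 68874002055

/-- A row. -/
def Q41 : Row := Row.mk 0 38374735872 0 0 12884901888 0 69478379776 0 0 0 0 21537669120 0 0 0 0 0 67351962843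

/-- A row. -/
def Q42 : Row := Row.mk 0 38374735872 0 0 12884901888 0 68333040128 0 0 0 0 20884389888 0 0 0 0 0 65875822047

/-- A row. -/
def Q43 : Row := Row.mk 0 43808718848 0 0 12884901888 0 77208722432 0 0 0 0 20100415488 0 0 0 0 0 78552815091

/-- A row. -/
def Q44 : Row := Row.mk 0 43808718848 0 0 12884901888 0 75126444544 0 0 0 0 18966577152 0 0 0 0 0 75707464047

/-- A row. -/
def Q45 : Row := Row.mk 0 43808718848 0 0 12884901888 0 72627711232 0 0 0 0 17605951488 0 0 0 0 0 72293138283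

/-- A row. -/
def Q46 : Row := Row.mk 0 43808718848 0 0 12884901888 0 70507330816 0 0 0 0 16107454464 0 0 0 0 0 70039090839


/-- The data. -/
def P : Pb where
  lp := 50952413380206180
  ln := 0
  ab := 3298534883328
  r1 := [Ra, Rb]
  r2 := [Q0, Q1, Q2, Q3, Q4, Q5, Q6, Q7, Q8, Q9, Q10, Q11, Q12, Q13, Q14, Q15, Q16, Q17, Q18, Q19, Q20, Q21, Q22, Q23, Q24, Q25, Q26, Q27, Q28, Q29, Q30, Q31, Q32, Q33, Q34, Q35, Q36, Q37, Q38, Q39, Q40, Q41, Q42, Q43, Q44, Q45, Q46]

/-- Part of the subdivision. -/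
def t0 : LT := (LT.b (LT.a (LT.b (LT.l 4699 4573 3513 3513) (LT.a LT.z1 (LT.b (LT.l 4699 4573 3513 3513) LT.z1))) (LT.b (LT.a (LT.l 4699 4573 3513 3513) (LT.l 4699 4573 3515 3513)) (LT.a (LT.b (LT.l 4699 4573 3513 3513) (LT.l 4698 4573 3513 3515)) (LT.b (LT.l 4698 4573 3515 3513) (LT.a (LT.l 4698 4572 3514 3515) (LT.l 4698 4572 3517 3515)))))) (LT.a LT.z1 (LT.b (LT.a LT.z1 (LT.b (LT.l 4695 4570 3515 3530) LT.z1)) LT.z1)))

theorem c0 : chk P t0 0 292057776128 0 584115552256 = true := by decide +kernel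

theorem b0 {lam : ℝ} (hlam : |(S : ℝ) * lam - ((P.lp : ℝ) - P.ln)| ≤ ((1 : ℕ) : ℝ)) : BoxS lam P 0 292057776128 0 584115552256 :=
  chk_sound hlam t0 0 292057776128 0 584115552256 (by norm_num) (by norm_num) c0

/-- Part of the subdivision. -/
def t1 : LT := (LT.a (LT.b (LT.a (LT.l 4696 4570 3530 3513) (LT.l 4683 4559 3593 3513)) (LT.a (LT.b (LT.l 4696 4570 3530 3513) (LT.l 4695 4570 3530 3515)) (LT.l 4683 4559 3593 3514))) (LT.b (LT.a (LT.l 4636 4519 3766 3513) (LT.b (LT.l 4475 4386 4085 3513) (LT.a (LT.l 4536 4436 3993 3513) (LT.l 4390 4317 4183 3513)))) (LT.a (LT.b (LT.l 4636 4519 3766 3513) (LT.l 4635 4519 3766 3515)) (LT.b (LT.a (LT.l 4536 4436 3993 3513) (LT.b (LT.l 4390 4317 4183 3513) (LT.l 4390 4317 4183 3514))) (LT.a (LT.l 4535 4435 3993 3515) (LT.b (LT.a (LT.l 4436 4354 4133 3514) (LT.l 4333 4272 4235 3514)) (LT.a (LT.l 4435 4354 4133 3517) (LT.l 4332 4272 4235 3517))))))))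

theorem c1 : chk P t1 584115552256 292057776128 0 292057776128 = true := by decide +kernel

theorem b1 {lam : ℝ} (hlam : |(S : ℝ) * lam - ((P.lp : ℝ) - P.ln)| ≤ ((1 : ℕ) : ℝ)) : BoxS lam P 584115552256 292057776128 0 292057776128 :=
  chk_sound hlam t1 584115552256 292057776128 0 292057776128 (by norm_num) (by norm_num) c1

/-- Part of the subdivision. -/
def t2 : LT := (LT.b (LT.a (LT.b (LT.l 4693 4568 3530 3530) (LT.l 4680 4557 3530 3593)) (LT.b (LT.l 4680 4557 3593 3530) (LT.l 4666 4545 3593 3593))) (LT.a LT.z1 (LT.b (LT.a LT.z1 (LT.b (LT.l 4629 4513 3623 3709) LT.z1)) LT.z1)))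

theorem c2 : chk P t2 584115552256 146028888064 584115552256 292057776128 = true := by decide +kernel

theorem b2 {lam : ℝ} (hlam : |(S : ℝ) * lam - ((P.lp : ℝ) - P.ln)| ≤ ((1 : ℕ) : ℝ)) : BoxS lam P 584115552256 146028888064 584115552256 292057776128 :=
  chk_sound hlam t2 584115552256 146028888064 584115552256 292057776128 (by norm_num) (by norm_num) c2

/-- Part of the subdivision. -/
def t3 : LT := (LT.b (LT.a (LT.l 4650 4531 3709 3530) (LT.l 4608 4496 3833 3530)) (LT.a (LT.l 4636 4520 3709 3593) (LT.b (LT.l 4599 4489 3833 3569) (LT.l 4585 4477 3833 3623))))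

theorem c3 : chk P t3 876173328384 73014444032 584115552256 146028888064 = true := by decide +kernel

theorem b3 {lam : ℝ} (hlam : |(S : ℝ) * lam - ((P.lp : ℝ) - P.ln)| ≤ ((1 : ℕ) : ℝ)) : BoxS lam P 876173328384 73014444032 584115552256 146028888064 :=
  chk_sound hlam t3 876173328384 73014444032 584115552256 146028888064 (by norm_num) (by norm_num) c3

/-- Part of the subdivision. -/
def t4 : LT := (LT.a (LT.b (LT.l 4533 4434 3993 3524) (LT.l 4529 4431 3993 3539)) (LT.b (LT.a (LT.l 4433 4352 4133 3524) (LT.l 4329 4270 4235 3524)) (LT.a (LT.l 4429 4349 4133 3539) (LT.b (LT.l 4326 4267 4235 3534) (LT.l 4322 4264 4235 3545)))))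

theorem c4 : chk P t4 1022202216448 73014444032 584115552256 73014444032 = true := by decide +kernel

theorem b4 {lam : ℝ} (hlam : |(S : ℝ) * lam - ((P.lp : ℝ) - P.ln)| ≤ ((1 : ℕ) : ℝ)) : BoxS lam P 1022202216448 73014444032 584115552256 73014444032 :=
  chk_sound hlam t4 1022202216448 73014444032 584115552256 73014444032 (by norm_num) (by norm_num) c4

/-- Part of the subdivision. -/
def t5 : LT := (LT.b (LT.a (LT.l 4546 4444 3950 3569) (LT.l 4493 4401 4038 3569)) (LT.a (LT.l 4531 4432 3950 3623) (LT.l 4477 4388 4038 3623)))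

theorem c5 : chk P t5 1022202216448 36507222016 730144440320 73014444032 = true := by decide +kernel

theorem b5 {lam : ℝ} (hlam : |(S : ℝ) * lam - ((P.lp : ℝ) - P.ln)| ≤ ((1 : ℕ) : ℝ)) : BoxS lam P 1022202216448 36507222016 730144440320 73014444032 :=
  chk_sound hlam t5 1022202216448 36507222016 730144440320 73014444032 (by norm_num) (by norm_num) c5

/-- Part of the subdivision. -/
def t6 : LT := (LT.b (LT.a (LT.b (LT.l 4423 4344 4133 3560) (LT.a (LT.l 4437 4355 4109 3580) (LT.l 4393 4320 4158 3580))) (LT.b (LT.a (LT.l 4347 4284 4209 3560) (LT.l 4283 4234 4261 3560)) (LT.a (LT.b (LT.l 4342 4280 4209 3574) (LT.a (LT.l 4352 4288 4196 3586) (LT.l 4323 4265 4222 3586))) (LT.b (LT.l 4277 4229 4261 3574) (LT.a (LT.l 4290 4239 4248 3586) LT.z2))))) (LT.a (LT.b (LT.a (LT.l 4429 4348 4109 3607) (LT.l 4384 4313 4158 3607)) (LT.a (LT.l 4416 4339 4109 3641) (LT.l 4371 4302 4158 3641))) (LT.b (LT.a (LT.b (LT.a (LT.l 4347 4284 4196 3599) (LT.l 4318 4261 4222 3599)) (LT.a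 (LT.l 4341 4279 4196 3615) (LT.l 4311 4256 4222 3615))) (LT.b (LT.a (LT.l 4285 4235 4248 3599) LT.z2) (LT.a (LT.l 4278 4230 4248 3615) LT.z2))) (LT.a (LT.b (LT.a (LT.l 4335 4274 4196 3632) (LT.l 4304 4250 4222 3632)) (LT.a (LT.l 4326 4268 4196 3651) (LT.l 4296 4244 4222 3651))) (LT.b (LT.a (LT.l 4270 4224 4248 3632) LT.z2) LT.z2)))))

theorem c6 : chk P t6 1095216660480 36507222016 730144440320 73014444032 = true := by decide +kernel

theorem b6 {lam : ℝ} (hlam : |(S : ℝ) * lam - ((P.lp : ℝ) - P.ln)| ≤ ((1 : ℕ) : ℝ)) : BoxS lam P 1095216660480 36507222016 730144440320 73014444032 :=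
  chk_sound hlam t6 1095216660480 36507222016 730144440320 73014444032 (by norm_num) (by norm_num) c6

/-- Part of the subdivision. -/
def t7 : LT := (LT.b (LT.a (LT.b (LT.l 4604 4493 3709 3709) (LT.a LT.z1 (LT.l 4550 4448 3737 3833))) (LT.b (LT.a (LT.l 4573 4467 3798 3709) (LT.l 4543 4442 3870 3709)) (LT.a (LT.b (LT.l 4541 4440 3798 3798) (LT.l 4509 4414 3798 3870)) (LT.b (LT.l 4509 4414 3870 3798) (LT.l 4476 4387 3870 3870))))) (LT.a LT.z1 (LT.b (LT.a LT.z1 (LT.b (LT.a LT.z1 (LT.l 4420 4341 3889 3950)) LT.z1)) LT.z1)))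

theorem c7 : chk P t7 876173328384 73014444032 876173328384 146028888064 = true := by decide +kernel

theorem b7 {lam : ℝ} (hlam : |(S : ℝ) * lam - ((P.lp : ℝ) - P.ln)| ≤ ((1 : ℕ) : ℝ)) : BoxS lam P 876173328384 73014444032 876173328384 146028888064 :=
  chk_sound hlam t7 876173328384 73014444032 876173328384 146028888064 (by norm_num) (by norm_num) c7

/-- Part of the subdivision. -/
def t8 : LT := (LT.b (LT.a (LT.l 4502 4408 3950 3709) (LT.b (LT.l 4456 4370 4038 3684) (LT.l 4435 4353 4038 3737))) (LT.a (LT.b (LT.l 4466 4379 3950 3798) (LT.a (LT.l 4443 4360 3929 3870) (LT.l 4417 4339 3971 3870))) (LT.b (LT.a (LT.l 4423 4344 4015 3798) (LT.l 4388 4316 4061 3798)) (LT.a (LT.b (LT.l 4396 4322 4015 3851) (LT.l 4373 4304 4015 3889)) (LT.b (LT.l 4359 4293 4061 3851) (LT.l 4335 4274 4061 3889))))))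

theorem c8 : chk P t8 1022202216448 36507222016 876173328384 73014444032 = true := by decide +kernel

theorem b8 {lam : ℝ} (hlam : |(S : ℝ) * lam - ((P.lp : ℝ) - P.ln)| ≤ ((1 : ℕ) : ℝ)) : BoxS lam P 1022202216448 36507222016 876173328384 73014444032 :=
  chk_sound hlam t8 1022202216448 36507222016 876173328384 73014444032 (by norm_num) (by norm_num) c8

/-- Part of the subdivision. -/
def t9 : LT := (LT.b (LT.a (LT.b (LT.a (LT.l 4400 4325 4109 3684) (LT.l 4353 4288 4158 3684)) (LT.a (LT.l 4377 4307 4109 3737) (LT.b (LT.l 4335 4274 4158 3723) (LT.l 4321 4263 4158 3751)))) (LT.b (LT.a (LT.b (LT.l 4302 4248 4209 3673) (LT.l 4290 4240 4209 3696)) LT.z2) (LT.a (LT.b (LT.l 4277 4229 4209 3723) (LT.l 4261 4217 4209 3751)) LT.z2))) (LT.a (LT.b (LT.a (LT.b (LT.l 4354 4289 4109 3782) (LT.l 4336 4275 4109 3815)) (LT.b (LT.l 4304 4250 4158 3782) (LT.a (LT.l 4298 4246 4146 3815) (LT.l 4269 4223 4171 3815)))) (LT.a (LT.b (LT.l 4314 4258 4109 3851) (LT.a (LT.l 4301 4248 4097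 3889) (LT.l 4276 4228 4121 3889))) (LT.b (LT.a (LT.l 4275 4228 4146 3851) (LT.l 4245 4205 4171 3851)) (LT.a (LT.b (LT.l 4255 4213 4146 3879) (LT.l 4240 4201 4146 3899)) (LT.l 4216 4184 4171 3889))))) (LT.b (LT.a (LT.b (LT.l 4242 4203 4209 3782) (LT.l 4220 4186 4209 3815)) LT.z2) (LT.a (LT.b (LT.a (LT.l 4212 4180 4196 3851) LT.z2) LT.z2) LT.z2))))

theorem c9 : chk P t9 1095216660480 36507222016 876173328384 73014444032 = true := by decide +kernel

theorem b9 {lam : ℝ} (hlam : |(S : ℝ) * lam - ((P.lp : ℝ) - P.ln)| ≤ ((1 : ℕ) : ℝ)) : BoxS lam P 1095216660480 36507222016 876173328384 73014444032 :=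
  chk_sound hlam t9 1095216660480 36507222016 876173328384 73014444032 (by norm_num) (by norm_num) c9

/-- Part of the subdivision. -/
def t10 : LT := (LT.b (LT.a (LT.b (LT.l 4409 4332 3929 3929) (LT.l 4381 4310 3929 3971)) (LT.b (LT.l 4381 4310 3971 3929) (LT.l 4351 4287 3971 3971))) (LT.a LT.z1 (LT.b (LT.a LT.z1 (LT.l 4307 4252 3982 4015)) LT.z1)))

theorem c10 : chk P t10 1022202216448 18253611008 1022202216448 36507222016 = true := by decide +kernel

theorem b10 {lam : ℝ} (hlam : |(S : ℝ) * lam - ((P.lp : ℝ) - P.ln)| ≤ ((1 : ℕ) : ℝ)) : BoxS lam P 1022202216448 18253611008 1022202216448 36507222016 :=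
  chk_sound hlam t10 1022202216448 18253611008 1022202216448 36507222016 (by norm_num) (by norm_num) c10

/-- Part of the subdivision. -/
def t11 : LT := (LT.a (LT.b (LT.l 4347 4284 4015 3929) (LT.a (LT.l 4325 4267 4004 3971) (LT.l 4306 4252 4026 3971))) (LT.b (LT.a (LT.l 4318 4261 4049 3929) (LT.l 4296 4244 4073 3929)) (LT.a (LT.b (LT.l 4294 4242 4049 3960) (LT.l 4276 4228 4049 3982)) (LT.b (LT.l 4271 4225 4073 3960) (LT.l 4252 4210 4073 3982)))))

theorem c11 : chk P t11 1058709438464 18253611008 1022202216448 18253611008 = true := by decide +kernel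

theorem b11 {lam : ℝ} (hlam : |(S : ℝ) * lam - ((P.lp : ℝ) - P.ln)| ≤ ((1 : ℕ) : ℝ)) : BoxS lam P 1058709438464 18253611008 1022202216448 18253611008 :=
  chk_sound hlam t11 1058709438464 18253611008 1022202216448 18253611008 (by norm_num) (by norm_num) c11

/-- Part of the subdivision. -/
def t12 : LT := (LT.b (LT.a (LT.b (LT.l 4298 4246 4004 4004) (LT.l 4278 4230 4004 4026)) (LT.b (LT.l 4278 4230 4026 4004) (LT.l 4257 4214 4026 4026))) (LT.a LT.z1 (LT.b (LT.a LT.z1 (LT.l 4229 4193 4032 4049)) LT.z1)))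

theorem c12 : chk P t12 1058709438464 9126805504 1058709438464 18253611008 = true := by decide +kernel

theorem b12 {lam : ℝ} (hlam : |(S : ℝ) * lam - ((P.lp : ℝ) - P.ln)| ≤ ((1 : ℕ) : ℝ)) : BoxS lam P 1058709438464 9126805504 1058709438464 18253611008 :=
  chk_sound hlam t12 1058709438464 9126805504 1058709438464 18253611008 (by norm_num) (by norm_num) c12

/-- Part of the subdivision. -/
def t13 : LT := (LT.a (LT.b (LT.l 4256 4213 4049 4004) (LT.a (LT.l 4240 4202 4044 4026) (LT.l 4228 4193 4055 4026))) (LT.b (LT.a (LT.l 4238 4200 4067 4004) (LT.l 4225 4190 4079 4004)) (LT.a (LT.b (LT.l 4222 4187 4067 4021) (LT.l 4210 4179 4067 4032)) (LT.b (LT.l 4208 4178 4079 4021) (LT.l 4196 4169 4079 4032)))))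

theorem c13 : chk P t13 1076963049472 9126805504 1058709438464 9126805504 = true := by decide +kernel

theorem b13 {lam : ℝ} (hlam : |(S : ℝ) * lam - ((P.lp : ℝ) - P.ln)| ≤ ((1 : ℕ) : ℝ)) : BoxS lam P 1076963049472 9126805504 1058709438464 9126805504 :=
  chk_sound hlam t13 1076963049472 9126805504 1058709438464 9126805504 (by norm_num) (by norm_num) c13

/-- Part of the subdivision. -/
def t14 : LT := (LT.a (LT.b (LT.a (LT.b (LT.l 4223 4188 4044 4044) (LT.l 4211 4179 4044 4055)) (LT.b (LT.l 4211 4179 4055 4044) (LT.l 4198 4170 4055 4055))) (LT.a LT.z1 (LT.b (LT.l 4185 4160 4055 4067) LT.z1))) (LT.b (LT.a (LT.b (LT.l 4198 4170 4067 4044) (LT.l 4185 4160 4067 4055)) (LT.b (LT.l 4184 4159 4079 4044) (LT.a (LT.l 4174 4152 4076 4055) (LT.l 4167 4147 4082 4055)))) (LT.a (LT.b (LT.a (LT.l 4175 4153 4064 4067) (LT.l 4168 4148 4070 4067)) (LT.a LT.z1 (LT.b (LT.l 4157 4140 4070 4076) LT.z1))) (LT.b (LT.a (LT.l 4160 4142 4076 4067) (LT.b (LT.l 4157 4140 4082 4064) (LT.l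 4149 4134 4082 4070))) (LT.a (LT.b (LT.l 4150 4134 4076 4076) (LT.l 4142 4129 4076 4082)) (LT.b (LT.l 4142 4129 4082 4076) (LT.a (LT.l 4136 4125 4080 4082) (LT.l 4133 4122 4083 4082))))))))

theorem c14 : chk P t14 1076963049472 9126805504 1076963049472 9126805504 = true := by decide +kernel

theorem b14 {lam : ℝ} (hlam : |(S : ℝ) * lam - ((P.lp : ℝ) - P.ln)| ≤ ((1 : ℕ) : ℝ)) : BoxS lam P 1076963049472 9126805504 1076963049472 9126805504 :=
  chk_sound hlam t14 1076963049472 9126805504 1076963049472 9126805504 (by norm_num) (by norm_num) c14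

/-- Part of the subdivision. -/
def t15 : LT := (LT.a LT.z1 (LT.b (LT.a LT.z1 (LT.b (LT.a LT.z1 (LT.b (LT.a LT.z1 (LT.b (LT.a LT.z1 (LT.b (LT.a LT.z1 (LT.b (LT.l 4127 4118 4083 4086) LT.z1)) LT.z1)) LT.z1)) LT.z1)) LT.z1)) LT.z1))

theorem c15 : chk P t15 1022202216448 36507222016 1095216660480 36507222016 = true := by decide +kernel

theorem b15 {lam : ℝ} (hlam : |(S : ℝ) * lam - ((P.lp : ℝ) - P.ln)| ≤ ((1 : ℕ) : ℝ)) : BoxS lam P 1022202216448 36507222016 1095216660480 36507222016 :=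
  chk_sound hlam t15 1022202216448 36507222016 1095216660480 36507222016 (by norm_num) (by norm_num) c15

/-- Part of the subdivision. -/
def t16 : LT := (LT.b (LT.a (LT.b (LT.l 4279 4231 4097 3919) (LT.l 4263 4219 4097 3939)) (LT.b (LT.l 4253 4211 4121 3919) (LT.a (LT.l 4243 4204 4115 3939) (LT.l 4229 4193 4127 3939)))) (LT.a (LT.b (LT.l 4246 4205 4097 3960) (LT.a (LT.l 4233 4196 4091 3982) (LT.l 4219 4186 4103 3982))) (LT.b (LT.a (LT.l 4225 4190 4115 3960) (LT.b (LT.l 4215 4183 4127 3955) (LT.l 4205 4175 4127 3966))) (LT.a (LT.b (LT.l 4210 4179 4115 3976) (LT.l 4199 4171 4115 3987)) (LT.b (LT.l 4195 4168 4127 3976) (LT.l 4184 4160 4127 3987))))))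

theorem c16 : chk P t16 1095216660480 9126805504 1022202216448 18253611008 = true := by decide +kernel

theorem b16 {lam : ℝ} (hlam : |(S : ℝ) * lam - ((P.lp : ℝ) - P.ln)| ≤ ((1 : ℕ) : ℝ)) : BoxS lam P 1095216660480 9126805504 1022202216448 18253611008 :=
  chk_sound hlam t16 1095216660480 9126805504 1022202216448 18253611008 (by norm_num) (by norm_num) c16

/-- Part of the subdivision. -/
def t17 : LT := (LT.b (LT.a (LT.b (LT.l 4224 4189 4146 3919) (LT.a (LT.l 4214 4182 4139 3939) (LT.b (LT.l 4203 4173 4152 3934) (LT.l 4193 4166 4152 3944)))) (LT.b (LT.l 4191 4165 4171 3919) (LT.a (LT.l 4181 4157 4164 3939) LT.z2))) (LT.a (LT.b (LT.a (LT.b (LT.l 4200 4171 4139 3955) (LT.l 4190 4164 4139 3966)) (LT.l 4178 4155 4152 3960)) (LT.a (LT.b (LT.l 4179 4156 4139 3976) (LT.l 4168 4148 4139 3987)) (LT.l 4156 4139 4152 3982))) LT.z2))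

theorem c17 : chk P t17 1113470271488 9126805504 1022202216448 18253611008 = true := by decide +kernel

theorem b17 {lam : ℝ} (hlam : |(S : ℝ) * lam - ((P.lp : ℝ) - P.ln)| ≤ ((1 : ℕ) : ℝ)) : BoxS lam P 1113470271488 9126805504 1022202216448 18253611008 :=
  chk_sound hlam t17 1113470271488 9126805504 1022202216448 18253611008 (by norm_num) (by norm_num) c17

/-- Part of the subdivision. -/
def t18 : LT := (LT.a (LT.b (LT.a (LT.l 4212 4180 4091 4004) (LT.b (LT.l 4203 4174 4103 3998) (LT.l 4192 4165 4103 4010))) (LT.a (LT.b (LT.l 4195 4167 4091 4021) (LT.l 4182 4158 4091 4032)) (LT.b (LT.l 4180 4157 4103 4021) (LT.l 4167 4147 4103 4032)))) (LT.b (LT.a (LT.b (LT.l 4188 4163 4115 3998) (LT.l 4177 4154 4115 4010)) (LT.b (LT.l 4173 4151 4127 3998) (LT.l 4161 4143 4127 4010))) (LT.a (LT.b (LT.l 4165 4145 4115 4021) (LT.l 4152 4136 4115 4032)) (LT.b (LT.l 4148 4133 4127 4021) (LT.l 4135 4124 4127 4032)))))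

theorem c18 : chk P t18 1095216660480 9126805504 1058709438464 9126805504 = true := by decide +kernel

theorem b18 {lam : ℝ} (hlam : |(S : ℝ) * lam - ((P.lp : ℝ) - P.ln)| ≤ ((1 : ℕ) : ℝ)) : BoxS lam P 1095216660480 9126805504 1058709438464 9126805504 :=
  chk_sound hlam t18 1095216660480 9126805504 1058709438464 9126805504 (by norm_num) (by norm_num) c18

/-- Part of the subdivision. -/
def t19 : LT := (LT.a (LT.b (LT.l 4169 4149 4091 4044) (LT.a (LT.l 4160 4142 4088 4055) (LT.l 4152 4136 4094 4055))) (LT.b (LT.a (LT.l 4158 4141 4100 4044) (LT.l 4150 4135 4106 4044)) (LT.a (LT.l 4144 4131 4100 4055) (LT.l 4136 4125 4106 4055))))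

theorem c19 : chk P t19 1095216660480 4563402752 1076963049472 4563402752 = true := by decide +kernel

theorem b19 {lam : ℝ} (hlam : |(S : ℝ) * lam - ((P.lp : ℝ) - P.ln)| ≤ ((1 : ℕ) : ℝ)) : BoxS lam P 1095216660480 4563402752 1076963049472 4563402752 :=
  chk_sound hlam t19 1095216660480 4563402752 1076963049472 4563402752 (by norm_num) (by norm_num) c19

/-- Part of the subdivision. -/
def t20 : LT := (LT.b (LT.a (LT.b (LT.l 4149 4134 4088 4064) (LT.l 4142 4129 4088 4070)) (LT.b (LT.l 4141 4128 4094 4064) (LT.l 4134 4123 4094 4070))) (LT.a (LT.b (LT.a (LT.l 4136 4125 4086 4076) (LT.l 4132 4122 4089 4076)) (LT.a (LT.l 4129 4119 4086 4082) (LT.b (LT.l 4127 4118 4089 4080) (LT.l 4123 4115 4089 4083)))) (LT.b (LT.a (LT.l 4128 4119 4092 4076) (LT.l 4124 4116 4095 4076)) (LT.a (LT.b (LT.l 4123 4115 4092 4080) (LT.l 4119 4112 4092 4083)) (LT.b (LT.l 4119 4112 4095 4080) (LT.l 4115 4109 4095 4083))))))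

theorem c20 : chk P t20 1095216660480 2281701376 1086089854976 4563402752 = true := by decide +kernel

theorem b20 {lam : ℝ} (hlam : |(S : ℝ) * lam - ((P.lp : ℝ) - P.ln)| ≤ ((1 : ℕ) : ℝ)) : BoxS lam P 1095216660480 2281701376 1086089854976 4563402752 :=
  chk_sound hlam t20 1095216660480 2281701376 1086089854976 4563402752 (by norm_num) (by norm_num) c20

/-- Part of the subdivision. -/
def t21 : LT := (LT.b (LT.a (LT.b (LT.l 4134 4123 4100 4064) (LT.l 4126 4117 4100 4070)) (LT.b (LT.l 4125 4117 4106 4064) (LT.l 4118 4111 4106 4070))) (LT.a (LT.b (LT.a (LT.l 4120 4113 4098 4076) (LT.l 4116 4110 4101 4076)) (LT.a (LT.b (LT.l 4115 4109 4098 4080) (LT.l 4111 4106 4098 4083)) (LT.b (LT.l 4110 4106 4101 4080) (LT.l 4106 4103 4101 4083)))) (LT.b (LT.a (LT.l 4112 4107 4104 4076) (LT.l 4108 4104 4107 4076)) (LT.a (LT.b (LT.l 4106 4103 4104 4080) (LT.l 4102 4100 4104 4083)) LT.z2))))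

theorem c21 : chk P t21 1099780063232 2281701376 1086089854976 4563402752 = true := by decide +kernel

theorem b21 {lam : ℝ} (hlam : |(S : ℝ) * lam - ((P.lp : ℝ) - P.ln)| ≤ ((1 : ℕ) : ℝ)) : BoxS lam P 1099780063232 2281701376 1086089854976 4563402752 :=
  chk_sound hlam t21 1099780063232 2281701376 1086089854976 4563402752 (by norm_num) (by norm_num) c21

/-- Part of the subdivision. -/
def t22 : LT := (LT.b (LT.a (LT.b (LT.a (LT.l 4142 4129 4112 4044) (LT.l 4134 4123 4118 4044)) (LT.a (LT.l 4128 4119 4112 4055) (LT.l 4120 4113 4118 4055))) (LT.b (LT.l 4121 4114 4127 4044) LT.z2)) (LT.a (LT.b (LT.a (LT.b (LT.l 4117 4111 4112 4064) (LT.l 4109 4105 4112 4070)) LT.z2) LT.z2) LT.z2))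

theorem c22 : chk P t22 1104343465984 4563402752 1076963049472 9126805504 = true := by decide +kernel

theorem b22 {lam : ℝ} (hlam : |(S : ℝ) * lam - ((P.lp : ℝ) - P.ln)| ≤ ((1 : ℕ) : ℝ)) : BoxS lam P 1104343465984 4563402752 1076963049472 9126805504 :=
  chk_sound hlam t22 1104343465984 4563402752 1076963049472 9126805504 (by norm_num) (by norm_num) c22

/-- Part of the subdivision. -/
def t23 : LT := (LT.b (LT.a (LT.b (LT.a (LT.b (LT.l 4156 4139 4139 3998) (LT.l 4144 4130 4139 4010)) LT.z2) LT.z2) LT.z2) LT.z2)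

theorem c23 : chk P t23 1113470271488 9126805504 1058709438464 18253611008 = true := by decide +kernel

theorem b23 {lam : ℝ} (hlam : |(S : ℝ) * lam - ((P.lp : ℝ) - P.ln)| ≤ ((1 : ℕ) : ℝ)) : BoxS lam P 1113470271488 9126805504 1058709438464 18253611008 :=
  chk_sound hlam t23 1113470271488 9126805504 1058709438464 18253611008 (by norm_num) (by norm_num) c23

/-- Part of the subdivision. -/
def t24 : LT := LT.z2

theorem c24 : chk P t24 1131723882496 18253611008 1022202216448 36507222016 = true := by decide +kernel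

theorem b24 {lam : ℝ} (hlam : |(S : ℝ) * lam - ((P.lp : ℝ) - P.ln)| ≤ ((1 : ℕ) : ℝ)) : BoxS lam P 1131723882496 18253611008 1022202216448 36507222016 :=
  chk_sound hlam t24 1131723882496 18253611008 1022202216448 36507222016 (by norm_num) (by norm_num) c24

/-- Part of the subdivision. -/
def t25 : LT := (LT.b (LT.a (LT.b (LT.l 4123 4115 4086 4086) (LT.l 4119 4112 4086 4089)) (LT.b (LT.l 4119 4112 4089 4086) (LT.a (LT.l 4116 4110 4088 4089) (LT.l 4114 4109 4090 4089)))) (LT.a LT.z1 (LT.b (LT.a LT.z1 (LT.b (LT.l 4111 4106 4090 4091) LT.z1)) LT.z1)))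

theorem c25 : chk P t25 1095216660480 1140850688 1095216660480 2281701376 = true := by decide +kernel

theorem b25 {lam : ℝ} (hlam : |(S : ℝ) * lam - ((P.lp : ℝ) - P.ln)| ≤ ((1 : ℕ) : ℝ)) : BoxS lam P 1095216660480 1140850688 1095216660480 2281701376 :=
  chk_sound hlam t25 1095216660480 1140850688 1095216660480 2281701376 (by norm_num) (by norm_num) c25

/-- Part of the subdivision. -/
def t26 : LT := (LT.a (LT.b (LT.a (LT.l 4116 4110 4091 4086) (LT.l 4114 4109 4093 4086)) (LT.a (LT.l 4112 4107 4091 4089) (LT.b (LT.l 4111 4106 4093 4088) (LT.l 4109 4105 4093 4090)))) (LT.b (LT.a (LT.l 4112 4107 4094 4086) (LT.l 4110 4106 4096 4086)) (LT.a (LT.b (LT.l 4109 4105 4094 4088) (LT.l 4107 4104 4094 4090)) (LT.b (LT.l 4107 4103 4096 4088) (LT.l 4105 4102 4096 4090)))))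

theorem c26 : chk P t26 1097498361856 1140850688 1095216660480 1140850688 = true := by decide +kernel

theorem b26 {lam : ℝ} (hlam : |(S : ℝ) * lam - ((P.lp : ℝ) - P.ln)| ≤ ((1 : ℕ) : ℝ)) : BoxS lam P 1097498361856 1140850688 1095216660480 1140850688 :=
  chk_sound hlam t26 1097498361856 1140850688 1095216660480 1140850688 (by norm_num) (by norm_num) c26

/-- Part of the subdivision. -/
def t27 : LT := (LT.b (LT.a (LT.b (LT.l 4109 4105 4091 4091) (LT.l 4107 4104 4091 4093)) (LT.b (LT.l 4107 4104 4093 4091) (LT.a (LT.l 4105 4102 4093 4093) (LT.l 4104 4102 4093 4093)))) (LT.a LT.z1 (LT.b (LT.a LT.z1 (LT.b (LT.l 4102 4101 4093 4094) LT.z1)) LT.z1)))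

theorem c27 : chk P t27 1097498361856 570425344 1097498361856 1140850688 = true := by decide +kernel

theorem b27 {lam : ℝ} (hlam : |(S : ℝ) * lam - ((P.lp : ℝ) - P.ln)| ≤ ((1 : ℕ) : ℝ)) : BoxS lam P 1097498361856 570425344 1097498361856 1140850688 :=
  chk_sound hlam t27 1097498361856 570425344 1097498361856 1140850688 (by norm_num) (by norm_num) c27

/-- Part of the subdivision. -/
def t28 : LT := (LT.a (LT.b (LT.a (LT.l 4105 4102 4094 4091) (LT.l 4104 4102 4095 4091)) (LT.a (LT.b (LT.l 4103 4101 4094 4093) (LT.l 4102 4101 4094 4093)) (LT.b (LT.l 4102 4101 4095 4093) (LT.l 4101 4100 4095 4093)))) (LT.b (LT.a (LT.l 4103 4101 4096 4091) (LT.b (LT.l 4102 4101 4096 4091) (LT.l 4101 4100 4096 4092))) (LT.a (LT.b (LT.l 4101 4100 4096 4093) (LT.a (LT.l 4101 4099 4095 4093) (LT.l 4100 4099 4096 4093))) (LT.b (LT.l 4100 4099 4096 4093) (LT.a (LT.l 4100 4099 4096 4093) (LT.l 4099 4098 4097 4093))))))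

theorem c28 : chk P t28 1098639212544 570425344 1097498361856 570425344 = true := by decide +kernel

theorem b28 {lam : ℝ} (hlam : |(S : ℝ) * lam - ((P.lp : ℝ) - P.ln)| ≤ ((1 : ℕ) : ℝ)) : BoxS lam P 1098639212544 570425344 1097498361856 570425344 :=
  chk_sound hlam t28 1098639212544 570425344 1097498361856 570425344 (by norm_num) (by norm_num) c28

/-- Part of the subdivision. -/
def t29 : LT := (LT.a (LT.b (LT.a (LT.b (LT.l 4101 4100 4094 4094) (LT.a LT.z1 (LT.l 4100 4099 4094 4095))) (LT.b (LT.a (LT.l 4101 4099 4095 4094) (LT.l 4100 4099 4095 4094)) (LT.a (LT.b (LT.l 4100 4099 4095 4095) (LT.o 4099 4098 4095 4095)) (LT.o 4099 4098 4095 4095)))) (LT.a LT.z1 (LT.o 4098 4097 4095 4096))) (LT.b (LT.a (LT.b (LT.a (LT.b (LT.l 4100 4099 4095 4094) (LT.o 4099 4098 4095 4094)) (LT.b (LT.l 4099 4098 4096 4094) (LT.o 4099 4098 4096 4094))) (LT.o 4098 4098 4096 4095)) (LT.o 4098 4097 4096 4094)) (LT.o 4096 4096 4096 4096)))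

theorem c29 : chk P t29 1098639212544 570425344 1098639212544 570425344 = true := by decide +kernel

theorem b29 {lam : ℝ} (hlam : |(S : ℝ) * lam - ((P.lp : ℝ) - P.ln)| ≤ ((1 : ℕ) : ℝ)) : BoxS lam P 1098639212544 570425344 1098639212544 570425344 :=
  chk_sound hlam t29 1098639212544 570425344 1098639212544 570425344 (by norm_num) (by norm_num) c29

/-- Part of the subdivision. -/
def t30 : LT := (LT.a LT.z1 (LT.b (LT.a LT.z1 (LT.b (LT.a LT.z1 (LT.b (LT.a LT.z1 LT.z2) LT.z1)) LT.z1)) LT.z1))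

theorem c30 : chk P t30 1095216660480 2281701376 1099780063232 2281701376 = true := by decide +kernel

theorem b30 {lam : ℝ} (hlam : |(S : ℝ) * lam - ((P.lp : ℝ) - P.ln)| ≤ ((1 : ℕ) : ℝ)) : BoxS lam P 1095216660480 2281701376 1099780063232 2281701376 :=
  chk_sound hlam t30 1095216660480 2281701376 1099780063232 2281701376 (by norm_num) (by norm_num) c30

/-- Part of the subdivision. -/
def t31 : LT := (LT.b (LT.a (LT.b (LT.a (LT.b (LT.a (LT.l 4108 4104 4097 4086) (LT.l 4105 4103 4099 4086)) (LT.a (LT.b (LT.l 4104 4102 4097 4088) (LT.l 4102 4101 4097 4090)) (LT.b (LT.l 4102 4100 4099 4088) (LT.l 4100 4099 4099 4090)))) (LT.b (LT.a (LT.l 4103 4101 4100 4086) (LT.l 4101 4100 4102 4086)) (LT.a (LT.b (LT.l 4100 4099 4100 4088) LT.z2) LT.z2))) (LT.a (LT.b (LT.a (LT.b (LT.a (LT.b (LT.l 4101 4100 4097 4091) (LT.l 4100 4099 4097 4092)) (LT.l 4100 4099 4098 4091)) (LT.a (LT.b (LT.l 4099 4098 4097 4093) (LT.l 4098 4098 4097 4093)) (LT.b (LT.l 4098 4098 4098 4093) (LT.l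 4097 4097 4098 4093)))) (LT.b (LT.a (LT.l 4099 4098 4099 4091) LT.z2) LT.z2)) (LT.a (LT.b (LT.a (LT.o 4097 4096 4097 4094) LT.z2) LT.z2) LT.z2)) LT.z2)) LT.z2) LT.z2)

theorem c31 : chk P t31 1099780063232 2281701376 1095216660480 4563402752 = true := by decide +kernel

theorem b31 {lam : ℝ} (hlam : |(S : ℝ) * lam - ((P.lp : ℝ) - P.ln)| ≤ ((1 : ℕ) : ℝ)) : BoxS lam P 1099780063232 2281701376 1095216660480 4563402752 :=
  chk_sound hlam t31 1099780063232 2281701376 1095216660480 4563402752 (by norm_num) (by norm_num) c31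

/-- Part of the subdivision. -/
def t32 : LT := (LT.a LT.z1 LT.z2)

theorem c32 : chk P t32 1095216660480 4563402752 1104343465984 4563402752 = true := by decide +kernel

theorem b32 {lam : ℝ} (hlam : |(S : ℝ) * lam - ((P.lp : ℝ) - P.ln)| ≤ ((1 : ℕ) : ℝ)) : BoxS lam P 1095216660480 4563402752 1104343465984 4563402752 :=
  chk_sound hlam t32 1095216660480 4563402752 1104343465984 4563402752 (by norm_num) (by norm_num) c32

/-- Part of the subdivision. -/
def t33 : LT := LT.z2

theorem c33 : chk P t33 1104343465984 4563402752 1095216660480 9126805504 = true := by decide +kernel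

theorem b33 {lam : ℝ} (hlam : |(S : ℝ) * lam - ((P.lp : ℝ) - P.ln)| ≤ ((1 : ℕ) : ℝ)) : BoxS lam P 1104343465984 4563402752 1095216660480 9126805504 :=
  chk_sound hlam t33 1104343465984 4563402752 1095216660480 9126805504 (by norm_num) (by norm_num) c33

/-- Part of the subdivision. -/
def t34 : LT := LT.z2

theorem c34 : chk P t34 1095216660480 9126805504 1113470271488 9126805504 = true := by decide +kernel

theorem b34 {lam : ℝ} (hlam : |(S : ℝ) * lam - ((P.lp : ℝ) - P.ln)| ≤ ((1 : ℕ) : ℝ)) : BoxS lam P 1095216660480 9126805504 1113470271488 9126805504 :=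
  chk_sound hlam t34 1095216660480 9126805504 1113470271488 9126805504 (by norm_num) (by norm_num) c34

/-- Part of the subdivision. -/
def t35 : LT := LT.z2

theorem c35 : chk P t35 1113470271488 9126805504 1095216660480 18253611008 = true := by decide +kernel

theorem b35 {lam : ℝ} (hlam : |(S : ℝ) * lam - ((P.lp : ℝ) - P.ln)| ≤ ((1 : ℕ) : ℝ)) : BoxS lam P 1113470271488 9126805504 1095216660480 18253611008 :=
  chk_sound hlam t35 1113470271488 9126805504 1095216660480 18253611008 (by norm_num) (by norm_num) c35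

/-- Part of the subdivision. -/
def t36 : LT := LT.z2

theorem c36 : chk P t36 1095216660480 18253611008 1131723882496 18253611008 = true := by decide +kernel

theorem b36 {lam : ℝ} (hlam : |(S : ℝ) * lam - ((P.lp : ℝ) - P.ln)| ≤ ((1 : ℕ) : ℝ)) : BoxS lam P 1095216660480 18253611008 1131723882496 18253611008 :=
  chk_sound hlam t36 1095216660480 18253611008 1131723882496 18253611008 (by norm_num) (by norm_num) c36

/-- Part of the subdivision. -/
def t37 : LT := LT.z2

theorem c37 : chk P t37 1131723882496 18253611008 1095216660480 36507222016 = true := by decide +kernel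

theorem b37 {lam : ℝ} (hlam : |(S : ℝ) * lam - ((P.lp : ℝ) - P.ln)| ≤ ((1 : ℕ) : ℝ)) : BoxS lam P 1131723882496 18253611008 1095216660480 36507222016 :=
  chk_sound hlam t37 1131723882496 18253611008 1095216660480 36507222016 (by norm_num) (by norm_num) c37

/-- The whole box. -/
theorem box {lam : ℝ} (hlam : |(S : ℝ) * lam - ((P.lp : ℝ) - P.ln)| ≤ ((1 : ℕ) : ℝ)) : BoxS lam P 0 HH 0 HH :=
  (BoxS.sa' (x1 := 584115552256) (h := 292057776128) (by norm_num [HH]) (by norm_num) (b0 hlam) (BoxS.sb' (t1 := 584115552256) (h := 292057776128) (by norm_num [HH]) (by norm_num) (b1 hlam) (BoxS.sa' (x1 := 876173328384) (h := 146028888064) (by norm_num [HH]) (by norm_num) (b2 hlam) (BoxS.sb' (t1 := 876173328384) (h := 146028888064) (by norm_num [HH]) (by norm_num) (BoxS.sa' (x1 := 1022202216448) (h := 73014444032) (by norm_num [HH]) (by norm_num) (b3 hlam) (BoxS.sb' (t1 := 730144440320) (h := 73014444032) (by norm_num [HH]) (by norm_num) (b4 hlam) (BoxS.sa' (x1 := 1095216660480)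 (h := 36507222016) (by norm_num [HH]) (by norm_num) (b5 hlam) (b6 hlam)))) (BoxS.sa' (x1 := 1022202216448) (h := 73014444032) (by norm_num [HH]) (by norm_num) (b7 hlam) (BoxS.sb' (t1 := 1022202216448) (h := 73014444032) (by norm_num [HH]) (by norm_num) (BoxS.sa' (x1 := 1095216660480) (h := 36507222016) (by norm_num [HH]) (by norm_num) (b8 hlam) (b9 hlam)) (BoxS.sa' (x1 := 1095216660480) (h := 36507222016) (by norm_num [HH]) (by norm_num) (BoxS.sb' (t1 := 1095216660480) (h := 36507222016) (by norm_num [HH]) (by norm_num) (BoxS.sa' (x1 := 1058709438464) (h := 18253611008) (by norm_num [HH]) (by norm_num) (b10 hlam) (BoxS.sb' (t1 := 1058709438464) (h := 18253611008) (by norm_num [HH]) (by norm_num) (b11 hlam) (BoxS.sa' (x1 := 1076963049472) (h := 9126805504) (by norm_num [HH]) (by norm_num) (b12 hlam) (BoxS.sb' (t1 := 1076963049472) (h := 9126805504) (by norm_num [HH]) (by norm_num) (b13 hlam) (b14 hlam))))) (b15 hlam)) (BoxS.sb' (t1 := 1095216660480) (h := 36507222016)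 (by norm_num [HH]) (by norm_num) (BoxS.sa' (x1 := 1131723882496) (h := 18253611008) (by norm_num [HH]) (by norm_num) (BoxS.sb' (t1 := 1058709438464) (h := 18253611008) (by norm_num [HH]) (by norm_num) (BoxS.sa' (x1 := 1113470271488) (h := 9126805504) (by norm_num [HH]) (by norm_num) (b16 hlam) (b17 hlam)) (BoxS.sa' (x1 := 1113470271488) (h := 9126805504) (by norm_num [HH]) (by norm_num) (BoxS.sb' (t1 := 1076963049472) (h := 9126805504) (by norm_num [HH]) (by norm_num) (b18 hlam) (BoxS.sa' (x1 := 1104343465984) (h := 4563402752) (by norm_num [HH]) (by norm_num) (BoxS.sb' (t1 := 1086089854976) (h := 4563402752) (by norm_num [HH]) (by norm_num) (b19 hlam) (BoxS.sa' (x1 := 1099780063232) (h := 2281701376) (by norm_num [HH]) (by norm_num) (b20 hlam) (b21 hlam))) (b22 hlam))) (b23 hlam))) (b24 hlam)) (BoxS.sa' (x1 := 1131723882496) (h := 18253611008) (by norm_num [HH]) (by norm_num) (BoxS.sb' (t1 := 1131723882496) (h := 18253611008) (by norm_num [HH]) (by norm_num)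 (BoxS.sa' (x1 := 1113470271488) (h := 9126805504) (by norm_num [HH]) (by norm_num) (BoxS.sb' (t1 := 1113470271488) (h := 9126805504) (by norm_num [HH]) (by norm_num) (BoxS.sa' (x1 := 1104343465984) (h := 4563402752) (by norm_num [HH]) (by norm_num) (BoxS.sb' (t1 := 1104343465984) (h := 4563402752) (by norm_num [HH]) (by norm_num) (BoxS.sa' (x1 := 1099780063232) (h := 2281701376) (by norm_num [HH]) (by norm_num) (BoxS.sb' (t1 := 1099780063232) (h := 2281701376) (by norm_num [HH]) (by norm_num) (BoxS.sa' (x1 := 1097498361856) (h := 1140850688) (by norm_num [HH]) (by norm_num) (b25 hlam) (BoxS.sb' (t1 := 1097498361856) (h := 1140850688) (by norm_num [HH]) (by norm_num) (b26 hlam) (BoxS.sa' (x1 := 1098639212544) (h := 570425344) (by norm_num [HH]) (by norm_num) (b27 hlam) (BoxS.sb' (t1 := 1098639212544) (h := 570425344) (by norm_num [HH]) (by norm_num) (b28 hlam) (b29 hlam))))) (b30 hlam)) (b31 hlam)) (b32 hlam)) (b33 hlam)) (b34 hlam)) (b35 hlam)) (b36 hlam)) (b37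 hlam))))))))))

end Vale.Agent.P154H.Tm.P2
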