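import Vale.Agent.P154H.Msg

set_option maxRecDepth 100000

/-!
The subdivision for `d = 3`, positive eigenvalue.
-/

namespace Vale.Agent.P154H.Tm.P3

/-- A row. -/
def Ra : Row := Row.mk 0 341658 0 2902095 5112252 0 1024974 0 8706285 0 0 15336756 0 1856 0 182784 0 6201576

/-- A row. -/
def Rb : Row := Row.mk 0 5732070064128 0 48689074667520 85769356050432 0 17065510277832 0 144749938289691 0 0 254829610512384 0 31138512896 0 3066606649344 0 103184738988282
/-- A row. -/
def Q0 : Row := Row.mk 0 0 0 0 0 0 4859136 0 0 0 0 0 0 0 0 0 0 3486105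

/-- A row. -/
def Q1 : Row := Row.mk 0 0 0 0 0 0 0 0 165096960 0 0 0 0 0 0 0 0 96294107

/-- A row. -/
def Q2 : Row := Row.mk 0 0 0 0 0 0 0 0 0 0 256 0 0 0 0 0 0 561

/-- A row. -/
def Q3 : Row := Row.mk 0 349857792 0 2971745280 5234946048 0 1041269952 0 8830822416 0 0 15539641248 0 1900544 0 0 0 6314561793

/-- A row. -/
def Q4 : Row := Row.mk 0 699715584 0 5943490560 10469892096 0 2080817472 0 17642695296 0 0 31043388096 0 3801088 0 0 0 12617936451

/-- A row. -/
def Q5 : Row := Row.mk 0 174928896 0 1485872640 2617473024 0 519678336 0 4405634688 0 0 7750903968 0 950272 0 0 0 3152492451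

/-- A row. -/
def Q6 : Row := Row.mk 0 699715584 0 5943490560 10469892096 0 2075988864 0 17600231136 0 0 30959348544 0 3801088 0 0 0 12600714483

/-- A row. -/
def Q7 : Row := Row.mk 0 699715584 0 5943490560 10469892096 0 2073648384 0 17575101408 0 0 30910358208 0 3801088 0 0 0 12589844049

/-- A row. -/
def Q8 : Row := Row.mk 0 174928896 0 1485872640 2617473024 0 517926720 0 4386788880 0 0 7714045296 0 950272 0 0 0 3144704841

/-- A row. -/
def Q9 : Row := Row.mk 0 699715584 0 5943490560 10469892096 0 2068859904 0 17516669952 0 0 30796000896 0 3801088 0 0 0 12567822219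

/-- A row. -/
def Q10 : Row := Row.mk 0 699715584 0 5943490560 10469892096 0 2065443072 0 17482708416 0 0 30729360576 0 3801088 0 0 0 12553636383

/-- A row. -/
def Q11 : Row := Row.mk 0 349857792 0 2971745280 5234946048 0 1030490688 0 8722236912 0 0 15327785856 0 1900544 0 0 0 6266081421

/-- A row. -/
def Q12 : Row := Row.mk 0 174928896 0 1485872640 2617473024 0 514420512 0 4350562248 0 0 7643458176 0 950272 0 0 0 3128505363

/-- A row. -/
def Q13 : Row := Row.mk 0 21866112 0 185734080 327184128 0 64169340 0 542372331 0 0 952604670 0 118784 0 0 0 390453939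

/-- A row. -/
def Q14 : Row := Row.mk 0 3922984960 0 6398541824 12884901888 0 11475931392 0 18652527744 0 0 37413814784 0 0 0 0 0 22594667019

/-- A row. -/
def Q15 : Row := Row.mk 0 3922984960 0 6398541824 12884901888 0 11459357184 0 18607224832 0 0 37320594944 0 0 0 0 0 22552781343

/-- A row. -/
def Q16 : Row := Row.mk 0 3922984960 0 6398541824 12884901888 0 11432261120 0 18558520960 0 0 37214757120 0 0 0 0 0 22496869167

/-- A row. -/
def Q17 : Row := Row.mk 0 3922984960 0 6398541824 12884901888 0 11397243648 0 18512469504 0 0 37100690432 0 0 0 0 0 22457411127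

/-- A row. -/
def Q18 : Row := Row.mk 0 3922984960 0 6398541824 12884901888 0 11375340544 0 18455990784 0 0 36977857024 0 0 0 0 0 22420975131

/-- A row. -/
def Q19 : Row := Row.mk 0 3922984960 0 6398541824 12884901888 0 11346492672 0 18392860160 0 0 36845293056 0 0 0 0 0 22353483111

/-- A row. -/
def Q20 : Row := Row.mk 0 3922984960 0 6398541824 12884901888 0 11273259008 0 18346442112 0 0 36702334208 0 0 0 0 0 22283986899

/-- A row. -/
def Q21 : Row := Row.mk 0 3922984960 0 6398541824 12884901888 0 11217349888 0 18282355712 0 0 36548325376 0 0 0 0 0 22194197463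

/-- A row. -/
def Q22 : Row := Row.mk 0 3922984960 0 6398541824 12884901888 0 11141040128 0 18225087872 0 0 36382479872 0 0 0 0 0 22119268947

/-- A row. -/
def Q23 : Row := Row.mk 0 3922984960 0 6398541824 12884901888 0 11082584576 0 18150959104 0 0 36203739136 0 0 0 0 0 22035535191

/-- A row. -/
def Q24 : Row := Row.mk 0 3922984960 0 6398541824 12884901888 0 11347109888 0 17947883776 0 0 36011063040 0 0 0 0 0 22187373351

/-- A row. -/
def Q25 : Row := Row.mk 0 3922984960 0 6398541824 12884901888 0 11298054656 0 17849881216 0 0 35803572992 0 0 0 0 0 22075192947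

/-- A row. -/
def Q26 : Row := Row.mk 0 3922984960 0 6398541824 12884901888 0 10888612864 0 17937264512 0 0 35660076544 0 0 0 0 0 21802554663

/-- A row. -/
def Q27 : Row := Row.mk 0 32770621440 0 0 12884901888 0 93066583552 0 0 0 0 35328087040 0 0 0 0 0 113553999807

/-- A row. -/
def Q28 : Row := Row.mk 0 32770621440 0 0 12884901888 0 91985294592 0 0 0 0 34680885248 0 0 0 0 0 112255447851

/-- A row. -/
def Q29 : Row := Row.mk 0 32770621440 0 0 12884901888 0 90753875200 0 0 0 0 33912110336 0 0 0 0 0 110867503587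

/-- A row. -/
def Q30 : Row := Row.mk 0 32770621440 0 0 12884901888 0 89291843072 0 0 0 0 33000880384 0 0 0 0 0 109215134295

/-- A row. -/
def Q31 : Row := Row.mk 0 32770621440 0 0 12884901888 0 87561145600 0 0 0 0 31923810816 0 0 0 0 0 107254213671

/-- A row. -/
def Q32 : Row := Row.mk 0 32770621440 0 0 12884901888 0 85517578496 0 0 0 0 30655070464 0 0 0 0 0 104929687371

/-- A row. -/
def Q33 : Row := Row.mk 0 32770621440 0 0 12884901888 0 83494684416 0 0 0 0 29166707200 0 0 0 0 0 103235044875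

/-- A row. -/
def Q34 : Row := Row.mk 0 32770621440 0 0 12884901888 0 80517620992 0 0 0 0 27429609216 0 0 0 0 0 99542554107

/-- A row. -/
def Q35 : Row := Row.mk 0 32770621440 0 0 12884901888 0 77649251328 0 0 0 0 25615168256 0 0 0 0 0 96331920591

/-- A row. -/
def Q36 : Row := Row.mk 0 43808718848 0 0 12884901888 0 103125849856 0 0 0 0 23522603520 0 0 0 0 0 146037738915

/-- A row. -/
def Q37 : Row := Row.mk 0 43808718848 0 0 12884901888 0 99572195328 0 0 0 0 21470589696 0 0 0 0 0 141354510867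


/-- The data. -/
def P : Pb where
  lp := 41602471314954466
  ln := 0
  ab := 3298534883328
  r1 := [Ra, Rb]
  r2 := [Q0, Q1, Q2, Q3, Q4, Q5, Q6, Q7, Q8, Q9, Q10, Q11, Q12, Q13, Q14, Q15, Q16, Q17, Q18, Q19, Q20, Q21, Q22, Q23, Q24, Q25, Q26, Q27, Q28, Q29, Q30, Q31, Q32, Q33, Q34, Q35, Q36, Q37]

/-- Part of the subdivision. -/
def t0 : LT := (LT.b (LT.a (LT.b (LT.l 4699 4509 3678 3678) (LT.a LT.z1 (LT.b (LT.l 4699 4508 3678 3678) LT.z1))) (LT.b (LT.a (LT.l 4699 4508 3678 3678) (LT.l 4699 4508 3679 3678)) (LT.a (LT.b (LT.l 4699 4508 3678 3678) (LT.l 4698 4508 3678 3679)) (LT.b (LT.l 4698 4508 3679 3678) (LT.a (LT.l 4698 4508 3679 3679) (LT.l 4698 4508 3680 3679)))))) (LT.a LT.z1 (LT.b (LT.a LT.z1 (LT.b (LT.l 4695 4506 3679 3688) LT.z1)) LT.z1)))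

theorem c0 : chk P t0 0 292057776128 0 584115552256 = true := by decide +kernel

theorem b0 {lam : ℝ} (hlam : |(S : ℝ) * lam - ((P.lp : ℝ) - P.ln)| ≤ ((1 : ℕ) : ℝ)) : BoxS lam P 0 292057776128 0 584115552256 :=
  chk_sound hlam t0 0 292057776128 0 584115552256 (by norm_num) (by norm_num) c0

/-- Part of the subdivision. -/
def t1 : LT := (LT.a (LT.b (LT.a (LT.l 4696 4506 3688 3678) (LT.l 4683 4496 3727 3678)) (LT.a (LT.b (LT.l 4696 4506 3688 3678) (LT.l 4695 4506 3688 3679)) (LT.l 4683 4496 3727 3678))) (LT.b (LT.a (LT.l 4636 4460 3843 3678) (LT.b (LT.a (LT.l 4536 4386 4013 3678) (LT.b (LT.a (LT.l 4436 4315 4127 3678) (LT.l 4333 4244 4212 3678)) (LT.a (LT.l 4436 4315 4127 3678) (LT.l 4333 4244 4212 3678)))) (LT.a (LT.l 4536 4386 4013 3678) (LT.l 4390 4282 4168 3678)))) (LT.a (LT.b (LT.l 4636 4460 3843 3678) (LT.l 4635 4460 3843 3679)) (LT.b (LT.a (LT.l 4536 4386 4013 3678) (LT.b (LT.l 4390 4282 4168 3678) (LT.l 4390 4282 4168 3678))) (LT.a (LT.l 4535 4385 4013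 3679) (LT.b (LT.a (LT.l 4436 4314 4127 3679) (LT.l 4333 4244 4212 3679)) (LT.a (LT.l 4435 4314 4127 3680) (LT.l 4332 4243 4212 3680))))))))

theorem c1 : chk P t1 584115552256 292057776128 0 292057776128 = true := by decide +kernel

theorem b1 {lam : ℝ} (hlam : |(S : ℝ) * lam - ((P.lp : ℝ) - P.ln)| ≤ ((1 : ℕ) : ℝ)) : BoxS lam P 584115552256 292057776128 0 292057776128 :=
  chk_sound hlam t1 584115552256 292057776128 0 292057776128 (by norm_num) (by norm_num) c1

/-- Part of the subdivision. -/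
def t2 : LT := (LT.b (LT.a (LT.b (LT.l 4693 4504 3688 3688) (LT.l 4680 4494 3688 3727)) (LT.b (LT.l 4680 4494 3727 3688) (LT.l 4666 4484 3727 3727))) (LT.a LT.z1 (LT.b (LT.a LT.z1 (LT.b (LT.l 4629 4455 3746 3803) LT.z1)) LT.z1)))

theorem c2 : chk P t2 584115552256 146028888064 584115552256 292057776128 = true := by decide +kernel

theorem b2 {lam : ℝ} (hlam : |(S : ℝ) * lam - ((P.lp : ℝ) - P.ln)| ≤ ((1 : ℕ) : ℝ)) : BoxS lam P 584115552256 146028888064 584115552256 292057776128 :=
  chk_sound hlam t2 584115552256 146028888064 584115552256 292057776128 (by norm_num) (by norm_num) c2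

/-- Part of the subdivision. -/
def t3 : LT := (LT.a (LT.b (LT.l 4632 4457 3843 3688) (LT.a (LT.l 4636 4460 3803 3727) (LT.l 4593 4428 3891 3727))) (LT.b (LT.a (LT.b (LT.l 4533 4384 4013 3684) (LT.l 4529 4381 4013 3693)) (LT.b (LT.a (LT.l 4433 4313 4127 3684) (LT.l 4329 4241 4212 3684)) (LT.a (LT.l 4429 4310 4127 3693) (LT.l 4324 4238 4212 3693)))) (LT.a (LT.b (LT.a (LT.l 4546 4393 3980 3712) (LT.l 4493 4355 4049 3712)) (LT.a (LT.l 4531 4382 3980 3746) (LT.l 4477 4343 4049 3746))) (LT.b (LT.a (LT.b (LT.l 4423 4305 4127 3706) (LT.l 4416 4301 4127 3719)) (LT.b (LT.l 4317 4233 4212 3706) (LT.a (LT.l 4340 4249 4190 3719) (LT.l 4275 4206 4234 3719)))) (LT.a (LT.b (LT.l 4407 4294 4127 3736) (LT.a (LT.l 4416 4301 4106 3758) (LT.l 4371 4270 4147 3758))) (LT.b (LT.a (LT.l 4330 4242 4190 3736) (LT.l 4263 4198 4234 3736)) (LT.a (LT.l 4316 4232 4190 3758) (LT.l 4248 4188 4234 3758))))))))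

theorem c3 : chk P t3 876173328384 146028888064 584115552256 146028888064 = true := by decide +kernel

theorem b3 {lam : ℝ} (hlam : |(S : ℝ) * lam - ((P.lp : ℝ) - P.ln)| ≤ ((1 : ℕ) : ℝ)) : BoxS lam P 876173328384 146028888064 584115552256 146028888064 :=
  chk_sound hlam t3 876173328384 146028888064 584115552256 146028888064 (by norm_num) (by norm_num) c3

/-- Part of the subdivision. -/
def t4 : LT := (LT.b (LT.a (LT.b (LT.l 4604 4437 3803 3803) (LT.a LT.z1 (LT.l 4550 4396 3822 3891))) (LT.b (LT.a (LT.l 4573 4414 3866 3803) (LT.l 4543 4391 3919 3803)) (LT.a (LT.l 4526 4379 3866 3891) (LT.b (LT.l 4509 4367 3919 3866) (LT.l 4476 4343 3919 3919))))) (LT.a LT.z1 (LT.b (LT.a LT.z1 (LT.b (LT.a LT.z1 (LT.l 4420 4303 3933 3980)) LT.z1)) LT.z1)))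

theorem c4 : chk P t4 876173328384 73014444032 876173328384 146028888064 = true := by decide +kernel

theorem b4 {lam : ℝ} (hlam : |(S : ℝ) * lam - ((P.lp : ℝ) - P.ln)| ≤ ((1 : ℕ) : ℝ)) : BoxS lam P 876173328384 73014444032 876173328384 146028888064 :=
  chk_sound hlam t4 876173328384 73014444032 876173328384 146028888064 (by norm_num) (by norm_num) c4

/-- Part of the subdivision. -/
def t5 : LT := (LT.b (LT.a (LT.l 4502 4362 3980 3803) (LT.b (LT.l 4456 4328 4049 3786) (LT.l 4435 4314 4049 3822))) (LT.a (LT.b (LT.l 4466 4336 3980 3866) (LT.a (LT.l 4443 4320 3963 3919) (LT.l 4417 4301 3996 3919))) (LT.b (LT.a (LT.l 4423 4305 4031 3866) (LT.l 4388 4281 4068 3866)) (LT.a (LT.l 4385 4279 4031 3919) (LT.b (LT.l 4359 4261 4068 3905) (LT.l 4335 4245 4068 3933))))))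

theorem c5 : chk P t5 1022202216448 36507222016 876173328384 73014444032 = true := by decide +kernel

theorem b5 {lam : ℝ} (hlam : |(S : ℝ) * lam - ((P.lp : ℝ) - P.ln)| ≤ ((1 : ℕ) : ℝ)) : BoxS lam P 1022202216448 36507222016 876173328384 73014444032 :=
  chk_sound hlam t5 1022202216448 36507222016 876173328384 73014444032 (by norm_num) (by norm_num) c5

/-- Part of the subdivision. -/
def t6 : LT := (LT.b (LT.a (LT.b (LT.a (LT.l 4400 4289 4106 3786) (LT.l 4353 4257 4147 3786)) (LT.a (LT.l 4377 4274 4106 3822) (LT.l 4328 4241 4147 3822))) (LT.b (LT.a (LT.l 4296 4220 4190 3786) LT.z2) (LT.a (LT.l 4269 4202 4190 3822) LT.z2))) (LT.a (LT.b (LT.a (LT.b (LT.l 4354 4258 4106 3854) (LT.l 4336 4246 4106 3878)) (LT.b (LT.l 4304 4225 4147 3854) (LT.l 4284 4212 4147 3878))) (LT.a (LT.b (LT.l 4314 4232 4106 3905) (LT.a (LT.l 4301 4223 4097 3933) (LT.b (LT.l 4283 4211 4116 3926) (LT.l 4269 4202 4116 3940)))) (LT.b (LT.a (LT.l 4275 4206 4137 3905) (LT.l 4245 4187 4158 3905))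 (LT.a (LT.b (LT.l 4255 4193 4137 3926) (LT.l 4240 4183 4137 3940)) (LT.b (LT.l 4224 4173 4158 3926) (LT.l 4208 4163 4158 3940)))))) (LT.b (LT.a (LT.b (LT.l 4242 4185 4190 3854) (LT.l 4220 4171 4190 3878)) LT.z2) (LT.a (LT.b (LT.a (LT.l 4212 4166 4179 3905) LT.z2) LT.z2) LT.z2))))

theorem c6 : chk P t6 1095216660480 36507222016 876173328384 73014444032 = true := by decide +kernel

theorem b6 {lam : ℝ} (hlam : |(S : ℝ) * lam - ((P.lp : ℝ) - P.ln)| ≤ ((1 : ℕ) : ℝ)) : BoxS lam P 1095216660480 36507222016 876173328384 73014444032 :=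
  chk_sound hlam t6 1095216660480 36507222016 876173328384 73014444032 (by norm_num) (by norm_num) c6

/-- Part of the subdivision. -/
def t7 : LT := (LT.b (LT.a (LT.b (LT.l 4409 4295 3963 3963) (LT.l 4381 4276 3963 3996)) (LT.b (LT.l 4381 4276 3996 3963) (LT.l 4351 4256 3996 3996))) (LT.a LT.z1 (LT.b (LT.a LT.z1 (LT.l 4307 4227 4005 4031)) LT.z1)))

theorem c7 : chk P t7 1022202216448 18253611008 1022202216448 36507222016 = true := by decide +kernel

theorem b7 {lam : ℝ} (hlam : |(S : ℝ) * lam - ((P.lp : ℝ) - P.ln)| ≤ ((1 : ℕ) : ℝ)) : BoxS lam P 1022202216448 18253611008 1022202216448 36507222016 :=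
  chk_sound hlam t7 1022202216448 18253611008 1022202216448 36507222016 (by norm_num) (by norm_num) c7

/-- Part of the subdivision. -/
def t8 : LT := (LT.a (LT.b (LT.l 4347 4253 4031 3963) (LT.a (LT.l 4325 4239 4022 3996) (LT.l 4306 4226 4040 3996))) (LT.b (LT.a (LT.l 4318 4234 4058 3963) (LT.l 4296 4219 4077 3963)) (LT.a (LT.b (LT.l 4294 4218 4058 3988) (LT.l 4276 4206 4058 4005)) (LT.b (LT.l 4271 4203 4077 3988) (LT.l 4252 4191 4077 4005)))))

theorem c8 : chk P t8 1058709438464 18253611008 1022202216448 18253611008 = true := by decide +kernel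

theorem b8 {lam : ℝ} (hlam : |(S : ℝ) * lam - ((P.lp : ℝ) - P.ln)| ≤ ((1 : ℕ) : ℝ)) : BoxS lam P 1058709438464 18253611008 1022202216448 18253611008 :=
  chk_sound hlam t8 1058709438464 18253611008 1022202216448 18253611008 (by norm_num) (by norm_num) c8

/-- Part of the subdivision. -/
def t9 : LT := (LT.b (LT.a (LT.b (LT.l 4298 4221 4022 4022) (LT.l 4278 4208 4022 4040)) (LT.b (LT.l 4278 4208 4040 4022) (LT.l 4257 4194 4040 4040))) (LT.a LT.z1 (LT.b (LT.a LT.z1 (LT.l 4229 4176 4044 4058)) LT.z1)))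

theorem c9 : chk P t9 1058709438464 9126805504 1058709438464 18253611008 = true := by decide +kernel

theorem b9 {lam : ℝ} (hlam : |(S : ℝ) * lam - ((P.lp : ℝ) - P.ln)| ≤ ((1 : ℕ) : ℝ)) : BoxS lam P 1058709438464 9126805504 1058709438464 18253611008 :=
  chk_sound hlam t9 1058709438464 9126805504 1058709438464 18253611008 (by norm_num) (by norm_num) c9

/-- Part of the subdivision. -/
def t10 : LT := (LT.a (LT.b (LT.l 4256 4194 4058 4022) (LT.a (LT.l 4240 4184 4054 4040) (LT.l 4228 4176 4063 4040))) (LT.b (LT.a (LT.l 4238 4182 4072 4022) (LT.l 4225 4174 4082 4022)) (LT.a (LT.l 4216 4168 4072 4040) (LT.l 4202 4160 4082 4040))))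

theorem c10 : chk P t10 1076963049472 9126805504 1058709438464 9126805504 = true := by decide +kernel

theorem b10 {lam : ℝ} (hlam : |(S : ℝ) * lam - ((P.lp : ℝ) - P.ln)| ≤ ((1 : ℕ) : ℝ)) : BoxS lam P 1076963049472 9126805504 1058709438464 9126805504 :=
  chk_sound hlam t10 1076963049472 9126805504 1058709438464 9126805504 (by norm_num) (by norm_num) c10

/-- Part of the subdivision. -/
def t11 : LT := (LT.a (LT.b (LT.a (LT.l 4217 4169 4054 4058) (LT.b (LT.l 4211 4165 4063 4054) (LT.l 4198 4157 4063 4063))) (LT.a LT.z1 (LT.b (LT.l 4185 4149 4063 4072) LT.z1))) (LT.b (LT.a (LT.b (LT.l 4198 4157 4072 4054) (LT.l 4185 4149 4072 4063)) (LT.b (LT.l 4184 4148 4082 4054) (LT.l 4171 4140 4082 4063))) (LT.a (LT.b (LT.a (LT.l 4175 4143 4070 4072) (LT.l 4168 4138 4075 4072)) (LT.a LT.z1 (LT.b (LT.l 4157 4132 4075 4080) LT.z1))) (LT.b (LT.a (LT.l 4160 4134 4080 4072) (LT.b (LT.l 4157 4132 4084 4070) (LT.l 4149 4127 4084 4075))) (LT.a (LT.b (LT.l 4150 4128 4080 4080) (LT.l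 4142 4123 4080 4084)) (LT.b (LT.l 4142 4123 4084 4080) (LT.a (LT.l 4136 4120 4083 4084) (LT.l 4133 4117 4086 4084))))))))

theorem c11 : chk P t11 1076963049472 9126805504 1076963049472 9126805504 = true := by decide +kernel

theorem b11 {lam : ℝ} (hlam : |(S : ℝ) * lam - ((P.lp : ℝ) - P.ln)| ≤ ((1 : ℕ) : ℝ)) : BoxS lam P 1076963049472 9126805504 1076963049472 9126805504 :=
  chk_sound hlam t11 1076963049472 9126805504 1076963049472 9126805504 (by norm_num) (by norm_num) c11

/-- Part of the subdivision. -/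
def t12 : LT := (LT.a LT.z1 (LT.b (LT.a LT.z1 (LT.b (LT.a LT.z1 (LT.b (LT.a LT.z1 (LT.b (LT.a LT.z1 (LT.b (LT.a LT.z1 (LT.b (LT.l 4127 4114 4086 4088) LT.z1)) LT.z1)) LT.z1)) LT.z1)) LT.z1)) LT.z1))

theorem c12 : chk P t12 1022202216448 36507222016 1095216660480 36507222016 = true := by decide +kernel

theorem b12 {lam : ℝ} (hlam : |(S : ℝ) * lam - ((P.lp : ℝ) - P.ln)| ≤ ((1 : ℕ) : ℝ)) : BoxS lam P 1022202216448 36507222016 1095216660480 36507222016 :=
  chk_sound hlam t12 1022202216448 36507222016 1095216660480 36507222016 (by norm_num) (by norm_num) c12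

/-- Part of the subdivision. -/
def t13 : LT := (LT.a (LT.b (LT.a (LT.b (LT.l 4279 4209 4097 3956) (LT.l 4263 4198 4097 3971)) (LT.b (LT.l 4253 4192 4116 3956) (LT.a (LT.l 4243 4185 4111 3971) (LT.l 4229 4176 4122 3971)))) (LT.a (LT.b (LT.l 4246 4187 4097 3988) (LT.a (LT.l 4233 4179 4092 4005) (LT.l 4219 4170 4102 4005))) (LT.b (LT.a (LT.l 4225 4174 4111 3988) (LT.l 4210 4165 4122 3988)) (LT.a (LT.l 4205 4161 4111 4005) (LT.l 4190 4152 4122 4005))))) (LT.b (LT.a (LT.b (LT.a (LT.l 4231 4178 4132 3956) (LT.l 4216 4168 4142 3956)) (LT.a (LT.l 4214 4167 4132 3971) (LT.l 4198 4157 4142 3971))) (LT.b (LT.l 4191 4153 4158 3956) (LT.a (LT.l 4181 4147 4152 3971) LT.z2))) (LT.a (LT.b (LT.a (LT.l 4195 4155 4132 3988) (LT.l 4178 4145 4142 3988)) (LT.a (LT.l 4173 4142 4132 4005) (LT.l 4156 4132 4142 4005))) LT.z2)))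

theorem c13 : chk P t13 1095216660480 18253611008 1022202216448 18253611008 = true := by decide +kernel

theorem b13 {lam : ℝ} (hlam : |(S : ℝ) * lam - ((P.lp : ℝ) - P.ln)| ≤ ((1 : ℕ) : ℝ)) : BoxS lam P 1095216660480 18253611008 1022202216448 18253611008 :=
  chk_sound hlam t13 1095216660480 18253611008 1022202216448 18253611008 (by norm_num) (by norm_num) c13

/-- Part of the subdivision. -/
def t14 : LT := (LT.a (LT.b (LT.a (LT.l 4212 4166 4092 4022) (LT.l 4198 4157 4102 4022)) (LT.a (LT.b (LT.l 4195 4155 4092 4035) (LT.l 4182 4147 4092 4044)) (LT.b (LT.l 4180 4146 4102 4035) (LT.l 4167 4138 4102 4044)))) (LT.b (LT.a (LT.l 4183 4148 4111 4022) (LT.l 4167 4138 4122 4022)) (LT.a (LT.b (LT.l 4165 4137 4111 4035) (LT.l 4152 4129 4111 4044)) (LT.b (LT.l 4148 4127 4122 4035) (LT.l 4135 4119 4122 4044)))))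

theorem c14 : chk P t14 1095216660480 9126805504 1058709438464 9126805504 = true := by decide +kernel

theorem b14 {lam : ℝ} (hlam : |(S : ℝ) * lam - ((P.lp : ℝ) - P.ln)| ≤ ((1 : ℕ) : ℝ)) : BoxS lam P 1095216660480 9126805504 1058709438464 9126805504 :=
  chk_sound hlam t14 1095216660480 9126805504 1058709438464 9126805504 (by norm_num) (by norm_num) c14

/-- Part of the subdivision. -/
def t15 : LT := (LT.a (LT.b (LT.l 4169 4140 4092 4054) (LT.a (LT.l 4160 4134 4089 4063) (LT.l 4152 4129 4094 4063))) (LT.b (LT.l 4154 4130 4102 4054) (LT.a (LT.l 4144 4124 4099 4063) (LT.l 4136 4120 4104 4063))))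

theorem c15 : chk P t15 1095216660480 4563402752 1076963049472 4563402752 = true := by decide +kernel

theorem b15 {lam : ℝ} (hlam : |(S : ℝ) * lam - ((P.lp : ℝ) - P.ln)| ≤ ((1 : ℕ) : ℝ)) : BoxS lam P 1095216660480 4563402752 1076963049472 4563402752 :=
  chk_sound hlam t15 1095216660480 4563402752 1076963049472 4563402752 (by norm_num) (by norm_num) c15

/-- Part of the subdivision. -/
def t16 : LT := (LT.b (LT.a (LT.b (LT.l 4149 4127 4089 4070) (LT.l 4142 4123 4089 4075)) (LT.b (LT.l 4141 4123 4094 4070) (LT.l 4134 4118 4094 4075))) (LT.a (LT.b (LT.l 4134 4118 4089 4080) (LT.a (LT.l 4129 4115 4088 4084) (LT.b (LT.l 4127 4114 4090 4083) (LT.l 4123 4112 4090 4086)))) (LT.b (LT.a (LT.l 4128 4115 4093 4080) (LT.l 4124 4113 4095 4080)) (LT.a (LT.b (LT.l 4123 4112 4093 4083) (LT.l 4119 4109 4093 4086)) (LT.b (LT.l 4119 4109 4095 4083) (LT.l 4115 4107 4095 4086))))))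

theorem c16 : chk P t16 1095216660480 2281701376 1086089854976 4563402752 = true := by decide +kernel

theorem b16 {lam : ℝ} (hlam : |(S : ℝ) * lam - ((P.lp : ℝ) - P.ln)| ≤ ((1 : ℕ) : ℝ)) : BoxS lam P 1095216660480 2281701376 1086089854976 4563402752 :=
  chk_sound hlam t16 1095216660480 2281701376 1086089854976 4563402752 (by norm_num) (by norm_num) c16

/-- Part of the subdivision. -/
def t17 : LT := (LT.b (LT.a (LT.b (LT.l 4134 4118 4099 4070) (LT.l 4126 4114 4099 4075)) (LT.b (LT.l 4125 4113 4104 4070) (LT.l 4118 4109 4104 4075))) (LT.a (LT.b (LT.a (LT.l 4120 4110 4098 4080) (LT.l 4116 4108 4100 4080)) (LT.a (LT.b (LT.l 4115 4107 4098 4083) (LT.l 4111 4104 4098 4086)) (LT.b (LT.l 4110 4104 4100 4083) (LT.l 4106 4102 4100 4086)))) (LT.b (LT.a (LT.l 4112 4105 4103 4080) (LT.l 4108 4103 4105 4080)) (LT.a (LT.b (LT.l 4106 4102 4103 4083) (LT.l 4102 4100 4103 4086)) LT.z2))))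

theorem c17 : chk P t17 1099780063232 2281701376 1086089854976 4563402752 = true := by decide +kernel

theorem b17 {lam : ℝ} (hlam : |(S : ℝ) * lam - ((P.lp : ℝ) - P.ln)| ≤ ((1 : ℕ) : ℝ)) : BoxS lam P 1099780063232 2281701376 1086089854976 4563402752 :=
  chk_sound hlam t17 1099780063232 2281701376 1086089854976 4563402752 (by norm_num) (by norm_num) c17

/-- Part of the subdivision. -/
def t18 : LT := (LT.b (LT.a (LT.b (LT.l 4138 4121 4111 4054) (LT.a (LT.l 4128 4115 4109 4063) (LT.l 4120 4110 4114 4063))) (LT.b (LT.l 4121 4111 4122 4054) LT.z2)) (LT.a (LT.b (LT.a (LT.b (LT.l 4117 4108 4109 4070) (LT.l 4109 4104 4109 4075)) LT.z2) LT.z2) LT.z2))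

theorem c18 : chk P t18 1104343465984 4563402752 1076963049472 9126805504 = true := by decide +kernel

theorem b18 {lam : ℝ} (hlam : |(S : ℝ) * lam - ((P.lp : ℝ) - P.ln)| ≤ ((1 : ℕ) : ℝ)) : BoxS lam P 1104343465984 4563402752 1076963049472 9126805504 :=
  chk_sound hlam t18 1104343465984 4563402752 1076963049472 9126805504 (by norm_num) (by norm_num) c18

/-- Part of the subdivision. -/
def t19 : LT := (LT.b (LT.a (LT.b (LT.a (LT.l 4150 4128 4132 4022) LT.z2) LT.z2) LT.z2) LT.z2)

theorem c19 : chk P t19 1113470271488 9126805504 1058709438464 18253611008 = true := by decide +kernel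

theorem b19 {lam : ℝ} (hlam : |(S : ℝ) * lam - ((P.lp : ℝ) - P.ln)| ≤ ((1 : ℕ) : ℝ)) : BoxS lam P 1113470271488 9126805504 1058709438464 18253611008 :=
  chk_sound hlam t19 1113470271488 9126805504 1058709438464 18253611008 (by norm_num) (by norm_num) c19

/-- Part of the subdivision. -/
def t20 : LT := LT.z2

theorem c20 : chk P t20 1131723882496 18253611008 1022202216448 36507222016 = true := by decide +kernel

theorem b20 {lam : ℝ} (hlam : |(S : ℝ) * lam - ((P.lp : ℝ) - P.ln)| ≤ ((1 : ℕ) : ℝ)) : BoxS lam P 1131723882496 18253611008 1022202216448 36507222016 :=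
  chk_sound hlam t20 1131723882496 18253611008 1022202216448 36507222016 (by norm_num) (by norm_num) c20

/-- Part of the subdivision. -/
def t21 : LT := (LT.b (LT.a (LT.b (LT.l 4123 4112 4088 4088) (LT.l 4119 4109 4088 4090)) (LT.b (LT.l 4119 4109 4090 4088) (LT.a (LT.l 4116 4108 4090 4090) (LT.l 4114 4106 4091 4090)))) (LT.a LT.z1 (LT.b (LT.a LT.z1 (LT.b (LT.l 4111 4105 4091 4092) LT.z1)) LT.z1)))

theorem c21 : chk P t21 1095216660480 1140850688 1095216660480 2281701376 = true := by decide +kernel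

theorem b21 {lam : ℝ} (hlam : |(S : ℝ) * lam - ((P.lp : ℝ) - P.ln)| ≤ ((1 : ℕ) : ℝ)) : BoxS lam P 1095216660480 1140850688 1095216660480 2281701376 :=
  chk_sound hlam t21 1095216660480 1140850688 1095216660480 2281701376 (by norm_num) (by norm_num) c21

/-- Part of the subdivision. -/
def t22 : LT := (LT.a (LT.b (LT.a (LT.l 4116 4107 4092 4088) (LT.l 4114 4106 4094 4088)) (LT.a (LT.l 4112 4105 4092 4090) (LT.b (LT.l 4111 4105 4094 4090) (LT.l 4109 4103 4094 4091)))) (LT.b (LT.a (LT.l 4112 4105 4095 4088) (LT.l 4110 4104 4096 4088)) (LT.a (LT.b (LT.l 4109 4103 4095 4090) (LT.l 4107 4102 4095 4091)) (LT.b (LT.l 4107 4102 4096 4090) (LT.l 4105 4101 4096 4091)))))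

theorem c22 : chk P t22 1097498361856 1140850688 1095216660480 1140850688 = true := by decide +kernel

theorem b22 {lam : ℝ} (hlam : |(S : ℝ) * lam - ((P.lp : ℝ) - P.ln)| ≤ ((1 : ℕ) : ℝ)) : BoxS lam P 1097498361856 1140850688 1095216660480 1140850688 :=
  chk_sound hlam t22 1097498361856 1140850688 1095216660480 1140850688 (by norm_num) (by norm_num) c22

/-- Part of the subdivision. -/
def t23 : LT := (LT.b (LT.a (LT.b (LT.l 4109 4103 4092 4092) (LT.l 4107 4102 4092 4094)) (LT.b (LT.l 4107 4102 4094 4092) (LT.a (LT.l 4105 4101 4093 4094) (LT.l 4104 4101 4094 4094)))) (LT.a LT.z1 (LT.b (LT.a LT.z1 (LT.b (LT.l 4102 4100 4094 4094) LT.z1)) LT.z1)))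

theorem c23 : chk P t23 1097498361856 570425344 1097498361856 1140850688 = true := by decide +kernel

theorem b23 {lam : ℝ} (hlam : |(S : ℝ) * lam - ((P.lp : ℝ) - P.ln)| ≤ ((1 : ℕ) : ℝ)) : BoxS lam P 1097498361856 570425344 1097498361856 1140850688 :=
  chk_sound hlam t23 1097498361856 570425344 1097498361856 1140850688 (by norm_num) (by norm_num) c23

/-- Part of the subdivision. -/
def t24 : LT := (LT.a (LT.b (LT.a (LT.l 4105 4101 4094 4092) (LT.l 4104 4101 4095 4092)) (LT.a (LT.b (LT.l 4103 4100 4094 4093) (LT.l 4102 4100 4094 4094)) (LT.b (LT.l 4102 4100 4095 4093) (LT.l 4101 4099 4095 4094)))) (LT.b (LT.a (LT.l 4103 4100 4096 4092) (LT.l 4102 4099 4096 4092)) (LT.a (LT.b (LT.l 4101 4099 4096 4093) (LT.a (LT.l 4101 4099 4096 4094) (LT.l 4100 4098 4096 4094))) (LT.b (LT.l 4100 4099 4096 4093) (LT.a (LT.l 4100 4098 4096 4094) (LT.l 4099 4098 4096 4094))))))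

theorem c24 : chk P t24 1098639212544 570425344 1097498361856 570425344 = true := by decide +kernel

theorem b24 {lam : ℝ} (hlam : |(S : ℝ) * lam - ((P.lp : ℝ) - P.ln)| ≤ ((1 : ℕ) : ℝ)) : BoxS lam P 1098639212544 570425344 1097498361856 570425344 :=
  chk_sound hlam t24 1098639212544 570425344 1097498361856 570425344 (by norm_num) (by norm_num) c24

/-- Part of the subdivision. -/
def t25 : LT := (LT.a (LT.b (LT.a (LT.b (LT.l 4101 4099 4094 4094) (LT.a LT.z1 (LT.l 4100 4098 4095 4095))) (LT.b (LT.a (LT.l 4101 4099 4095 4094) (LT.l 4100 4098 4095 4094)) (LT.a (LT.b (LT.l 4100 4098 4095 4095) (LT.o 4099 4098 4095 4095)) (LT.o 4099 4098 4095 4095)))) (LT.a LT.z1 (LT.o 4098 4097 4095 4096))) (LT.b (LT.a (LT.b (LT.a (LT.b (LT.l 4100 4098 4096 4094) (LT.o 4099 4098 4096 4095)) (LT.b (LT.l 4099 4098 4096 4094) (LT.o 4099 4098 4096 4095))) (LT.o 4098 4097 4096 4095)) (LT.o 4098 4097 4096 4095)) (LT.o 4096 4096 4096 4096)))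

theorem c25 : chk P t25 1098639212544 570425344 1098639212544 570425344 = true := by decide +kernel

theorem b25 {lam : ℝ} (hlam : |(S : ℝ) * lam - ((P.lp : ℝ) - P.ln)| ≤ ((1 : ℕ) : ℝ)) : BoxS lam P 1098639212544 570425344 1098639212544 570425344 :=
  chk_sound hlam t25 1098639212544 570425344 1098639212544 570425344 (by norm_num) (by norm_num) c25

/-- Part of the subdivision. -/
def t26 : LT := (LT.a LT.z1 (LT.b (LT.a LT.z1 (LT.b (LT.a LT.z1 (LT.b (LT.a LT.z1 LT.z2) LT.z1)) LT.z1)) LT.z1))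

theorem c26 : chk P t26 1095216660480 2281701376 1099780063232 2281701376 = true := by decide +kernel

theorem b26 {lam : ℝ} (hlam : |(S : ℝ) * lam - ((P.lp : ℝ) - P.ln)| ≤ ((1 : ℕ) : ℝ)) : BoxS lam P 1095216660480 2281701376 1099780063232 2281701376 :=
  chk_sound hlam t26 1095216660480 2281701376 1099780063232 2281701376 (by norm_num) (by norm_num) c26

/-- Part of the subdivision. -/
def t27 : LT := (LT.b (LT.a (LT.b (LT.a (LT.b (LT.a (LT.l 4108 4103 4097 4088) (LT.l 4105 4101 4098 4088)) (LT.a (LT.b (LT.l 4104 4101 4097 4090) (LT.l 4102 4100 4097 4091)) (LT.b (LT.l 4102 4100 4098 4090) (LT.l 4100 4098 4098 4091)))) (LT.b (LT.l 4102 4100 4100 4088) (LT.a (LT.b (LT.l 4100 4098 4100 4090) LT.z2) LT.z2))) (LT.a (LT.b (LT.a (LT.b (LT.a (LT.l 4101 4099 4097 4092) (LT.l 4100 4098 4097 4092)) (LT.a (LT.b (LT.l 4099 4098 4097 4093) (LT.l 4098 4097 4097 4094)) (LT.b (LT.l 4098 4097 4097 4093) (LT.l 4097 4097 4097 4094)))) (LT.b (LT.l 4098 4097 4098 4092) LT.z2)) (LT.a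 (LT.b (LT.a (LT.o 4097 4096 4097 4095) LT.z2) LT.z2) LT.z2)) LT.z2)) LT.z2) LT.z2)

theorem c27 : chk P t27 1099780063232 2281701376 1095216660480 4563402752 = true := by decide +kernel

theorem b27 {lam : ℝ} (hlam : |(S : ℝ) * lam - ((P.lp : ℝ) - P.ln)| ≤ ((1 : ℕ) : ℝ)) : BoxS lam P 1099780063232 2281701376 1095216660480 4563402752 :=
  chk_sound hlam t27 1099780063232 2281701376 1095216660480 4563402752 (by norm_num) (by norm_num) c27

/-- Part of the subdivision. -/
def t28 : LT := (LT.a LT.z1 LT.z2)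

theorem c28 : chk P t28 1095216660480 4563402752 1104343465984 4563402752 = true := by decide +kernel

theorem b28 {lam : ℝ} (hlam : |(S : ℝ) * lam - ((P.lp : ℝ) - P.ln)| ≤ ((1 : ℕ) : ℝ)) : BoxS lam P 1095216660480 4563402752 1104343465984 4563402752 :=
  chk_sound hlam t28 1095216660480 4563402752 1104343465984 4563402752 (by norm_num) (by norm_num) c28

/-- Part of the subdivision. -/
def t29 : LT := LT.z2

theorem c29 : chk P t29 1104343465984 4563402752 1095216660480 9126805504 = true := by decide +kernel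

theorem b29 {lam : ℝ} (hlam : |(S : ℝ) * lam - ((P.lp : ℝ) - P.ln)| ≤ ((1 : ℕ) : ℝ)) : BoxS lam P 1104343465984 4563402752 1095216660480 9126805504 :=
  chk_sound hlam t29 1104343465984 4563402752 1095216660480 9126805504 (by norm_num) (by norm_num) c29

/-- Part of the subdivision. -/
def t30 : LT := LT.z2

theorem c30 : chk P t30 1095216660480 9126805504 1113470271488 9126805504 = true := by decide +kernel

theorem b30 {lam : ℝ} (hlam : |(S : ℝ) * lam - ((P.lp : ℝ) - P.ln)| ≤ ((1 : ℕ) : ℝ)) : BoxS lam P 1095216660480 9126805504 1113470271488 9126805504 :=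
  chk_sound hlam t30 1095216660480 9126805504 1113470271488 9126805504 (by norm_num) (by norm_num) c30

/-- Part of the subdivision. -/
def t31 : LT := LT.z2

theorem c31 : chk P t31 1113470271488 9126805504 1095216660480 18253611008 = true := by decide +kernel

theorem b31 {lam : ℝ} (hlam : |(S : ℝ) * lam - ((P.lp : ℝ) - P.ln)| ≤ ((1 : ℕ) : ℝ)) : BoxS lam P 1113470271488 9126805504 1095216660480 18253611008 :=
  chk_sound hlam t31 1113470271488 9126805504 1095216660480 18253611008 (by norm_num) (by norm_num) c31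

/-- Part of the subdivision. -/
def t32 : LT := LT.z2

theorem c32 : chk P t32 1095216660480 18253611008 1131723882496 18253611008 = true := by decide +kernel

theorem b32 {lam : ℝ} (hlam : |(S : ℝ) * lam - ((P.lp : ℝ) - P.ln)| ≤ ((1 : ℕ) : ℝ)) : BoxS lam P 1095216660480 18253611008 1131723882496 18253611008 :=
  chk_sound hlam t32 1095216660480 18253611008 1131723882496 18253611008 (by norm_num) (by norm_num) c32

/-- Part of the subdivision. -/
def t33 : LT := LT.z2

theorem c33 : chk P t33 1131723882496 18253611008 1095216660480 36507222016 = true := by decide +kernel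

theorem b33 {lam : ℝ} (hlam : |(S : ℝ) * lam - ((P.lp : ℝ) - P.ln)| ≤ ((1 : ℕ) : ℝ)) : BoxS lam P 1131723882496 18253611008 1095216660480 36507222016 :=
  chk_sound hlam t33 1131723882496 18253611008 1095216660480 36507222016 (by norm_num) (by norm_num) c33

/-- The whole box. -/
theorem box {lam : ℝ} (hlam : |(S : ℝ) * lam - ((P.lp : ℝ) - P.ln)| ≤ ((1 : ℕ) : ℝ)) : BoxS lam P 0 HH 0 HH :=
  (BoxS.sa' (x1 := 584115552256) (h := 292057776128) (by norm_num [HH]) (by norm_num) (b0 hlam) (BoxS.sb' (t1 := 584115552256) (h := 292057776128) (by norm_num [HH]) (by norm_num) (b1 hlam) (BoxS.sa' (x1 := 876173328384) (h := 146028888064) (by norm_num [HH]) (by norm_num) (b2 hlam) (BoxS.sb' (t1 := 876173328384) (h := 146028888064) (by norm_num [HH]) (by norm_num) (b3 hlam) (BoxS.sa' (x1 := 1022202216448) (h := 73014444032) (by norm_num [HH]) (by norm_num) (b4 hlam) (BoxS.sb' (t1 := 1022202216448) (h := 73014444032) (by norm_num [HH]) (by norm_num) (BoxS.sa' (x1 := 1095216660480)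 (h := 36507222016) (by norm_num [HH]) (by norm_num) (b5 hlam) (b6 hlam)) (BoxS.sa' (x1 := 1095216660480) (h := 36507222016) (by norm_num [HH]) (by norm_num) (BoxS.sb' (t1 := 1095216660480) (h := 36507222016) (by norm_num [HH]) (by norm_num) (BoxS.sa' (x1 := 1058709438464) (h := 18253611008) (by norm_num [HH]) (by norm_num) (b7 hlam) (BoxS.sb' (t1 := 1058709438464) (h := 18253611008) (by norm_num [HH]) (by norm_num) (b8 hlam) (BoxS.sa' (x1 := 1076963049472) (h := 9126805504) (by norm_num [HH]) (by norm_num) (b9 hlam) (BoxS.sb' (t1 := 1076963049472) (h := 9126805504) (by norm_num [HH]) (by norm_num) (b10 hlam) (b11 hlam))))) (b12 hlam)) (BoxS.sb' (t1 := 1095216660480) (h := 36507222016) (by norm_num [HH]) (by norm_num) (BoxS.sa' (x1 := 1131723882496) (h := 18253611008) (by norm_num [HH]) (by norm_num) (BoxS.sb' (t1 := 1058709438464) (h := 18253611008) (by norm_num [HH]) (by norm_num) (b13 hlam) (BoxS.sa' (x1 := 1113470271488) (h := 9126805504) (by norm_num [HH])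 (by norm_num) (BoxS.sb' (t1 := 1076963049472) (h := 9126805504) (by norm_num [HH]) (by norm_num) (b14 hlam) (BoxS.sa' (x1 := 1104343465984) (h := 4563402752) (by norm_num [HH]) (by norm_num) (BoxS.sb' (t1 := 1086089854976) (h := 4563402752) (by norm_num [HH]) (by norm_num) (b15 hlam) (BoxS.sa' (x1 := 1099780063232) (h := 2281701376) (by norm_num [HH]) (by norm_num) (b16 hlam) (b17 hlam))) (b18 hlam))) (b19 hlam))) (b20 hlam)) (BoxS.sa' (x1 := 1131723882496) (h := 18253611008) (by norm_num [HH]) (by norm_num) (BoxS.sb' (t1 := 1131723882496) (h := 18253611008) (by norm_num [HH]) (by norm_num) (BoxS.sa' (x1 := 1113470271488) (h := 9126805504) (by norm_num [HH]) (by norm_num) (BoxS.sb' (t1 := 1113470271488) (h := 9126805504) (by norm_num [HH]) (by norm_num) (BoxS.sa' (x1 := 1104343465984) (h := 4563402752) (by norm_num [HH]) (by norm_num) (BoxS.sb' (t1 := 1104343465984) (h := 4563402752) (by norm_num [HH]) (by norm_num) (BoxS.sa' (x1 := 1099780063232) (h := 2281701376)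 (by norm_num [HH]) (by norm_num) (BoxS.sb' (t1 := 1099780063232) (h := 2281701376) (by norm_num [HH]) (by norm_num) (BoxS.sa' (x1 := 1097498361856) (h := 1140850688) (by norm_num [HH]) (by norm_num) (b21 hlam) (BoxS.sb' (t1 := 1097498361856) (h := 1140850688) (by norm_num [HH]) (by norm_num) (b22 hlam) (BoxS.sa' (x1 := 1098639212544) (h := 570425344) (by norm_num [HH]) (by norm_num) (b23 hlam) (BoxS.sb' (t1 := 1098639212544) (h := 570425344) (by norm_num [HH]) (by norm_num) (b24 hlam) (b25 hlam))))) (b26 hlam)) (b27 hlam)) (b28 hlam)) (b29 hlam)) (b30 hlam)) (b31 hlam)) (b32 hlam)) (b33 hlam))))))))))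

end Vale.Agent.P154H.Tm.P3
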