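import Vale.Agent.P154H.Msg

set_option maxRecDepth 100000

/-!
The subdivision for `d = 4`, positive eigenvalue.
-/

namespace Vale.Agent.P154H.Tm.P4

/-- A row. -/
def Ra : Row := Row.mk 0 78921 0 1598400 2752704 0 315684 0 6393600 0 0 11010816 0 736 0 202752 0 4707153

/-- A row. -/
def Rb : Row := Row.mk 0 82754666496 0 1676043878400 2886419349504 0 323598096036 0 6524388009099 0 0 11215300718592 0 771751936 0 212600881152 0 4825950965550
/-- A row. -/
def Q0 : Row := Row.mk 0 0 0 0 0 0 140304 0 0 0 0 0 0 0 0 0 0 103305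

/-- A row. -/
def Q1 : Row := Row.mk 0 0 0 0 0 0 0 0 5683200 0 0 0 0 0 0 0 0 3318939

/-- A row. -/
def Q2 : Row := Row.mk 0 0 0 0 0 0 0 0 0 0 1024 0 0 0 0 0 0 2445

/-- A row. -/
def Q3 : Row := Row.mk 0 40407552 0 818380800 1409384448 0 157880616 0 3181529124 0 0 5461641936 0 376832 0 0 0 2374425171

/-- A row. -/
def Q4 : Row := Row.mk 0 323260416 0 6547046400 11275075584 0 1259784576 0 25379376096 0 0 43551165312 0 3014656 0 0 0 18974116593

/-- A row. -/
def Q5 : Row := Row.mk 0 323260416 0 6547046400 11275075584 0 1256762112 0 25294064256 0 0 43395039552 0 3014656 0 0 0 18921557151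

/-- A row. -/
def Q6 : Row := Row.mk 0 323260416 0 6547046400 11275075584 0 1252585152 0 25205437728 0 0 43223231424 0 3014656 0 0 0 18892346733

/-- A row. -/
def Q7 : Row := Row.mk 0 323260416 0 6547046400 11275075584 0 1248186048 0 25107984000 0 0 43034366976 0 3014656 0 0 0 18860586831

/-- A row. -/
def Q8 : Row := Row.mk 0 323260416 0 6547046400 11275075584 0 1244821440 0 25000610496 0 0 42827103360 0 3014656 0 0 0 18827489313

/-- A row. -/
def Q9 : Row := Row.mk 0 323260416 0 6547046400 11275075584 0 1239764352 0 24883404000 0 0 42599635392 0 3014656 0 0 0 18790791003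

/-- A row. -/
def Q10 : Row := Row.mk 0 323260416 0 6547046400 11275075584 0 1231036608 0 24748377408 0 0 42349710144 0 3014656 0 0 0 18704218131

/-- A row. -/
def Q11 : Row := Row.mk 0 323260416 0 6547046400 11275075584 0 1229462016 0 24604926720 0 0 42075135936 0 3014656 0 0 0 18661549743

/-- A row. -/
def Q12 : Row := Row.mk 0 161630208 0 3273523200 5637537792 0 610505472 0 12225432144 0 0 20887018752 0 1507328 0 0 0 9306930267

/-- A row. -/
def Q13 : Row := Row.mk 0 323260416 0 6547046400 11275075584 0 1208350272 0 24281199456 0 0 41443883904 0 3014656 0 0 0 18547126767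

/-- A row. -/
def Q14 : Row := Row.mk 0 323260416 0 6547046400 11275075584 0 1206738432 0 24084818112 0 0 41082003456 0 3014656 0 0 0 18448993449

/-- A row. -/
def Q15 : Row := Row.mk 0 323260416 0 6547046400 11275075584 0 1200812928 0 23879069952 0 0 40685846784 0 3014656 0 0 0 18383137317

/-- A row. -/
def Q16 : Row := Row.mk 0 323260416 0 6547046400 11275075584 0 1193096640 0 23657688864 0 0 40252047360 0 3014656 0 0 0 18329869773

/-- A row. -/
def Q17 : Row := Row.mk 0 323260416 0 6547046400 11275075584 0 1177179456 0 23420427936 0 0 39777423552 0 3014656 0 0 0 18277966323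

/-- A row. -/
def Q18 : Row := Row.mk 0 80815104 0 1636761600 2818768896 0 290003424 0 5784384888 0 0 9814693296 0 753664 0 0 0 4521310227

/-- A row. -/
def Q19 : Row := Row.mk 0 161630208 0 3273523200 5637537792 0 575503776 0 11428742832 0 0 19346221344 0 1507328 0 0 0 9034300971

/-- A row. -/
def Q20 : Row := Row.mk 0 323260416 0 6547046400 11275075584 0 1144147200 0 22569385536 0 0 38074629504 0 3014656 0 0 0 18156986973

/-- A row. -/
def Q21 : Row := Row.mk 0 323260416 0 6547046400 11275075584 0 1133013504 0 22240685472 0 0 37401446400 0 3014656 0 0 0 18156043161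

/-- A row. -/
def Q22 : Row := Row.mk 0 323260416 0 6547046400 11275075584 0 1119369408 0 21940752000 0 0 36668777664 0 3014656 0 0 0 18475176051

/-- A row. -/
def Q23 : Row := Row.mk 0 323260416 0 6547046400 11275075584 0 1111979712 0 21738684000 0 0 35872377984 0 3014656 0 0 0 19535053059

/-- A row. -/
def Q24 : Row := Row.mk 0 80815104 0 1636761600 2818768896 0 271937328 0 5298505488 0 0 8751999696 0 753664 0 0 0 4700285847

/-- A row. -/
def Q25 : Row := Row.mk 0 323260416 0 6547046400 11275075584 0 1072210752 0 20608169376 0 0 34071518016 0 3014656 0 0 0 18067581243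

/-- A row. -/
def Q26 : Row := Row.mk 0 323260416 0 6547046400 11275075584 0 1022151744 0 20025944832 0 0 33059103360 0 3014656 0 0 0 17470723239

/-- A row. -/
def Q27 : Row := Row.mk 0 323260416 0 6547046400 11275075584 0 1002480192 0 19404439488 0 0 31966970496 0 3014656 0 0 0 16962537807

/-- A row. -/
def Q28 : Row := Row.mk 0 161630208 0 3273523200 5637537792 0 491032320 0 9401928624 0 0 15395716896 0 1507328 0 0 0 8394184647

/-- A row. -/
def Q29 : Row := Row.mk 0 323260416 0 6547046400 11275075584 0 956919360 0 18247106880 0 0 29529590976 0 3014656 0 0 0 17054702649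

/-- A row. -/
def Q30 : Row := Row.mk 0 323260416 0 6547046400 11275075584 0 921233088 0 17718311808 0 0 28179431616 0 3014656 0 0 0 17650619829

/-- A row. -/
def Q31 : Row := Row.mk 0 323260416 0 6547046400 11275075584 0 891355392 0 17042932128 0 0 26739804480 0 3014656 0 0 0 17698051449

/-- A row. -/
def Q32 : Row := Row.mk 0 323260416 0 6547046400 11275075584 0 853766784 0 16574646144 0 0 25211043072 0 3014656 0 0 0 18992651697

/-- A row. -/
def Q33 : Row := Row.mk 0 323260416 0 6547046400 11275075584 0 844420800 0 16053302400 0 0 23577454656 0 3014656 0 0 0 20291752611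


/-- The data. -/
def P : Pb where
  lp := 36028797018963968
  ln := 0
  ab := 3298534883328
  r1 := [Ra, Rb]
  r2 := [Q0, Q1, Q2, Q3, Q4, Q5, Q6, Q7, Q8, Q9, Q10, Q11, Q12, Q13, Q14, Q15, Q16, Q17, Q18, Q19, Q20, Q21, Q22, Q23, Q24, Q25, Q26, Q27, Q28, Q29, Q30, Q31, Q32, Q33]

/-- Part of the subdivision. -/
def t0 : LT := (LT.b (LT.a (LT.b (LT.l 4699 4467 3756 3756) (LT.a LT.z1 (LT.b (LT.l 4699 4467 3756 3756) LT.z1))) (LT.b (LT.a (LT.l 4699 4467 3756 3756) (LT.l 4699 4466 3757 3756)) (LT.a (LT.b (LT.l 4699 4467 3756 3756) (LT.l 4698 4466 3756 3757)) (LT.b (LT.l 4698 4466 3757 3756) (LT.l 4698 4466 3757 3757))))) (LT.a LT.z1 (LT.b (LT.a LT.z1 (LT.b (LT.l 4695 4464 3757 3764) LT.z1)) LT.z1)))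

theorem c0 : chk P t0 0 292057776128 0 584115552256 = true := by decide +kernel

theorem b0 {lam : ℝ} (hlam : |(S : ℝ) * lam - ((P.lp : ℝ) - P.ln)| ≤ ((1 : ℕ) : ℝ)) : BoxS lam P 0 292057776128 0 584115552256 :=
  chk_sound hlam t0 0 292057776128 0 584115552256 (by norm_num) (by norm_num) c0

/-- Part of the subdivision. -/
def t1 : LT := (LT.a (LT.b (LT.a (LT.l 4696 4464 3764 3756) (LT.l 4683 4455 3793 3756)) (LT.a (LT.l 4696 4464 3764 3756) (LT.l 4683 4455 3793 3756))) (LT.b (LT.a (LT.l 4636 4422 3884 3756) (LT.b (LT.l 4475 4314 4088 3756) (LT.l 4475 4314 4088 3756))) (LT.a (LT.l 4636 4422 3884 3756) (LT.b (LT.a (LT.l 4536 4354 4025 3756) (LT.l 4390 4260 4159 3756)) (LT.a (LT.l 4535 4354 4025 3757) (LT.l 4389 4260 4159 3757))))))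

theorem c1 : chk P t1 584115552256 292057776128 0 292057776128 = true := by decide +kernel

theorem b1 {lam : ℝ} (hlam : |(S : ℝ) * lam - ((P.lp : ℝ) - P.ln)| ≤ ((1 : ℕ) : ℝ)) : BoxS lam P 584115552256 292057776128 0 292057776128 :=
  chk_sound hlam t1 584115552256 292057776128 0 292057776128 (by norm_num) (by norm_num) c1

/-- Part of the subdivision. -/
def t2 : LT := (LT.b (LT.a (LT.b (LT.l 4693 4462 3764 3764) (LT.l 4680 4453 3764 3793)) (LT.b (LT.l 4680 4453 3793 3764) (LT.l 4666 4444 3793 3793))) (LT.a LT.z1 (LT.b (LT.a LT.z1 (LT.b (LT.l 4629 4417 3808 3853) LT.z1)) LT.z1)))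

theorem c2 : chk P t2 584115552256 146028888064 584115552256 292057776128 = true := by decide +kernel

theorem b2 {lam : ℝ} (hlam : |(S : ℝ) * lam - ((P.lp : ℝ) - P.ln)| ≤ ((1 : ℕ) : ℝ)) : BoxS lam P 584115552256 146028888064 584115552256 292057776128 :=
  chk_sound hlam t2 584115552256 146028888064 584115552256 292057776128 (by norm_num) (by norm_num) c2

/-- Part of the subdivision. -/
def t3 : LT := (LT.b (LT.l 4632 4420 3884 3764) (LT.a (LT.l 4636 4422 3853 3793) (LT.b (LT.l 4599 4397 3923 3782) (LT.l 4585 4388 3923 3808))))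

theorem c3 : chk P t3 876173328384 73014444032 584115552256 146028888064 = true := by decide +kernel

theorem b3 {lam : ℝ} (hlam : |(S : ℝ) * lam - ((P.lp : ℝ) - P.ln)| ≤ ((1 : ℕ) : ℝ)) : BoxS lam P 876173328384 73014444032 584115552256 146028888064 :=
  chk_sound hlam t3 876173328384 73014444032 584115552256 146028888064 (by norm_num) (by norm_num) c3

/-- Part of the subdivision. -/
def t4 : LT := (LT.a (LT.b (LT.l 4533 4352 4025 3761) (LT.l 4529 4350 4025 3768)) (LT.b (LT.a (LT.l 4433 4288 4123 3761) (LT.l 4329 4224 4197 3761)) (LT.a (LT.l 4429 4285 4123 3768) (LT.l 4324 4221 4197 3768))))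

theorem c4 : chk P t4 1022202216448 73014444032 584115552256 73014444032 = true := by decide +kernel

theorem b4 {lam : ℝ} (hlam : |(S : ℝ) * lam - ((P.lp : ℝ) - P.ln)| ≤ ((1 : ℕ) : ℝ)) : BoxS lam P 1022202216448 73014444032 584115552256 73014444032 :=
  chk_sound hlam t4 1022202216448 73014444032 584115552256 73014444032 (by norm_num) (by norm_num) c4

/-- Part of the subdivision. -/
def t5 : LT := (LT.a (LT.b (LT.a (LT.l 4546 4361 3997 3782) (LT.l 4493 4326 4056 3782)) (LT.a (LT.l 4531 4351 3997 3808) (LT.l 4477 4316 4056 3808))) (LT.b (LT.a (LT.b (LT.l 4423 4281 4123 3777) (LT.l 4416 4277 4123 3787)) (LT.b (LT.l 4317 4216 4197 3777) (LT.a (LT.l 4340 4230 4178 3787) (LT.l 4275 4192 4217 3787)))) (LT.a (LT.b (LT.a (LT.l 4429 4285 4105 3800) (LT.l 4384 4257 4141 3800)) (LT.a (LT.l 4416 4277 4105 3817) (LT.l 4371 4249 4141 3817))) (LT.b (LT.a (LT.b (LT.l 4333 4226 4178 3796) (LT.l 4327 4222 4178 3804)) (LT.l 4263 4186 4217 3800)) (LT.a (LT.b (LT.l 4320 4218 4178 3812)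 (LT.a (LT.l 4326 4222 4168 3822) (LT.l 4296 4204 4188 3822))) (LT.b (LT.l 4252 4179 4217 3812) LT.z2))))))

theorem c5 : chk P t5 1022202216448 73014444032 730144440320 73014444032 = true := by decide +kernel

theorem b5 {lam : ℝ} (hlam : |(S : ℝ) * lam - ((P.lp : ℝ) - P.ln)| ≤ ((1 : ℕ) : ℝ)) : BoxS lam P 1022202216448 73014444032 730144440320 73014444032 :=
  chk_sound hlam t5 1022202216448 73014444032 730144440320 73014444032 (by norm_num) (by norm_num) c5

/-- Part of the subdivision. -/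
def t6 : LT := (LT.b (LT.a (LT.b (LT.l 4604 4400 3853 3853) (LT.l 4559 4370 3853 3923)) (LT.b (LT.l 4559 4370 3923 3853) (LT.a (LT.l 4526 4348 3903 3923) (LT.b (LT.l 4509 4337 3946 3903) (LT.l 4476 4315 3946 3946))))) (LT.a LT.z1 (LT.b (LT.a LT.z1 (LT.b (LT.a LT.z1 (LT.l 4420 4279 3958 3997)) LT.z1)) LT.z1)))

theorem c6 : chk P t6 876173328384 73014444032 876173328384 146028888064 = true := by decide +kernel

theorem b6 {lam : ℝ} (hlam : |(S : ℝ) * lam - ((P.lp : ℝ) - P.ln)| ≤ ((1 : ℕ) : ℝ)) : BoxS lam P 876173328384 73014444032 876173328384 146028888064 :=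
  chk_sound hlam t6 876173328384 73014444032 876173328384 146028888064 (by norm_num) (by norm_num) c6

/-- Part of the subdivision. -/
def t7 : LT := (LT.b (LT.a (LT.l 4502 4332 3997 3853) (LT.b (LT.l 4456 4302 4056 3839) (LT.l 4435 4289 4056 3868))) (LT.a (LT.b (LT.l 4466 4309 3997 3903) (LT.a (LT.l 4443 4294 3983 3946) (LT.l 4417 4277 4011 3946))) (LT.b (LT.a (LT.l 4423 4281 4040 3903) (LT.l 4388 4259 4072 3903)) (LT.a (LT.b (LT.l 4396 4264 4040 3934) (LT.l 4373 4250 4040 3958)) (LT.b (LT.l 4359 4242 4072 3934) (LT.l 4335 4227 4072 3958))))))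

theorem c7 : chk P t7 1022202216448 36507222016 876173328384 73014444032 = true := by decide +kernel

theorem b7 {lam : ℝ} (hlam : |(S : ℝ) * lam - ((P.lp : ℝ) - P.ln)| ≤ ((1 : ℕ) : ℝ)) : BoxS lam P 1022202216448 36507222016 876173328384 73014444032 :=
  chk_sound hlam t7 1022202216448 36507222016 876173328384 73014444032 (by norm_num) (by norm_num) c7

/-- Part of the subdivision. -/
def t8 : LT := (LT.a (LT.b (LT.a (LT.l 4400 4267 4105 3839) (LT.b (LT.l 4358 4241 4141 3833) (LT.l 4348 4235 4141 3846))) (LT.a (LT.l 4377 4253 4105 3868) (LT.b (LT.a (LT.l 4348 4235 4132 3860) (LT.l 4322 4219 4150 3860)) (LT.a (LT.l 4334 4227 4132 3876) (LT.l 4307 4211 4150 3876))))) (LT.b (LT.a (LT.b (LT.a (LT.l 4317 4217 4168 3833) (LT.l 4286 4198 4188 3833)) (LT.a (LT.l 4306 4210 4168 3846) (LT.l 4274 4191 4188 3846))) LT.z2) (LT.a (LT.b (LT.a (LT.l 4293 4202 4168 3860) (LT.l 4260 4184 4188 3860)) (LT.a (LT.b (LT.l 4281 4196 4168 3872) (LT.l 4273 4191 4168 3880)) (LT.l 4244 4174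 4188 3876))) LT.z2)))

theorem c8 : chk P t8 1095216660480 36507222016 876173328384 36507222016 = true := by decide +kernel

theorem b8 {lam : ℝ} (hlam : |(S : ℝ) * lam - ((P.lp : ℝ) - P.ln)| ≤ ((1 : ℕ) : ℝ)) : BoxS lam P 1095216660480 36507222016 876173328384 36507222016 :=
  chk_sound hlam t8 1095216660480 36507222016 876173328384 36507222016 (by norm_num) (by norm_num) c8

/-- Part of the subdivision. -/
def t9 : LT := (LT.a (LT.b (LT.a (LT.b (LT.l 4354 4239 4105 3893) (LT.l 4336 4228 4105 3913)) (LT.b (LT.a (LT.l 4318 4217 4132 3893) (LT.l 4290 4201 4150 3893)) (LT.a (LT.l 4298 4205 4132 3913) (LT.b (LT.l 4275 4192 4150 3908) (LT.l 4264 4186 4150 3918))))) (LT.a (LT.b (LT.a (LT.l 4326 4222 4097 3934) (LT.l 4302 4208 4114 3934)) (LT.a (LT.l 4301 4207 4097 3958) (LT.b (LT.l 4283 4197 4114 3952) (LT.l 4269 4188 4114 3964)))) (LT.b (LT.a (LT.b (LT.l 4281 4196 4132 3929) (LT.l 4269 4188 4132 3940)) (LT.b (LT.l 4252 4179 4150 3929) (LT.l 4238 4171 4150 3940))) (LT.a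 (LT.b (LT.l 4255 4181 4132 3952) (LT.l 4240 4172 4132 3964)) (LT.b (LT.l 4224 4163 4150 3952) (LT.l 4208 4155 4150 3964)))))) (LT.b (LT.a (LT.b (LT.a (LT.b (LT.l 4264 4186 4168 3889) (LT.l 4254 4180 4168 3898)) (LT.l 4224 4164 4188 3893)) (LT.a (LT.l 4237 4171 4168 3913) LT.z2)) LT.z2) (LT.a (LT.b (LT.a (LT.l 4212 4157 4168 3934) LT.z2) LT.z2) LT.z2)))

theorem c9 : chk P t9 1095216660480 36507222016 949187772416 36507222016 = true := by decide +kernel

theorem b9 {lam : ℝ} (hlam : |(S : ℝ) * lam - ((P.lp : ℝ) - P.ln)| ≤ ((1 : ℕ) : ℝ)) : BoxS lam P 1095216660480 36507222016 949187772416 36507222016 :=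
  chk_sound hlam t9 1095216660480 36507222016 949187772416 36507222016 (by norm_num) (by norm_num) c9

/-- Part of the subdivision. -/
def t10 : LT := (LT.b (LT.a (LT.b (LT.l 4409 4272 3983 3983) (LT.l 4381 4255 3983 4011)) (LT.b (LT.l 4381 4255 4011 3983) (LT.l 4351 4237 4011 4011))) (LT.a LT.z1 (LT.b (LT.a LT.z1 (LT.l 4307 4211 4018 4040)) LT.z1)))

theorem c10 : chk P t10 1022202216448 18253611008 1022202216448 36507222016 = true := by decide +kernel

theorem b10 {lam : ℝ} (hlam : |(S : ℝ) * lam - ((P.lp : ℝ) - P.ln)| ≤ ((1 : ℕ) : ℝ)) : BoxS lam P 1022202216448 18253611008 1022202216448 36507222016 :=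
  chk_sound hlam t10 1022202216448 18253611008 1022202216448 36507222016 (by norm_num) (by norm_num) c10

/-- Part of the subdivision. -/
def t11 : LT := (LT.a (LT.b (LT.l 4347 4234 4040 3983) (LT.a (LT.l 4325 4221 4032 4011) (LT.l 4306 4210 4048 4011))) (LT.b (LT.a (LT.l 4318 4217 4063 3983) (LT.l 4296 4204 4080 3983)) (LT.a (LT.l 4285 4198 4063 4011) (LT.b (LT.l 4271 4190 4080 4003) (LT.l 4252 4179 4080 4018)))))

theorem c11 : chk P t11 1058709438464 18253611008 1022202216448 18253611008 = true := by decide +kernel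

theorem b11 {lam : ℝ} (hlam : |(S : ℝ) * lam - ((P.lp : ℝ) - P.ln)| ≤ ((1 : ℕ) : ℝ)) : BoxS lam P 1058709438464 18253611008 1022202216448 18253611008 :=
  chk_sound hlam t11 1058709438464 18253611008 1022202216448 18253611008 (by norm_num) (by norm_num) c11

/-- Part of the subdivision. -/
def t12 : LT := (LT.b (LT.a (LT.l 4288 4200 4032 4040) (LT.b (LT.l 4278 4194 4048 4032) (LT.l 4257 4182 4048 4048))) (LT.a LT.z1 (LT.b (LT.l 4234 4169 4048 4063) LT.z1)))

theorem c12 : chk P t12 1058709438464 9126805504 1058709438464 18253611008 = true := by decide +kernel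

theorem b12 {lam : ℝ} (hlam : |(S : ℝ) * lam - ((P.lp : ℝ) - P.ln)| ≤ ((1 : ℕ) : ℝ)) : BoxS lam P 1058709438464 9126805504 1058709438464 18253611008 :=
  chk_sound hlam t12 1058709438464 9126805504 1058709438464 18253611008 (by norm_num) (by norm_num) c12

/-- Part of the subdivision. -/
def t13 : LT := (LT.b (LT.a (LT.b (LT.l 4256 4181 4063 4032) (LT.l 4234 4169 4063 4048)) (LT.b (LT.l 4232 4168 4080 4032) (LT.a (LT.l 4216 4159 4076 4048) (LT.l 4202 4152 4084 4048)))) (LT.a (LT.b (LT.a (LT.l 4217 4159 4059 4063) (LT.b (LT.l 4211 4156 4067 4059) (LT.l 4198 4149 4067 4067))) (LT.a LT.z1 (LT.b (LT.l 4185 4142 4067 4076) LT.z1))) (LT.b (LT.a (LT.b (LT.l 4198 4149 4076 4059) (LT.l 4185 4142 4076 4067)) (LT.b (LT.l 4184 4142 4084 4059) (LT.l 4171 4135 4084 4067))) (LT.a (LT.b (LT.a (LT.l 4175 4137 4074 4076) (LT.l 4168 4133 4078 4076)) (LT.a LT.z1 (LT.b (LT.l 4157 4127 4078 4082) LT.z1))) (LT.b (LT.a (LT.l 4160 4129 4082 4076) (LT.b (LT.l 4157 4127 4086 4074) (LT.l 4149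 4123 4086 4078))) (LT.a (LT.b (LT.l 4150 4123 4082 4082) (LT.l 4142 4120 4082 4086)) (LT.b (LT.l 4142 4120 4086 4082) (LT.a (LT.l 4136 4117 4085 4086) (LT.l 4133 4115 4087 4086)))))))))

theorem c13 : chk P t13 1076963049472 9126805504 1058709438464 18253611008 = true := by decide +kernel

theorem b13 {lam : ℝ} (hlam : |(S : ℝ) * lam - ((P.lp : ℝ) - P.ln)| ≤ ((1 : ℕ) : ℝ)) : BoxS lam P 1076963049472 9126805504 1058709438464 18253611008 :=
  chk_sound hlam t13 1076963049472 9126805504 1058709438464 18253611008 (by norm_num) (by norm_num) c13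

/-- Part of the subdivision. -/
def t14 : LT := (LT.a LT.z1 (LT.b (LT.a LT.z1 (LT.b (LT.a LT.z1 (LT.b (LT.a LT.z1 (LT.b (LT.a LT.z1 (LT.b (LT.a LT.z1 (LT.b (LT.l 4127 4112 4087 4089) LT.z1)) LT.z1)) LT.z1)) LT.z1)) LT.z1)) LT.z1))

theorem c14 : chk P t14 1022202216448 36507222016 1095216660480 36507222016 = true := by decide +kernel

theorem b14 {lam : ℝ} (hlam : |(S : ℝ) * lam - ((P.lp : ℝ) - P.ln)| ≤ ((1 : ℕ) : ℝ)) : BoxS lam P 1022202216448 36507222016 1095216660480 36507222016 :=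
  chk_sound hlam t14 1022202216448 36507222016 1095216660480 36507222016 (by norm_num) (by norm_num) c14

/-- Part of the subdivision. -/
def t15 : LT := (LT.a (LT.b (LT.a (LT.b (LT.l 4279 4195 4097 3977) (LT.l 4263 4185 4097 3990)) (LT.b (LT.l 4253 4180 4114 3977) (LT.l 4236 4170 4114 3990))) (LT.a (LT.b (LT.l 4246 4175 4097 4003) (LT.l 4226 4165 4097 4018)) (LT.b (LT.l 4218 4160 4114 4003) (LT.a (LT.l 4205 4153 4109 4018) (LT.l 4190 4145 4118 4018))))) (LT.b (LT.a (LT.b (LT.l 4224 4163 4132 3977) (LT.l 4206 4154 4132 3990)) (LT.b (LT.l 4191 4146 4150 3977) (LT.l 4172 4135 4150 3990))) (LT.a (LT.b (LT.l 4187 4143 4132 4003) (LT.l 4165 4132 4132 4018)) LT.z2)))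

theorem c15 : chk P t15 1095216660480 18253611008 1022202216448 18253611008 = true := by decide +kernel

theorem b15 {lam : ℝ} (hlam : |(S : ℝ) * lam - ((P.lp : ℝ) - P.ln)| ≤ ((1 : ℕ) : ℝ)) : BoxS lam P 1095216660480 18253611008 1022202216448 18253611008 :=
  chk_sound hlam t15 1095216660480 18253611008 1022202216448 18253611008 (by norm_num) (by norm_num) c15

/-- Part of the subdivision. -/
def t16 : LT := (LT.a (LT.b (LT.a (LT.l 4212 4157 4092 4032) (LT.l 4198 4149 4101 4032)) (LT.a (LT.b (LT.l 4195 4147 4092 4044) (LT.l 4182 4141 4092 4052)) (LT.b (LT.l 4180 4139 4101 4044) (LT.l 4167 4133 4101 4052)))) (LT.b (LT.a (LT.l 4183 4141 4109 4032) (LT.b (LT.l 4173 4136 4118 4029) (LT.l 4161 4129 4118 4036))) (LT.a (LT.b (LT.l 4165 4131 4109 4044) (LT.l 4152 4124 4109 4052)) (LT.b (LT.l 4148 4123 4118 4044) (LT.l 4135 4116 4118 4052)))))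

theorem c16 : chk P t16 1095216660480 9126805504 1058709438464 9126805504 = true := by decide +kernel

theorem b16 {lam : ℝ} (hlam : |(S : ℝ) * lam - ((P.lp : ℝ) - P.ln)| ≤ ((1 : ℕ) : ℝ)) : BoxS lam P 1095216660480 9126805504 1058709438464 9126805504 :=
  chk_sound hlam t16 1095216660480 9126805504 1058709438464 9126805504 (by norm_num) (by norm_num) c16

/-- Part of the subdivision. -/
def t17 : LT := (LT.a (LT.b (LT.l 4169 4134 4092 4059) (LT.a (LT.l 4160 4129 4090 4067) (LT.l 4152 4125 4094 4067))) (LT.b (LT.l 4154 4126 4101 4059) (LT.a (LT.l 4144 4121 4099 4067) (LT.l 4136 4117 4103 4067))))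

theorem c17 : chk P t17 1095216660480 4563402752 1076963049472 4563402752 = true := by decide +kernel

theorem b17 {lam : ℝ} (hlam : |(S : ℝ) * lam - ((P.lp : ℝ) - P.ln)| ≤ ((1 : ℕ) : ℝ)) : BoxS lam P 1095216660480 4563402752 1076963049472 4563402752 :=
  chk_sound hlam t17 1095216660480 4563402752 1076963049472 4563402752 (by norm_num) (by norm_num) c17

/-- Part of the subdivision. -/
def t18 : LT := (LT.b (LT.a (LT.b (LT.l 4149 4123 4090 4074) (LT.l 4142 4119 4090 4078)) (LT.b (LT.l 4141 4119 4094 4074) (LT.l 4134 4115 4094 4078))) (LT.a (LT.b (LT.l 4134 4116 4090 4082) (LT.a (LT.l 4129 4113 4089 4086) (LT.b (LT.l 4127 4112 4091 4085) (LT.l 4123 4110 4091 4087)))) (LT.b (LT.a (LT.l 4128 4112 4093 4082) (LT.l 4124 4110 4095 4082)) (LT.a (LT.b (LT.l 4123 4109 4093 4085) (LT.l 4119 4107 4093 4087)) (LT.b (LT.l 4119 4107 4095 4085) (LT.l 4115 4105 4095 4087))))))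

theorem c18 : chk P t18 1095216660480 2281701376 1086089854976 4563402752 = true := by decide +kernel

theorem b18 {lam : ℝ} (hlam : |(S : ℝ) * lam - ((P.lp : ℝ) - P.ln)| ≤ ((1 : ℕ) : ℝ)) : BoxS lam P 1095216660480 2281701376 1086089854976 4563402752 :=
  chk_sound hlam t18 1095216660480 2281701376 1086089854976 4563402752 (by norm_num) (by norm_num) c18

/-- Part of the subdivision. -/
def t19 : LT := (LT.b (LT.a (LT.b (LT.l 4134 4115 4099 4074) (LT.l 4126 4111 4099 4078)) (LT.b (LT.l 4125 4111 4103 4074) (LT.l 4118 4107 4103 4078))) (LT.a (LT.b (LT.a (LT.l 4120 4108 4098 4082) (LT.l 4116 4106 4100 4082)) (LT.a (LT.b (LT.l 4115 4105 4098 4085) (LT.l 4111 4103 4098 4087)) (LT.b (LT.l 4110 4103 4100 4085) (LT.l 4106 4101 4100 4087)))) (LT.b (LT.a (LT.l 4112 4104 4102 4082) (LT.l 4108 4102 4104 4082)) (LT.a (LT.b (LT.l 4106 4101 4102 4085) (LT.l 4102 4099 4102 4087)) LT.z2))))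

theorem c19 : chk P t19 1099780063232 2281701376 1086089854976 4563402752 = true := by decide +kernel

theorem b19 {lam : ℝ} (hlam : |(S : ℝ) * lam - ((P.lp : ℝ) - P.ln)| ≤ ((1 : ℕ) : ℝ)) : BoxS lam P 1099780063232 2281701376 1086089854976 4563402752 :=
  chk_sound hlam t19 1099780063232 2281701376 1086089854976 4563402752 (by norm_num) (by norm_num) c19

/-- Part of the subdivision. -/
def t20 : LT := (LT.b (LT.a (LT.b (LT.l 4138 4117 4109 4059) (LT.a (LT.l 4128 4112 4107 4067) (LT.l 4120 4108 4112 4067))) (LT.b (LT.l 4121 4109 4118 4059) LT.z2)) (LT.a (LT.b (LT.a (LT.b (LT.l 4117 4107 4107 4074) (LT.l 4109 4103 4107 4078)) LT.z2) LT.z2) LT.z2))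

theorem c20 : chk P t20 1104343465984 4563402752 1076963049472 9126805504 = true := by decide +kernel

theorem b20 {lam : ℝ} (hlam : |(S : ℝ) * lam - ((P.lp : ℝ) - P.ln)| ≤ ((1 : ℕ) : ℝ)) : BoxS lam P 1104343465984 4563402752 1076963049472 9126805504 :=
  chk_sound hlam t20 1104343465984 4563402752 1076963049472 9126805504 (by norm_num) (by norm_num) c20

/-- Part of the subdivision. -/
def t21 : LT := (LT.b (LT.a (LT.b (LT.a (LT.l 4150 4124 4127 4032) LT.z2) LT.z2) LT.z2) LT.z2)

theorem c21 : chk P t21 1113470271488 9126805504 1058709438464 18253611008 = true := by decide +kernel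

theorem b21 {lam : ℝ} (hlam : |(S : ℝ) * lam - ((P.lp : ℝ) - P.ln)| ≤ ((1 : ℕ) : ℝ)) : BoxS lam P 1113470271488 9126805504 1058709438464 18253611008 :=
  chk_sound hlam t21 1113470271488 9126805504 1058709438464 18253611008 (by norm_num) (by norm_num) c21

/-- Part of the subdivision. -/
def t22 : LT := LT.z2

theorem c22 : chk P t22 1131723882496 18253611008 1022202216448 36507222016 = true := by decide +kernel

theorem b22 {lam : ℝ} (hlam : |(S : ℝ) * lam - ((P.lp : ℝ) - P.ln)| ≤ ((1 : ℕ) : ℝ)) : BoxS lam P 1131723882496 18253611008 1022202216448 36507222016 :=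
  chk_sound hlam t22 1131723882496 18253611008 1022202216448 36507222016 (by norm_num) (by norm_num) c22

/-- Part of the subdivision. -/
def t23 : LT := (LT.b (LT.a (LT.b (LT.l 4123 4110 4089 4089) (LT.l 4119 4108 4089 4091)) (LT.b (LT.l 4119 4108 4091 4089) (LT.a (LT.l 4116 4106 4091 4091) (LT.l 4114 4105 4092 4091)))) (LT.a LT.z1 (LT.b (LT.a LT.z1 (LT.b (LT.l 4111 4103 4092 4093) LT.z1)) LT.z1)))

theorem c23 : chk P t23 1095216660480 1140850688 1095216660480 2281701376 = true := by decide +kernel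

theorem b23 {lam : ℝ} (hlam : |(S : ℝ) * lam - ((P.lp : ℝ) - P.ln)| ≤ ((1 : ℕ) : ℝ)) : BoxS lam P 1095216660480 1140850688 1095216660480 2281701376 :=
  chk_sound hlam t23 1095216660480 1140850688 1095216660480 2281701376 (by norm_num) (by norm_num) c23

/-- Part of the subdivision. -/
def t24 : LT := (LT.a (LT.b (LT.a (LT.l 4116 4106 4093 4089) (LT.l 4114 4105 4094 4089)) (LT.a (LT.l 4112 4104 4093 4091) (LT.b (LT.l 4111 4103 4094 4091) (LT.l 4109 4102 4094 4092)))) (LT.b (LT.a (LT.l 4112 4104 4095 4089) (LT.l 4110 4103 4096 4089)) (LT.a (LT.b (LT.l 4109 4102 4095 4091) (LT.l 4107 4101 4095 4092)) (LT.b (LT.l 4107 4101 4096 4091) (LT.l 4105 4100 4096 4092)))))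

theorem c24 : chk P t24 1097498361856 1140850688 1095216660480 1140850688 = true := by decide +kernel

theorem b24 {lam : ℝ} (hlam : |(S : ℝ) * lam - ((P.lp : ℝ) - P.ln)| ≤ ((1 : ℕ) : ℝ)) : BoxS lam P 1097498361856 1140850688 1095216660480 1140850688 :=
  chk_sound hlam t24 1097498361856 1140850688 1095216660480 1140850688 (by norm_num) (by norm_num) c24

/-- Part of the subdivision. -/
def t25 : LT := (LT.b (LT.a (LT.b (LT.l 4109 4102 4093 4093) (LT.l 4107 4101 4093 4094)) (LT.b (LT.l 4107 4101 4094 4093) (LT.a (LT.l 4105 4101 4094 4094) (LT.l 4104 4100 4094 4094)))) (LT.a LT.z1 (LT.b (LT.a LT.z1 (LT.b (LT.l 4102 4099 4094 4095) LT.z1)) LT.z1)))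

theorem c25 : chk P t25 1097498361856 570425344 1097498361856 1140850688 = true := by decide +kernel

theorem b25 {lam : ℝ} (hlam : |(S : ℝ) * lam - ((P.lp : ℝ) - P.ln)| ≤ ((1 : ℕ) : ℝ)) : BoxS lam P 1097498361856 570425344 1097498361856 1140850688 :=
  chk_sound hlam t25 1097498361856 570425344 1097498361856 1140850688 (by norm_num) (by norm_num) c25

/-- Part of the subdivision. -/
def t26 : LT := (LT.a (LT.b (LT.a (LT.l 4105 4101 4095 4093) (LT.l 4104 4100 4095 4093)) (LT.a (LT.b (LT.l 4103 4100 4095 4094) (LT.l 4102 4099 4095 4094)) (LT.b (LT.l 4102 4099 4095 4094) (LT.l 4101 4099 4095 4094)))) (LT.b (LT.a (LT.l 4103 4099 4096 4093) (LT.l 4102 4099 4096 4093)) (LT.a (LT.b (LT.l 4101 4099 4096 4094) (LT.a (LT.l 4101 4098 4096 4094) (LT.l 4100 4098 4096 4094))) (LT.b (LT.l 4100 4098 4096 4094) (LT.a (LT.l 4100 4098 4096 4094) (LT.l 4099 4098 4096 4094))))))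

theorem c26 : chk P t26 1098639212544 570425344 1097498361856 570425344 = true := by decide +kernel

theorem b26 {lam : ℝ} (hlam : |(S : ℝ) * lam - ((P.lp : ℝ) - P.ln)| ≤ ((1 : ℕ) : ℝ)) : BoxS lam P 1098639212544 570425344 1097498361856 570425344 :=
  chk_sound hlam t26 1098639212544 570425344 1097498361856 570425344 (by norm_num) (by norm_num) c26

/-- Part of the subdivision. -/
def t27 : LT := (LT.a (LT.b (LT.a (LT.b (LT.l 4101 4099 4095 4095) (LT.a LT.z1 (LT.l 4100 4098 4095 4095))) (LT.b (LT.a (LT.l 4101 4098 4095 4095) (LT.l 4100 4098 4095 4095)) (LT.a (LT.b (LT.l 4100 4098 4095 4095) (LT.o 4099 4098 4095 4095)) (LT.o 4099 4098 4095 4095)))) (LT.a LT.z1 (LT.o 4098 4097 4095 4096))) (LT.b (LT.a (LT.b (LT.a (LT.b (LT.l 4100 4098 4096 4095) (LT.o 4099 4098 4096 4095)) (LT.b (LT.l 4099 4098 4096 4095) (LT.o 4099 4097 4096 4095))) (LT.o 4098 4097 4096 4095)) (LT.o 4098 4097 4096 4095)) (LT.o 4096 4096 4096 4096)))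

theorem c27 : chk P t27 1098639212544 570425344 1098639212544 570425344 = true := by decide +kernel

theorem b27 {lam : ℝ} (hlam : |(S : ℝ) * lam - ((P.lp : ℝ) - P.ln)| ≤ ((1 : ℕ) : ℝ)) : BoxS lam P 1098639212544 570425344 1098639212544 570425344 :=
  chk_sound hlam t27 1098639212544 570425344 1098639212544 570425344 (by norm_num) (by norm_num) c27

/-- Part of the subdivision. -/
def t28 : LT := (LT.a LT.z1 (LT.b (LT.a LT.z1 (LT.b (LT.a LT.z1 (LT.b (LT.a LT.z1 LT.z2) LT.z1)) LT.z1)) LT.z1))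

theorem c28 : chk P t28 1095216660480 2281701376 1099780063232 2281701376 = true := by decide +kernel

theorem b28 {lam : ℝ} (hlam : |(S : ℝ) * lam - ((P.lp : ℝ) - P.ln)| ≤ ((1 : ℕ) : ℝ)) : BoxS lam P 1095216660480 2281701376 1099780063232 2281701376 :=
  chk_sound hlam t28 1095216660480 2281701376 1099780063232 2281701376 (by norm_num) (by norm_num) c28

/-- Part of the subdivision. -/
def t29 : LT := (LT.b (LT.a (LT.b (LT.a (LT.b (LT.a (LT.l 4108 4102 4097 4089) (LT.l 4105 4101 4098 4089)) (LT.a (LT.b (LT.l 4104 4100 4097 4091) (LT.l 4102 4099 4097 4092)) (LT.b (LT.l 4102 4099 4098 4091) (LT.l 4100 4098 4098 4092)))) (LT.b (LT.l 4102 4099 4100 4089) (LT.a (LT.b (LT.l 4100 4098 4099 4091) LT.z2) LT.z2))) (LT.a (LT.b (LT.a (LT.b (LT.a (LT.l 4101 4098 4097 4093) (LT.l 4100 4098 4097 4093)) (LT.a (LT.b (LT.l 4099 4098 4097 4094) (LT.l 4098 4097 4097 4094)) (LT.b (LT.l 4098 4097 4097 4094) (LT.l 4097 4097 4097 4094)))) (LT.b (LT.l 4098 4097 4098 4093) LT.z2)) (LT.a (LT.b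 (LT.a (LT.o 4097 4096 4097 4095) LT.z2) LT.z2) LT.z2)) LT.z2)) LT.z2) LT.z2)

theorem c29 : chk P t29 1099780063232 2281701376 1095216660480 4563402752 = true := by decide +kernel

theorem b29 {lam : ℝ} (hlam : |(S : ℝ) * lam - ((P.lp : ℝ) - P.ln)| ≤ ((1 : ℕ) : ℝ)) : BoxS lam P 1099780063232 2281701376 1095216660480 4563402752 :=
  chk_sound hlam t29 1099780063232 2281701376 1095216660480 4563402752 (by norm_num) (by norm_num) c29

/-- Part of the subdivision. -/
def t30 : LT := (LT.a LT.z1 LT.z2)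

theorem c30 : chk P t30 1095216660480 4563402752 1104343465984 4563402752 = true := by decide +kernel

theorem b30 {lam : ℝ} (hlam : |(S : ℝ) * lam - ((P.lp : ℝ) - P.ln)| ≤ ((1 : ℕ) : ℝ)) : BoxS lam P 1095216660480 4563402752 1104343465984 4563402752 :=
  chk_sound hlam t30 1095216660480 4563402752 1104343465984 4563402752 (by norm_num) (by norm_num) c30

/-- Part of the subdivision. -/
def t31 : LT := LT.z2

theorem c31 : chk P t31 1104343465984 4563402752 1095216660480 9126805504 = true := by decide +kernel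

theorem b31 {lam : ℝ} (hlam : |(S : ℝ) * lam - ((P.lp : ℝ) - P.ln)| ≤ ((1 : ℕ) : ℝ)) : BoxS lam P 1104343465984 4563402752 1095216660480 9126805504 :=
  chk_sound hlam t31 1104343465984 4563402752 1095216660480 9126805504 (by norm_num) (by norm_num) c31

/-- Part of the subdivision. -/
def t32 : LT := LT.z2

theorem c32 : chk P t32 1095216660480 9126805504 1113470271488 9126805504 = true := by decide +kernel

theorem b32 {lam : ℝ} (hlam : |(S : ℝ) * lam - ((P.lp : ℝ) - P.ln)| ≤ ((1 : ℕ) : ℝ)) : BoxS lam P 1095216660480 9126805504 1113470271488 9126805504 :=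
  chk_sound hlam t32 1095216660480 9126805504 1113470271488 9126805504 (by norm_num) (by norm_num) c32

/-- Part of the subdivision. -/
def t33 : LT := LT.z2

theorem c33 : chk P t33 1113470271488 9126805504 1095216660480 18253611008 = true := by decide +kernel

theorem b33 {lam : ℝ} (hlam : |(S : ℝ) * lam - ((P.lp : ℝ) - P.ln)| ≤ ((1 : ℕ) : ℝ)) : BoxS lam P 1113470271488 9126805504 1095216660480 18253611008 :=
  chk_sound hlam t33 1113470271488 9126805504 1095216660480 18253611008 (by norm_num) (by norm_num) c33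

/-- Part of the subdivision. -/
def t34 : LT := LT.z2

theorem c34 : chk P t34 1095216660480 18253611008 1131723882496 18253611008 = true := by decide +kernel

theorem b34 {lam : ℝ} (hlam : |(S : ℝ) * lam - ((P.lp : ℝ) - P.ln)| ≤ ((1 : ℕ) : ℝ)) : BoxS lam P 1095216660480 18253611008 1131723882496 18253611008 :=
  chk_sound hlam t34 1095216660480 18253611008 1131723882496 18253611008 (by norm_num) (by norm_num) c34

/-- Part of the subdivision. -/
def t35 : LT := LT.z2

theorem c35 : chk P t35 1131723882496 18253611008 1095216660480 36507222016 = true := by decide +kernel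

theorem b35 {lam : ℝ} (hlam : |(S : ℝ) * lam - ((P.lp : ℝ) - P.ln)| ≤ ((1 : ℕ) : ℝ)) : BoxS lam P 1131723882496 18253611008 1095216660480 36507222016 :=
  chk_sound hlam t35 1131723882496 18253611008 1095216660480 36507222016 (by norm_num) (by norm_num) c35

/-- The whole box. -/
theorem box {lam : ℝ} (hlam : |(S : ℝ) * lam - ((P.lp : ℝ) - P.ln)| ≤ ((1 : ℕ) : ℝ)) : BoxS lam P 0 HH 0 HH :=
  (BoxS.sa' (x1 := 584115552256) (h := 292057776128) (by norm_num [HH]) (by norm_num) (b0 hlam) (BoxS.sb' (t1 := 584115552256) (h := 292057776128) (by norm_num [HH]) (by norm_num) (b1 hlam) (BoxS.sa' (x1 := 876173328384) (h := 146028888064) (by norm_num [HH]) (by norm_num) (b2 hlam) (BoxS.sb' (t1 := 876173328384) (h := 146028888064) (by norm_num [HH]) (by norm_num) (BoxS.sa' (x1 := 1022202216448) (h := 73014444032) (by norm_num [HH]) (by norm_num) (b3 hlam) (BoxS.sb' (t1 := 730144440320) (h := 73014444032) (by norm_num [HH]) (by norm_num) (b4 hlam) (b5 hlam))) (BoxS.sa' (x1 := 1022202216448)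 (h := 73014444032) (by norm_num [HH]) (by norm_num) (b6 hlam) (BoxS.sb' (t1 := 1022202216448) (h := 73014444032) (by norm_num [HH]) (by norm_num) (BoxS.sa' (x1 := 1095216660480) (h := 36507222016) (by norm_num [HH]) (by norm_num) (b7 hlam) (BoxS.sb' (t1 := 949187772416) (h := 36507222016) (by norm_num [HH]) (by norm_num) (b8 hlam) (b9 hlam))) (BoxS.sa' (x1 := 1095216660480) (h := 36507222016) (by norm_num [HH]) (by norm_num) (BoxS.sb' (t1 := 1095216660480) (h := 36507222016) (by norm_num [HH]) (by norm_num) (BoxS.sa' (x1 := 1058709438464) (h := 18253611008) (by norm_num [HH]) (by norm_num) (b10 hlam) (BoxS.sb' (t1 := 1058709438464) (h := 18253611008) (by norm_num [HH]) (by norm_num) (b11 hlam) (BoxS.sa' (x1 := 1076963049472) (h := 9126805504) (by norm_num [HH]) (by norm_num) (b12 hlam) (b13 hlam)))) (b14 hlam)) (BoxS.sb' (t1 := 1095216660480) (h := 36507222016) (by norm_num [HH]) (by norm_num) (BoxS.sa' (x1 := 1131723882496) (h := 18253611008) (by norm_num [HH]) (by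 norm_num) (BoxS.sb' (t1 := 1058709438464) (h := 18253611008) (by norm_num [HH]) (by norm_num) (b15 hlam) (BoxS.sa' (x1 := 1113470271488) (h := 9126805504) (by norm_num [HH]) (by norm_num) (BoxS.sb' (t1 := 1076963049472) (h := 9126805504) (by norm_num [HH]) (by norm_num) (b16 hlam) (BoxS.sa' (x1 := 1104343465984) (h := 4563402752) (by norm_num [HH]) (by norm_num) (BoxS.sb' (t1 := 1086089854976) (h := 4563402752) (by norm_num [HH]) (by norm_num) (b17 hlam) (BoxS.sa' (x1 := 1099780063232) (h := 2281701376) (by norm_num [HH]) (by norm_num) (b18 hlam) (b19 hlam))) (b20 hlam))) (b21 hlam))) (b22 hlam)) (BoxS.sa' (x1 := 1131723882496) (h := 18253611008) (by norm_num [HH]) (by norm_num) (BoxS.sb' (t1 := 1131723882496) (h := 18253611008) (by norm_num [HH]) (by norm_num) (BoxS.sa' (x1 := 1113470271488) (h := 9126805504) (by norm_num [HH]) (by norm_num) (BoxS.sb' (t1 := 1113470271488) (h := 9126805504) (by norm_num [HH]) (by norm_num) (BoxS.sa' (x1 := 1104343465984) (h := 4563402752)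 (by norm_num [HH]) (by norm_num) (BoxS.sb' (t1 := 1104343465984) (h := 4563402752) (by norm_num [HH]) (by norm_num) (BoxS.sa' (x1 := 1099780063232) (h := 2281701376) (by norm_num [HH]) (by norm_num) (BoxS.sb' (t1 := 1099780063232) (h := 2281701376) (by norm_num [HH]) (by norm_num) (BoxS.sa' (x1 := 1097498361856) (h := 1140850688) (by norm_num [HH]) (by norm_num) (b23 hlam) (BoxS.sb' (t1 := 1097498361856) (h := 1140850688) (by norm_num [HH]) (by norm_num) (b24 hlam) (BoxS.sa' (x1 := 1098639212544) (h := 570425344) (by norm_num [HH]) (by norm_num) (b25 hlam) (BoxS.sb' (t1 := 1098639212544) (h := 570425344) (by norm_num [HH]) (by norm_num) (b26 hlam) (b27 hlam))))) (b28 hlam)) (b29 hlam)) (b30 hlam)) (b31 hlam)) (b32 hlam)) (b33 hlam)) (b34 hlam)) (b35 hlam))))))))))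

end Vale.Agent.P154H.Tm.P4
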