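import Vale.Agent.P154H.Msg

set_option maxRecDepth 100000

/-!
The subdivision for `d = 5`, positive eigenvalue.
-/

namespace Vale.Agent.P154H.Tm.P5

/-- A row. -/
def Ra : Row := Row.mk 0 341658 0 2902095 5112252 0 1708290 0 14510475 0 0 25561260 0 2432 0 609280 0 12403152

/-- A row. -/
def Rb : Row := Row.mk 0 2866035032064 0 24344537333760 42884678025216 0 13690517533704 0 115275766978323 0 0 202293586243584 0 20401094656 0 5111011082240 0 99834100717194
/-- A row. -/
def Q0 : Row := Row.mk 0 0 0 0 0 0 4859136 0 0 0 0 0 0 0 0 0 0 3486105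

/-- A row. -/
def Q1 : Row := Row.mk 0 0 0 0 0 0 0 0 165096960 0 0 0 0 0 0 0 0 96294107

/-- A row. -/
def Q2 : Row := Row.mk 0 0 0 0 0 0 0 0 0 0 1024 0 0 0 0 0 0 2565

/-- A row. -/
def Q3 : Row := Row.mk 0 699715584 0 5943490560 10469892096 0 3343268928 0 28074432672 0 0 49144695936 0 4980736 0 0 0 24689015829

/-- A row. -/
def Q4 : Row := Row.mk 0 174928896 0 1485872640 2617473024 0 831324528 0 6984127800 0 0 12216451344 0 1245184 0 0 0 6160851441

/-- A row. -/
def Q5 : Row := Row.mk 0 349857792 0 2971745280 5234946048 0 1655696832 0 13887260880 0 0 24281733024 0 2490368 0 0 0 12268386387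

/-- A row. -/
def Q6 : Row := Row.mk 0 21866112 0 185734080 327184128 0 103036734 0 862766169 0 0 1507370628 0 155648 0 0 0 764996553

/-- A row. -/
def Q7 : Row := Row.mk 0 699715584 0 5943490560 10469892096 0 3276493056 0 27431726496 0 0 47880773376 0 4980736 0 0 0 24420998709

/-- A row. -/
def Q8 : Row := Row.mk 0 349857792 0 2971745280 5234946048 0 1631320320 0 13611963360 0 0 23748228672 0 2490368 0 0 0 12142812771

/-- A row. -/
def Q9 : Row := Row.mk 0 699715584 0 5943490560 10469892096 0 3230137344 0 27019842912 0 0 47080151040 0 4980736 0 0 0 24210708381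

/-- A row. -/
def Q10 : Row := Row.mk 0 349857792 0 2971745280 5234946048 0 1601885184 0 13397751696 0 0 23314796928 0 2490368 0 0 0 12067501941

/-- A row. -/
def Q11 : Row := Row.mk 0 699715584 0 5943490560 10469892096 0 3189003840 0 26533390944 0 0 46143030336 0 4980736 0 0 0 23977359855

/-- A row. -/
def Q12 : Row := Row.mk 0 349857792 0 2971745280 5234946048 0 1576229472 0 13135362864 0 0 22808704896 0 2490368 0 0 0 11933060823

/-- A row. -/
def Q13 : Row := Row.mk 0 349857792 0 2971745280 5234946048 0 1565616768 0 12993112368 0 0 22524766560 0 2490368 0 0 0 11897358921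

/-- A row. -/
def Q14 : Row := Row.mk 0 699715584 0 5943490560 10469892096 0 3103864320 0 25658926848 0 0 44437158720 0 4980736 0 0 0 23585463171

/-- A row. -/
def Q15 : Row := Row.mk 0 174928896 0 1485872640 2617473024 0 767049936 0 6333582048 0 0 10944311712 0 1245184 0 0 0 5876058753

/-- A row. -/
def Q16 : Row := Row.mk 0 349857792 0 2971745280 5234946048 0 1519877856 0 12489284160 0 0 21533365920 0 2490368 0 0 0 11704323645

/-- A row. -/
def Q17 : Row := Row.mk 0 349857792 0 2971745280 5234946048 0 1501251648 0 12313481184 0 0 21151462752 0 2490368 0 0 0 11731061979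

/-- A row. -/
def Q18 : Row := Row.mk 0 699715584 0 5943490560 10469892096 0 2994371904 0 24531396096 0 0 41482545792 0 4980736 0 0 0 25219833363

/-- A row. -/
def Q19 : Row := Row.mk 0 699715584 0 5943490560 10469892096 0 2956502784 0 24186861312 0 0 40602496320 0 4980736 0 0 0 25628347341

/-- A row. -/
def Q20 : Row := Row.mk 0 21866112 0 185734080 327184128 0 89474838 0 738290565 0 0 1239373368 0 155648 0 0 0 775506600

/-- A row. -/
def Q21 : Row := Row.mk 0 87464448 0 742936320 1308736512 0 348491040 0 2874597252 0 0 4831513248 0 622592 0 0 0 2983161807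

/-- A row. -/
def Q22 : Row := Row.mk 0 699715584 0 5943490560 10469892096 0 2740062720 0 22358895552 0 0 37576028352 0 4980736 0 0 0 23135149251

/-- A row. -/
def Q23 : Row := Row.mk 0 174928896 0 1485872640 2617473024 0 669035328 0 5428037568 0 0 9107426400 0 1245184 0 0 0 5627017413

/-- A row. -/
def Q24 : Row := Row.mk 0 699715584 0 5943490560 10469892096 0 2590728192 0 21101978208 0 0 35211265920 0 4980736 0 0 0 22221639477

/-- A row. -/
def Q25 : Row := Row.mk 0 43732224 0 371468160 654368256 0 159860928 0 1285714860 0 0 2119947348 0 311296 0 0 0 1419498711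

/-- A row. -/
def Q26 : Row := Row.mk 0 174928896 0 1485872640 2617473024 0 618239568 0 4976046360 0 0 8138096208 0 1245184 0 0 0 5625381033

/-- A row. -/
def Q27 : Row := Row.mk 0 699715584 0 5943490560 10469892096 0 2408937408 0 19350408288 0 0 31110991680 0 4980736 0 0 0 23149809207

/-- A row. -/
def Q28 : Row := Row.mk 0 174928896 0 1485872640 2617473024 0 586205712 0 4690413936 0 0 7399071024 0 1245184 0 0 0 5945034249

/-- A row. -/
def Q29 : Row := Row.mk 0 87464448 0 742936320 1308736512 0 282931920 0 2271423264 0 0 3501251280 0 622592 0 0 0 3064398723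

/-- A row. -/
def Q30 : Row := Row.mk 0 349857792 0 2971745280 5234946048 0 1115201952 0 8852491872 0 0 13158583872 0 2490368 0 0 0 13135883049


/-- The data. -/
def P : Pb where
  lp := 32225135712778084
  ln := 0
  ab := 3298534883328
  r1 := [Ra, Rb]
  r2 := [Q0, Q1, Q2, Q3, Q4, Q5, Q6, Q7, Q8, Q9, Q10, Q11, Q12, Q13, Q14, Q15, Q16, Q17, Q18, Q19, Q20, Q21, Q22, Q23, Q24, Q25, Q26, Q27, Q28, Q29, Q30]

/-- Part of the subdivision. -/
def t0 : LT := (LT.b (LT.a (LT.b (LT.l 4699 4437 3803 3803) (LT.l 4699 4436 3803 3804)) (LT.b (LT.l 4699 4436 3804 3803) (LT.a (LT.l 4699 4436 3804 3804) (LT.l 4698 4436 3804 3804)))) (LT.a LT.z1 (LT.b (LT.a LT.z1 (LT.b (LT.l 4695 4434 3804 3810) LT.z1)) LT.z1)))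

theorem c0 : chk P t0 0 292057776128 0 584115552256 = true := by decide +kernel

theorem b0 {lam : ℝ} (hlam : |(S : ℝ) * lam - ((P.lp : ℝ) - P.ln)| ≤ ((1 : ℕ) : ℝ)) : BoxS lam P 0 292057776128 0 584115552256 :=
  chk_sound hlam t0 0 292057776128 0 584115552256 (by norm_num) (by norm_num) c0

/-- Part of the subdivision. -/
def t1 : LT := (LT.a (LT.b (LT.a (LT.l 4696 4434 3810 3803) (LT.l 4683 4426 3834 3803)) (LT.a (LT.l 4696 4434 3810 3804) (LT.l 4683 4426 3834 3804))) (LT.b (LT.a (LT.l 4636 4395 3911 3803) (LT.b (LT.l 4475 4295 4089 3803) (LT.l 4475 4295 4089 3803))) (LT.a (LT.b (LT.l 4636 4395 3911 3804) (LT.l 4635 4395 3911 3804)) (LT.b (LT.a (LT.l 4536 4331 4033 3804) (LT.l 4390 4245 4153 3804)) (LT.a (LT.l 4535 4331 4033 3804) (LT.b (LT.l 4389 4245 4153 3804) (LT.l 4388 4244 4153 3805)))))))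

theorem c1 : chk P t1 584115552256 292057776128 0 292057776128 = true := by decide +kernel

theorem b1 {lam : ℝ} (hlam : |(S : ℝ) * lam - ((P.lp : ℝ) - P.ln)| ≤ ((1 : ℕ) : ℝ)) : BoxS lam P 584115552256 292057776128 0 292057776128 :=
  chk_sound hlam t1 584115552256 292057776128 0 292057776128 (by norm_num) (by norm_num) c1

/-- Part of the subdivision. -/
def t2 : LT := (LT.b (LT.a (LT.b (LT.l 4693 4432 3810 3810) (LT.l 4680 4424 3810 3834)) (LT.b (LT.l 4680 4424 3834 3810) (LT.l 4666 4415 3834 3834))) (LT.a LT.z1 (LT.b (LT.a LT.z1 (LT.b (LT.l 4629 4390 3846 3884) LT.z1)) LT.z1)))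

theorem c2 : chk P t2 584115552256 146028888064 584115552256 292057776128 = true := by decide +kernel

theorem b2 {lam : ℝ} (hlam : |(S : ℝ) * lam - ((P.lp : ℝ) - P.ln)| ≤ ((1 : ℕ) : ℝ)) : BoxS lam P 584115552256 146028888064 584115552256 292057776128 :=
  chk_sound hlam t2 584115552256 146028888064 584115552256 292057776128 (by norm_num) (by norm_num) c2

/-- Part of the subdivision. -/
def t3 : LT := (LT.b (LT.a (LT.l 4650 4404 3884 3810) (LT.l 4608 4377 3944 3810)) (LT.a (LT.l 4636 4395 3884 3834) (LT.b (LT.l 4599 4371 3944 3825) (LT.l 4585 4363 3944 3846))))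

theorem c3 : chk P t3 876173328384 73014444032 584115552256 146028888064 = true := by decide +kernel

theorem b3 {lam : ℝ} (hlam : |(S : ℝ) * lam - ((P.lp : ℝ) - P.ln)| ≤ ((1 : ℕ) : ℝ)) : BoxS lam P 876173328384 73014444032 584115552256 146028888064 :=
  chk_sound hlam t3 876173328384 73014444032 584115552256 146028888064 (by norm_num) (by norm_num) c3

/-- Part of the subdivision. -/
def t4 : LT := (LT.a (LT.b (LT.l 4533 4330 4033 3807) (LT.l 4529 4328 4033 3813)) (LT.b (LT.a (LT.l 4433 4270 4120 3807) (LT.l 4329 4212 4187 3807)) (LT.a (LT.l 4429 4268 4120 3813) (LT.b (LT.l 4326 4210 4187 3811) (LT.l 4322 4208 4187 3815)))))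

theorem c4 : chk P t4 1022202216448 73014444032 584115552256 73014444032 = true := by decide +kernel

theorem b4 {lam : ℝ} (hlam : |(S : ℝ) * lam - ((P.lp : ℝ) - P.ln)| ≤ ((1 : ℕ) : ℝ)) : BoxS lam P 1022202216448 73014444032 584115552256 73014444032 :=
  chk_sound hlam t4 1022202216448 73014444032 584115552256 73014444032 (by norm_num) (by norm_num) c4

/-- Part of the subdivision. -/
def t5 : LT := (LT.a (LT.b (LT.a (LT.l 4546 4338 4008 3825) (LT.l 4493 4306 4060 3825)) (LT.a (LT.l 4531 4328 4008 3846) (LT.l 4477 4296 4060 3846))) (LT.b (LT.a (LT.b (LT.l 4423 4264 4120 3821) (LT.l 4416 4260 4120 3829)) (LT.b (LT.a (LT.l 4347 4221 4170 3821) (LT.l 4283 4187 4205 3821)) (LT.a (LT.b (LT.l 4342 4219 4170 3827) (LT.l 4338 4216 4170 3831)) (LT.l 4275 4183 4205 3829)))) (LT.a (LT.b (LT.a (LT.l 4429 4267 4104 3840) (LT.l 4384 4242 4136 3840)) (LT.a (LT.l 4416 4260 4104 3854) (LT.l 4371 4235 4136 3854))) (LT.b (LT.a (LT.b (LT.l 4333 4214 4170 3837) (LT.a (LT.l 4341 4218 4161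 3843) (LT.l 4311 4202 4179 3843))) (LT.b (LT.l 4267 4178 4205 3837) (LT.l 4260 4175 4205 3843))) (LT.a (LT.b (LT.a (LT.l 4335 4214 4161 3850) (LT.l 4304 4198 4179 3850)) (LT.a (LT.l 4326 4210 4161 3858) (LT.l 4296 4194 4179 3858))) (LT.b (LT.a (LT.l 4270 4180 4196 3850) LT.z2) LT.z2))))))

theorem c5 : chk P t5 1022202216448 73014444032 730144440320 73014444032 = true := by decide +kernel

theorem b5 {lam : ℝ} (hlam : |(S : ℝ) * lam - ((P.lp : ℝ) - P.ln)| ≤ ((1 : ℕ) : ℝ)) : BoxS lam P 1022202216448 73014444032 730144440320 73014444032 :=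
  chk_sound hlam t5 1022202216448 73014444032 730144440320 73014444032 (by norm_num) (by norm_num) c5

/-- Part of the subdivision. -/
def t6 : LT := (LT.b (LT.a (LT.b (LT.l 4604 4375 3884 3884) (LT.l 4559 4346 3884 3944)) (LT.b (LT.l 4559 4346 3944 3884) (LT.a (LT.l 4526 4326 3927 3944) (LT.b (LT.l 4509 4315 3964 3927) (LT.l 4476 4295 3964 3964))))) (LT.a LT.z1 (LT.b (LT.a LT.z1 (LT.b (LT.a LT.z1 (LT.l 4420 4262 3974 4008)) LT.z1)) LT.z1)))

theorem c6 : chk P t6 876173328384 73014444032 876173328384 146028888064 = true := by decide +kernel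

theorem b6 {lam : ℝ} (hlam : |(S : ℝ) * lam - ((P.lp : ℝ) - P.ln)| ≤ ((1 : ℕ) : ℝ)) : BoxS lam P 876173328384 73014444032 876173328384 146028888064 :=
  chk_sound hlam t6 876173328384 73014444032 876173328384 146028888064 (by norm_num) (by norm_num) c6

/-- Part of the subdivision. -/
def t7 : LT := (LT.b (LT.a (LT.l 4502 4311 4008 3884) (LT.b (LT.l 4456 4283 4060 3873) (LT.l 4435 4271 4060 3897))) (LT.a (LT.b (LT.l 4466 4289 4008 3927) (LT.a (LT.l 4443 4276 3996 3964) (LT.l 4417 4260 4020 3964))) (LT.b (LT.a (LT.l 4423 4264 4046 3927) (LT.l 4388 4244 4074 3927)) (LT.a (LT.l 4385 4242 4046 3964) (LT.b (LT.l 4359 4228 4074 3954) (LT.l 4335 4215 4074 3974))))))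

theorem c7 : chk P t7 1022202216448 36507222016 876173328384 73014444032 = true := by decide +kernel

theorem b7 {lam : ℝ} (hlam : |(S : ℝ) * lam - ((P.lp : ℝ) - P.ln)| ≤ ((1 : ℕ) : ℝ)) : BoxS lam P 1022202216448 36507222016 876173328384 73014444032 :=
  chk_sound hlam t7 1022202216448 36507222016 876173328384 73014444032 (by norm_num) (by norm_num) c7

/-- Part of the subdivision. -/
def t8 : LT := (LT.a (LT.b (LT.a (LT.l 4400 4251 4104 3873) (LT.b (LT.l 4358 4227 4136 3868) (LT.l 4348 4222 4136 3878))) (LT.a (LT.l 4377 4238 4104 3897) (LT.b (LT.l 4335 4215 4136 3890) (LT.l 4321 4207 4136 3904)))) (LT.b (LT.a (LT.b (LT.a (LT.l 4317 4205 4161 3868) (LT.l 4286 4188 4179 3868)) (LT.l 4290 4191 4170 3878)) LT.z2) (LT.a (LT.b (LT.l 4277 4184 4170 3890) (LT.l 4261 4175 4170 3904)) LT.z2)))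

theorem c8 : chk P t8 1095216660480 36507222016 876173328384 36507222016 = true := by decide +kernel

theorem b8 {lam : ℝ} (hlam : |(S : ℝ) * lam - ((P.lp : ℝ) - P.ln)| ≤ ((1 : ℕ) : ℝ)) : BoxS lam P 1095216660480 36507222016 876173328384 36507222016 :=
  chk_sound hlam t8 1095216660480 36507222016 876173328384 36507222016 (by norm_num) (by norm_num) c8

/-- Part of the subdivision. -/
def t9 : LT := (LT.a (LT.b (LT.a (LT.b (LT.l 4354 4225 4104 3919) (LT.l 4336 4215 4104 3935)) (LT.b (LT.a (LT.l 4318 4205 4128 3919) (LT.l 4290 4190 4144 3919)) (LT.a (LT.l 4298 4195 4128 3935) (LT.l 4269 4180 4144 3935)))) (LT.a (LT.b (LT.a (LT.l 4326 4210 4096 3954) (LT.l 4302 4197 4112 3954)) (LT.a (LT.l 4301 4197 4096 3974) (LT.l 4276 4183 4112 3974))) (LT.b (LT.a (LT.l 4275 4183 4128 3954) (LT.l 4245 4167 4144 3954)) (LT.a (LT.l 4248 4169 4128 3974) (LT.l 4216 4153 4144 3974))))) (LT.b (LT.a (LT.b (LT.l 4242 4166 4170 3919) (LT.a (LT.l 4237 4163 4161 3935) LT.z2)) LT.z2) (LT.a (LT.b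 (LT.a (LT.l 4212 4151 4161 3954) LT.z2) LT.z2) LT.z2)))

theorem c9 : chk P t9 1095216660480 36507222016 949187772416 36507222016 = true := by decide +kernel

theorem b9 {lam : ℝ} (hlam : |(S : ℝ) * lam - ((P.lp : ℝ) - P.ln)| ≤ ((1 : ℕ) : ℝ)) : BoxS lam P 1095216660480 36507222016 949187772416 36507222016 :=
  chk_sound hlam t9 1095216660480 36507222016 949187772416 36507222016 (by norm_num) (by norm_num) c9

/-- Part of the subdivision. -/
def t10 : LT := (LT.b (LT.a (LT.b (LT.l 4409 4256 3996 3996) (LT.l 4381 4240 3996 4020)) (LT.b (LT.l 4381 4240 4020 3996) (LT.l 4351 4223 4020 4020))) (LT.a LT.z1 (LT.b (LT.a LT.z1 (LT.l 4307 4200 4026 4046)) LT.z1)))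

theorem c10 : chk P t10 1022202216448 18253611008 1022202216448 36507222016 = true := by decide +kernel

theorem b10 {lam : ℝ} (hlam : |(S : ℝ) * lam - ((P.lp : ℝ) - P.ln)| ≤ ((1 : ℕ) : ℝ)) : BoxS lam P 1022202216448 18253611008 1022202216448 36507222016 :=
  chk_sound hlam t10 1022202216448 18253611008 1022202216448 36507222016 (by norm_num) (by norm_num) c10

/-- Part of the subdivision. -/
def t11 : LT := (LT.a (LT.b (LT.l 4347 4221 4046 3996) (LT.a (LT.l 4325 4209 4039 4020) (LT.l 4306 4199 4053 4020))) (LT.b (LT.a (LT.l 4318 4205 4067 3996) (LT.l 4296 4194 4081 3996)) (LT.a (LT.l 4285 4188 4067 4020) (LT.b (LT.l 4271 4180 4081 4014) (LT.l 4252 4171 4081 4026)))))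

theorem c11 : chk P t11 1058709438464 18253611008 1022202216448 18253611008 = true := by decide +kernel

theorem b11 {lam : ℝ} (hlam : |(S : ℝ) * lam - ((P.lp : ℝ) - P.ln)| ≤ ((1 : ℕ) : ℝ)) : BoxS lam P 1058709438464 18253611008 1022202216448 18253611008 :=
  chk_sound hlam t11 1058709438464 18253611008 1022202216448 18253611008 (by norm_num) (by norm_num) c11

/-- Part of the subdivision. -/
def t12 : LT := (LT.b (LT.a (LT.l 4288 4190 4039 4046) (LT.b (LT.l 4278 4184 4053 4039) (LT.l 4257 4174 4053 4053))) (LT.a LT.z1 (LT.b (LT.l 4234 4162 4053 4067) LT.z1)))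

theorem c12 : chk P t12 1058709438464 9126805504 1058709438464 18253611008 = true := by decide +kernel

theorem b12 {lam : ℝ} (hlam : |(S : ℝ) * lam - ((P.lp : ℝ) - P.ln)| ≤ ((1 : ℕ) : ℝ)) : BoxS lam P 1058709438464 9126805504 1058709438464 18253611008 :=
  chk_sound hlam t12 1058709438464 9126805504 1058709438464 18253611008 (by norm_num) (by norm_num) c12

/-- Part of the subdivision. -/
def t13 : LT := (LT.b (LT.a (LT.b (LT.l 4256 4173 4067 4039) (LT.l 4234 4162 4067 4053)) (LT.b (LT.l 4232 4161 4081 4039) (LT.a (LT.l 4216 4153 4078 4053) (LT.l 4202 4146 4085 4053)))) (LT.a (LT.b (LT.a (LT.l 4217 4153 4063 4067) (LT.l 4204 4147 4071 4067)) (LT.a LT.z1 (LT.b (LT.l 4185 4137 4071 4078) LT.z1))) (LT.b (LT.a (LT.b (LT.l 4198 4144 4078 4063) (LT.l 4185 4137 4078 4071)) (LT.b (LT.l 4184 4137 4085 4063) (LT.l 4171 4131 4085 4071))) (LT.a (LT.b (LT.a (LT.l 4175 4132 4076 4078) (LT.l 4168 4129 4080 4078)) (LT.a LT.z1 (LT.l 4153 4122 4080 4085))) (LT.b (LT.a (LT.l 4160 4126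 4083 4078) (LT.l 4153 4122 4087 4078)) (LT.a (LT.b (LT.l 4150 4121 4083 4083) (LT.l 4142 4117 4083 4087)) (LT.b (LT.l 4142 4117 4087 4083) (LT.a (LT.l 4136 4114 4086 4087) (LT.l 4133 4113 4088 4087)))))))))

theorem c13 : chk P t13 1076963049472 9126805504 1058709438464 18253611008 = true := by decide +kernel

theorem b13 {lam : ℝ} (hlam : |(S : ℝ) * lam - ((P.lp : ℝ) - P.ln)| ≤ ((1 : ℕ) : ℝ)) : BoxS lam P 1076963049472 9126805504 1058709438464 18253611008 :=
  chk_sound hlam t13 1076963049472 9126805504 1058709438464 18253611008 (by norm_num) (by norm_num) c13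

/-- Part of the subdivision. -/
def t14 : LT := (LT.a LT.z1 (LT.b (LT.a LT.z1 (LT.b (LT.a LT.z1 (LT.b (LT.a LT.z1 (LT.b (LT.a LT.z1 (LT.b (LT.a LT.z1 (LT.b (LT.l 4127 4110 4088 4090) LT.z1)) LT.z1)) LT.z1)) LT.z1)) LT.z1)) LT.z1))

theorem c14 : chk P t14 1022202216448 36507222016 1095216660480 36507222016 = true := by decide +kernel

theorem b14 {lam : ℝ} (hlam : |(S : ℝ) * lam - ((P.lp : ℝ) - P.ln)| ≤ ((1 : ℕ) : ℝ)) : BoxS lam P 1022202216448 36507222016 1095216660480 36507222016 :=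
  chk_sound hlam t14 1022202216448 36507222016 1095216660480 36507222016 (by norm_num) (by norm_num) c14

/-- Part of the subdivision. -/
def t15 : LT := (LT.a (LT.b (LT.a (LT.l 4272 4181 4096 3996) (LT.b (LT.l 4253 4171 4112 3990) (LT.l 4236 4163 4112 4002))) (LT.a (LT.b (LT.l 4246 4168 4096 4014) (LT.l 4226 4158 4096 4026)) (LT.b (LT.l 4218 4153 4112 4014) (LT.a (LT.l 4205 4147 4108 4026) (LT.l 4190 4140 4116 4026))))) (LT.b (LT.a (LT.b (LT.l 4224 4157 4128 3990) (LT.l 4206 4148 4128 4002)) (LT.b (LT.l 4191 4140 4144 3990) (LT.l 4172 4131 4144 4002))) (LT.a (LT.b (LT.a (LT.l 4195 4142 4124 4014) (LT.l 4178 4134 4132 4014)) (LT.a (LT.l 4173 4132 4124 4026) (LT.l 4156 4124 4132 4026))) LT.z2)))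

theorem c15 : chk P t15 1095216660480 18253611008 1022202216448 18253611008 = true := by decide +kernel

theorem b15 {lam : ℝ} (hlam : |(S : ℝ) * lam - ((P.lp : ℝ) - P.ln)| ≤ ((1 : ℕ) : ℝ)) : BoxS lam P 1095216660480 18253611008 1022202216448 18253611008 :=
  chk_sound hlam t15 1095216660480 18253611008 1022202216448 18253611008 (by norm_num) (by norm_num) c15

/-- Part of the subdivision. -/
def t16 : LT := (LT.a (LT.b (LT.a (LT.l 4212 4151 4093 4039) (LT.l 4198 4144 4100 4039)) (LT.a (LT.b (LT.l 4195 4142 4093 4050) (LT.l 4182 4136 4093 4056)) (LT.b (LT.l 4180 4135 4100 4050) (LT.l 4167 4129 4100 4056)))) (LT.b (LT.a (LT.l 4183 4136 4108 4039) (LT.b (LT.l 4173 4132 4116 4036) (LT.l 4161 4126 4116 4043))) (LT.a (LT.b (LT.l 4165 4128 4108 4050) (LT.l 4152 4122 4108 4056)) (LT.b (LT.l 4148 4120 4116 4050) (LT.l 4135 4114 4116 4056)))))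

theorem c16 : chk P t16 1095216660480 9126805504 1058709438464 9126805504 = true := by decide +kernel

theorem b16 {lam : ℝ} (hlam : |(S : ℝ) * lam - ((P.lp : ℝ) - P.ln)| ≤ ((1 : ℕ) : ℝ)) : BoxS lam P 1095216660480 9126805504 1058709438464 9126805504 :=
  chk_sound hlam t16 1095216660480 9126805504 1058709438464 9126805504 (by norm_num) (by norm_num) c16

/-- Part of the subdivision. -/
def t17 : LT := (LT.a (LT.b (LT.l 4169 4130 4093 4063) (LT.a (LT.l 4160 4125 4091 4071) (LT.l 4152 4122 4095 4071))) (LT.b (LT.l 4154 4123 4100 4063) (LT.a (LT.l 4144 4118 4098 4071) (LT.l 4136 4114 4102 4071))))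

theorem c17 : chk P t17 1095216660480 4563402752 1076963049472 4563402752 = true := by decide +kernel

theorem b17 {lam : ℝ} (hlam : |(S : ℝ) * lam - ((P.lp : ℝ) - P.ln)| ≤ ((1 : ℕ) : ℝ)) : BoxS lam P 1095216660480 4563402752 1076963049472 4563402752 :=
  chk_sound hlam t17 1095216660480 4563402752 1076963049472 4563402752 (by norm_num) (by norm_num) c17

/-- Part of the subdivision. -/
def t18 : LT := (LT.b (LT.a (LT.b (LT.l 4149 4120 4091 4076) (LT.l 4142 4117 4091 4080)) (LT.b (LT.l 4141 4117 4095 4076) (LT.l 4134 4113 4095 4080))) (LT.a (LT.b (LT.l 4134 4113 4091 4083) (LT.a (LT.l 4129 4111 4090 4087) (LT.b (LT.l 4127 4110 4092 4086) (LT.l 4123 4108 4092 4088)))) (LT.b (LT.a (LT.l 4128 4111 4094 4083) (LT.l 4124 4109 4095 4083)) (LT.a (LT.b (LT.l 4123 4108 4094 4086) (LT.l 4119 4106 4094 4088)) (LT.b (LT.l 4119 4106 4095 4086) (LT.l 4115 4104 4095 4088))))))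

theorem c18 : chk P t18 1095216660480 2281701376 1086089854976 4563402752 = true := by decide +kernel

theorem b18 {lam : ℝ} (hlam : |(S : ℝ) * lam - ((P.lp : ℝ) - P.ln)| ≤ ((1 : ℕ) : ℝ)) : BoxS lam P 1095216660480 2281701376 1086089854976 4563402752 :=
  chk_sound hlam t18 1095216660480 2281701376 1086089854976 4563402752 (by norm_num) (by norm_num) c18

/-- Part of the subdivision. -/
def t19 : LT := (LT.b (LT.a (LT.b (LT.l 4134 4113 4098 4076) (LT.l 4126 4110 4098 4080)) (LT.b (LT.l 4125 4109 4102 4076) (LT.l 4118 4106 4102 4080))) (LT.a (LT.b (LT.a (LT.l 4120 4107 4097 4083) (LT.l 4116 4105 4099 4083)) (LT.a (LT.b (LT.l 4115 4104 4097 4086) (LT.l 4111 4103 4097 4088)) (LT.b (LT.l 4110 4102 4099 4086) (LT.l 4106 4101 4099 4088)))) (LT.b (LT.l 4110 4102 4102 4083) (LT.a (LT.b (LT.l 4106 4101 4101 4086) (LT.l 4102 4099 4101 4088)) LT.z2))))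

theorem c19 : chk P t19 1099780063232 2281701376 1086089854976 4563402752 = true := by decide +kernel

theorem b19 {lam : ℝ} (hlam : |(S : ℝ) * lam - ((P.lp : ℝ) - P.ln)| ≤ ((1 : ℕ) : ℝ)) : BoxS lam P 1099780063232 2281701376 1086089854976 4563402752 :=
  chk_sound hlam t19 1099780063232 2281701376 1086089854976 4563402752 (by norm_num) (by norm_num) c19

/-- Part of the subdivision. -/
def t20 : LT := (LT.b (LT.a (LT.b (LT.l 4138 4115 4108 4063) (LT.a (LT.l 4128 4111 4106 4071) (LT.l 4120 4107 4110 4071))) (LT.b (LT.l 4121 4107 4116 4063) LT.z2)) (LT.a (LT.b (LT.a (LT.b (LT.l 4117 4105 4106 4076) (LT.l 4109 4102 4106 4080)) LT.z2) LT.z2) LT.z2))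

theorem c20 : chk P t20 1104343465984 4563402752 1076963049472 9126805504 = true := by decide +kernel

theorem b20 {lam : ℝ} (hlam : |(S : ℝ) * lam - ((P.lp : ℝ) - P.ln)| ≤ ((1 : ℕ) : ℝ)) : BoxS lam P 1104343465984 4563402752 1076963049472 9126805504 :=
  chk_sound hlam t20 1104343465984 4563402752 1076963049472 9126805504 (by norm_num) (by norm_num) c20

/-- Part of the subdivision. -/
def t21 : LT := (LT.b (LT.a (LT.b (LT.a (LT.l 4150 4121 4124 4039) LT.z2) LT.z2) LT.z2) LT.z2)

theorem c21 : chk P t21 1113470271488 9126805504 1058709438464 18253611008 = true := by decide +kernel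

theorem b21 {lam : ℝ} (hlam : |(S : ℝ) * lam - ((P.lp : ℝ) - P.ln)| ≤ ((1 : ℕ) : ℝ)) : BoxS lam P 1113470271488 9126805504 1058709438464 18253611008 :=
  chk_sound hlam t21 1113470271488 9126805504 1058709438464 18253611008 (by norm_num) (by norm_num) c21

/-- Part of the subdivision. -/
def t22 : LT := LT.z2

theorem c22 : chk P t22 1131723882496 18253611008 1022202216448 36507222016 = true := by decide +kernel

theorem b22 {lam : ℝ} (hlam : |(S : ℝ) * lam - ((P.lp : ℝ) - P.ln)| ≤ ((1 : ℕ) : ℝ)) : BoxS lam P 1131723882496 18253611008 1022202216448 36507222016 :=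
  chk_sound hlam t22 1131723882496 18253611008 1022202216448 36507222016 (by norm_num) (by norm_num) c22

/-- Part of the subdivision. -/
def t23 : LT := (LT.b (LT.a (LT.b (LT.l 4123 4108 4090 4090) (LT.l 4119 4106 4090 4092)) (LT.b (LT.l 4119 4106 4092 4090) (LT.a (LT.l 4116 4105 4091 4092) (LT.l 4114 4104 4092 4092)))) (LT.a LT.z1 (LT.b (LT.a LT.z1 (LT.b (LT.l 4111 4103 4092 4093) LT.z1)) LT.z1)))

theorem c23 : chk P t23 1095216660480 1140850688 1095216660480 2281701376 = true := by decide +kernel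

theorem b23 {lam : ℝ} (hlam : |(S : ℝ) * lam - ((P.lp : ℝ) - P.ln)| ≤ ((1 : ℕ) : ℝ)) : BoxS lam P 1095216660480 1140850688 1095216660480 2281701376 :=
  chk_sound hlam t23 1095216660480 1140850688 1095216660480 2281701376 (by norm_num) (by norm_num) c23

/-- Part of the subdivision. -/
def t24 : LT := (LT.a (LT.b (LT.a (LT.l 4116 4105 4093 4090) (LT.l 4114 4104 4094 4090)) (LT.a (LT.l 4112 4103 4093 4092) (LT.b (LT.l 4111 4103 4094 4091) (LT.l 4109 4102 4094 4092)))) (LT.b (LT.a (LT.l 4112 4103 4095 4090) (LT.l 4110 4102 4096 4090)) (LT.a (LT.b (LT.l 4109 4102 4095 4091) (LT.l 4107 4101 4095 4092)) (LT.b (LT.l 4107 4101 4096 4091) (LT.l 4105 4100 4096 4092)))))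

theorem c24 : chk P t24 1097498361856 1140850688 1095216660480 1140850688 = true := by decide +kernel

theorem b24 {lam : ℝ} (hlam : |(S : ℝ) * lam - ((P.lp : ℝ) - P.ln)| ≤ ((1 : ℕ) : ℝ)) : BoxS lam P 1097498361856 1140850688 1095216660480 1140850688 :=
  chk_sound hlam t24 1097498361856 1140850688 1095216660480 1140850688 (by norm_num) (by norm_num) c24

/-- Part of the subdivision. -/
def t25 : LT := (LT.b (LT.a (LT.b (LT.l 4109 4102 4093 4093) (LT.l 4107 4101 4093 4094)) (LT.b (LT.l 4107 4101 4094 4093) (LT.a (LT.l 4105 4100 4094 4094) (LT.l 4104 4100 4094 4094)))) (LT.a LT.z1 (LT.b (LT.a LT.z1 (LT.b (LT.l 4102 4099 4094 4095) LT.z1)) LT.z1)))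

theorem c25 : chk P t25 1097498361856 570425344 1097498361856 1140850688 = true := by decide +kernel

theorem b25 {lam : ℝ} (hlam : |(S : ℝ) * lam - ((P.lp : ℝ) - P.ln)| ≤ ((1 : ℕ) : ℝ)) : BoxS lam P 1097498361856 570425344 1097498361856 1140850688 :=
  chk_sound hlam t25 1097498361856 570425344 1097498361856 1140850688 (by norm_num) (by norm_num) c25

/-- Part of the subdivision. -/
def t26 : LT := (LT.a (LT.b (LT.a (LT.l 4105 4100 4095 4093) (LT.l 4104 4100 4095 4093)) (LT.a (LT.b (LT.l 4103 4099 4095 4094) (LT.l 4102 4099 4095 4094)) (LT.b (LT.l 4102 4099 4095 4094) (LT.l 4101 4098 4095 4094)))) (LT.b (LT.a (LT.l 4103 4099 4096 4093) (LT.l 4102 4099 4096 4093)) (LT.a (LT.b (LT.l 4101 4098 4096 4094) (LT.a (LT.l 4101 4098 4096 4094) (LT.l 4100 4098 4096 4094))) (LT.b (LT.l 4100 4098 4096 4094) (LT.a (LT.l 4100 4098 4096 4094) (LT.l 4099 4097 4096 4094))))))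

theorem c26 : chk P t26 1098639212544 570425344 1097498361856 570425344 = true := by decide +kernel

theorem b26 {lam : ℝ} (hlam : |(S : ℝ) * lam - ((P.lp : ℝ) - P.ln)| ≤ ((1 : ℕ) : ℝ)) : BoxS lam P 1098639212544 570425344 1097498361856 570425344 :=
  chk_sound hlam t26 1098639212544 570425344 1097498361856 570425344 (by norm_num) (by norm_num) c26

/-- Part of the subdivision. -/
def t27 : LT := (LT.a (LT.b (LT.a (LT.b (LT.l 4101 4098 4095 4095) (LT.a LT.z1 (LT.l 4100 4098 4095 4095))) (LT.b (LT.a (LT.l 4101 4098 4095 4095) (LT.l 4100 4098 4095 4095)) (LT.a (LT.b (LT.l 4100 4098 4095 4095) (LT.o 4099 4097 4095 4095)) (LT.o 4099 4097 4095 4095)))) (LT.a LT.z1 (LT.o 4098 4097 4095 4096))) (LT.b (LT.a (LT.b (LT.a (LT.b (LT.l 4100 4098 4096 4095) (LT.o 4099 4097 4096 4095)) (LT.b (LT.l 4099 4097 4096 4095) (LT.o 4099 4097 4096 4095))) (LT.o 4098 4097 4096 4095)) (LT.o 4098 4097 4096 4095)) (LT.o 4096 4096 4096 4096)))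

theorem c27 : chk P t27 1098639212544 570425344 1098639212544 570425344 = true := by decide +kernel

theorem b27 {lam : ℝ} (hlam : |(S : ℝ) * lam - ((P.lp : ℝ) - P.ln)| ≤ ((1 : ℕ) : ℝ)) : BoxS lam P 1098639212544 570425344 1098639212544 570425344 :=
  chk_sound hlam t27 1098639212544 570425344 1098639212544 570425344 (by norm_num) (by norm_num) c27

/-- Part of the subdivision. -/
def t28 : LT := (LT.a LT.z1 (LT.b (LT.a LT.z1 (LT.b (LT.a LT.z1 (LT.b (LT.a LT.z1 LT.z2) LT.z1)) LT.z1)) LT.z1))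

theorem c28 : chk P t28 1095216660480 2281701376 1099780063232 2281701376 = true := by decide +kernel

theorem b28 {lam : ℝ} (hlam : |(S : ℝ) * lam - ((P.lp : ℝ) - P.ln)| ≤ ((1 : ℕ) : ℝ)) : BoxS lam P 1095216660480 2281701376 1099780063232 2281701376 :=
  chk_sound hlam t28 1095216660480 2281701376 1099780063232 2281701376 (by norm_num) (by norm_num) c28

/-- Part of the subdivision. -/
def t29 : LT := (LT.b (LT.a (LT.b (LT.a (LT.b (LT.a (LT.l 4108 4101 4097 4090) (LT.l 4105 4100 4098 4090)) (LT.a (LT.b (LT.l 4104 4100 4097 4091) (LT.l 4102 4099 4097 4092)) (LT.b (LT.l 4102 4099 4098 4091) (LT.l 4100 4098 4098 4092)))) (LT.b (LT.l 4102 4099 4099 4090) (LT.a (LT.b (LT.l 4100 4098 4099 4091) LT.z2) LT.z2))) (LT.a (LT.b (LT.a (LT.b (LT.a (LT.l 4101 4098 4097 4093) (LT.l 4100 4098 4097 4093)) (LT.a (LT.b (LT.l 4099 4097 4097 4094) (LT.l 4098 4097 4097 4094)) (LT.b (LT.l 4098 4097 4097 4094) (LT.l 4097 4097 4097 4094)))) (LT.b (LT.l 4098 4097 4098 4093) LT.z2)) (LT.a (LT.b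 (LT.a (LT.o 4097 4096 4097 4095) LT.z2) LT.z2) LT.z2)) LT.z2)) LT.z2) LT.z2)

theorem c29 : chk P t29 1099780063232 2281701376 1095216660480 4563402752 = true := by decide +kernel

theorem b29 {lam : ℝ} (hlam : |(S : ℝ) * lam - ((P.lp : ℝ) - P.ln)| ≤ ((1 : ℕ) : ℝ)) : BoxS lam P 1099780063232 2281701376 1095216660480 4563402752 :=
  chk_sound hlam t29 1099780063232 2281701376 1095216660480 4563402752 (by norm_num) (by norm_num) c29

/-- Part of the subdivision. -/
def t30 : LT := (LT.a LT.z1 LT.z2)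

theorem c30 : chk P t30 1095216660480 4563402752 1104343465984 4563402752 = true := by decide +kernel

theorem b30 {lam : ℝ} (hlam : |(S : ℝ) * lam - ((P.lp : ℝ) - P.ln)| ≤ ((1 : ℕ) : ℝ)) : BoxS lam P 1095216660480 4563402752 1104343465984 4563402752 :=
  chk_sound hlam t30 1095216660480 4563402752 1104343465984 4563402752 (by norm_num) (by norm_num) c30

/-- Part of the subdivision. -/
def t31 : LT := LT.z2

theorem c31 : chk P t31 1104343465984 4563402752 1095216660480 9126805504 = true := by decide +kernel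

theorem b31 {lam : ℝ} (hlam : |(S : ℝ) * lam - ((P.lp : ℝ) - P.ln)| ≤ ((1 : ℕ) : ℝ)) : BoxS lam P 1104343465984 4563402752 1095216660480 9126805504 :=
  chk_sound hlam t31 1104343465984 4563402752 1095216660480 9126805504 (by norm_num) (by norm_num) c31

/-- Part of the subdivision. -/
def t32 : LT := LT.z2

theorem c32 : chk P t32 1095216660480 9126805504 1113470271488 9126805504 = true := by decide +kernel

theorem b32 {lam : ℝ} (hlam : |(S : ℝ) * lam - ((P.lp : ℝ) - P.ln)| ≤ ((1 : ℕ) : ℝ)) : BoxS lam P 1095216660480 9126805504 1113470271488 9126805504 :=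
  chk_sound hlam t32 1095216660480 9126805504 1113470271488 9126805504 (by norm_num) (by norm_num) c32

/-- Part of the subdivision. -/
def t33 : LT := LT.z2

theorem c33 : chk P t33 1113470271488 9126805504 1095216660480 18253611008 = true := by decide +kernel

theorem b33 {lam : ℝ} (hlam : |(S : ℝ) * lam - ((P.lp : ℝ) - P.ln)| ≤ ((1 : ℕ) : ℝ)) : BoxS lam P 1113470271488 9126805504 1095216660480 18253611008 :=
  chk_sound hlam t33 1113470271488 9126805504 1095216660480 18253611008 (by norm_num) (by norm_num) c33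

/-- Part of the subdivision. -/
def t34 : LT := LT.z2

theorem c34 : chk P t34 1095216660480 18253611008 1131723882496 18253611008 = true := by decide +kernel

theorem b34 {lam : ℝ} (hlam : |(S : ℝ) * lam - ((P.lp : ℝ) - P.ln)| ≤ ((1 : ℕ) : ℝ)) : BoxS lam P 1095216660480 18253611008 1131723882496 18253611008 :=
  chk_sound hlam t34 1095216660480 18253611008 1131723882496 18253611008 (by norm_num) (by norm_num) c34

/-- Part of the subdivision. -/
def t35 : LT := LT.z2

theorem c35 : chk P t35 1131723882496 18253611008 1095216660480 36507222016 = true := by decide +kernel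

theorem b35 {lam : ℝ} (hlam : |(S : ℝ) * lam - ((P.lp : ℝ) - P.ln)| ≤ ((1 : ℕ) : ℝ)) : BoxS lam P 1131723882496 18253611008 1095216660480 36507222016 :=
  chk_sound hlam t35 1131723882496 18253611008 1095216660480 36507222016 (by norm_num) (by norm_num) c35

/-- The whole box. -/
theorem box {lam : ℝ} (hlam : |(S : ℝ) * lam - ((P.lp : ℝ) - P.ln)| ≤ ((1 : ℕ) : ℝ)) : BoxS lam P 0 HH 0 HH :=
  (BoxS.sa' (x1 := 584115552256) (h := 292057776128) (by norm_num [HH]) (by norm_num) (b0 hlam) (BoxS.sb' (t1 := 584115552256) (h := 292057776128) (by norm_num [HH]) (by norm_num) (b1 hlam) (BoxS.sa' (x1 := 876173328384) (h := 146028888064) (by norm_num [HH]) (by norm_num) (b2 hlam) (BoxS.sb' (t1 := 876173328384) (h := 146028888064) (by norm_num [HH]) (by norm_num) (BoxS.sa' (x1 := 1022202216448) (h := 73014444032) (by norm_num [HH]) (by norm_num) (b3 hlam) (BoxS.sb' (t1 := 730144440320) (h := 73014444032) (by norm_num [HH]) (by norm_num) (b4 hlam) (b5 hlam))) (BoxS.sa' (x1 := 1022202216448)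 (h := 73014444032) (by norm_num [HH]) (by norm_num) (b6 hlam) (BoxS.sb' (t1 := 1022202216448) (h := 73014444032) (by norm_num [HH]) (by norm_num) (BoxS.sa' (x1 := 1095216660480) (h := 36507222016) (by norm_num [HH]) (by norm_num) (b7 hlam) (BoxS.sb' (t1 := 949187772416) (h := 36507222016) (by norm_num [HH]) (by norm_num) (b8 hlam) (b9 hlam))) (BoxS.sa' (x1 := 1095216660480) (h := 36507222016) (by norm_num [HH]) (by norm_num) (BoxS.sb' (t1 := 1095216660480) (h := 36507222016) (by norm_num [HH]) (by norm_num) (BoxS.sa' (x1 := 1058709438464) (h := 18253611008) (by norm_num [HH]) (by norm_num) (b10 hlam) (BoxS.sb' (t1 := 1058709438464) (h := 18253611008) (by norm_num [HH]) (by norm_num) (b11 hlam) (BoxS.sa' (x1 := 1076963049472) (h := 9126805504) (by norm_num [HH]) (by norm_num) (b12 hlam) (b13 hlam)))) (b14 hlam)) (BoxS.sb' (t1 := 1095216660480) (h := 36507222016) (by norm_num [HH]) (by norm_num) (BoxS.sa' (x1 := 1131723882496) (h := 18253611008) (by norm_num [HH]) (by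 norm_num) (BoxS.sb' (t1 := 1058709438464) (h := 18253611008) (by norm_num [HH]) (by norm_num) (b15 hlam) (BoxS.sa' (x1 := 1113470271488) (h := 9126805504) (by norm_num [HH]) (by norm_num) (BoxS.sb' (t1 := 1076963049472) (h := 9126805504) (by norm_num [HH]) (by norm_num) (b16 hlam) (BoxS.sa' (x1 := 1104343465984) (h := 4563402752) (by norm_num [HH]) (by norm_num) (BoxS.sb' (t1 := 1086089854976) (h := 4563402752) (by norm_num [HH]) (by norm_num) (b17 hlam) (BoxS.sa' (x1 := 1099780063232) (h := 2281701376) (by norm_num [HH]) (by norm_num) (b18 hlam) (b19 hlam))) (b20 hlam))) (b21 hlam))) (b22 hlam)) (BoxS.sa' (x1 := 1131723882496) (h := 18253611008) (by norm_num [HH]) (by norm_num) (BoxS.sb' (t1 := 1131723882496) (h := 18253611008) (by norm_num [HH]) (by norm_num) (BoxS.sa' (x1 := 1113470271488) (h := 9126805504) (by norm_num [HH]) (by norm_num) (BoxS.sb' (t1 := 1113470271488) (h := 9126805504) (by norm_num [HH]) (by norm_num) (BoxS.sa' (x1 := 1104343465984) (h := 4563402752)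 (by norm_num [HH]) (by norm_num) (BoxS.sb' (t1 := 1104343465984) (h := 4563402752) (by norm_num [HH]) (by norm_num) (BoxS.sa' (x1 := 1099780063232) (h := 2281701376) (by norm_num [HH]) (by norm_num) (BoxS.sb' (t1 := 1099780063232) (h := 2281701376) (by norm_num [HH]) (by norm_num) (BoxS.sa' (x1 := 1097498361856) (h := 1140850688) (by norm_num [HH]) (by norm_num) (b23 hlam) (BoxS.sb' (t1 := 1097498361856) (h := 1140850688) (by norm_num [HH]) (by norm_num) (b24 hlam) (BoxS.sa' (x1 := 1098639212544) (h := 570425344) (by norm_num [HH]) (by norm_num) (b25 hlam) (BoxS.sb' (t1 := 1098639212544) (h := 570425344) (by norm_num [HH]) (by norm_num) (b26 hlam) (b27 hlam))))) (b28 hlam)) (b29 hlam)) (b30 hlam)) (b31 hlam)) (b32 hlam)) (b33 hlam)) (b34 hlam)) (b35 hlam))))))))))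

end Vale.Agent.P154H.Tm.P5
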