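import Vale.Agent.P154H.Msg

set_option maxRecDepth 100000

/-!
The subdivision for `d = 6`, positive eigenvalue.
-/

namespace Vale.Agent.P154H.Tm.P6

/-- A row. -/
def Ra : Row := Row.mk 0 341658 0 2902095 5112252 0 2049948 0 17412570 0 0 30673512 0 3232 0 913920 0 15503940

/-- A row. -/
def Rb : Row := Row.mk 0 2866035032064 0 24344537333760 42884678025216 0 16872255414360 0 142802179781457 0 0 251164925693952 0 27111981056 0 7666516623360 0 127923772826862
/-- A row. -/
def Q0 : Row := Row.mk 0 0 0 0 0 0 4859136 0 0 0 0 0 0 0 0 0 0 3486105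

/-- A row. -/
def Q1 : Row := Row.mk 0 0 0 0 0 0 0 0 165096960 0 0 0 0 0 0 0 0 96294107

/-- A row. -/
def Q2 : Row := Row.mk 0 0 0 0 0 0 0 0 0 0 512 0 0 0 0 0 0 1323

/-- A row. -/
def Q3 : Row := Row.mk 0 349857792 0 2971745280 5234946048 0 2058348576 0 17406725952 0 0 30579943488 0 3309568 0 0 0 15700088565

/-- A row. -/
def Q4 : Row := Row.mk 0 349857792 0 2971745280 5234946048 0 2052679200 0 17349753744 0 0 30468328320 0 3309568 0 0 0 15676013781

/-- A row. -/
def Q5 : Row := Row.mk 0 43732224 0 371468160 654368256 0 255696348 0 2160662418 0 0 3792744840 0 413696 0 0 0 1955872215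

/-- A row. -/
def Q6 : Row := Row.mk 0 699715584 0 5943490560 10469892096 0 4072585920 0 34426861056 0 0 60397760448 0 6619136 0 0 0 31234047975

/-- A row. -/
def Q7 : Row := Row.mk 0 43732224 0 371468160 654368256 0 253775544 0 2141201436 0 0 3754621716 0 413696 0 0 0 1947675789

/-- A row. -/
def Q8 : Row := Row.mk 0 699715584 0 5943490560 10469892096 0 4032651264 0 34076494176 0 0 59707799232 0 6619136 0 0 0 31081166271

/-- A row. -/
def Q9 : Row := Row.mk 0 699715584 0 5943490560 10469892096 0 4015467264 0 33861251520 0 0 59293659648 0 6619136 0 0 0 30980146815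

/-- A row. -/
def Q10 : Row := Row.mk 0 699715584 0 5943490560 10469892096 0 3998033664 0 33619837248 0 0 58826101248 0 6619136 0 0 0 30881331801

/-- A row. -/
def Q11 : Row := Row.mk 0 699715584 0 5943490560 10469892096 0 3974218752 0 33348846528 0 0 58298273088 0 6619136 0 0 0 30766535433

/-- A row. -/
def Q12 : Row := Row.mk 0 699715584 0 5943490560 10469892096 0 3940383936 0 33046313760 0 0 57703131072 0 6619136 0 0 0 30634091991

/-- A row. -/
def Q13 : Row := Row.mk 0 699715584 0 5943490560 10469892096 0 3907308864 0 32702801280 0 0 57033532608 0 6619136 0 0 0 30481186347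

/-- A row. -/
def Q14 : Row := Row.mk 0 349857792 0 2971745280 5234946048 0 1934713824 0 16158431424 0 0 28140074112 0 3309568 0 0 0 15155117145

/-- A row. -/
def Q15 : Row := Row.mk 0 21866112 0 185734080 327184128 0 119589264 0 996322014 0 0 1732308594 0 206848 0 0 0 940992543

/-- A row. -/
def Q16 : Row := Row.mk 0 349857792 0 2971745280 5234946048 0 1894468512 0 15696403776 0 0 27242474880 0 3309568 0 0 0 14952336237

/-- A row. -/
def Q17 : Row := Row.mk 0 349857792 0 2971745280 5234946048 0 1858634112 0 15429511056 0 0 26711078688 0 3309568 0 0 0 14835427821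

/-- A row. -/
def Q18 : Row := Row.mk 0 699715584 0 5943490560 10469892096 0 3670214592 0 30254916672 0 0 52234807296 0 6619136 0 0 0 29460113631

/-- A row. -/
def Q19 : Row := Row.mk 0 174928896 0 1485872640 2617473024 0 904593552 0 7413756768 0 0 12727890432 0 1654784 0 0 0 7412421591

/-- A row. -/
def Q20 : Row := Row.mk 0 699715584 0 5943490560 10469892096 0 3576691008 0 29342956608 0 0 49440996672 0 6619136 0 0 0 31944222405

/-- A row. -/
def Q21 : Row := Row.mk 0 349857792 0 2971745280 5234946048 0 1727381664 0 14230251600 0 0 23906134080 0 3309568 0 0 0 15578754453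

/-- A row. -/
def Q22 : Row := Row.mk 0 699715584 0 5943490560 10469892096 0 3408085440 0 27316874208 0 0 46014008640 0 6619136 0 0 0 29580356979

/-- A row. -/
def Q23 : Row := Row.mk 0 699715584 0 5943490560 10469892096 0 3224382144 0 26222538720 0 0 44036835840 0 6619136 0 0 0 28405287081

/-- A row. -/
def Q24 : Row := Row.mk 0 699715584 0 5943490560 10469892096 0 3105959232 0 25156870272 0 0 41874041088 0 6619136 0 0 0 28096480809

/-- A row. -/
def Q25 : Row := Row.mk 0 174928896 0 1485872640 2617473024 0 739221840 0 6021836856 0 0 9880194528 0 1654784 0 0 0 7048286901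

/-- A row. -/
def Q26 : Row := Row.mk 0 699715584 0 5943490560 10469892096 0 2870382912 0 23094365952 0 0 36976735680 0 6619136 0 0 0 29379922911

/-- A row. -/
def Q27 : Row := Row.mk 0 699715584 0 5943490560 10469892096 0 2748396480 0 21882905184 0 0 34247209536 0 6619136 0 0 0 29726145675

/-- A row. -/
def Q28 : Row := Row.mk 0 174928896 0 1485872640 2617473024 0 657551904 0 5212395600 0 0 7824339504 0 1654784 0 0 0 7894812195


/-- The data. -/
def P : Pb where
  lp := 29417389580923127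
  ln := 0
  ab := 3298534883328
  r1 := [Ra, Rb]
  r2 := [Q0, Q1, Q2, Q3, Q4, Q5, Q6, Q7, Q8, Q9, Q10, Q11, Q12, Q13, Q14, Q15, Q16, Q17, Q18, Q19, Q20, Q21, Q22, Q23, Q24, Q25, Q26, Q27, Q28]

/-- Part of the subdivision. -/
def t0 : LT := (LT.b (LT.a (LT.b (LT.l 4699 4413 3836 3836) (LT.l 4699 4413 3836 3836)) (LT.b (LT.l 4699 4413 3836 3836) (LT.a (LT.l 4699 4413 3836 3836) (LT.l 4698 4413 3837 3836)))) (LT.a LT.z1 (LT.b (LT.a LT.z1 (LT.b (LT.l 4695 4411 3837 3841) LT.z1)) LT.z1)))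

theorem c0 : chk P t0 0 292057776128 0 584115552256 = true := by decide +kernel

theorem b0 {lam : ℝ} (hlam : |(S : ℝ) * lam - ((P.lp : ℝ) - P.ln)| ≤ ((1 : ℕ) : ℝ)) : BoxS lam P 0 292057776128 0 584115552256 :=
  chk_sound hlam t0 0 292057776128 0 584115552256 (by norm_num) (by norm_num) c0

/-- Part of the subdivision. -/
def t1 : LT := (LT.a (LT.b (LT.a (LT.l 4696 4411 3841 3836) (LT.l 4683 4403 3862 3836)) (LT.a (LT.l 4696 4411 3841 3836) (LT.l 4683 4403 3862 3836))) (LT.b (LT.a (LT.l 4636 4374 3930 3836) (LT.l 4475 4280 4090 3836)) (LT.a (LT.b (LT.l 4636 4374 3930 3836) (LT.l 4635 4374 3930 3837)) (LT.b (LT.a (LT.l 4536 4314 4039 3836) (LT.l 4390 4233 4148 3836)) (LT.a (LT.l 4535 4314 4039 3837) (LT.b (LT.l 4389 4233 4148 3836) (LT.l 4388 4233 4148 3837)))))))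

theorem c1 : chk P t1 584115552256 292057776128 0 292057776128 = true := by decide +kernel

theorem b1 {lam : ℝ} (hlam : |(S : ℝ) * lam - ((P.lp : ℝ) - P.ln)| ≤ ((1 : ℕ) : ℝ)) : BoxS lam P 584115552256 292057776128 0 292057776128 :=
  chk_sound hlam t1 584115552256 292057776128 0 292057776128 (by norm_num) (by norm_num) c1

/-- Part of the subdivision. -/
def t2 : LT := (LT.b (LT.a (LT.b (LT.l 4693 4409 3841 3841) (LT.l 4680 4401 3841 3862)) (LT.b (LT.l 4680 4401 3862 3841) (LT.l 4666 4393 3862 3862))) (LT.a LT.z1 (LT.b (LT.a LT.z1 (LT.b (LT.l 4629 4370 3873 3906) LT.z1)) LT.z1)))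

theorem c2 : chk P t2 584115552256 146028888064 584115552256 292057776128 = true := by decide +kernel

theorem b2 {lam : ℝ} (hlam : |(S : ℝ) * lam - ((P.lp : ℝ) - P.ln)| ≤ ((1 : ℕ) : ℝ)) : BoxS lam P 584115552256 146028888064 584115552256 292057776128 :=
  chk_sound hlam t2 584115552256 146028888064 584115552256 292057776128 (by norm_num) (by norm_num) c2

/-- Part of the subdivision. -/
def t3 : LT := (LT.b (LT.a (LT.l 4650 4383 3906 3841) (LT.l 4608 4357 3959 3841)) (LT.a (LT.l 4636 4374 3906 3862) (LT.b (LT.l 4599 4352 3959 3854) (LT.l 4585 4343 3959 3873))))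

theorem c3 : chk P t3 876173328384 73014444032 584115552256 146028888064 = true := by decide +kernel

theorem b3 {lam : ℝ} (hlam : |(S : ℝ) * lam - ((P.lp : ℝ) - P.ln)| ≤ ((1 : ℕ) : ℝ)) : BoxS lam P 876173328384 73014444032 584115552256 146028888064 :=
  chk_sound hlam t3 876173328384 73014444032 584115552256 146028888064 (by norm_num) (by norm_num) c3

/-- Part of the subdivision. -/
def t4 : LT := (LT.a (LT.b (LT.l 4533 4313 4039 3839) (LT.l 4529 4311 4039 3844)) (LT.b (LT.a (LT.l 4433 4257 4118 3839) (LT.l 4329 4202 4180 3839)) (LT.a (LT.l 4429 4254 4118 3844) (LT.b (LT.l 4326 4201 4180 3843) (LT.l 4322 4199 4180 3846)))))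

theorem c4 : chk P t4 1022202216448 73014444032 584115552256 73014444032 = true := by decide +kernel

theorem b4 {lam : ℝ} (hlam : |(S : ℝ) * lam - ((P.lp : ℝ) - P.ln)| ≤ ((1 : ℕ) : ℝ)) : BoxS lam P 1022202216448 73014444032 584115552256 73014444032 :=
  chk_sound hlam t4 1022202216448 73014444032 584115552256 73014444032 (by norm_num) (by norm_num) c4

/-- Part of the subdivision. -/
def t5 : LT := (LT.a (LT.b (LT.a (LT.l 4546 4320 4016 3854) (LT.l 4493 4290 4063 3854)) (LT.a (LT.l 4531 4311 4016 3873) (LT.l 4477 4281 4063 3873))) (LT.b (LT.a (LT.b (LT.l 4423 4251 4118 3851) (LT.l 4416 4248 4118 3858)) (LT.b (LT.a (LT.l 4347 4212 4164 3851) (LT.l 4283 4179 4197 3851)) (LT.a (LT.l 4340 4208 4164 3858) (LT.l 4275 4175 4197 3858)))) (LT.a (LT.b (LT.a (LT.l 4429 4254 4103 3867) (LT.l 4384 4230 4133 3867)) (LT.a (LT.l 4416 4248 4103 3880) (LT.l 4371 4224 4133 3880))) (LT.b (LT.a (LT.b (LT.l 4333 4204 4164 3865) (LT.l 4327 4201 4164 3870)) (LT.l 4263 4170 4197 3867)) (LT.a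 (LT.b (LT.l 4320 4198 4164 3876) (LT.l 4311 4193 4164 3883)) (LT.l 4248 4163 4197 3880))))))

theorem c5 : chk P t5 1022202216448 73014444032 730144440320 73014444032 = true := by decide +kernel

theorem b5 {lam : ℝ} (hlam : |(S : ℝ) * lam - ((P.lp : ℝ) - P.ln)| ≤ ((1 : ℕ) : ℝ)) : BoxS lam P 1022202216448 73014444032 730144440320 73014444032 :=
  chk_sound hlam t5 1022202216448 73014444032 730144440320 73014444032 (by norm_num) (by norm_num) c5

/-- Part of the subdivision. -/
def t6 : LT := (LT.b (LT.a (LT.b (LT.l 4604 4355 3906 3906) (LT.l 4559 4328 3906 3959)) (LT.b (LT.l 4559 4328 3959 3906) (LT.a (LT.l 4526 4309 3944 3959) (LT.b (LT.l 4509 4299 3976 3944) (LT.l 4476 4280 3976 3976))))) (LT.a LT.z1 (LT.b (LT.a LT.z1 (LT.b (LT.a LT.z1 (LT.l 4420 4249 3986 4016)) LT.z1)) LT.z1)))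

theorem c6 : chk P t6 876173328384 73014444032 876173328384 146028888064 = true := by decide +kernel

theorem b6 {lam : ℝ} (hlam : |(S : ℝ) * lam - ((P.lp : ℝ) - P.ln)| ≤ ((1 : ℕ) : ℝ)) : BoxS lam P 876173328384 73014444032 876173328384 146028888064 :=
  chk_sound hlam t6 876173328384 73014444032 876173328384 146028888064 (by norm_num) (by norm_num) c6

/-- Part of the subdivision. -/
def t7 : LT := (LT.b (LT.a (LT.l 4502 4295 4016 3906) (LT.b (LT.l 4456 4269 4063 3896) (LT.l 4435 4258 4063 3917))) (LT.a (LT.b (LT.l 4466 4275 4016 3944) (LT.a (LT.l 4443 4262 4006 3976) (LT.l 4417 4248 4027 3976))) (LT.b (LT.a (LT.l 4423 4251 4051 3944) (LT.l 4388 4232 4076 3944)) (LT.a (LT.b (LT.l 4396 4237 4051 3968) (LT.l 4373 4225 4051 3986)) (LT.b (LT.l 4359 4217 4076 3968) (LT.l 4335 4205 4076 3986))))))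

theorem c7 : chk P t7 1022202216448 36507222016 876173328384 73014444032 = true := by decide +kernel

theorem b7 {lam : ℝ} (hlam : |(S : ℝ) * lam - ((P.lp : ℝ) - P.ln)| ≤ ((1 : ℕ) : ℝ)) : BoxS lam P 1022202216448 36507222016 876173328384 73014444032 :=
  chk_sound hlam t7 1022202216448 36507222016 876173328384 73014444032 (by norm_num) (by norm_num) c7

/-- Part of the subdivision. -/
def t8 : LT := (LT.a (LT.b (LT.a (LT.l 4400 4239 4103 3896) (LT.l 4353 4214 4133 3896)) (LT.a (LT.l 4377 4227 4103 3917) (LT.b (LT.l 4335 4205 4133 3911) (LT.l 4321 4198 4133 3923)))) (LT.b (LT.a (LT.b (LT.l 4302 4189 4164 3892) (LT.l 4290 4183 4164 3901)) LT.z2) (LT.a (LT.b (LT.l 4277 4176 4164 3911) (LT.l 4261 4169 4164 3923)) LT.z2)))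

theorem c8 : chk P t8 1095216660480 36507222016 876173328384 36507222016 = true := by decide +kernel

theorem b8 {lam : ℝ} (hlam : |(S : ℝ) * lam - ((P.lp : ℝ) - P.ln)| ≤ ((1 : ℕ) : ℝ)) : BoxS lam P 1095216660480 36507222016 876173328384 36507222016 :=
  chk_sound hlam t8 1095216660480 36507222016 876173328384 36507222016 (by norm_num) (by norm_num) c8

/-- Part of the subdivision. -/
def t9 : LT := (LT.a (LT.b (LT.a (LT.b (LT.l 4354 4215 4103 3936) (LT.l 4336 4206 4103 3951)) (LT.b (LT.a (LT.l 4318 4196 4125 3936) (LT.l 4290 4183 4140 3936)) (LT.a (LT.l 4298 4187 4125 3951) (LT.l 4269 4173 4140 3951)))) (LT.a (LT.b (LT.a (LT.l 4326 4201 4096 3968) (LT.l 4302 4189 4111 3968)) (LT.a (LT.l 4301 4188 4096 3986) (LT.l 4276 4176 4111 3986))) (LT.b (LT.a (LT.l 4275 4176 4125 3968) (LT.l 4245 4161 4140 3968)) (LT.a (LT.b (LT.l 4255 4166 4125 3981) (LT.l 4240 4159 4125 3990)) (LT.l 4216 4148 4140 3986))))) (LT.b (LT.a (LT.b (LT.l 4242 4160 4164 3936) (LT.a (LT.l 4237 4158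 4156 3951) LT.z2)) LT.z2) (LT.a (LT.b (LT.a (LT.l 4212 4146 4156 3968) LT.z2) LT.z2) LT.z2)))

theorem c9 : chk P t9 1095216660480 36507222016 949187772416 36507222016 = true := by decide +kernel

theorem b9 {lam : ℝ} (hlam : |(S : ℝ) * lam - ((P.lp : ℝ) - P.ln)| ≤ ((1 : ℕ) : ℝ)) : BoxS lam P 1095216660480 36507222016 949187772416 36507222016 :=
  chk_sound hlam t9 1095216660480 36507222016 949187772416 36507222016 (by norm_num) (by norm_num) c9

/-- Part of the subdivision. -/
def t10 : LT := (LT.b (LT.a (LT.b (LT.l 4409 4244 4006 4006) (LT.l 4381 4229 4006 4027)) (LT.b (LT.l 4381 4229 4027 4006) (LT.l 4351 4213 4027 4027))) (LT.a LT.z1 (LT.b (LT.a LT.z1 (LT.l 4307 4191 4033 4051)) LT.z1)))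

theorem c10 : chk P t10 1022202216448 18253611008 1022202216448 36507222016 = true := by decide +kernel

theorem b10 {lam : ℝ} (hlam : |(S : ℝ) * lam - ((P.lp : ℝ) - P.ln)| ≤ ((1 : ℕ) : ℝ)) : BoxS lam P 1022202216448 18253611008 1022202216448 36507222016 :=
  chk_sound hlam t10 1022202216448 18253611008 1022202216448 36507222016 (by norm_num) (by norm_num) c10

/-- Part of the subdivision. -/
def t11 : LT := (LT.a (LT.b (LT.l 4347 4211 4051 4006) (LT.a (LT.l 4325 4200 4045 4027) (LT.l 4306 4191 4057 4027))) (LT.b (LT.a (LT.l 4318 4197 4070 4006) (LT.l 4296 4186 4083 4006)) (LT.a (LT.b (LT.l 4294 4185 4070 4022) (LT.l 4276 4176 4070 4033)) (LT.b (LT.l 4271 4174 4083 4022) (LT.l 4252 4165 4083 4033)))))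

theorem c11 : chk P t11 1058709438464 18253611008 1022202216448 18253611008 = true := by decide +kernel

theorem b11 {lam : ℝ} (hlam : |(S : ℝ) * lam - ((P.lp : ℝ) - P.ln)| ≤ ((1 : ℕ) : ℝ)) : BoxS lam P 1058709438464 18253611008 1022202216448 18253611008 :=
  chk_sound hlam t11 1058709438464 18253611008 1022202216448 18253611008 (by norm_num) (by norm_num) c11

/-- Part of the subdivision. -/
def t12 : LT := (LT.b (LT.a (LT.b (LT.l 4298 4187 4045 4045) (LT.l 4278 4177 4045 4057)) (LT.b (LT.l 4278 4177 4057 4045) (LT.l 4257 4167 4057 4057))) (LT.a LT.z1 (LT.b (LT.l 4234 4156 4057 4070) LT.z1)))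

theorem c12 : chk P t12 1058709438464 9126805504 1058709438464 18253611008 = true := by decide +kernel

theorem b12 {lam : ℝ} (hlam : |(S : ℝ) * lam - ((P.lp : ℝ) - P.ln)| ≤ ((1 : ℕ) : ℝ)) : BoxS lam P 1058709438464 9126805504 1058709438464 18253611008 :=
  chk_sound hlam t12 1058709438464 9126805504 1058709438464 18253611008 (by norm_num) (by norm_num) c12

/-- Part of the subdivision. -/
def t13 : LT := (LT.b (LT.a (LT.b (LT.l 4256 4167 4070 4045) (LT.l 4234 4156 4070 4057)) (LT.b (LT.l 4232 4155 4083 4045) (LT.a (LT.l 4216 4148 4079 4057) (LT.l 4202 4142 4086 4057)))) (LT.a (LT.b (LT.a (LT.l 4217 4148 4066 4070) (LT.l 4204 4143 4073 4070)) (LT.a LT.z1 (LT.b (LT.l 4185 4134 4073 4079) LT.z1))) (LT.b (LT.a (LT.b (LT.l 4198 4140 4079 4066) (LT.l 4185 4134 4079 4073)) (LT.b (LT.l 4184 4133 4086 4066) (LT.l 4171 4128 4086 4073))) (LT.a (LT.b (LT.a (LT.l 4175 4129 4078 4079) (LT.l 4168 4126 4081 4079)) (LT.a LT.z1 (LT.l 4153 4120 4081 4086))) (LT.b (LT.a (LT.l 4160 4123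 4084 4079) (LT.l 4153 4120 4088 4079)) (LT.a (LT.b (LT.l 4150 4118 4084 4084) (LT.l 4142 4115 4084 4088)) (LT.b (LT.l 4142 4115 4088 4084) (LT.a (LT.l 4136 4113 4087 4088) (LT.l 4133 4111 4089 4088)))))))))

theorem c13 : chk P t13 1076963049472 9126805504 1058709438464 18253611008 = true := by decide +kernel

theorem b13 {lam : ℝ} (hlam : |(S : ℝ) * lam - ((P.lp : ℝ) - P.ln)| ≤ ((1 : ℕ) : ℝ)) : BoxS lam P 1076963049472 9126805504 1058709438464 18253611008 :=
  chk_sound hlam t13 1076963049472 9126805504 1058709438464 18253611008 (by norm_num) (by norm_num) c13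

/-- Part of the subdivision. -/
def t14 : LT := (LT.a LT.z1 (LT.b (LT.a LT.z1 (LT.b (LT.a LT.z1 (LT.b (LT.a LT.z1 (LT.b (LT.a LT.z1 (LT.b (LT.a LT.z1 (LT.b (LT.l 4127 4109 4089 4090) LT.z1)) LT.z1)) LT.z1)) LT.z1)) LT.z1)) LT.z1))

theorem c14 : chk P t14 1022202216448 36507222016 1095216660480 36507222016 = true := by decide +kernel

theorem b14 {lam : ℝ} (hlam : |(S : ℝ) * lam - ((P.lp : ℝ) - P.ln)| ≤ ((1 : ℕ) : ℝ)) : BoxS lam P 1022202216448 36507222016 1095216660480 36507222016 :=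
  chk_sound hlam t14 1022202216448 36507222016 1095216660480 36507222016 (by norm_num) (by norm_num) c14

/-- Part of the subdivision. -/
def t15 : LT := (LT.a (LT.b (LT.a (LT.b (LT.l 4279 4178 4096 4000) (LT.l 4263 4170 4096 4011)) (LT.b (LT.l 4253 4165 4111 4000) (LT.l 4236 4157 4111 4011))) (LT.a (LT.b (LT.l 4246 4162 4096 4022) (LT.l 4226 4153 4096 4033)) (LT.b (LT.l 4218 4149 4111 4022) (LT.l 4197 4139 4111 4033)))) (LT.b (LT.a (LT.b (LT.l 4224 4152 4125 4000) (LT.l 4206 4143 4125 4011)) (LT.b (LT.l 4191 4137 4140 4000) (LT.l 4172 4128 4140 4011))) (LT.a (LT.b (LT.l 4187 4135 4125 4022) (LT.l 4165 4125 4125 4033)) LT.z2)))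

theorem c15 : chk P t15 1095216660480 18253611008 1022202216448 18253611008 = true := by decide +kernel

theorem b15 {lam : ℝ} (hlam : |(S : ℝ) * lam - ((P.lp : ℝ) - P.ln)| ≤ ((1 : ℕ) : ℝ)) : BoxS lam P 1095216660480 18253611008 1022202216448 18253611008 :=
  chk_sound hlam t15 1095216660480 18253611008 1022202216448 18253611008 (by norm_num) (by norm_num) c15

/-- Part of the subdivision. -/
def t16 : LT := (LT.a (LT.b (LT.a (LT.l 4212 4146 4093 4045) (LT.l 4198 4140 4100 4045)) (LT.a (LT.b (LT.l 4195 4138 4093 4054) (LT.l 4182 4133 4093 4060)) (LT.b (LT.l 4180 4132 4100 4054) (LT.l 4167 4126 4100 4060)))) (LT.b (LT.a (LT.l 4183 4133 4107 4045) (LT.l 4167 4126 4114 4045)) (LT.a (LT.b (LT.l 4165 4125 4107 4054) (LT.l 4152 4119 4107 4060)) (LT.b (LT.l 4148 4118 4114 4054) (LT.l 4135 4112 4114 4060)))))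

theorem c16 : chk P t16 1095216660480 9126805504 1058709438464 9126805504 = true := by decide +kernel

theorem b16 {lam : ℝ} (hlam : |(S : ℝ) * lam - ((P.lp : ℝ) - P.ln)| ≤ ((1 : ℕ) : ℝ)) : BoxS lam P 1095216660480 9126805504 1058709438464 9126805504 :=
  chk_sound hlam t16 1095216660480 9126805504 1058709438464 9126805504 (by norm_num) (by norm_num) c16

/-- Part of the subdivision. -/
def t17 : LT := (LT.a (LT.b (LT.l 4169 4127 4093 4066) (LT.a (LT.l 4160 4123 4091 4073) (LT.l 4152 4120 4095 4073))) (LT.b (LT.l 4154 4120 4100 4066) (LT.a (LT.l 4144 4116 4098 4073) (LT.l 4136 4113 4102 4073))))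

theorem c17 : chk P t17 1095216660480 4563402752 1076963049472 4563402752 = true := by decide +kernel

theorem b17 {lam : ℝ} (hlam : |(S : ℝ) * lam - ((P.lp : ℝ) - P.ln)| ≤ ((1 : ℕ) : ℝ)) : BoxS lam P 1095216660480 4563402752 1076963049472 4563402752 :=
  chk_sound hlam t17 1095216660480 4563402752 1076963049472 4563402752 (by norm_num) (by norm_num) c17

/-- Part of the subdivision. -/
def t18 : LT := (LT.b (LT.a (LT.b (LT.l 4149 4118 4091 4078) (LT.l 4142 4115 4091 4081)) (LT.b (LT.l 4141 4115 4095 4078) (LT.l 4134 4112 4095 4081))) (LT.a (LT.b (LT.l 4134 4112 4091 4084) (LT.a (LT.l 4129 4110 4090 4088) (LT.b (LT.l 4127 4109 4092 4087) (LT.l 4123 4107 4092 4089)))) (LT.b (LT.a (LT.l 4128 4109 4094 4084) (LT.l 4124 4108 4096 4084)) (LT.a (LT.b (LT.l 4123 4107 4094 4087) (LT.l 4119 4105 4094 4089)) (LT.b (LT.l 4119 4105 4096 4087) (LT.l 4115 4104 4096 4089))))))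

theorem c18 : chk P t18 1095216660480 2281701376 1086089854976 4563402752 = true := by decide +kernel

theorem b18 {lam : ℝ} (hlam : |(S : ℝ) * lam - ((P.lp : ℝ) - P.ln)| ≤ ((1 : ℕ) : ℝ)) : BoxS lam P 1095216660480 2281701376 1086089854976 4563402752 :=
  chk_sound hlam t18 1095216660480 2281701376 1086089854976 4563402752 (by norm_num) (by norm_num) c18

/-- Part of the subdivision. -/
def t19 : LT := (LT.b (LT.a (LT.b (LT.l 4134 4112 4098 4078) (LT.l 4126 4108 4098 4081)) (LT.b (LT.l 4125 4108 4102 4078) (LT.l 4118 4105 4102 4081))) (LT.a (LT.b (LT.a (LT.l 4120 4106 4097 4084) (LT.l 4116 4104 4099 4084)) (LT.a (LT.b (LT.l 4115 4104 4097 4087) (LT.l 4111 4102 4097 4089)) (LT.b (LT.l 4110 4102 4099 4087) (LT.l 4106 4100 4099 4089)))) (LT.b (LT.l 4110 4102 4102 4084) (LT.a (LT.b (LT.l 4106 4100 4101 4087) (LT.l 4102 4098 4101 4089)) LT.z2))))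

theorem c19 : chk P t19 1099780063232 2281701376 1086089854976 4563402752 = true := by decide +kernel

theorem b19 {lam : ℝ} (hlam : |(S : ℝ) * lam - ((P.lp : ℝ) - P.ln)| ≤ ((1 : ℕ) : ℝ)) : BoxS lam P 1099780063232 2281701376 1086089854976 4563402752 :=
  chk_sound hlam t19 1099780063232 2281701376 1086089854976 4563402752 (by norm_num) (by norm_num) c19

/-- Part of the subdivision. -/
def t20 : LT := (LT.b (LT.a (LT.b (LT.l 4138 4114 4107 4066) (LT.a (LT.l 4128 4109 4105 4073) (LT.l 4120 4106 4109 4073))) (LT.b (LT.l 4121 4106 4114 4066) LT.z2)) (LT.a (LT.b (LT.a (LT.b (LT.l 4117 4105 4105 4078) (LT.l 4109 4101 4105 4081)) LT.z2) LT.z2) LT.z2))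

theorem c20 : chk P t20 1104343465984 4563402752 1076963049472 9126805504 = true := by decide +kernel

theorem b20 {lam : ℝ} (hlam : |(S : ℝ) * lam - ((P.lp : ℝ) - P.ln)| ≤ ((1 : ℕ) : ℝ)) : BoxS lam P 1104343465984 4563402752 1076963049472 9126805504 :=
  chk_sound hlam t20 1104343465984 4563402752 1076963049472 9126805504 (by norm_num) (by norm_num) c20

/-- Part of the subdivision. -/
def t21 : LT := (LT.b (LT.a (LT.b (LT.a (LT.l 4150 4119 4121 4045) LT.z2) LT.z2) LT.z2) LT.z2)

theorem c21 : chk P t21 1113470271488 9126805504 1058709438464 18253611008 = true := by decide +kernel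

theorem b21 {lam : ℝ} (hlam : |(S : ℝ) * lam - ((P.lp : ℝ) - P.ln)| ≤ ((1 : ℕ) : ℝ)) : BoxS lam P 1113470271488 9126805504 1058709438464 18253611008 :=
  chk_sound hlam t21 1113470271488 9126805504 1058709438464 18253611008 (by norm_num) (by norm_num) c21

/-- Part of the subdivision. -/
def t22 : LT := LT.z2

theorem c22 : chk P t22 1131723882496 18253611008 1022202216448 36507222016 = true := by decide +kernel

theorem b22 {lam : ℝ} (hlam : |(S : ℝ) * lam - ((P.lp : ℝ) - P.ln)| ≤ ((1 : ℕ) : ℝ)) : BoxS lam P 1131723882496 18253611008 1022202216448 36507222016 :=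
  chk_sound hlam t22 1131723882496 18253611008 1022202216448 36507222016 (by norm_num) (by norm_num) c22

/-- Part of the subdivision. -/
def t23 : LT := (LT.b (LT.a (LT.b (LT.l 4123 4107 4090 4090) (LT.l 4119 4105 4090 4092)) (LT.b (LT.l 4119 4105 4092 4090) (LT.a (LT.l 4116 4104 4092 4092) (LT.l 4114 4103 4093 4092)))) (LT.a LT.z1 (LT.b (LT.a LT.z1 (LT.b (LT.l 4111 4102 4093 4093) LT.z1)) LT.z1)))

theorem c23 : chk P t23 1095216660480 1140850688 1095216660480 2281701376 = true := by decide +kernel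

theorem b23 {lam : ℝ} (hlam : |(S : ℝ) * lam - ((P.lp : ℝ) - P.ln)| ≤ ((1 : ℕ) : ℝ)) : BoxS lam P 1095216660480 1140850688 1095216660480 2281701376 :=
  chk_sound hlam t23 1095216660480 1140850688 1095216660480 2281701376 (by norm_num) (by norm_num) c23

/-- Part of the subdivision. -/
def t24 : LT := (LT.a (LT.b (LT.a (LT.l 4116 4104 4093 4090) (LT.l 4114 4103 4094 4090)) (LT.a (LT.l 4112 4102 4093 4092) (LT.b (LT.l 4111 4102 4094 4092) (LT.l 4109 4101 4094 4093)))) (LT.b (LT.a (LT.l 4112 4102 4095 4090) (LT.l 4110 4102 4096 4090)) (LT.a (LT.b (LT.l 4109 4101 4095 4092) (LT.l 4107 4100 4095 4093)) (LT.b (LT.l 4107 4100 4096 4092) (LT.l 4105 4099 4096 4093)))))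

theorem c24 : chk P t24 1097498361856 1140850688 1095216660480 1140850688 = true := by decide +kernel

theorem b24 {lam : ℝ} (hlam : |(S : ℝ) * lam - ((P.lp : ℝ) - P.ln)| ≤ ((1 : ℕ) : ℝ)) : BoxS lam P 1097498361856 1140850688 1095216660480 1140850688 :=
  chk_sound hlam t24 1097498361856 1140850688 1095216660480 1140850688 (by norm_num) (by norm_num) c24

/-- Part of the subdivision. -/
def t25 : LT := (LT.b (LT.a (LT.b (LT.l 4109 4101 4093 4093) (LT.l 4107 4100 4093 4094)) (LT.b (LT.l 4107 4100 4094 4093) (LT.a (LT.l 4105 4100 4094 4094) (LT.l 4104 4099 4094 4094)))) (LT.a LT.z1 (LT.b (LT.a LT.z1 (LT.b (LT.l 4102 4099 4094 4095) LT.z1)) LT.z1)))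

theorem c25 : chk P t25 1097498361856 570425344 1097498361856 1140850688 = true := by decide +kernel

theorem b25 {lam : ℝ} (hlam : |(S : ℝ) * lam - ((P.lp : ℝ) - P.ln)| ≤ ((1 : ℕ) : ℝ)) : BoxS lam P 1097498361856 570425344 1097498361856 1140850688 :=
  chk_sound hlam t25 1097498361856 570425344 1097498361856 1140850688 (by norm_num) (by norm_num) c25

/-- Part of the subdivision. -/
def t26 : LT := (LT.a (LT.b (LT.a (LT.l 4105 4100 4095 4093) (LT.l 4104 4099 4095 4093)) (LT.a (LT.b (LT.l 4103 4099 4095 4094) (LT.l 4102 4099 4095 4094)) (LT.b (LT.l 4102 4099 4095 4094) (LT.l 4101 4098 4095 4094)))) (LT.b (LT.a (LT.l 4103 4099 4096 4093) (LT.l 4102 4098 4096 4093)) (LT.a (LT.b (LT.l 4101 4098 4096 4094) (LT.a (LT.l 4101 4098 4096 4094) (LT.l 4100 4098 4096 4094))) (LT.b (LT.l 4100 4098 4096 4094) (LT.a (LT.l 4100 4097 4096 4094) (LT.l 4099 4097 4096 4094))))))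

theorem c26 : chk P t26 1098639212544 570425344 1097498361856 570425344 = true := by decide +kernel

theorem b26 {lam : ℝ} (hlam : |(S : ℝ) * lam - ((P.lp : ℝ) - P.ln)| ≤ ((1 : ℕ) : ℝ)) : BoxS lam P 1098639212544 570425344 1097498361856 570425344 :=
  chk_sound hlam t26 1098639212544 570425344 1097498361856 570425344 (by norm_num) (by norm_num) c26

/-- Part of the subdivision. -/
def t27 : LT := (LT.a (LT.b (LT.a (LT.b (LT.l 4101 4098 4095 4095) (LT.a LT.z1 (LT.l 4100 4098 4095 4095))) (LT.b (LT.a (LT.l 4101 4098 4095 4095) (LT.l 4100 4098 4095 4095)) (LT.a (LT.b (LT.l 4100 4098 4095 4095) (LT.o 4099 4097 4095 4095)) (LT.o 4099 4097 4095 4095)))) (LT.a LT.z1 (LT.o 4098 4097 4095 4096))) (LT.b (LT.a (LT.b (LT.a (LT.b (LT.l 4100 4098 4096 4095) (LT.o 4099 4097 4096 4095)) (LT.b (LT.l 4099 4097 4096 4095) (LT.o 4099 4097 4096 4095))) (LT.o 4098 4097 4096 4095)) (LT.o 4098 4097 4096 4095)) (LT.o 4096 4096 4096 4096)))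

theorem c27 : chk P t27 1098639212544 570425344 1098639212544 570425344 = true := by decide +kernel

theorem b27 {lam : ℝ} (hlam : |(S : ℝ) * lam - ((P.lp : ℝ) - P.ln)| ≤ ((1 : ℕ) : ℝ)) : BoxS lam P 1098639212544 570425344 1098639212544 570425344 :=
  chk_sound hlam t27 1098639212544 570425344 1098639212544 570425344 (by norm_num) (by norm_num) c27

/-- Part of the subdivision. -/
def t28 : LT := (LT.a LT.z1 (LT.b (LT.a LT.z1 (LT.b (LT.a LT.z1 (LT.b (LT.a LT.z1 LT.z2) LT.z1)) LT.z1)) LT.z1))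

theorem c28 : chk P t28 1095216660480 2281701376 1099780063232 2281701376 = true := by decide +kernel

theorem b28 {lam : ℝ} (hlam : |(S : ℝ) * lam - ((P.lp : ℝ) - P.ln)| ≤ ((1 : ℕ) : ℝ)) : BoxS lam P 1095216660480 2281701376 1099780063232 2281701376 :=
  chk_sound hlam t28 1095216660480 2281701376 1099780063232 2281701376 (by norm_num) (by norm_num) c28

/-- Part of the subdivision. -/
def t29 : LT := (LT.b (LT.a (LT.b (LT.a (LT.b (LT.a (LT.l 4108 4101 4097 4090) (LT.l 4105 4100 4098 4090)) (LT.a (LT.b (LT.l 4104 4099 4097 4092) (LT.l 4102 4099 4097 4093)) (LT.b (LT.l 4102 4099 4098 4092) (LT.l 4100 4098 4098 4093)))) (LT.b (LT.l 4102 4099 4099 4090) (LT.a (LT.b (LT.l 4100 4098 4099 4092) LT.z2) LT.z2))) (LT.a (LT.b (LT.a (LT.b (LT.a (LT.l 4101 4098 4097 4093) (LT.l 4100 4098 4097 4093)) (LT.a (LT.b (LT.l 4099 4097 4097 4094) (LT.l 4098 4097 4097 4094)) (LT.b (LT.l 4098 4097 4097 4094) (LT.l 4097 4096 4097 4094)))) (LT.b (LT.l 4098 4097 4098 4093) LT.z2)) (LT.a (LT.b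 (LT.a (LT.o 4097 4096 4097 4095) LT.z2) LT.z2) LT.z2)) LT.z2)) LT.z2) LT.z2)

theorem c29 : chk P t29 1099780063232 2281701376 1095216660480 4563402752 = true := by decide +kernel

theorem b29 {lam : ℝ} (hlam : |(S : ℝ) * lam - ((P.lp : ℝ) - P.ln)| ≤ ((1 : ℕ) : ℝ)) : BoxS lam P 1099780063232 2281701376 1095216660480 4563402752 :=
  chk_sound hlam t29 1099780063232 2281701376 1095216660480 4563402752 (by norm_num) (by norm_num) c29

/-- Part of the subdivision. -/
def t30 : LT := (LT.a LT.z1 LT.z2)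

theorem c30 : chk P t30 1095216660480 4563402752 1104343465984 4563402752 = true := by decide +kernel

theorem b30 {lam : ℝ} (hlam : |(S : ℝ) * lam - ((P.lp : ℝ) - P.ln)| ≤ ((1 : ℕ) : ℝ)) : BoxS lam P 1095216660480 4563402752 1104343465984 4563402752 :=
  chk_sound hlam t30 1095216660480 4563402752 1104343465984 4563402752 (by norm_num) (by norm_num) c30

/-- Part of the subdivision. -/
def t31 : LT := LT.z2

theorem c31 : chk P t31 1104343465984 4563402752 1095216660480 9126805504 = true := by decide +kernel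

theorem b31 {lam : ℝ} (hlam : |(S : ℝ) * lam - ((P.lp : ℝ) - P.ln)| ≤ ((1 : ℕ) : ℝ)) : BoxS lam P 1104343465984 4563402752 1095216660480 9126805504 :=
  chk_sound hlam t31 1104343465984 4563402752 1095216660480 9126805504 (by norm_num) (by norm_num) c31

/-- Part of the subdivision. -/
def t32 : LT := LT.z2

theorem c32 : chk P t32 1095216660480 9126805504 1113470271488 9126805504 = true := by decide +kernel

theorem b32 {lam : ℝ} (hlam : |(S : ℝ) * lam - ((P.lp : ℝ) - P.ln)| ≤ ((1 : ℕ) : ℝ)) : BoxS lam P 1095216660480 9126805504 1113470271488 9126805504 :=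
  chk_sound hlam t32 1095216660480 9126805504 1113470271488 9126805504 (by norm_num) (by norm_num) c32

/-- Part of the subdivision. -/
def t33 : LT := LT.z2

theorem c33 : chk P t33 1113470271488 9126805504 1095216660480 18253611008 = true := by decide +kernel

theorem b33 {lam : ℝ} (hlam : |(S : ℝ) * lam - ((P.lp : ℝ) - P.ln)| ≤ ((1 : ℕ) : ℝ)) : BoxS lam P 1113470271488 9126805504 1095216660480 18253611008 :=
  chk_sound hlam t33 1113470271488 9126805504 1095216660480 18253611008 (by norm_num) (by norm_num) c33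

/-- Part of the subdivision. -/
def t34 : LT := LT.z2

theorem c34 : chk P t34 1095216660480 18253611008 1131723882496 18253611008 = true := by decide +kernel

theorem b34 {lam : ℝ} (hlam : |(S : ℝ) * lam - ((P.lp : ℝ) - P.ln)| ≤ ((1 : ℕ) : ℝ)) : BoxS lam P 1095216660480 18253611008 1131723882496 18253611008 :=
  chk_sound hlam t34 1095216660480 18253611008 1131723882496 18253611008 (by norm_num) (by norm_num) c34

/-- Part of the subdivision. -/
def t35 : LT := LT.z2

theorem c35 : chk P t35 1131723882496 18253611008 1095216660480 36507222016 = true := by decide +kernel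

theorem b35 {lam : ℝ} (hlam : |(S : ℝ) * lam - ((P.lp : ℝ) - P.ln)| ≤ ((1 : ℕ) : ℝ)) : BoxS lam P 1131723882496 18253611008 1095216660480 36507222016 :=
  chk_sound hlam t35 1131723882496 18253611008 1095216660480 36507222016 (by norm_num) (by norm_num) c35

/-- The whole box. -/
theorem box {lam : ℝ} (hlam : |(S : ℝ) * lam - ((P.lp : ℝ) - P.ln)| ≤ ((1 : ℕ) : ℝ)) : BoxS lam P 0 HH 0 HH :=
  (BoxS.sa' (x1 := 584115552256) (h := 292057776128) (by norm_num [HH]) (by norm_num) (b0 hlam) (BoxS.sb' (t1 := 584115552256) (h := 292057776128) (by norm_num [HH]) (by norm_num) (b1 hlam) (BoxS.sa' (x1 := 876173328384) (h := 146028888064) (by norm_num [HH]) (by norm_num) (b2 hlam) (BoxS.sb' (t1 := 876173328384) (h := 146028888064) (by norm_num [HH]) (by norm_num) (BoxS.sa' (x1 := 1022202216448) (h := 73014444032) (by norm_num [HH]) (by norm_num) (b3 hlam) (BoxS.sb' (t1 := 730144440320) (h := 73014444032) (by norm_num [HH]) (by norm_num) (b4 hlam) (b5 hlam))) (BoxS.sa' (x1 := 1022202216448)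 (h := 73014444032) (by norm_num [HH]) (by norm_num) (b6 hlam) (BoxS.sb' (t1 := 1022202216448) (h := 73014444032) (by norm_num [HH]) (by norm_num) (BoxS.sa' (x1 := 1095216660480) (h := 36507222016) (by norm_num [HH]) (by norm_num) (b7 hlam) (BoxS.sb' (t1 := 949187772416) (h := 36507222016) (by norm_num [HH]) (by norm_num) (b8 hlam) (b9 hlam))) (BoxS.sa' (x1 := 1095216660480) (h := 36507222016) (by norm_num [HH]) (by norm_num) (BoxS.sb' (t1 := 1095216660480) (h := 36507222016) (by norm_num [HH]) (by norm_num) (BoxS.sa' (x1 := 1058709438464) (h := 18253611008) (by norm_num [HH]) (by norm_num) (b10 hlam) (BoxS.sb' (t1 := 1058709438464) (h := 18253611008) (by norm_num [HH]) (by norm_num) (b11 hlam) (BoxS.sa' (x1 := 1076963049472) (h := 9126805504) (by norm_num [HH]) (by norm_num) (b12 hlam) (b13 hlam)))) (b14 hlam)) (BoxS.sb' (t1 := 1095216660480) (h := 36507222016) (by norm_num [HH]) (by norm_num) (BoxS.sa' (x1 := 1131723882496) (h := 18253611008) (by norm_num [HH]) (by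 norm_num) (BoxS.sb' (t1 := 1058709438464) (h := 18253611008) (by norm_num [HH]) (by norm_num) (b15 hlam) (BoxS.sa' (x1 := 1113470271488) (h := 9126805504) (by norm_num [HH]) (by norm_num) (BoxS.sb' (t1 := 1076963049472) (h := 9126805504) (by norm_num [HH]) (by norm_num) (b16 hlam) (BoxS.sa' (x1 := 1104343465984) (h := 4563402752) (by norm_num [HH]) (by norm_num) (BoxS.sb' (t1 := 1086089854976) (h := 4563402752) (by norm_num [HH]) (by norm_num) (b17 hlam) (BoxS.sa' (x1 := 1099780063232) (h := 2281701376) (by norm_num [HH]) (by norm_num) (b18 hlam) (b19 hlam))) (b20 hlam))) (b21 hlam))) (b22 hlam)) (BoxS.sa' (x1 := 1131723882496) (h := 18253611008) (by norm_num [HH]) (by norm_num) (BoxS.sb' (t1 := 1131723882496) (h := 18253611008) (by norm_num [HH]) (by norm_num) (BoxS.sa' (x1 := 1113470271488) (h := 9126805504) (by norm_num [HH]) (by norm_num) (BoxS.sb' (t1 := 1113470271488) (h := 9126805504) (by norm_num [HH]) (by norm_num) (BoxS.sa' (x1 := 1104343465984) (h := 4563402752)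 (by norm_num [HH]) (by norm_num) (BoxS.sb' (t1 := 1104343465984) (h := 4563402752) (by norm_num [HH]) (by norm_num) (BoxS.sa' (x1 := 1099780063232) (h := 2281701376) (by norm_num [HH]) (by norm_num) (BoxS.sb' (t1 := 1099780063232) (h := 2281701376) (by norm_num [HH]) (by norm_num) (BoxS.sa' (x1 := 1097498361856) (h := 1140850688) (by norm_num [HH]) (by norm_num) (b23 hlam) (BoxS.sb' (t1 := 1097498361856) (h := 1140850688) (by norm_num [HH]) (by norm_num) (b24 hlam) (BoxS.sa' (x1 := 1098639212544) (h := 570425344) (by norm_num [HH]) (by norm_num) (b25 hlam) (BoxS.sb' (t1 := 1098639212544) (h := 570425344) (by norm_num [HH]) (by norm_num) (b26 hlam) (b27 hlam))))) (b28 hlam)) (b29 hlam)) (b30 hlam)) (b31 hlam)) (b32 hlam)) (b33 hlam)) (b34 hlam)) (b35 hlam))))))))))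

end Vale.Agent.P154H.Tm.P6
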