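import Vale.Agent.P154H.Msg

set_option maxRecDepth 100000

/-!
The subdivision for `d = 7`, positive eigenvalue.
-/

namespace Vale.Agent.P154H.Tm.P7

/-- A row. -/
def Ra : Row := Row.mk 0 433566 0 2754243 4914828 0 3034962 0 19279701 0 0 34403796 0 3488 0 1214976 0 18490032

/-- A row. -/
def Rb : Row := Row.mk 0 909253804032 0 5776066215936 10307141369856 0 6081350031999 0 38296322007372 0 0 68076602437632 0 7314866176 0 2547989348352 0 37329440229189
/-- A row. -/
def Q0 : Row := Row.mk 0 0 0 0 0 0 49330176 0 0 0 0 0 0 0 0 0 0 35385603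

/-- A row. -/
def Q1 : Row := Row.mk 0 0 0 0 0 0 0 0 39171456 0 0 0 0 0 0 0 0 22857351

/-- A row. -/
def Q2 : Row := Row.mk 0 0 0 0 0 0 0 0 0 0 1024 0 0 0 0 0 0 2703

/-- A row. -/
def Q3 : Row := Row.mk 0 887943168 0 5640689664 10065567744 0 5933161152 0 37299354240 0 0 66134682432 0 7143424 0 0 0 36877622265

/-- A row. -/
def Q4 : Row := Row.mk 0 887943168 0 5640689664 10065567744 0 5900936448 0 37084408416 0 0 65714746944 0 7143424 0 0 0 36750805317

/-- A row. -/
def Q5 : Row := Row.mk 0 887943168 0 5640689664 10065567744 0 5873877312 0 36850014528 0 0 65255805312 0 7143424 0 0 0 36639519003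

/-- A row. -/
def Q6 : Row := Row.mk 0 221985792 0 1410172416 2516391936 0 1456533072 0 9151031976 0 0 16188421104 0 1785856 0 0 0 9131603517

/-- A row. -/
def Q7 : Row := Row.mk 0 443971584 0 2820344832 5032783872 0 2903575968 0 18160829568 0 0 32102389344 0 3571712 0 0 0 18210118491

/-- A row. -/
def Q8 : Row := Row.mk 0 221985792 0 1410172416 2516391936 0 1439731248 0 9003135408 0 0 15901237968 0 1785856 0 0 0 9055003077

/-- A row. -/
def Q9 : Row := Row.mk 0 887943168 0 5640689664 10065567744 0 5718858624 0 35681525664 0 0 62951059392 0 7143424 0 0 0 36073962765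

/-- A row. -/
def Q10 : Row := Row.mk 0 443971584 0 2820344832 5032783872 0 2834370048 0 17662105776 0 0 31119386880 0 3571712 0 0 0 17957382651

/-- A row. -/
def Q11 : Row := Row.mk 0 221985792 0 1410172416 2516391936 0 1405924608 0 8732470512 0 0 15365489184 0 1785856 0 0 0 8935492293

/-- A row. -/
def Q12 : Row := Row.mk 0 443971584 0 2820344832 5032783872 0 2782010208 0 17246184336 0 0 30308547840 0 3571712 0 0 0 17735775885

/-- A row. -/
def Q13 : Row := Row.mk 0 110992896 0 705086208 1258195968 0 685076952 0 4253834700 0 0 7462466520 0 892928 0 0 0 4400188929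

/-- A row. -/
def Q14 : Row := Row.mk 0 221985792 0 1410172416 2516391936 0 1359715008 0 8376774048 0 0 14675801280 0 1785856 0 0 0 8730630405

/-- A row. -/
def Q15 : Row := Row.mk 0 55496448 0 352543104 629097984 0 335348508 0 2061890310 0 0 3601438500 0 446464 0 0 0 2177066457

/-- A row. -/
def Q16 : Row := Row.mk 0 110992896 0 705086208 1258195968 0 660629208 0 4054250208 0 0 7056767784 0 892928 0 0 0 4343586795

/-- A row. -/
def Q17 : Row := Row.mk 0 221985792 0 1410172416 2516391936 0 1312428192 0 8012135136 0 0 13797804912 0 1785856 0 0 0 9013624281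

/-- A row. -/
def Q18 : Row := Row.mk 0 887943168 0 5640689664 10065567744 0 5209306560 0 31900724448 0 0 53829438912 0 7143424 0 0 0 38995081389

/-- A row. -/
def Q19 : Row := Row.mk 0 887943168 0 5640689664 10065567744 0 5011854720 0 30884043360 0 0 52364086080 0 7143424 0 0 0 36744438015

/-- A row. -/
def Q20 : Row := Row.mk 0 887943168 0 5640689664 10065567744 0 4943520576 0 29893791744 0 0 50790839616 0 7143424 0 0 0 35340194043

/-- A row. -/
def Q21 : Row := Row.mk 0 887943168 0 5640689664 10065567744 0 4873757184 0 28914802752 0 0 49105462080 0 7143424 0 0 0 34321568769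

/-- A row. -/
def Q22 : Row := Row.mk 0 443971584 0 2820344832 5032783872 0 2312522880 0 13984050864 0 0 23652982560 0 3571712 0 0 0 16649192997

/-- A row. -/
def Q23 : Row := Row.mk 0 443971584 0 2820344832 5032783872 0 2243288352 0 13488449184 0 0 22695276576 0 3571712 0 0 0 16332553359

/-- A row. -/
def Q24 : Row := Row.mk 0 443971584 0 2820344832 5032783872 0 2171881920 0 13063204464 0 0 21679079232 0 3571712 0 0 0 16564903173

/-- A row. -/
def Q25 : Row := Row.mk 0 110992896 0 705086208 1258195968 0 528193896 0 3165339168 0 0 5151325464 0 892928 0 0 0 4278074301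

/-- A row. -/
def Q26 : Row := Row.mk 0 887943168 0 5640689664 10065567744 0 4075783488 0 24315018912 0 0 38951895360 0 7143424 0 0 0 34377650127

/-- A row. -/
def Q27 : Row := Row.mk 0 110992896 0 705086208 1258195968 0 501296184 0 2955068220 0 0 4573470840 0 892928 0 0 0 4608041751

/-- A row. -/
def Q28 : Row := Row.mk 0 887943168 0 5640689664 10065567744 0 3859442112 0 22712498208 0 0 34028825088 0 7143424 0 0 0 38194183845


/-- The data. -/
def P : Pb where
  lp := 27235210556858266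
  ln := 0
  ab := 3298534883328
  r1 := [Ra, Rb]
  r2 := [Q0, Q1, Q2, Q3, Q4, Q5, Q6, Q7, Q8, Q9, Q10, Q11, Q12, Q13, Q14, Q15, Q16, Q17, Q18, Q19, Q20, Q21, Q22, Q23, Q24, Q25, Q26, Q27, Q28]

/-- Part of the subdivision. -/
def t0 : LT := (LT.b (LT.a (LT.l 4699 4395 3860 3860) (LT.b (LT.l 4699 4395 3860 3860) (LT.l 4699 4394 3860 3860))) (LT.a LT.z1 (LT.b (LT.a LT.z1 (LT.b (LT.l 4695 4392 3861 3865) LT.z1)) LT.z1)))

theorem c0 : chk P t0 0 292057776128 0 584115552256 = true := by decide +kernel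

theorem b0 {lam : ℝ} (hlam : |(S : ℝ) * lam - ((P.lp : ℝ) - P.ln)| ≤ ((1 : ℕ) : ℝ)) : BoxS lam P 0 292057776128 0 584115552256 :=
  chk_sound hlam t0 0 292057776128 0 584115552256 (by norm_num) (by norm_num) c0

/-- Part of the subdivision. -/
def t1 : LT := (LT.a (LT.b (LT.a (LT.l 4696 4393 3865 3860) (LT.l 4683 4385 3883 3860)) (LT.a (LT.l 4696 4393 3865 3860) (LT.l 4683 4385 3883 3860))) (LT.b (LT.a (LT.l 4636 4357 3944 3860) (LT.b (LT.l 4475 4268 4090 3860) (LT.l 4475 4268 4090 3860))) (LT.a (LT.b (LT.l 4636 4357 3944 3860) (LT.l 4635 4357 3944 3861)) (LT.b (LT.a (LT.l 4536 4300 4043 3860) (LT.l 4390 4224 4144 3860)) (LT.a (LT.l 4535 4300 4043 3861) (LT.b (LT.l 4389 4224 4144 3860) (LT.l 4388 4224 4144 3861)))))))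

theorem c1 : chk P t1 584115552256 292057776128 0 292057776128 = true := by decide +kernel

theorem b1 {lam : ℝ} (hlam : |(S : ℝ) * lam - ((P.lp : ℝ) - P.ln)| ≤ ((1 : ℕ) : ℝ)) : BoxS lam P 584115552256 292057776128 0 292057776128 :=
  chk_sound hlam t1 584115552256 292057776128 0 292057776128 (by norm_num) (by norm_num) c1

/-- Part of the subdivision. -/
def t2 : LT := (LT.b (LT.a (LT.b (LT.l 4693 4391 3865 3865) (LT.l 4680 4383 3865 3883)) (LT.b (LT.l 4680 4383 3883 3865) (LT.l 4666 4375 3883 3883))) (LT.a LT.z1 (LT.b (LT.a LT.z1 (LT.b (LT.l 4629 4353 3893 3922) LT.z1)) LT.z1)))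

theorem c2 : chk P t2 584115552256 146028888064 584115552256 292057776128 = true := by decide +kernel

theorem b2 {lam : ℝ} (hlam : |(S : ℝ) * lam - ((P.lp : ℝ) - P.ln)| ≤ ((1 : ℕ) : ℝ)) : BoxS lam P 584115552256 146028888064 584115552256 292057776128 :=
  chk_sound hlam t2 584115552256 146028888064 584115552256 292057776128 (by norm_num) (by norm_num) c2

/-- Part of the subdivision. -/
def t3 : LT := (LT.b (LT.a (LT.l 4650 4365 3922 3865) (LT.l 4608 4341 3971 3865)) (LT.a (LT.l 4636 4357 3922 3883) (LT.b (LT.l 4599 4336 3971 3876) (LT.l 4585 4328 3971 3893))))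

theorem c3 : chk P t3 876173328384 73014444032 584115552256 146028888064 = true := by decide +kernel

theorem b3 {lam : ℝ} (hlam : |(S : ℝ) * lam - ((P.lp : ℝ) - P.ln)| ≤ ((1 : ℕ) : ℝ)) : BoxS lam P 876173328384 73014444032 584115552256 146028888064 :=
  chk_sound hlam t3 876173328384 73014444032 584115552256 146028888064 (by norm_num) (by norm_num) c3

/-- Part of the subdivision. -/
def t4 : LT := (LT.a (LT.b (LT.l 4533 4299 4043 3863) (LT.l 4529 4297 4043 3867)) (LT.b (LT.a (LT.l 4433 4246 4116 3863) (LT.l 4329 4195 4174 3863)) (LT.a (LT.l 4429 4244 4116 3867) (LT.b (LT.l 4326 4193 4174 3866) (LT.a (LT.l 4352 4206 4159 3869) (LT.l 4288 4176 4190 3869))))))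

theorem c4 : chk P t4 1022202216448 73014444032 584115552256 73014444032 = true := by decide +kernel

theorem b4 {lam : ℝ} (hlam : |(S : ℝ) * lam - ((P.lp : ℝ) - P.ln)| ≤ ((1 : ℕ) : ℝ)) : BoxS lam P 1022202216448 73014444032 584115552256 73014444032 :=
  chk_sound hlam t4 1022202216448 73014444032 584115552256 73014444032 (by norm_num) (by norm_num) c4

/-- Part of the subdivision. -/
def t5 : LT := (LT.a (LT.b (LT.a (LT.l 4546 4306 4022 3876) (LT.l 4493 4277 4066 3876)) (LT.a (LT.l 4531 4298 4022 3893) (LT.l 4477 4269 4066 3893))) (LT.b (LT.a (LT.b (LT.l 4423 4241 4116 3873) (LT.l 4416 4238 4116 3879)) (LT.b (LT.a (LT.l 4347 4204 4159 3873) (LT.l 4283 4174 4190 3873)) (LT.a (LT.l 4340 4200 4159 3879) (LT.l 4275 4170 4190 3879)))) (LT.a (LT.b (LT.a (LT.l 4429 4244 4103 3888) (LT.l 4384 4221 4130 3888)) (LT.a (LT.l 4416 4238 4103 3899) (LT.l 4371 4215 4130 3899))) (LT.b (LT.a (LT.l 4330 4195 4159 3888) (LT.l 4263 4165 4190 3888)) (LT.a (LT.l 4316 4189 4159 3899) (LT.l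 4248 4158 4190 3899))))))

theorem c5 : chk P t5 1022202216448 73014444032 730144440320 73014444032 = true := by decide +kernel

theorem b5 {lam : ℝ} (hlam : |(S : ℝ) * lam - ((P.lp : ℝ) - P.ln)| ≤ ((1 : ℕ) : ℝ)) : BoxS lam P 1022202216448 73014444032 730144440320 73014444032 :=
  chk_sound hlam t5 1022202216448 73014444032 730144440320 73014444032 (by norm_num) (by norm_num) c5

/-- Part of the subdivision. -/
def t6 : LT := (LT.b (LT.a (LT.b (LT.l 4604 4339 3922 3922) (LT.l 4559 4314 3922 3971)) (LT.b (LT.l 4559 4314 3971 3922) (LT.a (LT.l 4526 4295 3956 3971) (LT.b (LT.l 4509 4286 3986 3956) (LT.l 4476 4268 3986 3986))))) (LT.a LT.z1 (LT.b (LT.a LT.z1 (LT.b (LT.a LT.z1 (LT.l 4420 4239 3995 4022)) LT.z1)) LT.z1)))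

theorem c6 : chk P t6 876173328384 73014444032 876173328384 146028888064 = true := by decide +kernel

theorem b6 {lam : ℝ} (hlam : |(S : ℝ) * lam - ((P.lp : ℝ) - P.ln)| ≤ ((1 : ℕ) : ℝ)) : BoxS lam P 876173328384 73014444032 876173328384 146028888064 :=
  chk_sound hlam t6 876173328384 73014444032 876173328384 146028888064 (by norm_num) (by norm_num) c6

/-- Part of the subdivision. -/
def t7 : LT := (LT.b (LT.a (LT.l 4502 4282 4022 3922) (LT.b (LT.l 4456 4258 4066 3914) (LT.l 4435 4247 4066 3932))) (LT.a (LT.b (LT.l 4466 4263 4022 3956) (LT.a (LT.l 4443 4251 4013 3986) (LT.l 4417 4238 4033 3986))) (LT.b (LT.a (LT.l 4423 4241 4054 3956) (LT.l 4388 4223 4078 3956)) (LT.a (LT.b (LT.l 4396 4227 4054 3978) (LT.l 4373 4216 4054 3995)) (LT.b (LT.l 4359 4209 4078 3978) (LT.l 4335 4198 4078 3995))))))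

theorem c7 : chk P t7 1022202216448 36507222016 876173328384 73014444032 = true := by decide +kernel

theorem b7 {lam : ℝ} (hlam : |(S : ℝ) * lam - ((P.lp : ℝ) - P.ln)| ≤ ((1 : ℕ) : ℝ)) : BoxS lam P 1022202216448 36507222016 876173328384 73014444032 :=
  chk_sound hlam t7 1022202216448 36507222016 876173328384 73014444032 (by norm_num) (by norm_num) c7

/-- Part of the subdivision. -/
def t8 : LT := (LT.b (LT.a (LT.b (LT.a (LT.l 4400 4229 4103 3914) (LT.l 4353 4206 4130 3914)) (LT.a (LT.l 4377 4218 4103 3932) (LT.b (LT.l 4335 4198 4130 3927) (LT.l 4321 4191 4130 3938)))) (LT.b (LT.a (LT.l 4296 4180 4159 3914) LT.z2) (LT.a (LT.l 4269 4167 4159 3932) LT.z2))) (LT.a (LT.b (LT.a (LT.b (LT.l 4354 4207 4103 3950) (LT.l 4336 4198 4103 3963)) (LT.b (LT.l 4304 4183 4130 3950) (LT.a (LT.l 4298 4181 4123 3963) (LT.l 4269 4168 4137 3963)))) (LT.a (LT.b (LT.l 4314 4188 4103 3978) (LT.a (LT.l 4301 4182 4096 3995) (LT.l 4276 4170 4109 3995))) (LT.b (LT.a (LT.l 4275 4170 4123 3978)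 (LT.l 4245 4157 4137 3978)) (LT.a (LT.l 4248 4158 4123 3995) (LT.l 4216 4144 4137 3995))))) (LT.b (LT.a (LT.b (LT.l 4242 4155 4159 3950) (LT.l 4220 4146 4159 3963)) LT.z2) (LT.a (LT.b (LT.a (LT.l 4212 4142 4152 3978) LT.z2) LT.z2) LT.z2))))

theorem c8 : chk P t8 1095216660480 36507222016 876173328384 73014444032 = true := by decide +kernel

theorem b8 {lam : ℝ} (hlam : |(S : ℝ) * lam - ((P.lp : ℝ) - P.ln)| ≤ ((1 : ℕ) : ℝ)) : BoxS lam P 1095216660480 36507222016 876173328384 73014444032 :=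
  chk_sound hlam t8 1095216660480 36507222016 876173328384 73014444032 (by norm_num) (by norm_num) c8

/-- Part of the subdivision. -/
def t9 : LT := (LT.b (LT.a (LT.b (LT.l 4409 4234 4013 4013) (LT.l 4381 4220 4013 4033)) (LT.b (LT.l 4381 4220 4033 4013) (LT.l 4351 4205 4033 4033))) (LT.a LT.z1 (LT.b (LT.a LT.z1 (LT.l 4307 4185 4038 4054)) LT.z1)))

theorem c9 : chk P t9 1022202216448 18253611008 1022202216448 36507222016 = true := by decide +kernel

theorem b9 {lam : ℝ} (hlam : |(S : ℝ) * lam - ((P.lp : ℝ) - P.ln)| ≤ ((1 : ℕ) : ℝ)) : BoxS lam P 1022202216448 18253611008 1022202216448 36507222016 :=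
  chk_sound hlam t9 1022202216448 18253611008 1022202216448 36507222016 (by norm_num) (by norm_num) c9

/-- Part of the subdivision. -/
def t10 : LT := (LT.a (LT.b (LT.l 4347 4204 4054 4013) (LT.a (LT.l 4325 4193 4049 4033) (LT.l 4306 4184 4060 4033))) (LT.b (LT.a (LT.l 4318 4190 4072 4013) (LT.l 4296 4179 4084 4013)) (LT.a (LT.l 4285 4175 4072 4033) (LT.b (LT.l 4271 4168 4084 4027) (LT.l 4252 4160 4084 4038)))))

theorem c10 : chk P t10 1058709438464 18253611008 1022202216448 18253611008 = true := by decide +kernel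

theorem b10 {lam : ℝ} (hlam : |(S : ℝ) * lam - ((P.lp : ℝ) - P.ln)| ≤ ((1 : ℕ) : ℝ)) : BoxS lam P 1058709438464 18253611008 1022202216448 18253611008 :=
  chk_sound hlam t10 1058709438464 18253611008 1022202216448 18253611008 (by norm_num) (by norm_num) c10

/-- Part of the subdivision. -/
def t11 : LT := (LT.a (LT.b (LT.a (LT.l 4288 4176 4049 4054) (LT.b (LT.l 4278 4171 4060 4049) (LT.l 4257 4162 4060 4060))) (LT.a LT.z1 (LT.b (LT.l 4234 4152 4060 4072) LT.z1))) (LT.b (LT.a (LT.b (LT.l 4256 4162 4072 4049) (LT.l 4234 4152 4072 4060)) (LT.b (LT.l 4232 4151 4084 4049) (LT.a (LT.l 4216 4144 4081 4060) (LT.l 4202 4139 4087 4060)))) (LT.a (LT.b (LT.a (LT.l 4217 4145 4069 4072) (LT.l 4204 4139 4075 4072)) (LT.a LT.z1 (LT.b (LT.l 4185 4131 4075 4081) LT.z1))) (LT.b (LT.a (LT.b (LT.l 4198 4136 4081 4069) (LT.l 4185 4131 4081 4075)) (LT.b (LT.l 4184 4131 4087 4069) (LT.l 4171 4125 4087 4075))) (LT.a (LT.b (LT.l 4171 4126 4081 4081) (LT.a LT.z1 (LT.l 4153 4118 4082 4087)))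 (LT.b (LT.a (LT.l 4160 4121 4085 4081) (LT.l 4153 4118 4088 4081)) (LT.a (LT.b (LT.l 4150 4117 4085 4085) (LT.l 4142 4114 4085 4088)) (LT.b (LT.l 4142 4114 4088 4085) (LT.a (LT.l 4136 4112 4088 4088) (LT.l 4133 4110 4089 4088))))))))))

theorem c11 : chk P t11 1058709438464 18253611008 1058709438464 18253611008 = true := by decide +kernel

theorem b11 {lam : ℝ} (hlam : |(S : ℝ) * lam - ((P.lp : ℝ) - P.ln)| ≤ ((1 : ℕ) : ℝ)) : BoxS lam P 1058709438464 18253611008 1058709438464 18253611008 :=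
  chk_sound hlam t11 1058709438464 18253611008 1058709438464 18253611008 (by norm_num) (by norm_num) c11

/-- Part of the subdivision. -/
def t12 : LT := (LT.a LT.z1 (LT.b (LT.a LT.z1 (LT.b (LT.a LT.z1 (LT.b (LT.a LT.z1 (LT.b (LT.a LT.z1 (LT.b (LT.a LT.z1 (LT.b (LT.l 4127 4108 4089 4091) LT.z1)) LT.z1)) LT.z1)) LT.z1)) LT.z1)) LT.z1))

theorem c12 : chk P t12 1022202216448 36507222016 1095216660480 36507222016 = true := by decide +kernel

theorem b12 {lam : ℝ} (hlam : |(S : ℝ) * lam - ((P.lp : ℝ) - P.ln)| ≤ ((1 : ℕ) : ℝ)) : BoxS lam P 1022202216448 36507222016 1095216660480 36507222016 :=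
  chk_sound hlam t12 1022202216448 36507222016 1095216660480 36507222016 (by norm_num) (by norm_num) c12

/-- Part of the subdivision. -/
def t13 : LT := (LT.a (LT.b (LT.a (LT.l 4272 4169 4096 4013) (LT.b (LT.l 4253 4160 4109 4008) (LT.l 4236 4153 4109 4018))) (LT.a (LT.b (LT.l 4246 4157 4096 4027) (LT.l 4226 4149 4096 4038)) (LT.b (LT.l 4218 4145 4109 4027) (LT.a (LT.l 4205 4139 4106 4038) (LT.l 4190 4133 4113 4038))))) (LT.b (LT.a (LT.b (LT.l 4224 4148 4123 4008) (LT.l 4206 4140 4123 4018)) (LT.l 4182 4130 4137 4013)) (LT.a (LT.b (LT.l 4187 4132 4123 4027) (LT.l 4165 4123 4123 4038)) LT.z2)))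

theorem c13 : chk P t13 1095216660480 18253611008 1022202216448 18253611008 = true := by decide +kernel

theorem b13 {lam : ℝ} (hlam : |(S : ℝ) * lam - ((P.lp : ℝ) - P.ln)| ≤ ((1 : ℕ) : ℝ)) : BoxS lam P 1095216660480 18253611008 1022202216448 18253611008 :=
  chk_sound hlam t13 1095216660480 18253611008 1022202216448 18253611008 (by norm_num) (by norm_num) c13

/-- Part of the subdivision. -/
def t14 : LT := (LT.a (LT.b (LT.a (LT.l 4212 4142 4093 4049) (LT.l 4198 4136 4100 4049)) (LT.a (LT.b (LT.l 4195 4135 4093 4057) (LT.l 4182 4130 4093 4063)) (LT.b (LT.l 4180 4129 4100 4057) (LT.l 4167 4124 4100 4063)))) (LT.b (LT.a (LT.l 4183 4130 4106 4049) (LT.l 4167 4124 4113 4049)) (LT.a (LT.b (LT.l 4165 4123 4106 4057) (LT.l 4152 4118 4106 4063)) (LT.b (LT.l 4148 4116 4113 4057) (LT.l 4135 4111 4113 4063)))))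

theorem c14 : chk P t14 1095216660480 9126805504 1058709438464 9126805504 = true := by decide +kernel

theorem b14 {lam : ℝ} (hlam : |(S : ℝ) * lam - ((P.lp : ℝ) - P.ln)| ≤ ((1 : ℕ) : ℝ)) : BoxS lam P 1095216660480 9126805504 1058709438464 9126805504 :=
  chk_sound hlam t14 1095216660480 9126805504 1058709438464 9126805504 (by norm_num) (by norm_num) c14

/-- Part of the subdivision. -/
def t15 : LT := (LT.a (LT.b (LT.l 4169 4125 4093 4069) (LT.a (LT.l 4160 4121 4092 4075) (LT.l 4152 4118 4095 4075))) (LT.b (LT.l 4154 4119 4100 4069) (LT.a (LT.l 4144 4115 4098 4075) (LT.l 4136 4112 4101 4075))))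

theorem c15 : chk P t15 1095216660480 4563402752 1076963049472 4563402752 = true := by decide +kernel

theorem b15 {lam : ℝ} (hlam : |(S : ℝ) * lam - ((P.lp : ℝ) - P.ln)| ≤ ((1 : ℕ) : ℝ)) : BoxS lam P 1095216660480 4563402752 1076963049472 4563402752 :=
  chk_sound hlam t15 1095216660480 4563402752 1076963049472 4563402752 (by norm_num) (by norm_num) c15

/-- Part of the subdivision. -/
def t16 : LT := (LT.b (LT.a (LT.b (LT.l 4149 4117 4092 4079) (LT.l 4142 4114 4092 4082)) (LT.b (LT.l 4141 4114 4095 4079) (LT.l 4134 4111 4095 4082))) (LT.a (LT.b (LT.l 4134 4111 4092 4085) (LT.a (LT.l 4129 4109 4091 4088) (LT.b (LT.l 4127 4108 4092 4088) (LT.l 4123 4106 4092 4089)))) (LT.b (LT.a (LT.l 4128 4108 4094 4085) (LT.l 4124 4107 4096 4085)) (LT.a (LT.b (LT.l 4123 4106 4094 4088) (LT.l 4119 4105 4094 4089)) (LT.b (LT.l 4119 4105 4096 4088) (LT.l 4115 4103 4096 4089))))))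

theorem c16 : chk P t16 1095216660480 2281701376 1086089854976 4563402752 = true := by decide +kernel

theorem b16 {lam : ℝ} (hlam : |(S : ℝ) * lam - ((P.lp : ℝ) - P.ln)| ≤ ((1 : ℕ) : ℝ)) : BoxS lam P 1095216660480 2281701376 1086089854976 4563402752 :=
  chk_sound hlam t16 1095216660480 2281701376 1086089854976 4563402752 (by norm_num) (by norm_num) c16

/-- Part of the subdivision. -/
def t17 : LT := (LT.b (LT.a (LT.b (LT.l 4134 4110 4098 4079) (LT.l 4126 4108 4098 4082)) (LT.b (LT.l 4125 4107 4101 4079) (LT.l 4118 4104 4101 4082))) (LT.a (LT.b (LT.a (LT.l 4120 4105 4097 4085) (LT.l 4116 4104 4099 4085)) (LT.a (LT.b (LT.l 4115 4103 4097 4088) (LT.l 4111 4102 4097 4089)) (LT.b (LT.l 4110 4101 4099 4088) (LT.l 4106 4100 4099 4089)))) (LT.b (LT.l 4110 4101 4101 4085) (LT.a (LT.b (LT.l 4106 4100 4100 4088) (LT.l 4102 4098 4100 4089)) LT.z2))))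

theorem c17 : chk P t17 1099780063232 2281701376 1086089854976 4563402752 = true := by decide +kernel

theorem b17 {lam : ℝ} (hlam : |(S : ℝ) * lam - ((P.lp : ℝ) - P.ln)| ≤ ((1 : ℕ) : ℝ)) : BoxS lam P 1099780063232 2281701376 1086089854976 4563402752 :=
  chk_sound hlam t17 1099780063232 2281701376 1086089854976 4563402752 (by norm_num) (by norm_num) c17

/-- Part of the subdivision. -/
def t18 : LT := (LT.b (LT.a (LT.b (LT.l 4138 4112 4106 4069) (LT.a (LT.l 4128 4108 4105 4075) (LT.l 4120 4105 4108 4075))) (LT.b (LT.l 4121 4106 4113 4069) LT.z2)) (LT.a (LT.b (LT.a (LT.b (LT.l 4117 4104 4105 4079) (LT.l 4109 4101 4105 4082)) LT.z2) LT.z2) LT.z2))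

theorem c18 : chk P t18 1104343465984 4563402752 1076963049472 9126805504 = true := by decide +kernel

theorem b18 {lam : ℝ} (hlam : |(S : ℝ) * lam - ((P.lp : ℝ) - P.ln)| ≤ ((1 : ℕ) : ℝ)) : BoxS lam P 1104343465984 4563402752 1076963049472 9126805504 :=
  chk_sound hlam t18 1104343465984 4563402752 1076963049472 9126805504 (by norm_num) (by norm_num) c18

/-- Part of the subdivision. -/
def t19 : LT := (LT.b (LT.a (LT.b (LT.a (LT.l 4150 4117 4120 4049) LT.z2) LT.z2) LT.z2) LT.z2)

theorem c19 : chk P t19 1113470271488 9126805504 1058709438464 18253611008 = true := by decide +kernel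

theorem b19 {lam : ℝ} (hlam : |(S : ℝ) * lam - ((P.lp : ℝ) - P.ln)| ≤ ((1 : ℕ) : ℝ)) : BoxS lam P 1113470271488 9126805504 1058709438464 18253611008 :=
  chk_sound hlam t19 1113470271488 9126805504 1058709438464 18253611008 (by norm_num) (by norm_num) c19

/-- Part of the subdivision. -/
def t20 : LT := LT.z2

theorem c20 : chk P t20 1131723882496 18253611008 1022202216448 36507222016 = true := by decide +kernel

theorem b20 {lam : ℝ} (hlam : |(S : ℝ) * lam - ((P.lp : ℝ) - P.ln)| ≤ ((1 : ℕ) : ℝ)) : BoxS lam P 1131723882496 18253611008 1022202216448 36507222016 :=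
  chk_sound hlam t20 1131723882496 18253611008 1022202216448 36507222016 (by norm_num) (by norm_num) c20

/-- Part of the subdivision. -/
def t21 : LT := (LT.b (LT.a (LT.b (LT.l 4123 4106 4091 4091) (LT.l 4119 4105 4091 4092)) (LT.b (LT.l 4119 4105 4092 4091) (LT.a (LT.l 4116 4104 4092 4092) (LT.l 4114 4103 4093 4092)))) (LT.a LT.z1 (LT.b (LT.a LT.z1 (LT.b (LT.l 4111 4102 4093 4094) LT.z1)) LT.z1)))

theorem c21 : chk P t21 1095216660480 1140850688 1095216660480 2281701376 = true := by decide +kernel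

theorem b21 {lam : ℝ} (hlam : |(S : ℝ) * lam - ((P.lp : ℝ) - P.ln)| ≤ ((1 : ℕ) : ℝ)) : BoxS lam P 1095216660480 1140850688 1095216660480 2281701376 :=
  chk_sound hlam t21 1095216660480 1140850688 1095216660480 2281701376 (by norm_num) (by norm_num) c21

/-- Part of the subdivision. -/
def t22 : LT := (LT.a (LT.b (LT.a (LT.l 4116 4104 4094 4091) (LT.l 4114 4103 4094 4091)) (LT.a (LT.l 4112 4102 4094 4092) (LT.b (LT.l 4111 4102 4094 4092) (LT.l 4109 4101 4094 4093)))) (LT.b (LT.a (LT.l 4112 4102 4095 4091) (LT.l 4110 4101 4096 4091)) (LT.a (LT.b (LT.l 4109 4101 4095 4092) (LT.l 4107 4100 4095 4093)) (LT.b (LT.l 4107 4100 4096 4092) (LT.l 4105 4099 4096 4093)))))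

theorem c22 : chk P t22 1097498361856 1140850688 1095216660480 1140850688 = true := by decide +kernel

theorem b22 {lam : ℝ} (hlam : |(S : ℝ) * lam - ((P.lp : ℝ) - P.ln)| ≤ ((1 : ℕ) : ℝ)) : BoxS lam P 1097498361856 1140850688 1095216660480 1140850688 :=
  chk_sound hlam t22 1097498361856 1140850688 1095216660480 1140850688 (by norm_num) (by norm_num) c22

/-- Part of the subdivision. -/
def t23 : LT := (LT.b (LT.a (LT.b (LT.l 4109 4101 4094 4094) (LT.l 4107 4100 4094 4094)) (LT.b (LT.l 4107 4100 4094 4094) (LT.a (LT.l 4105 4099 4094 4094) (LT.l 4104 4099 4095 4094)))) (LT.a LT.z1 (LT.b (LT.a LT.z1 (LT.b (LT.l 4102 4098 4095 4095) LT.z1)) LT.z1)))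

theorem c23 : chk P t23 1097498361856 570425344 1097498361856 1140850688 = true := by decide +kernel

theorem b23 {lam : ℝ} (hlam : |(S : ℝ) * lam - ((P.lp : ℝ) - P.ln)| ≤ ((1 : ℕ) : ℝ)) : BoxS lam P 1097498361856 570425344 1097498361856 1140850688 :=
  chk_sound hlam t23 1097498361856 570425344 1097498361856 1140850688 (by norm_num) (by norm_num) c23

/-- Part of the subdivision. -/
def t24 : LT := (LT.a (LT.b (LT.a (LT.l 4105 4099 4095 4094) (LT.l 4104 4099 4095 4094)) (LT.a (LT.b (LT.l 4103 4099 4095 4094) (LT.l 4102 4098 4095 4095)) (LT.b (LT.l 4102 4098 4095 4094) (LT.l 4101 4098 4095 4095)))) (LT.b (LT.a (LT.l 4103 4099 4096 4094) (LT.l 4102 4098 4096 4094)) (LT.a (LT.b (LT.l 4101 4098 4096 4094) (LT.a (LT.l 4101 4098 4096 4095) (LT.l 4100 4098 4096 4095))) (LT.b (LT.l 4100 4098 4096 4094) (LT.a (LT.l 4100 4097 4096 4095) (LT.l 4099 4097 4096 4095))))))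

theorem c24 : chk P t24 1098639212544 570425344 1097498361856 570425344 = true := by decide +kernel

theorem b24 {lam : ℝ} (hlam : |(S : ℝ) * lam - ((P.lp : ℝ) - P.ln)| ≤ ((1 : ℕ) : ℝ)) : BoxS lam P 1098639212544 570425344 1097498361856 570425344 :=
  chk_sound hlam t24 1098639212544 570425344 1097498361856 570425344 (by norm_num) (by norm_num) c24

/-- Part of the subdivision. -/
def t25 : LT := (LT.a (LT.b (LT.a (LT.b (LT.l 4101 4098 4095 4095) (LT.a LT.z1 (LT.l 4100 4098 4095 4095))) (LT.b (LT.a (LT.l 4101 4098 4095 4095) (LT.l 4100 4098 4095 4095)) (LT.a (LT.b (LT.l 4100 4097 4095 4095) (LT.o 4099 4097 4095 4095)) (LT.o 4099 4097 4095 4095)))) (LT.a LT.z1 (LT.o 4098 4097 4095 4096))) (LT.b (LT.a (LT.b (LT.a (LT.b (LT.l 4100 4097 4096 4095) (LT.o 4099 4097 4096 4095)) (LT.b (LT.l 4099 4097 4096 4095) (LT.o 4099 4097 4096 4095))) (LT.o 4098 4097 4096 4095)) (LT.o 4098 4097 4096 4095)) (LT.o 4096 4096 4096 4096)))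

theorem c25 : chk P t25 1098639212544 570425344 1098639212544 570425344 = true := by decide +kernel

theorem b25 {lam : ℝ} (hlam : |(S : ℝ) * lam - ((P.lp : ℝ) - P.ln)| ≤ ((1 : ℕ) : ℝ)) : BoxS lam P 1098639212544 570425344 1098639212544 570425344 :=
  chk_sound hlam t25 1098639212544 570425344 1098639212544 570425344 (by norm_num) (by norm_num) c25

/-- Part of the subdivision. -/
def t26 : LT := (LT.a LT.z1 (LT.b (LT.a LT.z1 (LT.b (LT.a LT.z1 (LT.b (LT.a LT.z1 LT.z2) LT.z1)) LT.z1)) LT.z1))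

theorem c26 : chk P t26 1095216660480 2281701376 1099780063232 2281701376 = true := by decide +kernel

theorem b26 {lam : ℝ} (hlam : |(S : ℝ) * lam - ((P.lp : ℝ) - P.ln)| ≤ ((1 : ℕ) : ℝ)) : BoxS lam P 1095216660480 2281701376 1099780063232 2281701376 :=
  chk_sound hlam t26 1095216660480 2281701376 1099780063232 2281701376 (by norm_num) (by norm_num) c26

/-- Part of the subdivision. -/
def t27 : LT := (LT.b (LT.a (LT.b (LT.a (LT.b (LT.a (LT.l 4108 4100 4097 4091) (LT.l 4105 4100 4098 4091)) (LT.a (LT.b (LT.l 4104 4099 4097 4092) (LT.l 4102 4098 4097 4093)) (LT.b (LT.l 4102 4098 4098 4092) (LT.l 4100 4098 4098 4093)))) (LT.b (LT.l 4102 4098 4099 4091) (LT.a (LT.b (LT.l 4100 4098 4098 4092) LT.z2) LT.z2))) (LT.a (LT.b (LT.a (LT.b (LT.a (LT.l 4101 4098 4097 4094) (LT.l 4100 4097 4097 4094)) (LT.a (LT.b (LT.l 4099 4097 4097 4094) (LT.l 4098 4097 4097 4095)) (LT.b (LT.l 4098 4097 4097 4094) (LT.l 4097 4096 4097 4095)))) (LT.b (LT.l 4098 4097 4098 4094) LT.z2)) (LT.a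 (LT.b (LT.a (LT.o 4097 4096 4097 4095) LT.z2) LT.z2) LT.z2)) LT.z2)) LT.z2) LT.z2)

theorem c27 : chk P t27 1099780063232 2281701376 1095216660480 4563402752 = true := by decide +kernel

theorem b27 {lam : ℝ} (hlam : |(S : ℝ) * lam - ((P.lp : ℝ) - P.ln)| ≤ ((1 : ℕ) : ℝ)) : BoxS lam P 1099780063232 2281701376 1095216660480 4563402752 :=
  chk_sound hlam t27 1099780063232 2281701376 1095216660480 4563402752 (by norm_num) (by norm_num) c27

/-- Part of the subdivision. -/
def t28 : LT := (LT.a LT.z1 LT.z2)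

theorem c28 : chk P t28 1095216660480 4563402752 1104343465984 4563402752 = true := by decide +kernel

theorem b28 {lam : ℝ} (hlam : |(S : ℝ) * lam - ((P.lp : ℝ) - P.ln)| ≤ ((1 : ℕ) : ℝ)) : BoxS lam P 1095216660480 4563402752 1104343465984 4563402752 :=
  chk_sound hlam t28 1095216660480 4563402752 1104343465984 4563402752 (by norm_num) (by norm_num) c28

/-- Part of the subdivision. -/
def t29 : LT := LT.z2

theorem c29 : chk P t29 1104343465984 4563402752 1095216660480 9126805504 = true := by decide +kernel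

theorem b29 {lam : ℝ} (hlam : |(S : ℝ) * lam - ((P.lp : ℝ) - P.ln)| ≤ ((1 : ℕ) : ℝ)) : BoxS lam P 1104343465984 4563402752 1095216660480 9126805504 :=
  chk_sound hlam t29 1104343465984 4563402752 1095216660480 9126805504 (by norm_num) (by norm_num) c29

/-- Part of the subdivision. -/
def t30 : LT := LT.z2

theorem c30 : chk P t30 1095216660480 9126805504 1113470271488 9126805504 = true := by decide +kernel

theorem b30 {lam : ℝ} (hlam : |(S : ℝ) * lam - ((P.lp : ℝ) - P.ln)| ≤ ((1 : ℕ) : ℝ)) : BoxS lam P 1095216660480 9126805504 1113470271488 9126805504 :=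
  chk_sound hlam t30 1095216660480 9126805504 1113470271488 9126805504 (by norm_num) (by norm_num) c30

/-- Part of the subdivision. -/
def t31 : LT := LT.z2

theorem c31 : chk P t31 1113470271488 9126805504 1095216660480 18253611008 = true := by decide +kernel

theorem b31 {lam : ℝ} (hlam : |(S : ℝ) * lam - ((P.lp : ℝ) - P.ln)| ≤ ((1 : ℕ) : ℝ)) : BoxS lam P 1113470271488 9126805504 1095216660480 18253611008 :=
  chk_sound hlam t31 1113470271488 9126805504 1095216660480 18253611008 (by norm_num) (by norm_num) c31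

/-- Part of the subdivision. -/
def t32 : LT := LT.z2

theorem c32 : chk P t32 1095216660480 18253611008 1131723882496 18253611008 = true := by decide +kernel

theorem b32 {lam : ℝ} (hlam : |(S : ℝ) * lam - ((P.lp : ℝ) - P.ln)| ≤ ((1 : ℕ) : ℝ)) : BoxS lam P 1095216660480 18253611008 1131723882496 18253611008 :=
  chk_sound hlam t32 1095216660480 18253611008 1131723882496 18253611008 (by norm_num) (by norm_num) c32

/-- Part of the subdivision. -/
def t33 : LT := LT.z2

theorem c33 : chk P t33 1131723882496 18253611008 1095216660480 36507222016 = true := by decide +kernel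

theorem b33 {lam : ℝ} (hlam : |(S : ℝ) * lam - ((P.lp : ℝ) - P.ln)| ≤ ((1 : ℕ) : ℝ)) : BoxS lam P 1131723882496 18253611008 1095216660480 36507222016 :=
  chk_sound hlam t33 1131723882496 18253611008 1095216660480 36507222016 (by norm_num) (by norm_num) c33

/-- The whole box. -/
theorem box {lam : ℝ} (hlam : |(S : ℝ) * lam - ((P.lp : ℝ) - P.ln)| ≤ ((1 : ℕ) : ℝ)) : BoxS lam P 0 HH 0 HH :=
  (BoxS.sa' (x1 := 584115552256) (h := 292057776128) (by norm_num [HH]) (by norm_num) (b0 hlam) (BoxS.sb' (t1 := 584115552256) (h := 292057776128) (by norm_num [HH]) (by norm_num) (b1 hlam) (BoxS.sa' (x1 := 876173328384) (h := 146028888064) (by norm_num [HH]) (by norm_num) (b2 hlam) (BoxS.sb' (t1 := 876173328384) (h := 146028888064) (by norm_num [HH]) (by norm_num) (BoxS.sa' (x1 := 1022202216448) (h := 73014444032) (by norm_num [HH]) (by norm_num) (b3 hlam) (BoxS.sb' (t1 := 730144440320) (h := 73014444032) (by norm_num [HH]) (by norm_num) (b4 hlam) (b5 hlam))) (BoxS.sa' (x1 := 1022202216448)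 (h := 73014444032) (by norm_num [HH]) (by norm_num) (b6 hlam) (BoxS.sb' (t1 := 1022202216448) (h := 73014444032) (by norm_num [HH]) (by norm_num) (BoxS.sa' (x1 := 1095216660480) (h := 36507222016) (by norm_num [HH]) (by norm_num) (b7 hlam) (b8 hlam)) (BoxS.sa' (x1 := 1095216660480) (h := 36507222016) (by norm_num [HH]) (by norm_num) (BoxS.sb' (t1 := 1095216660480) (h := 36507222016) (by norm_num [HH]) (by norm_num) (BoxS.sa' (x1 := 1058709438464) (h := 18253611008) (by norm_num [HH]) (by norm_num) (b9 hlam) (BoxS.sb' (t1 := 1058709438464) (h := 18253611008) (by norm_num [HH]) (by norm_num) (b10 hlam) (b11 hlam))) (b12 hlam)) (BoxS.sb' (t1 := 1095216660480) (h := 36507222016) (by norm_num [HH]) (by norm_num) (BoxS.sa' (x1 := 1131723882496) (h := 18253611008) (by norm_num [HH]) (by norm_num) (BoxS.sb' (t1 := 1058709438464) (h := 18253611008) (by norm_num [HH]) (by norm_num) (b13 hlam) (BoxS.sa' (x1 := 1113470271488) (h := 9126805504) (by norm_num [HH]) (by norm_num)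 (BoxS.sb' (t1 := 1076963049472) (h := 9126805504) (by norm_num [HH]) (by norm_num) (b14 hlam) (BoxS.sa' (x1 := 1104343465984) (h := 4563402752) (by norm_num [HH]) (by norm_num) (BoxS.sb' (t1 := 1086089854976) (h := 4563402752) (by norm_num [HH]) (by norm_num) (b15 hlam) (BoxS.sa' (x1 := 1099780063232) (h := 2281701376) (by norm_num [HH]) (by norm_num) (b16 hlam) (b17 hlam))) (b18 hlam))) (b19 hlam))) (b20 hlam)) (BoxS.sa' (x1 := 1131723882496) (h := 18253611008) (by norm_num [HH]) (by norm_num) (BoxS.sb' (t1 := 1131723882496) (h := 18253611008) (by norm_num [HH]) (by norm_num) (BoxS.sa' (x1 := 1113470271488) (h := 9126805504) (by norm_num [HH]) (by norm_num) (BoxS.sb' (t1 := 1113470271488) (h := 9126805504) (by norm_num [HH]) (by norm_num) (BoxS.sa' (x1 := 1104343465984) (h := 4563402752) (by norm_num [HH]) (by norm_num) (BoxS.sb' (t1 := 1104343465984) (h := 4563402752) (by norm_num [HH]) (by norm_num) (BoxS.sa' (x1 := 1099780063232) (h := 2281701376) (by norm_num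 [HH]) (by norm_num) (BoxS.sb' (t1 := 1099780063232) (h := 2281701376) (by norm_num [HH]) (by norm_num) (BoxS.sa' (x1 := 1097498361856) (h := 1140850688) (by norm_num [HH]) (by norm_num) (b21 hlam) (BoxS.sb' (t1 := 1097498361856) (h := 1140850688) (by norm_num [HH]) (by norm_num) (b22 hlam) (BoxS.sa' (x1 := 1098639212544) (h := 570425344) (by norm_num [HH]) (by norm_num) (b23 hlam) (BoxS.sb' (t1 := 1098639212544) (h := 570425344) (by norm_num [HH]) (by norm_num) (b24 hlam) (b25 hlam))))) (b26 hlam)) (b27 hlam)) (b28 hlam)) (b29 hlam)) (b30 hlam)) (b31 hlam)) (b32 hlam)) (b33 hlam))))))))))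

end Vale.Agent.P154H.Tm.P7
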