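import Vale.Agent.P154H.D.D5
import Vale.Agent.P154H.Phase
import Vale.Agent.P154H.OriginW

open Filter Topology

set_option maxRecDepth 100000

/-!
Nonreconstruction at the Kesten-Stigum bound for `d = 5`, negative eigenvalue, by a chain of
potentials along the monotone quantity `1 - En`.
-/

namespace Vale.Agent.P154H.Tm.D5

open Vale.Agent.P154 Vale.Agent.P154H

/-- A chord cell. -/
noncomputable def C0 : Cell := ⟨(5243 / 1048576 : ℝ), (705 / 131072 : ℝ), (-32409107 / 4194304 : ℝ), (-257477175 / 4194304 : ℝ), (-118094427 / 2097152 : ℝ), (-28469 / 268435456 : ℝ)⟩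

/-- A chord cell. -/
noncomputable def C1 : Cell := ⟨(705 / 131072 : ℝ), (759 / 131072 : ℝ), (-32377839 / 4194304 : ℝ), (-257090563 / 4194304 : ℝ), (-235813673 / 4194304 : ℝ), (-29115 / 268435456 : ℝ)⟩

/-- A chord cell. -/
noncomputable def C2 : Cell := ⟨(759 / 131072 : ℝ), (1633 / 262144 : ℝ), (-4042209 / 524288 : ℝ), (-256700447 / 4194304 : ℝ), (-117705239 / 2097152 : ℝ), (-18277 / 134217728 : ℝ)⟩

/-- A chord cell. -/
noncomputable def C3 : Cell := ⟨(1633 / 262144 : ℝ), (1757 / 262144 : ℝ), (-32285163 / 4194304 : ℝ), (-256291107 / 4194304 : ℝ), (-117489465 / 2097152 : ℝ), (-45367 / 268435456 : ℝ)⟩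

/-- A chord cell. -/
noncomputable def C4 : Cell := ⟨(1757 / 262144 : ℝ), (1891 / 262144 : ℝ), (-4030697 / 524288 : ℝ), (-31976443 / 524288 : ℝ), (-117256871 / 2097152 : ℝ), (-46151 / 268435456 : ℝ)⟩

/-- A chord cell. -/
noncomputable def C5 : Cell := ⟨(1891 / 262144 : ℝ), (2035 / 262144 : ℝ), (-32183795 / 4194304 : ℝ), (-255336577 / 4194304 : ℝ), (-234013265 / 4194304 : ℝ), (-28719 / 134217728 : ℝ)⟩

/-- A chord cell. -/
noncomputable def C6 : Cell := ⟨(2035 / 262144 : ℝ), (1095 / 131072 : ℝ), (-32136407 / 4194304 : ℝ), (-3981305 / 65536 : ℝ), (-116737939 / 2097152 : ℝ), (-67435 / 268435456 : ℝ)⟩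

/-- A chord cell. -/
noncomputable def C7 : Cell := ⟨(1095 / 131072 : ℝ), (589 / 65536 : ℝ), (-32081187 / 4194304 : ℝ), (-254228287 / 4194304 : ℝ), (-116449991 / 2097152 : ℝ), (-75183 / 268435456 : ℝ)⟩

/-- A chord cell. -/
noncomputable def C8 : Cell := ⟨(589 / 65536 : ℝ), (2535 / 262144 : ℝ), (-16008837 / 2097152 : ℝ), (-15852157 / 262144 : ℝ), (-116141109 / 2097152 : ℝ), (-11815 / 33554432 : ℝ)⟩

/-- A chord cell. -/
noncomputable def C9 : Cell := ⟨(2535 / 262144 : ℝ), (341 / 32768 : ℝ), (-15973689 / 2097152 : ℝ), (-15810485 / 262144 : ℝ), (-231617485 / 4194304 : ℝ), (-50225 / 134217728 : ℝ)⟩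

/-- A chord cell. -/
noncomputable def C10 : Cell := ⟨(341 / 32768 : ℝ), (367 / 32768 : ℝ), (-31840437 / 4194304 : ℝ), (-63073637 / 1048576 : ℝ), (-57725633 / 1048576 : ℝ), (-117567 / 268435456 : ℝ)⟩

/-- A chord cell. -/
noncomputable def C11 : Cell := ⟨(367 / 32768 : ℝ), (3159 / 262144 : ℝ), (-15896959 / 2097152 : ℝ), (-7860663 / 131072 : ℝ), (-230135937 / 4194304 : ℝ), (-154987 / 268435456 : ℝ)⟩

/-- A chord cell. -/
noncomputable def C12 : Cell := ⟨(3159 / 262144 : ℝ), (3399 / 262144 : ℝ), (-15861263 / 2097152 : ℝ), (-125346417 / 2097152 : ℝ), (-57328639 / 1048576 : ℝ), (-156597 / 268435456 : ℝ)⟩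

/-- A chord cell. -/
noncomputable def C13 : Cell := ⟨(3399 / 262144 : ℝ), (1829 / 131072 : ℝ), (-7907937 / 1048576 : ℝ), (-31230825 / 524288 : ℝ), (-7138493 / 131072 : ℝ), (-99329 / 134217728 : ℝ)⟩

/-- A chord cell. -/
noncomputable def C14 : Cell := ⟨(1829 / 131072 : ℝ), (123 / 8192 : ℝ), (-31534841 / 4194304 : ℝ), (-248890895 / 4194304 : ℝ), (-227484619 / 4194304 : ℝ), (-104555 / 134217728 : ℝ)⟩

/-- A chord cell. -/
noncomputable def C15 : Cell := ⟨(123 / 8192 : ℝ), (4235 / 262144 : ℝ), (-31389171 / 4194304 : ℝ), (-15496121 / 262144 : ℝ), (-226470199 / 4194304 : ℝ), (-251805 / 268435456 : ℝ)⟩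

/-- A chord cell. -/
noncomputable def C16 : Cell := ⟨(4235 / 262144 : ℝ), (4557 / 262144 : ℝ), (-15657779 / 2097152 : ℝ), (-246861481 / 4194304 : ℝ), (-225382219 / 4194304 : ℝ), (-4939 / 4194304 : ℝ)⟩

/-- A chord cell. -/
noncomputable def C17 : Cell := ⟨(4557 / 262144 : ℝ), (613 / 32768 : ℝ), (-487471 / 65536 : ℝ), (-15354637 / 262144 : ℝ), (-112107269 / 2097152 : ℝ), (-325729 / 268435456 : ℝ)⟩

/-- A chord cell. -/
noncomputable def C18 : Cell := ⟨(613 / 32768 : ℝ), (5277 / 262144 : ℝ), (-15535959 / 2097152 : ℝ), (-61119001 / 1048576 : ℝ), (-111481459 / 2097152 : ℝ), (-208579 / 134217728 : ℝ)⟩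

/-- A chord cell. -/
noncomputable def C19 : Cell := ⟨(5277 / 262144 : ℝ), (2839 / 131072 : ℝ), (-30869415 / 4194304 : ℝ), (-243157393 / 4194304 : ℝ), (-221623281 / 4194304 : ℝ), (-12951 / 8388608 : ℝ)⟩

/-- A chord cell. -/
noncomputable def C20 : Cell := ⟨(2839 / 131072 : ℝ), (3055 / 131072 : ℝ), (-3848455 / 524288 : ℝ), (-241719865 / 4194304 : ℝ), (-220188285 / 4194304 : ℝ), (-520437 / 268435456 : ℝ)⟩

/-- A chord cell. -/
noncomputable def C21 : Cell := ⟨(3055 / 131072 : ℝ), (6575 / 262144 : ℝ), (-30603171 / 4194304 : ℝ), (-60053443 / 1048576 : ℝ), (-218650845 / 4194304 : ℝ), (-290635 / 134217728 : ℝ)⟩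

/-- A chord cell. -/
noncomputable def C22 : Cell := ⟨(6575 / 262144 : ℝ), (7075 / 262144 : ℝ), (-30444633 / 4194304 : ℝ), (-238587949 / 4194304 : ℝ), (-217005863 / 4194304 : ℝ), (-338547 / 134217728 : ℝ)⟩

/-- A chord cell. -/
noncomputable def C23 : Cell := ⟨(7075 / 262144 : ℝ), (7613 / 262144 : ℝ), (-15116947 / 2097152 : ℝ), (-236929597 / 4194304 : ℝ), (-215246827 / 4194304 : ℝ), (-431263 / 134217728 : ℝ)⟩

/-- A chord cell. -/
noncomputable def C24 : Cell := ⟨(7613 / 262144 : ℝ), (1 / 32 : ℝ), (-3755845 / 524288 : ℝ), (-235007025 / 4194304 : ℝ), (-106682945 / 2097152 : ℝ), (-879183 / 268435456 : ℝ)⟩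

/-- The chord cells. -/
noncomputable def cellsL : List Cell := [C0, C1, C2, C3, C4, C5, C6, C7, C8, C9, C10, C11, C12, C13, C14, C15, C16, C17, C18, C19, C20, C21, C22, C23, C24]

lemma hcover : ∀ x : ℝ, (5243 / 1048576 : ℝ) ≤ x → x ≤ (1 / 32 : ℝ) → ∃ D ∈ cellsL, D.l ≤ x ∧ x ≤ D.u := by
  refine cover_of_chain ?_ (by norm_num [C0])
  simp only [ChainP, C0, C1, C2, C3, C4, C5, C6, C7, C8, C9, C10, C11, C12, C13, C14, C15, C16, C17, C18, C19, C20, C21, C22, C23, C24]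
  norm_num

lemma hch : ((Nat.choose 5 2 : ℕ) : ℝ) = 10 := by norm_num [Nat.choose]

lemma rTa : Rw4 P.r1 (589824 : ℝ) (coTa 5 (102897 / 65536 : ℝ) (409923 / 32768 : ℝ) (181939 / 16384 : ℝ) (101 / 256 : ℝ) (23 / 2048 : ℝ)) := by
  refine ⟨⟨Ra, List.mem_cons_self, ?_⟩, by norm_num⟩
  constructor <;> norm_num [Ra, coTa, hch]

lemma rTb : Rw4 P.r1 (19791209299968 : ℝ) (coTb 5 (102897 / 65536 : ℝ) (409923 / 32768 : ℝ) (181939 / 16384 : ℝ) (101 / 256 : ℝ) (23 / 2048 : ℝ) (441 / 4096 : ℝ) (4165 / 4096 : ℝ) (1627 / 16384 : ℝ)) := by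
  refine ⟨⟨Rb, List.mem_cons_of_mem _ (List.mem_cons_self), ?_⟩, by norm_num⟩
  constructor <;> norm_num [Rb, coTb, hch]

lemma rc1 : Rw4 P.r2 (67108864 : ℝ) ⟨0, 0, 0, -(102897 / 65536 : ℝ), 0, 0, 0, 0, (181939 / 16384 : ℝ) * (441 / 4096 : ℝ)⟩ := by
  refine ⟨⟨Q0, List.mem_cons_self, ?_⟩, by norm_num⟩
  constructor <;> norm_num [Q0]

lemma rc2 : Rw4 P.r2 (67108864 : ℝ) ⟨0, 0, 0, 0, -(409923 / 32768 : ℝ), 0, 0, 0, (181939 / 16384 : ℝ) * (4165 / 4096 : ℝ)⟩ := by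
  refine ⟨⟨Q1, List.mem_cons_of_mem _ (List.mem_cons_self), ?_⟩, by norm_num⟩
  constructor <;> norm_num [Q1]

lemma rc3 : Rw4 P.r2 (3072 : ℝ) ⟨0, 0, 0, 0, 0, -1, 0, 0, (401 / 1024 : ℝ)⟩ := by
  refine ⟨⟨Q2, List.mem_cons_of_mem _ (List.mem_cons_of_mem _ (List.mem_cons_self)), ?_⟩, by norm_num⟩
  constructor <;> norm_num [Q2]

lemma rcell0 : ∃ N : ℝ, Rw4 P.r2 N (coCell (102897 / 65536 : ℝ) (409923 / 32768 : ℝ) ((181939 / 16384 : ℝ) + (101 / 256 : ℝ)) (23 / 2048 : ℝ) C0) := by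
  refine ⟨(2415919104 : ℝ), ⟨Q3, List.mem_cons_of_mem _ (List.mem_cons_of_mem _ (List.mem_cons_of_mem _ (List.mem_cons_self))), ?_⟩, by norm_num⟩
  constructor <;> norm_num [Q3, coCell, C0]

lemma lcell0 : ∀ x1 x2 xc : ℝ, 0 ≤ x1 → x1 ≤ 1 → 0 ≤ x2 → x2 ≤ 1 → C0.l ≤ xc → xc ≤ C0.u →
    (102897 / 65536 : ℝ) * (1 - (1 - x1) ^ 5) + (409923 / 32768 : ℝ) * (1 - (1 - x2) ^ 5) - ((181939 / 16384 : ℝ) + (101 / 256 : ℝ)) * (1 - (1 - xc) ^ 5)
      ≤ - C0.a1 * x1 - C0.a2 * x2 + C0.e * xc + C0.f := by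
  have h := cell_lines 5 (α1 := (102897 / 65536 : ℝ)) (α2 := (409923 / 32768 : ℝ)) (c := (181939 / 16384 : ℝ) + (101 / 256 : ℝ)) (y1 := (1037 / 262144 : ℝ)) (y2 := (613 / 131072 : ℝ))
    (A1 := (32409107 / 4194304 : ℝ)) (B1 := (32717 / 134217728 : ℝ)) (A2 := (257477175 / 4194304 : ℝ)) (B2 := (181921 / 67108864 : ℝ)) (l := (5243 / 1048576 : ℝ)) (u := (705 / 131072 : ℝ))
    (E := (-118094427 / 2097152 : ℝ)) (F := (-821587 / 268435456 : ℝ)) (by norm_num) (by norm_num) (by norm_num) (by norm_num) (by norm_num)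
    (by norm_num) (by norm_num) (by norm_num) (by norm_num) (by norm_num) (by norm_num) (by norm_num) (by norm_num) (by norm_num) (by norm_num)
  have e1 : C0.l = (5243 / 1048576 : ℝ) := rfl
  have e2 : C0.u = (705 / 131072 : ℝ) := rfl
  have e3 : C0.a1 = -(32409107 / 4194304 : ℝ) := by norm_num [C0]
  have e4 : C0.a2 = -(257477175 / 4194304 : ℝ) := by norm_num [C0]
  have e5 : C0.e = (-118094427 / 2097152 : ℝ) := rfl
  have e6 : C0.f = (32717 / 134217728 : ℝ) + (181921 / 67108864 : ℝ) + (-821587 / 268435456 : ℝ) := by norm_num [C0]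
  rw [e1, e2, e3, e4, e5, e6]
  exact h

lemma rcell1 : ∃ N : ℝ, Rw4 P.r2 N (coCell (102897 / 65536 : ℝ) (409923 / 32768 : ℝ) ((181939 / 16384 : ℝ) + (101 / 256 : ℝ)) (23 / 2048 : ℝ) C1) := by
  refine ⟨(2415919104 : ℝ), ⟨Q4, List.mem_cons_of_mem _ (List.mem_cons_of_mem _ (List.mem_cons_of_mem _ (List.mem_cons_of_mem _ (List.mem_cons_self)))), ?_⟩, by norm_num⟩
  constructor <;> norm_num [Q4, coCell, C1]

lemma lcell1 : ∀ x1 x2 xc : ℝ, 0 ≤ x1 → x1 ≤ 1 → 0 ≤ x2 → x2 ≤ 1 → C1.l ≤ xc → xc ≤ C1.u →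
    (102897 / 65536 : ℝ) * (1 - (1 - x1) ^ 5) + (409923 / 32768 : ℝ) * (1 - (1 - x2) ^ 5) - ((181939 / 16384 : ℝ) + (101 / 256 : ℝ)) * (1 - (1 - xc) ^ 5)
      ≤ - C1.a1 * x1 - C1.a2 * x2 + C1.e * xc + C1.f := by
  have h := cell_lines 5 (α1 := (102897 / 65536 : ℝ)) (α2 := (409923 / 32768 : ℝ)) (c := (181939 / 16384 : ℝ) + (101 / 256 : ℝ)) (y1 := (275 / 65536 : ℝ)) (y2 := (331 / 65536 : ℝ))
    (A1 := (32377839 / 4194304 : ℝ)) (B1 := (36811 / 134217728 : ℝ)) (A2 := (257090563 / 4194304 : ℝ)) (B2 := (848001 / 268435456 : ℝ)) (l := (705 / 131072 : ℝ)) (u := (759 / 131072 : ℝ))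
    (E := (-235813673 / 4194304 : ℝ)) (F := (-475369 / 134217728 : ℝ)) (by norm_num) (by norm_num) (by norm_num) (by norm_num) (by norm_num)
    (by norm_num) (by norm_num) (by norm_num) (by norm_num) (by norm_num) (by norm_num) (by norm_num) (by norm_num) (by norm_num) (by norm_num)
  have e1 : C1.l = (705 / 131072 : ℝ) := rfl
  have e2 : C1.u = (759 / 131072 : ℝ) := rfl
  have e3 : C1.a1 = -(32377839 / 4194304 : ℝ) := by norm_num [C1]
  have e4 : C1.a2 = -(257090563 / 4194304 : ℝ) := by norm_num [C1]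
  have e5 : C1.e = (-235813673 / 4194304 : ℝ) := rfl
  have e6 : C1.f = (36811 / 134217728 : ℝ) + (848001 / 268435456 : ℝ) + (-475369 / 134217728 : ℝ) := by norm_num [C1]
  rw [e1, e2, e3, e4, e5, e6]
  exact h

lemma rcell2 : ∃ N : ℝ, Rw4 P.r2 N (coCell (102897 / 65536 : ℝ) (409923 / 32768 : ℝ) ((181939 / 16384 : ℝ) + (101 / 256 : ℝ)) (23 / 2048 : ℝ) C2) := by
  refine ⟨(1207959552 : ℝ), ⟨Q5, List.mem_cons_of_mem _ (List.mem_cons_of_mem _ (List.mem_cons_of_mem _ (List.mem_cons_of_mem _ (List.mem_cons_of_mem _ (List.mem_cons_self))))), ?_⟩, by norm_num⟩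
  constructor <;> norm_num [Q5, coCell, C2]

lemma lcell2 : ∀ x1 x2 xc : ℝ, 0 ≤ x1 → x1 ≤ 1 → 0 ≤ x2 → x2 ≤ 1 → C2.l ≤ xc → xc ≤ C2.u →
    (102897 / 65536 : ℝ) * (1 - (1 - x1) ^ 5) + (409923 / 32768 : ℝ) * (1 - (1 - x2) ^ 5) - ((181939 / 16384 : ℝ) + (101 / 256 : ℝ)) * (1 - (1 - xc) ^ 5)
      ≤ - C2.a1 * x1 - C2.a2 * x2 + C2.e * xc + C2.f := by
  have h := cell_lines 5 (α1 := (102897 / 65536 : ℝ)) (α2 := (409923 / 32768 : ℝ)) (c := (181939 / 16384 : ℝ) + (101 / 256 : ℝ)) (y1 := (1181 / 262144 : ℝ)) (y2 := (1423 / 262144 : ℝ))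
    (A1 := (4042209 / 524288 : ℝ)) (B1 := (84775 / 268435456 : ℝ)) (A2 := (256700447 / 4194304 : ℝ)) (B2 := (978835 / 268435456 : ℝ)) (l := (759 / 131072 : ℝ)) (u := (1633 / 262144 : ℝ))
    (E := (-117705239 / 2097152 : ℝ)) (F := (-275041 / 67108864 : ℝ)) (by norm_num) (by norm_num) (by norm_num) (by norm_num) (by norm_num)
    (by norm_num) (by norm_num) (by norm_num) (by norm_num) (by norm_num) (by norm_num) (by norm_num) (by norm_num) (by norm_num) (by norm_num)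
  have e1 : C2.l = (759 / 131072 : ℝ) := rfl
  have e2 : C2.u = (1633 / 262144 : ℝ) := rfl
  have e3 : C2.a1 = -(4042209 / 524288 : ℝ) := by norm_num [C2]
  have e4 : C2.a2 = -(256700447 / 4194304 : ℝ) := by norm_num [C2]
  have e5 : C2.e = (-117705239 / 2097152 : ℝ) := rfl
  have e6 : C2.f = (84775 / 268435456 : ℝ) + (978835 / 268435456 : ℝ) + (-275041 / 67108864 : ℝ) := by norm_num [C2]
  rw [e1, e2, e3, e4, e5, e6]
  exact h

lemma rcell3 : ∃ N : ℝ, Rw4 P.r2 N (coCell (102897 / 65536 : ℝ) (409923 / 32768 : ℝ) ((181939 / 16384 : ℝ) + (101 / 256 : ℝ)) (23 / 2048 : ℝ) C3) := by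
  refine ⟨(2415919104 : ℝ), ⟨Q6, List.mem_cons_of_mem _ (List.mem_cons_of_mem _ (List.mem_cons_of_mem _ (List.mem_cons_of_mem _ (List.mem_cons_of_mem _ (List.mem_cons_of_mem _ (List.mem_cons_self)))))), ?_⟩, by norm_num⟩
  constructor <;> norm_num [Q6, coCell, C3]

lemma lcell3 : ∀ x1 x2 xc : ℝ, 0 ≤ x1 → x1 ≤ 1 → 0 ≤ x2 → x2 ≤ 1 → C3.l ≤ xc → xc ≤ C3.u →
    (102897 / 65536 : ℝ) * (1 - (1 - x1) ^ 5) + (409923 / 32768 : ℝ) * (1 - (1 - x2) ^ 5) - ((181939 / 16384 : ℝ) + (101 / 256 : ℝ)) * (1 - (1 - xc) ^ 5)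
      ≤ - C3.a1 * x1 - C3.a2 * x2 + C3.e * xc + C3.f := by
  have h := cell_lines 5 (α1 := (102897 / 65536 : ℝ)) (α2 := (409923 / 32768 : ℝ)) (c := (181939 / 16384 : ℝ) + (101 / 256 : ℝ)) (y1 := (1287 / 262144 : ℝ)) (y2 := (1527 / 262144 : ℝ))
    (A1 := (32285163 / 4194304 : ℝ)) (B1 := (100601 / 268435456 : ℝ)) (A2 := (256291107 / 4194304 : ℝ)) (B2 := (1126247 / 268435456 : ℝ)) (l := (1633 / 262144 : ℝ)) (u := (1757 / 262144 : ℝ))
    (E := (-117489465 / 2097152 : ℝ)) (F := (-1272215 / 268435456 : ℝ)) (by norm_num) (by norm_num) (by norm_num) (by norm_num) (by norm_num)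
    (by norm_num) (by norm_num) (by norm_num) (by norm_num) (by norm_num) (by norm_num) (by norm_num) (by norm_num) (by norm_num) (by norm_num)
  have e1 : C3.l = (1633 / 262144 : ℝ) := rfl
  have e2 : C3.u = (1757 / 262144 : ℝ) := rfl
  have e3 : C3.a1 = -(32285163 / 4194304 : ℝ) := by norm_num [C3]
  have e4 : C3.a2 = -(256291107 / 4194304 : ℝ) := by norm_num [C3]
  have e5 : C3.e = (-117489465 / 2097152 : ℝ) := rfl
  have e6 : C3.f = (100601 / 268435456 : ℝ) + (1126247 / 268435456 : ℝ) + (-1272215 / 268435456 : ℝ) := by norm_num [C3]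
  rw [e1, e2, e3, e4, e5, e6]
  exact h

lemma rcell4 : ∃ N : ℝ, Rw4 P.r2 N (coCell (102897 / 65536 : ℝ) (409923 / 32768 : ℝ) ((181939 / 16384 : ℝ) + (101 / 256 : ℝ)) (23 / 2048 : ℝ) C4) := by
  refine ⟨(2415919104 : ℝ), ⟨Q7, List.mem_cons_of_mem _ (List.mem_cons_of_mem _ (List.mem_cons_of_mem _ (List.mem_cons_of_mem _ (List.mem_cons_of_mem _ (List.mem_cons_of_mem _ (List.mem_cons_of_mem _ (List.mem_cons_self))))))), ?_⟩, by norm_num⟩
  constructor <;> norm_num [Q7, coCell, C4]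

lemma lcell4 : ∀ x1 x2 xc : ℝ, 0 ≤ x1 → x1 ≤ 1 → 0 ≤ x2 → x2 ≤ 1 → C4.l ≤ xc → xc ≤ C4.u →
    (102897 / 65536 : ℝ) * (1 - (1 - x1) ^ 5) + (409923 / 32768 : ℝ) * (1 - (1 - x2) ^ 5) - ((181939 / 16384 : ℝ) + (101 / 256 : ℝ)) * (1 - (1 - xc) ^ 5)
      ≤ - C4.a1 * x1 - C4.a2 * x2 + C4.e * xc + C4.f := by
  have h := cell_lines 5 (α1 := (102897 / 65536 : ℝ)) (α2 := (409923 / 32768 : ℝ)) (c := (181939 / 16384 : ℝ) + (101 / 256 : ℝ)) (y1 := (1367 / 262144 : ℝ)) (y2 := (1649 / 262144 : ℝ))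
    (A1 := (4030697 / 524288 : ℝ)) (B1 := (113437 / 268435456 : ℝ)) (A2 := (31976443 / 524288 : ℝ)) (B2 := (1312171 / 268435456 : ℝ)) (l := (1757 / 262144 : ℝ)) (u := (1891 / 262144 : ℝ))
    (E := (-117256871 / 2097152 : ℝ)) (F := (-1471759 / 268435456 : ℝ)) (by norm_num) (by norm_num) (by norm_num) (by norm_num) (by norm_num)
    (by norm_num) (by norm_num) (by norm_num) (by norm_num) (by norm_num) (by norm_num) (by norm_num) (by norm_num) (by norm_num) (by norm_num)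
  have e1 : C4.l = (1757 / 262144 : ℝ) := rfl
  have e2 : C4.u = (1891 / 262144 : ℝ) := rfl
  have e3 : C4.a1 = -(4030697 / 524288 : ℝ) := by norm_num [C4]
  have e4 : C4.a2 = -(31976443 / 524288 : ℝ) := by norm_num [C4]
  have e5 : C4.e = (-117256871 / 2097152 : ℝ) := rfl
  have e6 : C4.f = (113437 / 268435456 : ℝ) + (1312171 / 268435456 : ℝ) + (-1471759 / 268435456 : ℝ) := by norm_num [C4]
  rw [e1, e2, e3, e4, e5, e6]
  exact h

lemma rcell5 : ∃ N : ℝ, Rw4 P.r2 N (coCell (102897 / 65536 : ℝ) (409923 / 32768 : ℝ) ((181939 / 16384 : ℝ) + (101 / 256 : ℝ)) (23 / 2048 : ℝ) C5) := by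
  refine ⟨(1207959552 : ℝ), ⟨Q8, List.mem_cons_of_mem _ (List.mem_cons_of_mem _ (List.mem_cons_of_mem _ (List.mem_cons_of_mem _ (List.mem_cons_of_mem _ (List.mem_cons_of_mem _ (List.mem_cons_of_mem _ (List.mem_cons_of_mem _ (List.mem_cons_self)))))))), ?_⟩, by norm_num⟩
  constructor <;> norm_num [Q8, coCell, C5]

lemma lcell5 : ∀ x1 x2 xc : ℝ, 0 ≤ x1 → x1 ≤ 1 → 0 ≤ x2 → x2 ≤ 1 → C5.l ≤ xc → xc ≤ C5.u →
    (102897 / 65536 : ℝ) * (1 - (1 - x1) ^ 5) + (409923 / 32768 : ℝ) * (1 - (1 - x2) ^ 5) - ((181939 / 16384 : ℝ) + (101 / 256 : ℝ)) * (1 - (1 - xc) ^ 5)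
      ≤ - C5.a1 * x1 - C5.a2 * x2 + C5.e * xc + C5.f := by
  have h := cell_lines 5 (α1 := (102897 / 65536 : ℝ)) (α2 := (409923 / 32768 : ℝ)) (c := (181939 / 16384 : ℝ) + (101 / 256 : ℝ)) (y1 := (373 / 65536 : ℝ)) (y2 := (885 / 131072 : ℝ))
    (A1 := (32183795 / 4194304 : ℝ)) (B1 := (134981 / 268435456 : ℝ)) (A2 := (255336577 / 4194304 : ℝ)) (B2 := (377599 / 67108864 : ℝ)) (l := (1891 / 262144 : ℝ)) (u := (2035 / 262144 : ℝ))
    (E := (-234013265 / 4194304 : ℝ)) (F := (-1702815 / 268435456 : ℝ)) (by norm_num) (by norm_num) (by norm_num) (by norm_num) (by norm_num)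
    (by norm_num) (by norm_num) (by norm_num) (by norm_num) (by norm_num) (by norm_num) (by norm_num) (by norm_num) (by norm_num) (by norm_num)
  have e1 : C5.l = (1891 / 262144 : ℝ) := rfl
  have e2 : C5.u = (2035 / 262144 : ℝ) := rfl
  have e3 : C5.a1 = -(32183795 / 4194304 : ℝ) := by norm_num [C5]
  have e4 : C5.a2 = -(255336577 / 4194304 : ℝ) := by norm_num [C5]
  have e5 : C5.e = (-234013265 / 4194304 : ℝ) := rfl
  have e6 : C5.f = (134981 / 268435456 : ℝ) + (377599 / 67108864 : ℝ) + (-1702815 / 268435456 : ℝ) := by norm_num [C5]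
  rw [e1, e2, e3, e4, e5, e6]
  exact h

lemma rcell6 : ∃ N : ℝ, Rw4 P.r2 N (coCell (102897 / 65536 : ℝ) (409923 / 32768 : ℝ) ((181939 / 16384 : ℝ) + (101 / 256 : ℝ)) (23 / 2048 : ℝ) C6) := by
  refine ⟨(2415919104 : ℝ), ⟨Q9, List.mem_cons_of_mem _ (List.mem_cons_of_mem _ (List.mem_cons_of_mem _ (List.mem_cons_of_mem _ (List.mem_cons_of_mem _ (List.mem_cons_of_mem _ (List.mem_cons_of_mem _ (List.mem_cons_of_mem _ (List.mem_cons_of_mem _ (List.mem_cons_self))))))))), ?_⟩, by norm_num⟩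
  constructor <;> norm_num [Q9, coCell, C6]

lemma lcell6 : ∀ x1 x2 xc : ℝ, 0 ≤ x1 → x1 ≤ 1 → 0 ≤ x2 → x2 ≤ 1 → C6.l ≤ xc → xc ≤ C6.u →
    (102897 / 65536 : ℝ) * (1 - (1 - x1) ^ 5) + (409923 / 32768 : ℝ) * (1 - (1 - x2) ^ 5) - ((181939 / 16384 : ℝ) + (101 / 256 : ℝ)) * (1 - (1 - xc) ^ 5)
      ≤ - C6.a1 * x1 - C6.a2 * x2 + C6.e * xc + C6.f := by
  have h := cell_lines 5 (α1 := (102897 / 65536 : ℝ)) (α2 := (409923 / 32768 : ℝ)) (c := (181939 / 16384 : ℝ) + (101 / 256 : ℝ)) (y1 := (397 / 65536 : ℝ)) (y2 := (953 / 131072 : ℝ))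
    (A1 := (32136407 / 4194304 : ℝ)) (B1 := (152797 / 268435456 : ℝ)) (A2 := (3981305 / 65536 : ℝ)) (B2 := (1749571 / 268435456 : ℝ)) (l := (2035 / 262144 : ℝ)) (u := (1095 / 131072 : ℝ))
    (E := (-116737939 / 2097152 : ℝ)) (F := (-1969803 / 268435456 : ℝ)) (by norm_num) (by norm_num) (by norm_num) (by norm_num) (by norm_num)
    (by norm_num) (by norm_num) (by norm_num) (by norm_num) (by norm_num) (by norm_num) (by norm_num) (by norm_num) (by norm_num) (by norm_num)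
  have e1 : C6.l = (2035 / 262144 : ℝ) := rfl
  have e2 : C6.u = (1095 / 131072 : ℝ) := rfl
  have e3 : C6.a1 = -(32136407 / 4194304 : ℝ) := by norm_num [C6]
  have e4 : C6.a2 = -(3981305 / 65536 : ℝ) := by norm_num [C6]
  have e5 : C6.e = (-116737939 / 2097152 : ℝ) := rfl
  have e6 : C6.f = (152797 / 268435456 : ℝ) + (1749571 / 268435456 : ℝ) + (-1969803 / 268435456 : ℝ) := by norm_num [C6]
  rw [e1, e2, e3, e4, e5, e6]
  exact h

lemma rcell7 : ∃ N : ℝ, Rw4 P.r2 N (coCell (102897 / 65536 : ℝ) (409923 / 32768 : ℝ) ((181939 / 16384 : ℝ) + (101 / 256 : ℝ)) (23 / 2048 : ℝ) C7) := by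
  refine ⟨(2415919104 : ℝ), ⟨Q10, List.mem_cons_of_mem _ (List.mem_cons_of_mem _ (List.mem_cons_of_mem _ (List.mem_cons_of_mem _ (List.mem_cons_of_mem _ (List.mem_cons_of_mem _ (List.mem_cons_of_mem _ (List.mem_cons_of_mem _ (List.mem_cons_of_mem _ (List.mem_cons_of_mem _ (List.mem_cons_self)))))))))), ?_⟩, by norm_num⟩
  constructor <;> norm_num [Q10, coCell, C7]

lemma lcell7 : ∀ x1 x2 xc : ℝ, 0 ≤ x1 → x1 ≤ 1 → 0 ≤ x2 → x2 ≤ 1 → C7.l ≤ xc → xc ≤ C7.u →
    (102897 / 65536 : ℝ) * (1 - (1 - x1) ^ 5) + (409923 / 32768 : ℝ) * (1 - (1 - x2) ^ 5) - ((181939 / 16384 : ℝ) + (101 / 256 : ℝ)) * (1 - (1 - xc) ^ 5)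
      ≤ - C7.a1 * x1 - C7.a2 * x2 + C7.e * xc + C7.f := by
  have h := cell_lines 5 (α1 := (102897 / 65536 : ℝ)) (α2 := (409923 / 32768 : ℝ)) (c := (181939 / 16384 : ℝ) + (101 / 256 : ℝ)) (y1 := (425 / 65536 : ℝ)) (y2 := (2053 / 262144 : ℝ))
    (A1 := (32081187 / 4194304 : ℝ)) (B1 := (174969 / 268435456 : ℝ)) (A2 := (254228287 / 4194304 : ℝ)) (B2 := (506891 / 67108864 : ℝ)) (l := (1095 / 131072 : ℝ)) (u := (589 / 65536 : ℝ))
    (E := (-116449991 / 2097152 : ℝ)) (F := (-569429 / 67108864 : ℝ)) (by norm_num) (by norm_num) (by norm_num) (by norm_num) (by norm_num)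
    (by norm_num) (by norm_num) (by norm_num) (by norm_num) (by norm_num) (by norm_num) (by norm_num) (by norm_num) (by norm_num) (by norm_num)
  have e1 : C7.l = (1095 / 131072 : ℝ) := rfl
  have e2 : C7.u = (589 / 65536 : ℝ) := rfl
  have e3 : C7.a1 = -(32081187 / 4194304 : ℝ) := by norm_num [C7]
  have e4 : C7.a2 = -(254228287 / 4194304 : ℝ) := by norm_num [C7]
  have e5 : C7.e = (-116449991 / 2097152 : ℝ) := rfl
  have e6 : C7.f = (174969 / 268435456 : ℝ) + (506891 / 67108864 : ℝ) + (-569429 / 67108864 : ℝ) := by norm_num [C7]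
  rw [e1, e2, e3, e4, e5, e6]
  exact h

lemma rcell8 : ∃ N : ℝ, Rw4 P.r2 N (coCell (102897 / 65536 : ℝ) (409923 / 32768 : ℝ) ((181939 / 16384 : ℝ) + (101 / 256 : ℝ)) (23 / 2048 : ℝ) C8) := by
  refine ⟨(301989888 : ℝ), ⟨Q11, List.mem_cons_of_mem _ (List.mem_cons_of_mem _ (List.mem_cons_of_mem _ (List.mem_cons_of_mem _ (List.mem_cons_of_mem _ (List.mem_cons_of_mem _ (List.mem_cons_of_mem _ (List.mem_cons_of_mem _ (List.mem_cons_of_mem _ (List.mem_cons_of_mem _ (List.mem_cons_of_mem _ (List.mem_cons_self))))))))))), ?_⟩, by norm_num⟩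
  constructor <;> norm_num [Q11, coCell, C8]

lemma lcell8 : ∀ x1 x2 xc : ℝ, 0 ≤ x1 → x1 ≤ 1 → 0 ≤ x2 → x2 ≤ 1 → C8.l ≤ xc → xc ≤ C8.u →
    (102897 / 65536 : ℝ) * (1 - (1 - x1) ^ 5) + (409923 / 32768 : ℝ) * (1 - (1 - x2) ^ 5) - ((181939 / 16384 : ℝ) + (101 / 256 : ℝ)) * (1 - (1 - xc) ^ 5)
      ≤ - C8.a1 * x1 - C8.a2 * x2 + C8.e * xc + C8.f := by
  have h := cell_lines 5 (α1 := (102897 / 65536 : ℝ)) (α2 := (409923 / 32768 : ℝ)) (c := (181939 / 16384 : ℝ) + (101 / 256 : ℝ)) (y1 := (1829 / 262144 : ℝ)) (y2 := (2205 / 262144 : ℝ))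
    (A1 := (16008837 / 2097152 : ℝ)) (B1 := (202325 / 268435456 : ℝ)) (A2 := (15852157 / 262144 : ℝ)) (B2 := (1168103 / 134217728 : ℝ)) (l := (589 / 65536 : ℝ)) (u := (2535 / 262144 : ℝ))
    (E := (-116141109 / 2097152 : ℝ)) (F := (-2633051 / 268435456 : ℝ)) (by norm_num) (by norm_num) (by norm_num) (by norm_num) (by norm_num)
    (by norm_num) (by norm_num) (by norm_num) (by norm_num) (by norm_num) (by norm_num) (by norm_num) (by norm_num) (by norm_num) (by norm_num)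
  have e1 : C8.l = (589 / 65536 : ℝ) := rfl
  have e2 : C8.u = (2535 / 262144 : ℝ) := rfl
  have e3 : C8.a1 = -(16008837 / 2097152 : ℝ) := by norm_num [C8]
  have e4 : C8.a2 = -(15852157 / 262144 : ℝ) := by norm_num [C8]
  have e5 : C8.e = (-116141109 / 2097152 : ℝ) := rfl
  have e6 : C8.f = (202325 / 268435456 : ℝ) + (1168103 / 134217728 : ℝ) + (-2633051 / 268435456 : ℝ) := by norm_num [C8]
  rw [e1, e2, e3, e4, e5, e6]
  exact h

lemma rcell9 : ∃ N : ℝ, Rw4 P.r2 N (coCell (102897 / 65536 : ℝ) (409923 / 32768 : ℝ) ((181939 / 16384 : ℝ) + (101 / 256 : ℝ)) (23 / 2048 : ℝ) C9) := by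
  refine ⟨(1207959552 : ℝ), ⟨Q12, List.mem_cons_of_mem _ (List.mem_cons_of_mem _ (List.mem_cons_of_mem _ (List.mem_cons_of_mem _ (List.mem_cons_of_mem _ (List.mem_cons_of_mem _ (List.mem_cons_of_mem _ (List.mem_cons_of_mem _ (List.mem_cons_of_mem _ (List.mem_cons_of_mem _ (List.mem_cons_of_mem _ (List.mem_cons_of_mem _ (List.mem_cons_self)))))))))))), ?_⟩, by norm_num⟩
  constructor <;> norm_num [Q12, coCell, C9]

lemma lcell9 : ∀ x1 x2 xc : ℝ, 0 ≤ x1 → x1 ≤ 1 → 0 ≤ x2 → x2 ≤ 1 → C9.l ≤ xc → xc ≤ C9.u →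
    (102897 / 65536 : ℝ) * (1 - (1 - x1) ^ 5) + (409923 / 32768 : ℝ) * (1 - (1 - x2) ^ 5) - ((181939 / 16384 : ℝ) + (101 / 256 : ℝ)) * (1 - (1 - xc) ^ 5)
      ≤ - C9.a1 * x1 - C9.a2 * x2 + C9.e * xc + C9.f := by
  have h := cell_lines 5 (α1 := (102897 / 65536 : ℝ)) (α2 := (409923 / 32768 : ℝ)) (c := (181939 / 16384 : ℝ) + (101 / 256 : ℝ)) (y1 := (493 / 65536 : ℝ)) (y2 := (297 / 32768 : ℝ))
    (A1 := (15973689 / 2097152 : ℝ)) (B1 := (234961 / 268435456 : ℝ)) (A2 := (15810485 / 262144 : ℝ)) (B2 := (2709041 / 268435456 : ℝ)) (l := (2535 / 262144 : ℝ)) (u := (341 / 32768 : ℝ))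
    (E := (-231617485 / 4194304 : ℝ)) (F := (-761113 / 67108864 : ℝ)) (by norm_num) (by norm_num) (by norm_num) (by norm_num) (by norm_num)
    (by norm_num) (by norm_num) (by norm_num) (by norm_num) (by norm_num) (by norm_num) (by norm_num) (by norm_num) (by norm_num) (by norm_num)
  have e1 : C9.l = (2535 / 262144 : ℝ) := rfl
  have e2 : C9.u = (341 / 32768 : ℝ) := rfl
  have e3 : C9.a1 = -(15973689 / 2097152 : ℝ) := by norm_num [C9]
  have e4 : C9.a2 = -(15810485 / 262144 : ℝ) := by norm_num [C9]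
  have e5 : C9.e = (-231617485 / 4194304 : ℝ) := rfl
  have e6 : C9.f = (234961 / 268435456 : ℝ) + (2709041 / 268435456 : ℝ) + (-761113 / 67108864 : ℝ) := by norm_num [C9]
  rw [e1, e2, e3, e4, e5, e6]
  exact h

lemma rcell10 : ∃ N : ℝ, Rw4 P.r2 N (coCell (102897 / 65536 : ℝ) (409923 / 32768 : ℝ) ((181939 / 16384 : ℝ) + (101 / 256 : ℝ)) (23 / 2048 : ℝ) C10) := by
  refine ⟨(2415919104 : ℝ), ⟨Q13, List.mem_cons_of_mem _ (List.mem_cons_of_mem _ (List.mem_cons_of_mem _ (List.mem_cons_of_mem _ (List.mem_cons_of_mem _ (List.mem_cons_of_mem _ (List.mem_cons_of_mem _ (List.mem_cons_of_mem _ (List.mem_cons_of_mem _ (List.mem_cons_of_mem _ (List.mem_cons_of_mem _ (List.mem_cons_of_mem _ (List.mem_cons_of_mem _ (List.mem_cons_self))))))))))))), ?_⟩, by norm_num⟩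
  constructor <;> norm_num [Q13, coCell, C10]

lemma lcell10 : ∀ x1 x2 xc : ℝ, 0 ≤ x1 → x1 ≤ 1 → 0 ≤ x2 → x2 ≤ 1 → C10.l ≤ xc → xc ≤ C10.u →
    (102897 / 65536 : ℝ) * (1 - (1 - x1) ^ 5) + (409923 / 32768 : ℝ) * (1 - (1 - x2) ^ 5) - ((181939 / 16384 : ℝ) + (101 / 256 : ℝ)) * (1 - (1 - xc) ^ 5)
      ≤ - C10.a1 * x1 - C10.a2 * x2 + C10.e * xc + C10.f := by
  have h := cell_lines 5 (α1 := (102897 / 65536 : ℝ)) (α2 := (409923 / 32768 : ℝ)) (c := (181939 / 16384 : ℝ) + (101 / 256 : ℝ)) (y1 := (1095 / 131072 : ℝ)) (y2 := (2549 / 262144 : ℝ))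
    (A1 := (31840437 / 4194304 : ℝ)) (B1 := (289275 / 268435456 : ℝ)) (A2 := (63073637 / 1048576 : ℝ)) (B2 := (3113779 / 268435456 : ℝ)) (l := (341 / 32768 : ℝ)) (u := (367 / 32768 : ℝ))
    (E := (-57725633 / 1048576 : ℝ)) (F := (-3520621 / 268435456 : ℝ)) (by norm_num) (by norm_num) (by norm_num) (by norm_num) (by norm_num)
    (by norm_num) (by norm_num) (by norm_num) (by norm_num) (by norm_num) (by norm_num) (by norm_num) (by norm_num) (by norm_num) (by norm_num)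
  have e1 : C10.l = (341 / 32768 : ℝ) := rfl
  have e2 : C10.u = (367 / 32768 : ℝ) := rfl
  have e3 : C10.a1 = -(31840437 / 4194304 : ℝ) := by norm_num [C10]
  have e4 : C10.a2 = -(63073637 / 1048576 : ℝ) := by norm_num [C10]
  have e5 : C10.e = (-57725633 / 1048576 : ℝ) := rfl
  have e6 : C10.f = (289275 / 268435456 : ℝ) + (3113779 / 268435456 : ℝ) + (-3520621 / 268435456 : ℝ) := by norm_num [C10]
  rw [e1, e2, e3, e4, e5, e6]
  exact h

lemma rcell11 : ∃ N : ℝ, Rw4 P.r2 N (coCell (102897 / 65536 : ℝ) (409923 / 32768 : ℝ) ((181939 / 16384 : ℝ) + (101 / 256 : ℝ)) (23 / 2048 : ℝ) C11) := by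
  refine ⟨(2415919104 : ℝ), ⟨Q14, List.mem_cons_of_mem _ (List.mem_cons_of_mem _ (List.mem_cons_of_mem _ (List.mem_cons_of_mem _ (List.mem_cons_of_mem _ (List.mem_cons_of_mem _ (List.mem_cons_of_mem _ (List.mem_cons_of_mem _ (List.mem_cons_of_mem _ (List.mem_cons_of_mem _ (List.mem_cons_of_mem _ (List.mem_cons_of_mem _ (List.mem_cons_of_mem _ (List.mem_cons_of_mem _ (List.mem_cons_self)))))))))))))), ?_⟩, by norm_num⟩
  constructor <;> norm_num [Q14, coCell, C11]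

lemma lcell11 : ∀ x1 x2 xc : ℝ, 0 ≤ x1 → x1 ≤ 1 → 0 ≤ x2 → x2 ≤ 1 → C11.l ≤ xc → xc ≤ C11.u →
    (102897 / 65536 : ℝ) * (1 - (1 - x1) ^ 5) + (409923 / 32768 : ℝ) * (1 - (1 - x2) ^ 5) - ((181939 / 16384 : ℝ) + (101 / 256 : ℝ)) * (1 - (1 - xc) ^ 5)
      ≤ - C11.a1 * x1 - C11.a2 * x2 + C11.e * xc + C11.f := by
  have h := cell_lines 5 (α1 := (102897 / 65536 : ℝ)) (α2 := (409923 / 32768 : ℝ)) (c := (181939 / 16384 : ℝ) + (101 / 256 : ℝ)) (y1 := (2285 / 262144 : ℝ)) (y2 := (2743 / 262144 : ℝ))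
    (A1 := (15896959 / 2097152 : ℝ)) (B1 := (314703 / 268435456 : ℝ)) (A2 := (7860663 / 131072 : ℝ)) (B2 := (450053 / 33554432 : ℝ)) (l := (367 / 32768 : ℝ)) (u := (3159 / 262144 : ℝ))
    (E := (-230135937 / 4194304 : ℝ)) (F := (-2035057 / 134217728 : ℝ)) (by norm_num) (by norm_num) (by norm_num) (by norm_num) (by norm_num)
    (by norm_num) (by norm_num) (by norm_num) (by norm_num) (by norm_num) (by norm_num) (by norm_num) (by norm_num) (by norm_num) (by norm_num)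
  have e1 : C11.l = (367 / 32768 : ℝ) := rfl
  have e2 : C11.u = (3159 / 262144 : ℝ) := rfl
  have e3 : C11.a1 = -(15896959 / 2097152 : ℝ) := by norm_num [C11]
  have e4 : C11.a2 = -(7860663 / 131072 : ℝ) := by norm_num [C11]
  have e5 : C11.e = (-230135937 / 4194304 : ℝ) := rfl
  have e6 : C11.f = (314703 / 268435456 : ℝ) + (450053 / 33554432 : ℝ) + (-2035057 / 134217728 : ℝ) := by norm_num [C11]
  rw [e1, e2, e3, e4, e5, e6]
  exact h

lemma rcell12 : ∃ N : ℝ, Rw4 P.r2 N (coCell (102897 / 65536 : ℝ) (409923 / 32768 : ℝ) ((181939 / 16384 : ℝ) + (101 / 256 : ℝ)) (23 / 2048 : ℝ) C12) := by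
  refine ⟨(2415919104 : ℝ), ⟨Q15, List.mem_cons_of_mem _ (List.mem_cons_of_mem _ (List.mem_cons_of_mem _ (List.mem_cons_of_mem _ (List.mem_cons_of_mem _ (List.mem_cons_of_mem _ (List.mem_cons_of_mem _ (List.mem_cons_of_mem _ (List.mem_cons_of_mem _ (List.mem_cons_of_mem _ (List.mem_cons_of_mem _ (List.mem_cons_of_mem _ (List.mem_cons_of_mem _ (List.mem_cons_of_mem _ (List.mem_cons_of_mem _ (List.mem_cons_self))))))))))))))), ?_⟩, by norm_num⟩
  constructor <;> norm_num [Q15, coCell, C12]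

lemma lcell12 : ∀ x1 x2 xc : ℝ, 0 ≤ x1 → x1 ≤ 1 → 0 ≤ x2 → x2 ≤ 1 → C12.l ≤ xc → xc ≤ C12.u →
    (102897 / 65536 : ℝ) * (1 - (1 - x1) ^ 5) + (409923 / 32768 : ℝ) * (1 - (1 - x2) ^ 5) - ((181939 / 16384 : ℝ) + (101 / 256 : ℝ)) * (1 - (1 - xc) ^ 5)
      ≤ - C12.a1 * x1 - C12.a2 * x2 + C12.e * xc + C12.f := by
  have h := cell_lines 5 (α1 := (102897 / 65536 : ℝ)) (α2 := (409923 / 32768 : ℝ)) (c := (181939 / 16384 : ℝ) + (101 / 256 : ℝ)) (y1 := (2431 / 262144 : ℝ)) (y2 := (1481 / 131072 : ℝ))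
    (A1 := (15861263 / 2097152 : ℝ)) (B1 := (355779 / 268435456 : ℝ)) (A2 := (125346417 / 2097152 : ℝ)) (B2 := (1047805 / 67108864 : ℝ)) (l := (3159 / 262144 : ℝ)) (u := (3399 / 262144 : ℝ))
    (E := (-57328639 / 1048576 : ℝ)) (F := (-1175899 / 67108864 : ℝ)) (by norm_num) (by norm_num) (by norm_num) (by norm_num) (by norm_num)
    (by norm_num) (by norm_num) (by norm_num) (by norm_num) (by norm_num) (by norm_num) (by norm_num) (by norm_num) (by norm_num) (by norm_num)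
  have e1 : C12.l = (3159 / 262144 : ℝ) := rfl
  have e2 : C12.u = (3399 / 262144 : ℝ) := rfl
  have e3 : C12.a1 = -(15861263 / 2097152 : ℝ) := by norm_num [C12]
  have e4 : C12.a2 = -(125346417 / 2097152 : ℝ) := by norm_num [C12]
  have e5 : C12.e = (-57328639 / 1048576 : ℝ) := rfl
  have e6 : C12.f = (355779 / 268435456 : ℝ) + (1047805 / 67108864 : ℝ) + (-1175899 / 67108864 : ℝ) := by norm_num [C12]
  rw [e1, e2, e3, e4, e5, e6]
  exact h

lemma rcell13 : ∃ N : ℝ, Rw4 P.r2 N (coCell (102897 / 65536 : ℝ) (409923 / 32768 : ℝ) ((181939 / 16384 : ℝ) + (101 / 256 : ℝ)) (23 / 2048 : ℝ) C13) := by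
  refine ⟨(1207959552 : ℝ), ⟨Q16, List.mem_cons_of_mem _ (List.mem_cons_of_mem _ (List.mem_cons_of_mem _ (List.mem_cons_of_mem _ (List.mem_cons_of_mem _ (List.mem_cons_of_mem _ (List.mem_cons_of_mem _ (List.mem_cons_of_mem _ (List.mem_cons_of_mem _ (List.mem_cons_of_mem _ (List.mem_cons_of_mem _ (List.mem_cons_of_mem _ (List.mem_cons_of_mem _ (List.mem_cons_of_mem _ (List.mem_cons_of_mem _ (List.mem_cons_of_mem _ (List.mem_cons_self)))))))))))))))), ?_⟩, by norm_num⟩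
  constructor <;> norm_num [Q16, coCell, C13]

lemma lcell13 : ∀ x1 x2 xc : ℝ, 0 ≤ x1 → x1 ≤ 1 → 0 ≤ x2 → x2 ≤ 1 → C13.l ≤ xc → xc ≤ C13.u →
    (102897 / 65536 : ℝ) * (1 - (1 - x1) ^ 5) + (409923 / 32768 : ℝ) * (1 - (1 - x2) ^ 5) - ((181939 / 16384 : ℝ) + (101 / 256 : ℝ)) * (1 - (1 - xc) ^ 5)
      ≤ - C13.a1 * x1 - C13.a2 * x2 + C13.e * xc + C13.f := by
  have h := cell_lines 5 (α1 := (102897 / 65536 : ℝ)) (α2 := (409923 / 32768 : ℝ)) (c := (181939 / 16384 : ℝ) + (101 / 256 : ℝ)) (y1 := (2617 / 262144 : ℝ)) (y2 := (3181 / 262144 : ℝ))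
    (A1 := (7907937 / 1048576 : ℝ)) (B1 := (102929 / 67108864 : ℝ)) (A2 := (31230825 / 524288 : ℝ)) (B2 := (4825783 / 268435456 : ℝ)) (l := (3399 / 262144 : ℝ)) (u := (1829 / 131072 : ℝ))
    (E := (-7138493 / 131072 : ℝ)) (F := (-5436157 / 268435456 : ℝ)) (by norm_num) (by norm_num) (by norm_num) (by norm_num) (by norm_num)
    (by norm_num) (by norm_num) (by norm_num) (by norm_num) (by norm_num) (by norm_num) (by norm_num) (by norm_num) (by norm_num) (by norm_num)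
  have e1 : C13.l = (3399 / 262144 : ℝ) := rfl
  have e2 : C13.u = (1829 / 131072 : ℝ) := rfl
  have e3 : C13.a1 = -(7907937 / 1048576 : ℝ) := by norm_num [C13]
  have e4 : C13.a2 = -(31230825 / 524288 : ℝ) := by norm_num [C13]
  have e5 : C13.e = (-7138493 / 131072 : ℝ) := rfl
  have e6 : C13.f = (102929 / 67108864 : ℝ) + (4825783 / 268435456 : ℝ) + (-5436157 / 268435456 : ℝ) := by norm_num [C13]
  rw [e1, e2, e3, e4, e5, e6]
  exact h

lemma rcell14 : ∃ N : ℝ, Rw4 P.r2 N (coCell (102897 / 65536 : ℝ) (409923 / 32768 : ℝ) ((181939 / 16384 : ℝ) + (101 / 256 : ℝ)) (23 / 2048 : ℝ) C14) := by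
  refine ⟨(1207959552 : ℝ), ⟨Q17, List.mem_cons_of_mem _ (List.mem_cons_of_mem _ (List.mem_cons_of_mem _ (List.mem_cons_of_mem _ (List.mem_cons_of_mem _ (List.mem_cons_of_mem _ (List.mem_cons_of_mem _ (List.mem_cons_of_mem _ (List.mem_cons_of_mem _ (List.mem_cons_of_mem _ (List.mem_cons_of_mem _ (List.mem_cons_of_mem _ (List.mem_cons_of_mem _ (List.mem_cons_of_mem _ (List.mem_cons_of_mem _ (List.mem_cons_of_mem _ (List.mem_cons_of_mem _ (List.mem_cons_self))))))))))))))))), ?_⟩, by norm_num⟩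
  constructor <;> norm_num [Q17, coCell, C14]

lemma lcell14 : ∀ x1 x2 xc : ℝ, 0 ≤ x1 → x1 ≤ 1 → 0 ≤ x2 → x2 ≤ 1 → C14.l ≤ xc → xc ≤ C14.u →
    (102897 / 65536 : ℝ) * (1 - (1 - x1) ^ 5) + (409923 / 32768 : ℝ) * (1 - (1 - x2) ^ 5) - ((181939 / 16384 : ℝ) + (101 / 256 : ℝ)) * (1 - (1 - xc) ^ 5)
      ≤ - C14.a1 * x1 - C14.a2 * x2 + C14.e * xc + C14.f := by
  have h := cell_lines 5 (α1 := (102897 / 65536 : ℝ)) (α2 := (409923 / 32768 : ℝ)) (c := (181939 / 16384 : ℝ) + (101 / 256 : ℝ)) (y1 := (11 / 1024 : ℝ)) (y2 := (3429 / 262144 : ℝ))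
    (A1 := (31534841 / 4194304 : ℝ)) (B1 := (475987 / 268435456 : ℝ)) (A2 := (248890895 / 4194304 : ℝ)) (B2 := (2798467 / 134217728 : ℝ)) (l := (1829 / 131072 : ℝ)) (u := (123 / 8192 : ℝ))
    (E := (-227484619 / 4194304 : ℝ)) (F := (-6282031 / 268435456 : ℝ)) (by norm_num) (by norm_num) (by norm_num) (by norm_num) (by norm_num)
    (by norm_num) (by norm_num) (by norm_num) (by norm_num) (by norm_num) (by norm_num) (by norm_num) (by norm_num) (by norm_num) (by norm_num)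
  have e1 : C14.l = (1829 / 131072 : ℝ) := rfl
  have e2 : C14.u = (123 / 8192 : ℝ) := rfl
  have e3 : C14.a1 = -(31534841 / 4194304 : ℝ) := by norm_num [C14]
  have e4 : C14.a2 = -(248890895 / 4194304 : ℝ) := by norm_num [C14]
  have e5 : C14.e = (-227484619 / 4194304 : ℝ) := rfl
  have e6 : C14.f = (475987 / 268435456 : ℝ) + (2798467 / 134217728 : ℝ) + (-6282031 / 268435456 : ℝ) := by norm_num [C14]
  rw [e1, e2, e3, e4, e5, e6]
  exact h

lemma rcell15 : ∃ N : ℝ, Rw4 P.r2 N (coCell (102897 / 65536 : ℝ) (409923 / 32768 : ℝ) ((181939 / 16384 : ℝ) + (101 / 256 : ℝ)) (23 / 2048 : ℝ) C15) := by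
  refine ⟨(2415919104 : ℝ), ⟨Q18, List.mem_cons_of_mem _ (List.mem_cons_of_mem _ (List.mem_cons_of_mem _ (List.mem_cons_of_mem _ (List.mem_cons_of_mem _ (List.mem_cons_of_mem _ (List.mem_cons_of_mem _ (List.mem_cons_of_mem _ (List.mem_cons_of_mem _ (List.mem_cons_of_mem _ (List.mem_cons_of_mem _ (List.mem_cons_of_mem _ (List.mem_cons_of_mem _ (List.mem_cons_of_mem _ (List.mem_cons_of_mem _ (List.mem_cons_of_mem _ (List.mem_cons_of_mem _ (List.mem_cons_of_mem _ (List.mem_cons_self)))))))))))))))))), ?_⟩, by norm_num⟩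
  constructor <;> norm_num [Q18, coCell, C15]

lemma lcell15 : ∀ x1 x2 xc : ℝ, 0 ≤ x1 → x1 ≤ 1 → 0 ≤ x2 → x2 ≤ 1 → C15.l ≤ xc → xc ≤ C15.u →
    (102897 / 65536 : ℝ) * (1 - (1 - x1) ^ 5) + (409923 / 32768 : ℝ) * (1 - (1 - x2) ^ 5) - ((181939 / 16384 : ℝ) + (101 / 256 : ℝ)) * (1 - (1 - xc) ^ 5)
      ≤ - C15.a1 * x1 - C15.a2 * x2 + C15.e * xc + C15.f := by
  have h := cell_lines 5 (α1 := (102897 / 65536 : ℝ)) (α2 := (409923 / 32768 : ℝ)) (c := (181939 / 16384 : ℝ) + (101 / 256 : ℝ)) (y1 := (779 / 65536 : ℝ)) (y2 := (3677 / 262144 : ℝ))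
    (A1 := (31389171 / 4194304 : ℝ)) (B1 := (581495 / 268435456 : ℝ)) (A2 := (15496121 / 262144 : ℝ)) (B2 := (3211763 / 134217728 : ℝ)) (l := (123 / 8192 : ℝ)) (u := (4235 / 262144 : ℝ))
    (E := (-226470199 / 4194304 : ℝ)) (F := (-3628413 / 134217728 : ℝ)) (by norm_num) (by norm_num) (by norm_num) (by norm_num) (by norm_num)
    (by norm_num) (by norm_num) (by norm_num) (by norm_num) (by norm_num) (by norm_num) (by norm_num) (by norm_num) (by norm_num) (by norm_num)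
  have e1 : C15.l = (123 / 8192 : ℝ) := rfl
  have e2 : C15.u = (4235 / 262144 : ℝ) := rfl
  have e3 : C15.a1 = -(31389171 / 4194304 : ℝ) := by norm_num [C15]
  have e4 : C15.a2 = -(15496121 / 262144 : ℝ) := by norm_num [C15]
  have e5 : C15.e = (-226470199 / 4194304 : ℝ) := rfl
  have e6 : C15.f = (581495 / 268435456 : ℝ) + (3211763 / 134217728 : ℝ) + (-3628413 / 134217728 : ℝ) := by norm_num [C15]
  rw [e1, e2, e3, e4, e5, e6]
  exact h

lemma rcell16 : ∃ N : ℝ, Rw4 P.r2 N (coCell (102897 / 65536 : ℝ) (409923 / 32768 : ℝ) ((181939 / 16384 : ℝ) + (101 / 256 : ℝ)) (23 / 2048 : ℝ) C16) := by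
  refine ⟨(75497472 : ℝ), ⟨Q19, List.mem_cons_of_mem _ (List.mem_cons_of_mem _ (List.mem_cons_of_mem _ (List.mem_cons_of_mem _ (List.mem_cons_of_mem _ (List.mem_cons_of_mem _ (List.mem_cons_of_mem _ (List.mem_cons_of_mem _ (List.mem_cons_of_mem _ (List.mem_cons_of_mem _ (List.mem_cons_of_mem _ (List.mem_cons_of_mem _ (List.mem_cons_of_mem _ (List.mem_cons_of_mem _ (List.mem_cons_of_mem _ (List.mem_cons_of_mem _ (List.mem_cons_of_mem _ (List.mem_cons_of_mem _ (List.mem_cons_of_mem _ (List.mem_cons_self))))))))))))))))))), ?_⟩, by norm_num⟩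
  constructor <;> norm_num [Q19, coCell, C16]

lemma lcell16 : ∀ x1 x2 xc : ℝ, 0 ≤ x1 → x1 ≤ 1 → 0 ≤ x2 → x2 ≤ 1 → C16.l ≤ xc → xc ≤ C16.u →
    (102897 / 65536 : ℝ) * (1 - (1 - x1) ^ 5) + (409923 / 32768 : ℝ) * (1 - (1 - x2) ^ 5) - ((181939 / 16384 : ℝ) + (101 / 256 : ℝ)) * (1 - (1 - xc) ^ 5)
      ≤ - C16.a1 * x1 - C16.a2 * x2 + C16.e * xc + C16.f := by
  have h := cell_lines 5 (α1 := (102897 / 65536 : ℝ)) (α2 := (409923 / 32768 : ℝ)) (c := (181939 / 16384 : ℝ) + (101 / 256 : ℝ)) (y1 := (817 / 65536 : ℝ)) (y2 := (1979 / 131072 : ℝ))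
    (A1 := (15657779 / 2097152 : ℝ)) (B1 := (319431 / 134217728 : ℝ)) (A2 := (246861481 / 4194304 : ℝ)) (B2 := (7426769 / 268435456 : ℝ)) (l := (4235 / 262144 : ℝ)) (u := (4557 / 262144 : ℝ))
    (E := (-225382219 / 4194304 : ℝ)) (F := (-8381727 / 268435456 : ℝ)) (by norm_num) (by norm_num) (by norm_num) (by norm_num) (by norm_num)
    (by norm_num) (by norm_num) (by norm_num) (by norm_num) (by norm_num) (by norm_num) (by norm_num) (by norm_num) (by norm_num) (by norm_num)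
  have e1 : C16.l = (4235 / 262144 : ℝ) := rfl
  have e2 : C16.u = (4557 / 262144 : ℝ) := rfl
  have e3 : C16.a1 = -(15657779 / 2097152 : ℝ) := by norm_num [C16]
  have e4 : C16.a2 = -(246861481 / 4194304 : ℝ) := by norm_num [C16]
  have e5 : C16.e = (-225382219 / 4194304 : ℝ) := rfl
  have e6 : C16.f = (319431 / 134217728 : ℝ) + (7426769 / 268435456 : ℝ) + (-8381727 / 268435456 : ℝ) := by norm_num [C16]
  rw [e1, e2, e3, e4, e5, e6]
  exact h

lemma rcell17 : ∃ N : ℝ, Rw4 P.r2 N (coCell (102897 / 65536 : ℝ) (409923 / 32768 : ℝ) ((181939 / 16384 : ℝ) + (101 / 256 : ℝ)) (23 / 2048 : ℝ) C17) := by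
  refine ⟨(2415919104 : ℝ), ⟨Q20, List.mem_cons_of_mem _ (List.mem_cons_of_mem _ (List.mem_cons_of_mem _ (List.mem_cons_of_mem _ (List.mem_cons_of_mem _ (List.mem_cons_of_mem _ (List.mem_cons_of_mem _ (List.mem_cons_of_mem _ (List.mem_cons_of_mem _ (List.mem_cons_of_mem _ (List.mem_cons_of_mem _ (List.mem_cons_of_mem _ (List.mem_cons_of_mem _ (List.mem_cons_of_mem _ (List.mem_cons_of_mem _ (List.mem_cons_of_mem _ (List.mem_cons_of_mem _ (List.mem_cons_of_mem _ (List.mem_cons_of_mem _ (List.mem_cons_of_mem _ (List.mem_cons_self)))))))))))))))))))), ?_⟩, by norm_num⟩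
  constructor <;> norm_num [Q20, coCell, C17]

lemma lcell17 : ∀ x1 x2 xc : ℝ, 0 ≤ x1 → x1 ≤ 1 → 0 ≤ x2 → x2 ≤ 1 → C17.l ≤ xc → xc ≤ C17.u →
    (102897 / 65536 : ℝ) * (1 - (1 - x1) ^ 5) + (409923 / 32768 : ℝ) * (1 - (1 - x2) ^ 5) - ((181939 / 16384 : ℝ) + (101 / 256 : ℝ)) * (1 - (1 - xc) ^ 5)
      ≤ - C17.a1 * x1 - C17.a2 * x2 + C17.e * xc + C17.f := by
  have h := cell_lines 5 (α1 := (102897 / 65536 : ℝ)) (α2 := (409923 / 32768 : ℝ)) (c := (181939 / 16384 : ℝ) + (101 / 256 : ℝ)) (y1 := (3511 / 262144 : ℝ)) (y2 := (4269 / 262144 : ℝ))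
    (A1 := (487471 / 65536 : ℝ)) (B1 := (735991 / 268435456 : ℝ)) (A2 := (15354637 / 262144 : ℝ)) (B2 := (8619109 / 268435456 : ℝ)) (l := (4557 / 262144 : ℝ)) (u := (613 / 32768 : ℝ))
    (E := (-112107269 / 2097152 : ℝ)) (F := (-9680829 / 268435456 : ℝ)) (by norm_num) (by norm_num) (by norm_num) (by norm_num) (by norm_num)
    (by norm_num) (by norm_num) (by norm_num) (by norm_num) (by norm_num) (by norm_num) (by norm_num) (by norm_num) (by norm_num) (by norm_num)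
  have e1 : C17.l = (4557 / 262144 : ℝ) := rfl
  have e2 : C17.u = (613 / 32768 : ℝ) := rfl
  have e3 : C17.a1 = -(487471 / 65536 : ℝ) := by norm_num [C17]
  have e4 : C17.a2 = -(15354637 / 262144 : ℝ) := by norm_num [C17]
  have e5 : C17.e = (-112107269 / 2097152 : ℝ) := rfl
  have e6 : C17.f = (735991 / 268435456 : ℝ) + (8619109 / 268435456 : ℝ) + (-9680829 / 268435456 : ℝ) := by norm_num [C17]
  rw [e1, e2, e3, e4, e5, e6]
  exact h

lemma rcell18 : ∃ N : ℝ, Rw4 P.r2 N (coCell (102897 / 65536 : ℝ) (409923 / 32768 : ℝ) ((181939 / 16384 : ℝ) + (101 / 256 : ℝ)) (23 / 2048 : ℝ) C18) := by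
  refine ⟨(1207959552 : ℝ), ⟨Q21, List.mem_cons_of_mem _ (List.mem_cons_of_mem _ (List.mem_cons_of_mem _ (List.mem_cons_of_mem _ (List.mem_cons_of_mem _ (List.mem_cons_of_mem _ (List.mem_cons_of_mem _ (List.mem_cons_of_mem _ (List.mem_cons_of_mem _ (List.mem_cons_of_mem _ (List.mem_cons_of_mem _ (List.mem_cons_of_mem _ (List.mem_cons_of_mem _ (List.mem_cons_of_mem _ (List.mem_cons_of_mem _ (List.mem_cons_of_mem _ (List.mem_cons_of_mem _ (List.mem_cons_of_mem _ (List.mem_cons_of_mem _ (List.mem_cons_of_mem _ (List.mem_cons_of_mem _ (List.mem_cons_self))))))))))))))))))))), ?_⟩, by norm_num⟩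
  constructor <;> norm_num [Q21, coCell, C18]

lemma lcell18 : ∀ x1 x2 xc : ℝ, 0 ≤ x1 → x1 ≤ 1 → 0 ≤ x2 → x2 ≤ 1 → C18.l ≤ xc → xc ≤ C18.u →
    (102897 / 65536 : ℝ) * (1 - (1 - x1) ^ 5) + (409923 / 32768 : ℝ) * (1 - (1 - x2) ^ 5) - ((181939 / 16384 : ℝ) + (101 / 256 : ℝ)) * (1 - (1 - xc) ^ 5)
      ≤ - C18.a1 * x1 - C18.a2 * x2 + C18.e * xc + C18.f := by
  have h := cell_lines 5 (α1 := (102897 / 65536 : ℝ)) (α2 := (409923 / 32768 : ℝ)) (c := (181939 / 16384 : ℝ) + (101 / 256 : ℝ)) (y1 := (3773 / 262144 : ℝ)) (y2 := (573 / 32768 : ℝ))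
    (A1 := (15535959 / 2097152 : ℝ)) (B1 := (424125 / 134217728 : ℝ)) (A2 := (61119001 / 1048576 : ℝ)) (B2 := (9913943 / 268435456 : ℝ)) (l := (613 / 32768 : ℝ)) (u := (5277 / 262144 : ℝ))
    (E := (-111481459 / 2097152 : ℝ)) (F := (-11179351 / 268435456 : ℝ)) (by norm_num) (by norm_num) (by norm_num) (by norm_num) (by norm_num)
    (by norm_num) (by norm_num) (by norm_num) (by norm_num) (by norm_num) (by norm_num) (by norm_num) (by norm_num) (by norm_num) (by norm_num)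
  have e1 : C18.l = (613 / 32768 : ℝ) := rfl
  have e2 : C18.u = (5277 / 262144 : ℝ) := rfl
  have e3 : C18.a1 = -(15535959 / 2097152 : ℝ) := by norm_num [C18]
  have e4 : C18.a2 = -(61119001 / 1048576 : ℝ) := by norm_num [C18]
  have e5 : C18.e = (-111481459 / 2097152 : ℝ) := rfl
  have e6 : C18.f = (424125 / 134217728 : ℝ) + (9913943 / 268435456 : ℝ) + (-11179351 / 268435456 : ℝ) := by norm_num [C18]
  rw [e1, e2, e3, e4, e5, e6]
  exact h

lemma rcell19 : ∃ N : ℝ, Rw4 P.r2 N (coCell (102897 / 65536 : ℝ) (409923 / 32768 : ℝ) ((181939 / 16384 : ℝ) + (101 / 256 : ℝ)) (23 / 2048 : ℝ) C19) := by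
  refine ⟨(75497472 : ℝ), ⟨Q22, List.mem_cons_of_mem _ (List.mem_cons_of_mem _ (List.mem_cons_of_mem _ (List.mem_cons_of_mem _ (List.mem_cons_of_mem _ (List.mem_cons_of_mem _ (List.mem_cons_of_mem _ (List.mem_cons_of_mem _ (List.mem_cons_of_mem _ (List.mem_cons_of_mem _ (List.mem_cons_of_mem _ (List.mem_cons_of_mem _ (List.mem_cons_of_mem _ (List.mem_cons_of_mem _ (List.mem_cons_of_mem _ (List.mem_cons_of_mem _ (List.mem_cons_of_mem _ (List.mem_cons_of_mem _ (List.mem_cons_of_mem _ (List.mem_cons_of_mem _ (List.mem_cons_of_mem _ (List.mem_cons_of_mem _ (List.mem_cons_self)))))))))))))))))))))), ?_⟩, by norm_num⟩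
  constructor <;> norm_num [Q22, coCell, C19]

lemma lcell19 : ∀ x1 x2 xc : ℝ, 0 ≤ x1 → x1 ≤ 1 → 0 ≤ x2 → x2 ≤ 1 → C19.l ≤ xc → xc ≤ C19.u →
    (102897 / 65536 : ℝ) * (1 - (1 - x1) ^ 5) + (409923 / 32768 : ℝ) * (1 - (1 - x2) ^ 5) - ((181939 / 16384 : ℝ) + (101 / 256 : ℝ)) * (1 - (1 - xc) ^ 5)
      ≤ - C19.a1 * x1 - C19.a2 * x2 + C19.e * xc + C19.f := by
  have h := cell_lines 5 (α1 := (102897 / 65536 : ℝ)) (α2 := (409923 / 32768 : ℝ)) (c := (181939 / 16384 : ℝ) + (101 / 256 : ℝ)) (y1 := (4195 / 262144 : ℝ)) (y2 := (1233 / 65536 : ℝ))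
    (A1 := (30869415 / 4194304 : ℝ)) (B1 := (1045181 / 268435456 : ℝ)) (A2 := (243157393 / 4194304 : ℝ)) (B2 := (89419 / 2097152 : ℝ)) (l := (5277 / 262144 : ℝ)) (u := (2839 / 131072 : ℝ))
    (E := (-221623281 / 4194304 : ℝ)) (F := (-12905245 / 268435456 : ℝ)) (by norm_num) (by norm_num) (by norm_num) (by norm_num) (by norm_num)
    (by norm_num) (by norm_num) (by norm_num) (by norm_num) (by norm_num) (by norm_num) (by norm_num) (by norm_num) (by norm_num) (by norm_num)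
  have e1 : C19.l = (5277 / 262144 : ℝ) := rfl
  have e2 : C19.u = (2839 / 131072 : ℝ) := rfl
  have e3 : C19.a1 = -(30869415 / 4194304 : ℝ) := by norm_num [C19]
  have e4 : C19.a2 = -(243157393 / 4194304 : ℝ) := by norm_num [C19]
  have e5 : C19.e = (-221623281 / 4194304 : ℝ) := rfl
  have e6 : C19.f = (1045181 / 268435456 : ℝ) + (89419 / 2097152 : ℝ) + (-12905245 / 268435456 : ℝ) := by norm_num [C19]
  rw [e1, e2, e3, e4, e5, e6]
  exact h

lemma rcell20 : ∃ N : ℝ, Rw4 P.r2 N (coCell (102897 / 65536 : ℝ) (409923 / 32768 : ℝ) ((181939 / 16384 : ℝ) + (101 / 256 : ℝ)) (23 / 2048 : ℝ) C20) := by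
  refine ⟨(2415919104 : ℝ), ⟨Q23, List.mem_cons_of_mem _ (List.mem_cons_of_mem _ (List.mem_cons_of_mem _ (List.mem_cons_of_mem _ (List.mem_cons_of_mem _ (List.mem_cons_of_mem _ (List.mem_cons_of_mem _ (List.mem_cons_of_mem _ (List.mem_cons_of_mem _ (List.mem_cons_of_mem _ (List.mem_cons_of_mem _ (List.mem_cons_of_mem _ (List.mem_cons_of_mem _ (List.mem_cons_of_mem _ (List.mem_cons_of_mem _ (List.mem_cons_of_mem _ (List.mem_cons_of_mem _ (List.mem_cons_of_mem _ (List.mem_cons_of_mem _ (List.mem_cons_of_mem _ (List.mem_cons_of_mem _ (List.mem_cons_of_mem _ (List.mem_cons_of_mem _ (List.mem_cons_self))))))))))))))))))))))), ?_⟩, by norm_num⟩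
  constructor <;> norm_num [Q23, coCell, C20]

lemma lcell20 : ∀ x1 x2 xc : ℝ, 0 ≤ x1 → x1 ≤ 1 → 0 ≤ x2 → x2 ≤ 1 → C20.l ≤ xc → xc ≤ C20.u →
    (102897 / 65536 : ℝ) * (1 - (1 - x1) ^ 5) + (409923 / 32768 : ℝ) * (1 - (1 - x2) ^ 5) - ((181939 / 16384 : ℝ) + (101 / 256 : ℝ)) * (1 - (1 - xc) ^ 5)
      ≤ - C20.a1 * x1 - C20.a2 * x2 + C20.e * xc + C20.f := by
  have h := cell_lines 5 (α1 := (102897 / 65536 : ℝ)) (α2 := (409923 / 32768 : ℝ)) (c := (181939 / 16384 : ℝ) + (101 / 256 : ℝ)) (y1 := (2183 / 131072 : ℝ)) (y2 := (5313 / 262144 : ℝ))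
    (A1 := (3848455 / 524288 : ℝ)) (B1 := (1130653 / 268435456 : ℝ)) (A2 := (241719865 / 4194304 : ℝ)) (B2 := (6621695 / 134217728 : ℝ)) (l := (2839 / 131072 : ℝ)) (u := (3055 / 131072 : ℝ))
    (E := (-220188285 / 4194304 : ℝ)) (F := (-930905 / 16777216 : ℝ)) (by norm_num) (by norm_num) (by norm_num) (by norm_num) (by norm_num)
    (by norm_num) (by norm_num) (by norm_num) (by norm_num) (by norm_num) (by norm_num) (by norm_num) (by norm_num) (by norm_num) (by norm_num)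
  have e1 : C20.l = (2839 / 131072 : ℝ) := rfl
  have e2 : C20.u = (3055 / 131072 : ℝ) := rfl
  have e3 : C20.a1 = -(3848455 / 524288 : ℝ) := by norm_num [C20]
  have e4 : C20.a2 = -(241719865 / 4194304 : ℝ) := by norm_num [C20]
  have e5 : C20.e = (-220188285 / 4194304 : ℝ) := rfl
  have e6 : C20.f = (1130653 / 268435456 : ℝ) + (6621695 / 134217728 : ℝ) + (-930905 / 16777216 : ℝ) := by norm_num [C20]
  rw [e1, e2, e3, e4, e5, e6]
  exact h

lemma rcell21 : ∃ N : ℝ, Rw4 P.r2 N (coCell (102897 / 65536 : ℝ) (409923 / 32768 : ℝ) ((181939 / 16384 : ℝ) + (101 / 256 : ℝ)) (23 / 2048 : ℝ) C21) := by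
  refine ⟨(1207959552 : ℝ), ⟨Q24, List.mem_cons_of_mem _ (List.mem_cons_of_mem _ (List.mem_cons_of_mem _ (List.mem_cons_of_mem _ (List.mem_cons_of_mem _ (List.mem_cons_of_mem _ (List.mem_cons_of_mem _ (List.mem_cons_of_mem _ (List.mem_cons_of_mem _ (List.mem_cons_of_mem _ (List.mem_cons_of_mem _ (List.mem_cons_of_mem _ (List.mem_cons_of_mem _ (List.mem_cons_of_mem _ (List.mem_cons_of_mem _ (List.mem_cons_of_mem _ (List.mem_cons_of_mem _ (List.mem_cons_of_mem _ (List.mem_cons_of_mem _ (List.mem_cons_of_mem _ (List.mem_cons_of_mem _ (List.mem_cons_of_mem _ (List.mem_cons_of_mem _ (List.mem_cons_of_mem _ (List.mem_cons_self)))))))))))))))))))))))), ?_⟩, by norm_num⟩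
  constructor <;> norm_num [Q24, coCell, C21]

lemma lcell21 : ∀ x1 x2 xc : ℝ, 0 ≤ x1 → x1 ≤ 1 → 0 ≤ x2 → x2 ≤ 1 → C21.l ≤ xc → xc ≤ C21.u →
    (102897 / 65536 : ℝ) * (1 - (1 - x1) ^ 5) + (409923 / 32768 : ℝ) * (1 - (1 - x2) ^ 5) - ((181939 / 16384 : ℝ) + (101 / 256 : ℝ)) * (1 - (1 - xc) ^ 5)
      ≤ - C21.a1 * x1 - C21.a2 * x2 + C21.e * xc + C21.f := by
  have h := cell_lines 5 (α1 := (102897 / 65536 : ℝ)) (α2 := (409923 / 32768 : ℝ)) (c := (181939 / 16384 : ℝ) + (101 / 256 : ℝ)) (y1 := (4753 / 262144 : ℝ)) (y2 := (2857 / 131072 : ℝ))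
    (A1 := (30603171 / 4194304 : ℝ)) (B1 := (667995 / 134217728 : ℝ)) (A2 := (60053443 / 1048576 : ℝ)) (B2 := (7635309 / 134217728 : ℝ)) (l := (3055 / 131072 : ℝ)) (u := (6575 / 262144 : ℝ))
    (E := (-218650845 / 4194304 : ℝ)) (F := (-8593939 / 134217728 : ℝ)) (by norm_num) (by norm_num) (by norm_num) (by norm_num) (by norm_num)
    (by norm_num) (by norm_num) (by norm_num) (by norm_num) (by norm_num) (by norm_num) (by norm_num) (by norm_num) (by norm_num) (by norm_num)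
  have e1 : C21.l = (3055 / 131072 : ℝ) := rfl
  have e2 : C21.u = (6575 / 262144 : ℝ) := rfl
  have e3 : C21.a1 = -(30603171 / 4194304 : ℝ) := by norm_num [C21]
  have e4 : C21.a2 = -(60053443 / 1048576 : ℝ) := by norm_num [C21]
  have e5 : C21.e = (-218650845 / 4194304 : ℝ) := rfl
  have e6 : C21.f = (667995 / 134217728 : ℝ) + (7635309 / 134217728 : ℝ) + (-8593939 / 134217728 : ℝ) := by norm_num [C21]
  rw [e1, e2, e3, e4, e5, e6]
  exact h

lemma rcell22 : ∃ N : ℝ, Rw4 P.r2 N (coCell (102897 / 65536 : ℝ) (409923 / 32768 : ℝ) ((181939 / 16384 : ℝ) + (101 / 256 : ℝ)) (23 / 2048 : ℝ) C22) := by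
  refine ⟨(1207959552 : ℝ), ⟨Q25, List.mem_cons_of_mem _ (List.mem_cons_of_mem _ (List.mem_cons_of_mem _ (List.mem_cons_of_mem _ (List.mem_cons_of_mem _ (List.mem_cons_of_mem _ (List.mem_cons_of_mem _ (List.mem_cons_of_mem _ (List.mem_cons_of_mem _ (List.mem_cons_of_mem _ (List.mem_cons_of_mem _ (List.mem_cons_of_mem _ (List.mem_cons_of_mem _ (List.mem_cons_of_mem _ (List.mem_cons_of_mem _ (List.mem_cons_of_mem _ (List.mem_cons_of_mem _ (List.mem_cons_of_mem _ (List.mem_cons_of_mem _ (List.mem_cons_of_mem _ (List.mem_cons_of_mem _ (List.mem_cons_of_mem _ (List.mem_cons_of_mem _ (List.mem_cons_of_mem _ (List.mem_cons_of_mem _ (List.mem_cons_self))))))))))))))))))))))))), ?_⟩, by norm_num⟩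
  constructor <;> norm_num [Q25, coCell, C22]

lemma lcell22 : ∀ x1 x2 xc : ℝ, 0 ≤ x1 → x1 ≤ 1 → 0 ≤ x2 → x2 ≤ 1 → C22.l ≤ xc → xc ≤ C22.u →
    (102897 / 65536 : ℝ) * (1 - (1 - x1) ^ 5) + (409923 / 32768 : ℝ) * (1 - (1 - x2) ^ 5) - ((181939 / 16384 : ℝ) + (101 / 256 : ℝ)) * (1 - (1 - xc) ^ 5)
      ≤ - C22.a1 * x1 - C22.a2 * x2 + C22.e * xc + C22.f := by
  have h := cell_lines 5 (α1 := (102897 / 65536 : ℝ)) (α2 := (409923 / 32768 : ℝ)) (c := (181939 / 16384 : ℝ) + (101 / 256 : ℝ)) (y1 := (5087 / 262144 : ℝ)) (y2 := (6149 / 262144 : ℝ))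
    (A1 := (30444633 / 4194304 : ℝ)) (B1 := (1526403 / 268435456 : ℝ)) (A2 := (238587949 / 4194304 : ℝ)) (B2 := (17624947 / 268435456 : ℝ)) (l := (6575 / 262144 : ℝ)) (u := (7075 / 262144 : ℝ))
    (E := (-217005863 / 4194304 : ℝ)) (F := (-4957111 / 67108864 : ℝ)) (by norm_num) (by norm_num) (by norm_num) (by norm_num) (by norm_num)
    (by norm_num) (by norm_num) (by norm_num) (by norm_num) (by norm_num) (by norm_num) (by norm_num) (by norm_num) (by norm_num) (by norm_num)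
  have e1 : C22.l = (6575 / 262144 : ℝ) := rfl
  have e2 : C22.u = (7075 / 262144 : ℝ) := rfl
  have e3 : C22.a1 = -(30444633 / 4194304 : ℝ) := by norm_num [C22]
  have e4 : C22.a2 = -(238587949 / 4194304 : ℝ) := by norm_num [C22]
  have e5 : C22.e = (-217005863 / 4194304 : ℝ) := rfl
  have e6 : C22.f = (1526403 / 268435456 : ℝ) + (17624947 / 268435456 : ℝ) + (-4957111 / 67108864 : ℝ) := by norm_num [C22]
  rw [e1, e2, e3, e4, e5, e6]
  exact h

lemma rcell23 : ∃ N : ℝ, Rw4 P.r2 N (coCell (102897 / 65536 : ℝ) (409923 / 32768 : ℝ) ((181939 / 16384 : ℝ) + (101 / 256 : ℝ)) (23 / 2048 : ℝ) C23) := by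
  refine ⟨(1207959552 : ℝ), ⟨Q26, List.mem_cons_of_mem _ (List.mem_cons_of_mem _ (List.mem_cons_of_mem _ (List.mem_cons_of_mem _ (List.mem_cons_of_mem _ (List.mem_cons_of_mem _ (List.mem_cons_of_mem _ (List.mem_cons_of_mem _ (List.mem_cons_of_mem _ (List.mem_cons_of_mem _ (List.mem_cons_of_mem _ (List.mem_cons_of_mem _ (List.mem_cons_of_mem _ (List.mem_cons_of_mem _ (List.mem_cons_of_mem _ (List.mem_cons_of_mem _ (List.mem_cons_of_mem _ (List.mem_cons_of_mem _ (List.mem_cons_of_mem _ (List.mem_cons_of_mem _ (List.mem_cons_of_mem _ (List.mem_cons_of_mem _ (List.mem_cons_of_mem _ (List.mem_cons_of_mem _ (List.mem_cons_of_mem _ (List.mem_cons_of_mem _ (List.mem_cons_self)))))))))))))))))))))))))), ?_⟩, by norm_num⟩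
  constructor <;> norm_num [Q26, coCell, C23]

lemma lcell23 : ∀ x1 x2 xc : ℝ, 0 ≤ x1 → x1 ≤ 1 → 0 ≤ x2 → x2 ≤ 1 → C23.l ≤ xc → xc ≤ C23.u →
    (102897 / 65536 : ℝ) * (1 - (1 - x1) ^ 5) + (409923 / 32768 : ℝ) * (1 - (1 - x2) ^ 5) - ((181939 / 16384 : ℝ) + (101 / 256 : ℝ)) * (1 - (1 - xc) ^ 5)
      ≤ - C23.a1 * x1 - C23.a2 * x2 + C23.e * xc + C23.f := by
  have h := cell_lines 5 (α1 := (102897 / 65536 : ℝ)) (α2 := (409923 / 32768 : ℝ)) (c := (181939 / 16384 : ℝ) + (101 / 256 : ℝ)) (y1 := (5533 / 262144 : ℝ)) (y2 := (6595 / 262144 : ℝ))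
    (A1 := (15116947 / 2097152 : ℝ)) (B1 := (1799593 / 268435456 : ℝ)) (A2 := (236929597 / 4194304 : ℝ)) (B2 := (20204699 / 268435456 : ℝ)) (l := (7075 / 262144 : ℝ)) (u := (7613 / 262144 : ℝ))
    (E := (-215246827 / 4194304 : ℝ)) (F := (-11433409 / 134217728 : ℝ)) (by norm_num) (by norm_num) (by norm_num) (by norm_num) (by norm_num)
    (by norm_num) (by norm_num) (by norm_num) (by norm_num) (by norm_num) (by norm_num) (by norm_num) (by norm_num) (by norm_num) (by norm_num)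
  have e1 : C23.l = (7075 / 262144 : ℝ) := rfl
  have e2 : C23.u = (7613 / 262144 : ℝ) := rfl
  have e3 : C23.a1 = -(15116947 / 2097152 : ℝ) := by norm_num [C23]
  have e4 : C23.a2 = -(236929597 / 4194304 : ℝ) := by norm_num [C23]
  have e5 : C23.e = (-215246827 / 4194304 : ℝ) := rfl
  have e6 : C23.f = (1799593 / 268435456 : ℝ) + (20204699 / 268435456 : ℝ) + (-11433409 / 134217728 : ℝ) := by norm_num [C23]
  rw [e1, e2, e3, e4, e5, e6]
  exact h

lemma rcell24 : ∃ N : ℝ, Rw4 P.r2 N (coCell (102897 / 65536 : ℝ) (409923 / 32768 : ℝ) ((181939 / 16384 : ℝ) + (101 / 256 : ℝ)) (23 / 2048 : ℝ) C24) := by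
  refine ⟨(2415919104 : ℝ), ⟨Q27, List.mem_cons_of_mem _ (List.mem_cons_of_mem _ (List.mem_cons_of_mem _ (List.mem_cons_of_mem _ (List.mem_cons_of_mem _ (List.mem_cons_of_mem _ (List.mem_cons_of_mem _ (List.mem_cons_of_mem _ (List.mem_cons_of_mem _ (List.mem_cons_of_mem _ (List.mem_cons_of_mem _ (List.mem_cons_of_mem _ (List.mem_cons_of_mem _ (List.mem_cons_of_mem _ (List.mem_cons_of_mem _ (List.mem_cons_of_mem _ (List.mem_cons_of_mem _ (List.mem_cons_of_mem _ (List.mem_cons_of_mem _ (List.mem_cons_of_mem _ (List.mem_cons_of_mem _ (List.mem_cons_of_mem _ (List.mem_cons_of_mem _ (List.mem_cons_of_mem _ (List.mem_cons_of_mem _ (List.mem_cons_of_mem _ (List.mem_cons_of_mem _ (List.mem_cons_self))))))))))))))))))))))))))), ?_⟩, by norm_num⟩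
  constructor <;> norm_num [Q27, coCell, C24]

lemma lcell24 : ∀ x1 x2 xc : ℝ, 0 ≤ x1 → x1 ≤ 1 → 0 ≤ x2 → x2 ≤ 1 → C24.l ≤ xc → xc ≤ C24.u →
    (102897 / 65536 : ℝ) * (1 - (1 - x1) ^ 5) + (409923 / 32768 : ℝ) * (1 - (1 - x2) ^ 5) - ((181939 / 16384 : ℝ) + (101 / 256 : ℝ)) * (1 - (1 - xc) ^ 5)
      ≤ - C24.a1 * x1 - C24.a2 * x2 + C24.e * xc + C24.f := by
  have h := cell_lines 5 (α1 := (102897 / 65536 : ℝ)) (α2 := (409923 / 32768 : ℝ)) (c := (181939 / 16384 : ℝ) + (101 / 256 : ℝ)) (y1 := (5931 / 262144 : ℝ)) (y2 := (7115 / 262144 : ℝ))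
    (A1 := (3755845 / 524288 : ℝ)) (B1 := (64421 / 8388608 : ℝ)) (A2 := (235007025 / 4194304 : ℝ)) (B2 := (23422153 / 268435456 : ℝ)) (l := (7613 / 262144 : ℝ)) (u := (1 / 32 : ℝ))
    (E := (-106682945 / 2097152 : ℝ)) (F := (-3295351 / 33554432 : ℝ)) (by norm_num) (by norm_num) (by norm_num) (by norm_num) (by norm_num)
    (by norm_num) (by norm_num) (by norm_num) (by norm_num) (by norm_num) (by norm_num) (by norm_num) (by norm_num) (by norm_num) (by norm_num)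
  have e1 : C24.l = (7613 / 262144 : ℝ) := rfl
  have e2 : C24.u = (1 / 32 : ℝ) := rfl
  have e3 : C24.a1 = -(3755845 / 524288 : ℝ) := by norm_num [C24]
  have e4 : C24.a2 = -(235007025 / 4194304 : ℝ) := by norm_num [C24]
  have e5 : C24.e = (-106682945 / 2097152 : ℝ) := rfl
  have e6 : C24.f = (64421 / 8388608 : ℝ) + (23422153 / 268435456 : ℝ) + (-3295351 / 33554432 : ℝ) := by norm_num [C24]
  rw [e1, e2, e3, e4, e5, e6]
  exact h

/-- A chord cell of a link. -/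
noncomputable def P0C0 : Cell := ⟨(1 / 32 : ℝ), (8229 / 262144 : ℝ), (-4508855 / 4194304 : ℝ), (-261291075 / 4194304 : ℝ), (-221580463 / 4194304 : ℝ), (-7437599 / 1073741824 : ℝ)⟩

/-- A chord cell of a link. -/
noncomputable def P0C1 : Cell := ⟨(8229 / 262144 : ℝ), (8393 / 262144 : ℝ), (-555105 / 524288 : ℝ), (-65176275 / 1048576 : ℝ), (-221229933 / 4194304 : ℝ), (-5580207 / 1073741824 : ℝ)⟩

/-- A chord cell of a link. -/
noncomputable def P0C2 : Cell := ⟨(8393 / 262144 : ℝ), (8561 / 262144 : ℝ), (-4557497 / 4194304 : ℝ), (-129972199 / 2097152 : ℝ), (-220651789 / 4194304 : ℝ), (-5465099 / 1073741824 : ℝ)⟩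

/-- A chord cell of a link. -/
noncomputable def P0C3 : Cell := ⟨(8561 / 262144 : ℝ), (8733 / 262144 : ℝ), (-4515699 / 4194304 : ℝ), (-259319909 / 4194304 : ℝ), (-220060889 / 4194304 : ℝ), (-5461795 / 1073741824 : ℝ)⟩

/-- A chord cell of a link. -/
noncomputable def P0C4 : Cell := ⟨(8733 / 262144 : ℝ), (8907 / 262144 : ℝ), (-2268635 / 2097152 : ℝ), (-258615143 / 4194304 : ℝ), (-219460779 / 4194304 : ℝ), (-5294251 / 1073741824 : ℝ)⟩

/-- A chord cell of a link. -/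
noncomputable def P0C5 : Cell := ⟨(8907 / 262144 : ℝ), (9085 / 262144 : ℝ), (-2275693 / 2097152 : ℝ), (-16115935 / 262144 : ℝ), (-218851525 / 4194304 : ℝ), (-4700651 / 1073741824 : ℝ)⟩

/-- A chord cell of a link. -/
noncomputable def P0C6 : Cell := ⟨(9085 / 262144 : ℝ), (9267 / 262144 : ℝ), (-2238147 / 2097152 : ℝ), (-128586723 / 2097152 : ℝ), (-218229737 / 4194304 : ℝ), (-4279859 / 1073741824 : ℝ)⟩

/-- A chord cell of a link. -/
noncomputable def P0C7 : Cell := ⟨(9267 / 262144 : ℝ), (2363 / 65536 : ℝ), (-4468443 / 4194304 : ℝ), (-2004391 / 32768 : ℝ), (-108798611 / 2097152 : ℝ), (-4944819 / 1073741824 : ℝ)⟩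

/-- A chord cell of a link. -/
noncomputable def P0C8 : Cell := ⟨(2363 / 65536 : ℝ), (9641 / 262144 : ℝ), (-2238147 / 2097152 : ℝ), (-255846765 / 4194304 : ℝ), (-216954059 / 4194304 : ℝ), (-4963315 / 1073741824 : ℝ)⟩

/-- A chord cell of a link. -/
noncomputable def P0C9 : Cell := ⟨(9641 / 262144 : ℝ), (4917 / 131072 : ℝ), (-4457037 / 4194304 : ℝ), (-255141035 / 4194304 : ℝ), (-54074653 / 1048576 : ℝ), (-4990035 / 1073741824 : ℝ)⟩

/-- A chord cell of a link. -/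
noncomputable def P0C10 : Cell := ⟨(4917 / 131072 : ℝ), (10031 / 262144 : ℝ), (-2213039 / 2097152 : ℝ), (-127216373 / 2097152 : ℝ), (-53907743 / 1048576 : ℝ), (-5023447 / 1073741824 : ℝ)⟩

/-- A chord cell of a link. -/
noncomputable def P0C11 : Cell := ⟨(10031 / 262144 : ℝ), (1279 / 32768 : ℝ), (-2207689 / 2097152 : ℝ), (-253693841 / 4194304 : ℝ), (-214951231 / 4194304 : ℝ), (-5050343 / 1073741824 : ℝ)⟩

/-- A chord cell of a link. -/
noncomputable def P0C12 : Cell := ⟨(1279 / 32768 : ℝ), (5243 / 131072 : ℝ), (-2206197 / 2097152 : ℝ), (-252844489 / 4194304 : ℝ), (-53544037 / 1048576 : ℝ), (-5076903 / 1073741824 : ℝ)⟩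

/-- The chord cells of a link. -/
noncomputable def cellsP0 : List Cell := [P0C0, P0C1, P0C2, P0C3, P0C4, P0C5, P0C6, P0C7, P0C8, P0C9, P0C10, P0C11, P0C12]

lemma hcoverP0 : ∀ x : ℝ, (1 / 32 : ℝ) ≤ x → x ≤ (5243 / 131072 : ℝ) → ∃ D ∈ cellsP0, D.l ≤ x ∧ x ≤ D.u := by
  refine cover_of_chain ?_ (by norm_num [P0C0])
  simp only [ChainP, P0C0, P0C1, P0C2, P0C3, P0C4, P0C5, P0C6, P0C7, P0C8, P0C9, P0C10, P0C11, P0C12]
  norm_num

lemma rP0C0 : ∃ N : ℝ, Rw4 P.r2 N (coCell (243 / 1024 : ℝ) (3571 / 256 : ℝ) (12 : ℝ) 0 P0C0) := by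
  refine ⟨(3221225472 : ℝ), ⟨Q28, List.mem_cons_of_mem _ (List.mem_cons_of_mem _ (List.mem_cons_of_mem _ (List.mem_cons_of_mem _ (List.mem_cons_of_mem _ (List.mem_cons_of_mem _ (List.mem_cons_of_mem _ (List.mem_cons_of_mem _ (List.mem_cons_of_mem _ (List.mem_cons_of_mem _ (List.mem_cons_of_mem _ (List.mem_cons_of_mem _ (List.mem_cons_of_mem _ (List.mem_cons_of_mem _ (List.mem_cons_of_mem _ (List.mem_cons_of_mem _ (List.mem_cons_of_mem _ (List.mem_cons_of_mem _ (List.mem_cons_of_mem _ (List.mem_cons_of_mem _ (List.mem_cons_of_mem _ (List.mem_cons_of_mem _ (List.mem_cons_of_mem _ (List.mem_cons_of_mem _ (List.mem_cons_of_mem _ (List.mem_cons_of_mem _ (List.mem_cons_of_mem _ (List.mem_cons_of_mem _ (List.mem_cons_self)))))))))))))))))))))))))))), ?_⟩, by norm_num⟩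
  constructor <;> norm_num [Q28, coCell, P0C0]

lemma lP0C0 : ∀ x1 x2 xc : ℝ, 0 ≤ x1 → x1 ≤ 1 → 0 ≤ x2 → x2 ≤ 1 → P0C0.l ≤ xc → xc ≤ P0C0.u →
    (243 / 1024 : ℝ) * (1 - (1 - x1) ^ 5) + (3571 / 256 : ℝ) * (1 - (1 - x2) ^ 5) - (12 : ℝ) * (1 - (1 - xc) ^ 5) + (1 / 1073741824 : ℝ)
      ≤ - P0C0.a1 * x1 - P0C0.a2 * x2 + P0C0.e * xc + P0C0.f := by
  have h := cell_lines_delta 5 (α1 := (243 / 1024 : ℝ)) (α2 := (3571 / 256 : ℝ)) (c := (12 : ℝ)) (y1 := (3195 / 131072 : ℝ)) (y2 := (7299 / 262144 : ℝ))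
    (A1 := (4508855 / 4194304 : ℝ)) (B1 := (180195 / 134217728 : ℝ)) (A2 := (261291075 / 4194304 : ℝ)) (B2 := (6861565 / 67108864 : ℝ)) (l := (1 / 32 : ℝ)) (u := (8229 / 262144 : ℝ))
    (E := (-221580463 / 4194304 : ℝ)) (F := (-14833025 / 134217728 : ℝ)) (δ := (1 / 1073741824 : ℝ)) (by norm_num) (by norm_num) (by norm_num) (by norm_num) (by norm_num)
    (by norm_num) (by norm_num) (by norm_num) (by norm_num) (by norm_num) (by norm_num) (by norm_num) (by norm_num) (by norm_num) (by norm_num)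
  have e1 : P0C0.l = (1 / 32 : ℝ) := rfl
  have e2 : P0C0.u = (8229 / 262144 : ℝ) := rfl
  have e3 : P0C0.a1 = -(4508855 / 4194304 : ℝ) := by norm_num [P0C0]
  have e4 : P0C0.a2 = -(261291075 / 4194304 : ℝ) := by norm_num [P0C0]
  have e5 : P0C0.e = (-221580463 / 4194304 : ℝ) := rfl
  have e6 : P0C0.f = (180195 / 134217728 : ℝ) + (6861565 / 67108864 : ℝ) + (-14833025 / 134217728 : ℝ) + (1 / 1073741824 : ℝ) := by norm_num [P0C0]
  rw [e1, e2, e3, e4, e5, e6]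
  exact h

lemma rP0C1 : ∃ N : ℝ, Rw4 P.r2 N (coCell (243 / 1024 : ℝ) (3571 / 256 : ℝ) (12 : ℝ) 0 P0C1) := by
  refine ⟨(3221225472 : ℝ), ⟨Q29, List.mem_cons_of_mem _ (List.mem_cons_of_mem _ (List.mem_cons_of_mem _ (List.mem_cons_of_mem _ (List.mem_cons_of_mem _ (List.mem_cons_of_mem _ (List.mem_cons_of_mem _ (List.mem_cons_of_mem _ (List.mem_cons_of_mem _ (List.mem_cons_of_mem _ (List.mem_cons_of_mem _ (List.mem_cons_of_mem _ (List.mem_cons_of_mem _ (List.mem_cons_of_mem _ (List.mem_cons_of_mem _ (List.mem_cons_of_mem _ (List.mem_cons_of_mem _ (List.mem_cons_of_mem _ (List.mem_cons_of_mem _ (List.mem_cons_of_mem _ (List.mem_cons_of_mem _ (List.mem_cons_of_mem _ (List.mem_cons_of_mem _ (List.mem_cons_of_mem _ (List.mem_cons_of_mem _ (List.mem_cons_of_mem _ (List.mem_cons_of_mem _ (List.mem_cons_of_mem _ (List.mem_cons_of_mem _ (List.mem_cons_self))))))))))))))))))))))))))))), ?_⟩, by norm_num⟩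
  constructor <;> norm_num [Q29, coCell, P0C1]

lemma lP0C1 : ∀ x1 x2 xc : ℝ, 0 ≤ x1 → x1 ≤ 1 → 0 ≤ x2 → x2 ≤ 1 → P0C1.l ≤ xc → xc ≤ P0C1.u →
    (243 / 1024 : ℝ) * (1 - (1 - x1) ^ 5) + (3571 / 256 : ℝ) * (1 - (1 - x2) ^ 5) - (12 : ℝ) * (1 - (1 - xc) ^ 5) + (1 / 1073741824 : ℝ)
      ≤ - P0C1.a1 * x1 - P0C1.a2 * x2 + P0C1.e * xc + P0C1.f := by
  have h := cell_lines_delta 5 (α1 := (243 / 1024 : ℝ)) (α2 := (3571 / 256 : ℝ)) (c := (12 : ℝ)) (y1 := (115 / 4096 : ℝ)) (y2 := (3721 / 131072 : ℝ))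
    (A1 := (555105 / 524288 : ℝ)) (B1 := (237271 / 134217728 : ℝ)) (A2 := (65176275 / 1048576 : ℝ)) (B2 := (14250341 / 134217728 : ℝ)) (l := (8229 / 262144 : ℝ)) (u := (8393 / 262144 : ℝ))
    (E := (-221229933 / 4194304 : ℝ)) (F := (-7592569 / 67108864 : ℝ)) (δ := (1 / 1073741824 : ℝ)) (by norm_num) (by norm_num) (by norm_num) (by norm_num) (by norm_num)
    (by norm_num) (by norm_num) (by norm_num) (by norm_num) (by norm_num) (by norm_num) (by norm_num) (by norm_num) (by norm_num) (by norm_num)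
  have e1 : P0C1.l = (8229 / 262144 : ℝ) := rfl
  have e2 : P0C1.u = (8393 / 262144 : ℝ) := rfl
  have e3 : P0C1.a1 = -(555105 / 524288 : ℝ) := by norm_num [P0C1]
  have e4 : P0C1.a2 = -(65176275 / 1048576 : ℝ) := by norm_num [P0C1]
  have e5 : P0C1.e = (-221229933 / 4194304 : ℝ) := rfl
  have e6 : P0C1.f = (237271 / 134217728 : ℝ) + (14250341 / 134217728 : ℝ) + (-7592569 / 67108864 : ℝ) + (1 / 1073741824 : ℝ) := by norm_num [P0C1]
  rw [e1, e2, e3, e4, e5, e6]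
  exact h

lemma rP0C2 : ∃ N : ℝ, Rw4 P.r2 N (coCell (243 / 1024 : ℝ) (3571 / 256 : ℝ) (12 : ℝ) 0 P0C2) := by
  refine ⟨(3221225472 : ℝ), ⟨Q30, List.mem_cons_of_mem _ (List.mem_cons_of_mem _ (List.mem_cons_of_mem _ (List.mem_cons_of_mem _ (List.mem_cons_of_mem _ (List.mem_cons_of_mem _ (List.mem_cons_of_mem _ (List.mem_cons_of_mem _ (List.mem_cons_of_mem _ (List.mem_cons_of_mem _ (List.mem_cons_of_mem _ (List.mem_cons_of_mem _ (List.mem_cons_of_mem _ (List.mem_cons_of_mem _ (List.mem_cons_of_mem _ (List.mem_cons_of_mem _ (List.mem_cons_of_mem _ (List.mem_cons_of_mem _ (List.mem_cons_of_mem _ (List.mem_cons_of_mem _ (List.mem_cons_of_mem _ (List.mem_cons_of_mem _ (List.mem_cons_of_mem _ (List.mem_cons_of_mem _ (List.mem_cons_of_mem _ (List.mem_cons_of_mem _ (List.mem_cons_of_mem _ (List.mem_cons_of_mem _ (List.mem_cons_of_mem _ (List.mem_cons_of_mem _ (List.mem_cons_self)))))))))))))))))))))))))))))), ?_⟩, by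 norm_num⟩
  constructor <;> norm_num [Q30, coCell, P0C2]

lemma lP0C2 : ∀ x1 x2 xc : ℝ, 0 ≤ x1 → x1 ≤ 1 → 0 ≤ x2 → x2 ≤ 1 → P0C2.l ≤ xc → xc ≤ P0C2.u →
    (243 / 1024 : ℝ) * (1 - (1 - x1) ^ 5) + (3571 / 256 : ℝ) * (1 - (1 - x2) ^ 5) - (12 : ℝ) * (1 - (1 - xc) ^ 5) + (1 / 1073741824 : ℝ)
      ≤ - P0C2.a1 * x1 - P0C2.a2 * x2 + P0C2.e * xc + P0C2.f := by
  have h := cell_lines_delta 5 (α1 := (243 / 1024 : ℝ)) (α2 := (3571 / 256 : ℝ)) (c := (12 : ℝ)) (y1 := (5703 / 262144 : ℝ)) (y2 := (1907 / 65536 : ℝ))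
    (A1 := (4557497 / 4194304 : ℝ)) (B1 := (288585 / 268435456 : ℝ)) (A2 := (129972199 / 2097152 : ℝ)) (B2 := (29900075 / 268435456 : ℝ)) (l := (8393 / 262144 : ℝ)) (u := (8561 / 262144 : ℝ))
    (E := (-220651789 / 4194304 : ℝ)) (F := (-31554935 / 268435456 : ℝ)) (δ := (1 / 1073741824 : ℝ)) (by norm_num) (by norm_num) (by norm_num) (by norm_num) (by norm_num)
    (by norm_num) (by norm_num) (by norm_num) (by norm_num) (by norm_num) (by norm_num) (by norm_num) (by norm_num) (by norm_num) (by norm_num)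
  have e1 : P0C2.l = (8393 / 262144 : ℝ) := rfl
  have e2 : P0C2.u = (8561 / 262144 : ℝ) := rfl
  have e3 : P0C2.a1 = -(4557497 / 4194304 : ℝ) := by norm_num [P0C2]
  have e4 : P0C2.a2 = -(129972199 / 2097152 : ℝ) := by norm_num [P0C2]
  have e5 : P0C2.e = (-220651789 / 4194304 : ℝ) := rfl
  have e6 : P0C2.f = (288585 / 268435456 : ℝ) + (29900075 / 268435456 : ℝ) + (-31554935 / 268435456 : ℝ) + (1 / 1073741824 : ℝ) := by norm_num [P0C2]
  rw [e1, e2, e3, e4, e5, e6]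
  exact h

lemma rP0C3 : ∃ N : ℝ, Rw4 P.r2 N (coCell (243 / 1024 : ℝ) (3571 / 256 : ℝ) (12 : ℝ) 0 P0C3) := by
  refine ⟨(3221225472 : ℝ), ⟨Q31, List.mem_cons_of_mem _ (List.mem_cons_of_mem _ (List.mem_cons_of_mem _ (List.mem_cons_of_mem _ (List.mem_cons_of_mem _ (List.mem_cons_of_mem _ (List.mem_cons_of_mem _ (List.mem_cons_of_mem _ (List.mem_cons_of_mem _ (List.mem_cons_of_mem _ (List.mem_cons_of_mem _ (List.mem_cons_of_mem _ (List.mem_cons_of_mem _ (List.mem_cons_of_mem _ (List.mem_cons_of_mem _ (List.mem_cons_of_mem _ (List.mem_cons_of_mem _ (List.mem_cons_of_mem _ (List.mem_cons_of_mem _ (List.mem_cons_of_mem _ (List.mem_cons_of_mem _ (List.mem_cons_of_mem _ (List.mem_cons_of_mem _ (List.mem_cons_of_mem _ (List.mem_cons_of_mem _ (List.mem_cons_of_mem _ (List.mem_cons_of_mem _ (List.mem_cons_of_mem _ (List.mem_cons_of_mem _ (List.mem_cons_of_mem _ (List.mem_cons_of_mem _ (List.mem_cons_self))))))))))))))))))))))))))))))),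 ?_⟩, by norm_num⟩
  constructor <;> norm_num [Q31, coCell, P0C3]

lemma lP0C3 : ∀ x1 x2 xc : ℝ, 0 ≤ x1 → x1 ≤ 1 → 0 ≤ x2 → x2 ≤ 1 → P0C3.l ≤ xc → xc ≤ P0C3.u →
    (243 / 1024 : ℝ) * (1 - (1 - x1) ^ 5) + (3571 / 256 : ℝ) * (1 - (1 - x2) ^ 5) - (12 : ℝ) * (1 - (1 - xc) ^ 5) + (1 / 1073741824 : ℝ)
      ≤ - P0C3.a1 * x1 - P0C3.a2 * x2 + P0C3.e * xc + P0C3.f := by
  have h := cell_lines_delta 5 (α1 := (243 / 1024 : ℝ)) (α2 := (3571 / 256 : ℝ)) (c := (12 : ℝ)) (y1 := (6293 / 262144 : ℝ)) (y2 := (7781 / 262144 : ℝ))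
    (A1 := (4515699 / 4194304 : ℝ)) (B1 := (349807 / 268435456 : ℝ)) (A2 := (259319909 / 4194304 : ℝ)) (B2 := (3884339 / 33554432 : ℝ)) (l := (8561 / 262144 : ℝ)) (u := (8733 / 262144 : ℝ))
    (E := (-220060889 / 4194304 : ℝ)) (F := (-2049373 / 16777216 : ℝ)) (δ := (1 / 1073741824 : ℝ)) (by norm_num) (by norm_num) (by norm_num) (by norm_num) (by norm_num)
    (by norm_num) (by norm_num) (by norm_num) (by norm_num) (by norm_num) (by norm_num) (by norm_num) (by norm_num) (by norm_num) (by norm_num)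
  have e1 : P0C3.l = (8561 / 262144 : ℝ) := rfl
  have e2 : P0C3.u = (8733 / 262144 : ℝ) := rfl
  have e3 : P0C3.a1 = -(4515699 / 4194304 : ℝ) := by norm_num [P0C3]
  have e4 : P0C3.a2 = -(259319909 / 4194304 : ℝ) := by norm_num [P0C3]
  have e5 : P0C3.e = (-220060889 / 4194304 : ℝ) := rfl
  have e6 : P0C3.f = (349807 / 268435456 : ℝ) + (3884339 / 33554432 : ℝ) + (-2049373 / 16777216 : ℝ) + (1 / 1073741824 : ℝ) := by norm_num [P0C3]
  rw [e1, e2, e3, e4, e5, e6]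
  exact h

lemma rP0C4 : ∃ N : ℝ, Rw4 P.r2 N (coCell (243 / 1024 : ℝ) (3571 / 256 : ℝ) (12 : ℝ) 0 P0C4) := by
  refine ⟨(3221225472 : ℝ), ⟨Q32, List.mem_cons_of_mem _ (List.mem_cons_of_mem _ (List.mem_cons_of_mem _ (List.mem_cons_of_mem _ (List.mem_cons_of_mem _ (List.mem_cons_of_mem _ (List.mem_cons_of_mem _ (List.mem_cons_of_mem _ (List.mem_cons_of_mem _ (List.mem_cons_of_mem _ (List.mem_cons_of_mem _ (List.mem_cons_of_mem _ (List.mem_cons_of_mem _ (List.mem_cons_of_mem _ (List.mem_cons_of_mem _ (List.mem_cons_of_mem _ (List.mem_cons_of_mem _ (List.mem_cons_of_mem _ (List.mem_cons_of_mem _ (List.mem_cons_of_mem _ (List.mem_cons_of_mem _ (List.mem_cons_of_mem _ (List.mem_cons_of_mem _ (List.mem_cons_of_mem _ (List.mem_cons_of_mem _ (List.mem_cons_of_mem _ (List.mem_cons_of_mem _ (List.mem_cons_of_mem _ (List.mem_cons_of_mem _ (List.mem_cons_of_mem _ (List.mem_cons_of_mem _ (List.mem_cons_of_mem _ (List.mem_cons_self)))))))))))))))))))))))))))))))),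 ?_⟩, by norm_num⟩
  constructor <;> norm_num [Q32, coCell, P0C4]

lemma lP0C4 : ∀ x1 x2 xc : ℝ, 0 ≤ x1 → x1 ≤ 1 → 0 ≤ x2 → x2 ≤ 1 → P0C4.l ≤ xc → xc ≤ P0C4.u →
    (243 / 1024 : ℝ) * (1 - (1 - x1) ^ 5) + (3571 / 256 : ℝ) * (1 - (1 - x2) ^ 5) - (12 : ℝ) * (1 - (1 - xc) ^ 5) + (1 / 1073741824 : ℝ)
      ≤ - P0C4.a1 * x1 - P0C4.a2 * x2 + P0C4.e * xc + P0C4.f := by
  have h := cell_lines_delta 5 (α1 := (243 / 1024 : ℝ)) (α2 := (3571 / 256 : ℝ)) (c := (12 : ℝ)) (y1 := (1497 / 65536 : ℝ)) (y2 := (3977 / 131072 : ℝ))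
    (A1 := (2268635 / 2097152 : ℝ)) (B1 := (158741 / 134217728 : ℝ)) (A2 := (258615143 / 4194304 : ℝ)) (B2 := (32428405 / 268435456 : ℝ)) (l := (8733 / 262144 : ℝ)) (u := (8907 / 262144 : ℝ))
    (E := (-219460779 / 4194304 : ℝ)) (F := (-17034725 / 134217728 : ℝ)) (δ := (1 / 1073741824 : ℝ)) (by norm_num) (by norm_num) (by norm_num) (by norm_num) (by norm_num)
    (by norm_num) (by norm_num) (by norm_num) (by norm_num) (by norm_num) (by norm_num) (by norm_num) (by norm_num) (by norm_num) (by norm_num)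
  have e1 : P0C4.l = (8733 / 262144 : ℝ) := rfl
  have e2 : P0C4.u = (8907 / 262144 : ℝ) := rfl
  have e3 : P0C4.a1 = -(2268635 / 2097152 : ℝ) := by norm_num [P0C4]
  have e4 : P0C4.a2 = -(258615143 / 4194304 : ℝ) := by norm_num [P0C4]
  have e5 : P0C4.e = (-219460779 / 4194304 : ℝ) := rfl
  have e6 : P0C4.f = (158741 / 134217728 : ℝ) + (32428405 / 268435456 : ℝ) + (-17034725 / 134217728 : ℝ) + (1 / 1073741824 : ℝ) := by norm_num [P0C4]
  rw [e1, e2, e3, e4, e5, e6]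
  exact h

lemma rP0C5 : ∃ N : ℝ, Rw4 P.r2 N (coCell (243 / 1024 : ℝ) (3571 / 256 : ℝ) (12 : ℝ) 0 P0C5) := by
  refine ⟨(3221225472 : ℝ), ⟨Q33, List.mem_cons_of_mem _ (List.mem_cons_of_mem _ (List.mem_cons_of_mem _ (List.mem_cons_of_mem _ (List.mem_cons_of_mem _ (List.mem_cons_of_mem _ (List.mem_cons_of_mem _ (List.mem_cons_of_mem _ (List.mem_cons_of_mem _ (List.mem_cons_of_mem _ (List.mem_cons_of_mem _ (List.mem_cons_of_mem _ (List.mem_cons_of_mem _ (List.mem_cons_of_mem _ (List.mem_cons_of_mem _ (List.mem_cons_of_mem _ (List.mem_cons_of_mem _ (List.mem_cons_of_mem _ (List.mem_cons_of_mem _ (List.mem_cons_of_mem _ (List.mem_cons_of_mem _ (List.mem_cons_of_mem _ (List.mem_cons_of_mem _ (List.mem_cons_of_mem _ (List.mem_cons_of_mem _ (List.mem_cons_of_mem _ (List.mem_cons_of_mem _ (List.mem_cons_of_mem _ (List.mem_cons_of_mem _ (List.mem_cons_of_mem _ (List.mem_cons_of_mem _ (List.mem_cons_of_mem _ (List.mem_cons_of_mem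 _ (List.mem_cons_self))))))))))))))))))))))))))))))))), ?_⟩, by norm_num⟩
  constructor <;> norm_num [Q33, coCell, P0C5]

lemma lP0C5 : ∀ x1 x2 xc : ℝ, 0 ≤ x1 → x1 ≤ 1 → 0 ≤ x2 → x2 ≤ 1 → P0C5.l ≤ xc → xc ≤ P0C5.u →
    (243 / 1024 : ℝ) * (1 - (1 - x1) ^ 5) + (3571 / 256 : ℝ) * (1 - (1 - x2) ^ 5) - (12 : ℝ) * (1 - (1 - xc) ^ 5) + (1 / 1073741824 : ℝ)
      ≤ - P0C5.a1 * x1 - P0C5.a2 * x2 + P0C5.e * xc + P0C5.f := by
  have h := cell_lines_delta 5 (α1 := (243 / 1024 : ℝ)) (α2 := (3571 / 256 : ℝ)) (c := (12 : ℝ)) (y1 := (5789 / 262144 : ℝ)) (y2 := (8141 / 262144 : ℝ))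
    (A1 := (2275693 / 2097152 : ℝ)) (B1 := (297183 / 268435456 : ℝ)) (A2 := (16115935 / 262144 : ℝ)) (B2 := (8480491 / 67108864 : ℝ)) (l := (8907 / 262144 : ℝ)) (u := (9085 / 262144 : ℝ))
    (E := (-218851525 / 4194304 : ℝ)) (F := (-17697155 / 134217728 : ℝ)) (δ := (1 / 1073741824 : ℝ)) (by norm_num) (by norm_num) (by norm_num) (by norm_num) (by norm_num)
    (by norm_num) (by norm_num) (by norm_num) (by norm_num) (by norm_num) (by norm_num) (by norm_num) (by norm_num) (by norm_num) (by norm_num)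
  have e1 : P0C5.l = (8907 / 262144 : ℝ) := rfl
  have e2 : P0C5.u = (9085 / 262144 : ℝ) := rfl
  have e3 : P0C5.a1 = -(2275693 / 2097152 : ℝ) := by norm_num [P0C5]
  have e4 : P0C5.a2 = -(16115935 / 262144 : ℝ) := by norm_num [P0C5]
  have e5 : P0C5.e = (-218851525 / 4194304 : ℝ) := rfl
  have e6 : P0C5.f = (297183 / 268435456 : ℝ) + (8480491 / 67108864 : ℝ) + (-17697155 / 134217728 : ℝ) + (1 / 1073741824 : ℝ) := by norm_num [P0C5]
  rw [e1, e2, e3, e4, e5, e6]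
  exact h

lemma rP0C6 : ∃ N : ℝ, Rw4 P.r2 N (coCell (243 / 1024 : ℝ) (3571 / 256 : ℝ) (12 : ℝ) 0 P0C6) := by
  refine ⟨(3221225472 : ℝ), ⟨Q34, List.mem_cons_of_mem _ (List.mem_cons_of_mem _ (List.mem_cons_of_mem _ (List.mem_cons_of_mem _ (List.mem_cons_of_mem _ (List.mem_cons_of_mem _ (List.mem_cons_of_mem _ (List.mem_cons_of_mem _ (List.mem_cons_of_mem _ (List.mem_cons_of_mem _ (List.mem_cons_of_mem _ (List.mem_cons_of_mem _ (List.mem_cons_of_mem _ (List.mem_cons_of_mem _ (List.mem_cons_of_mem _ (List.mem_cons_of_mem _ (List.mem_cons_of_mem _ (List.mem_cons_of_mem _ (List.mem_cons_of_mem _ (List.mem_cons_of_mem _ (List.mem_cons_of_mem _ (List.mem_cons_of_mem _ (List.mem_cons_of_mem _ (List.mem_cons_of_mem _ (List.mem_cons_of_mem _ (List.mem_cons_of_mem _ (List.mem_cons_of_mem _ (List.mem_cons_of_mem _ (List.mem_cons_of_mem _ (List.mem_cons_of_mem _ (List.mem_cons_of_mem _ (List.mem_cons_of_mem _ (List.mem_cons_of_mem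 _ (List.mem_cons_of_mem _ (List.mem_cons_self)))))))))))))))))))))))))))))))))), ?_⟩, by norm_num⟩
  constructor <;> norm_num [Q34, coCell, P0C6]

lemma lP0C6 : ∀ x1 x2 xc : ℝ, 0 ≤ x1 → x1 ≤ 1 → 0 ≤ x2 → x2 ≤ 1 → P0C6.l ≤ xc → xc ≤ P0C6.u →
    (243 / 1024 : ℝ) * (1 - (1 - x1) ^ 5) + (3571 / 256 : ℝ) * (1 - (1 - x2) ^ 5) - (12 : ℝ) * (1 - (1 - xc) ^ 5) + (1 / 1073741824 : ℝ)
      ≤ - P0C6.a1 * x1 - P0C6.a2 * x2 + P0C6.e * xc + P0C6.f := by
  have h := cell_lines_delta 5 (α1 := (243 / 1024 : ℝ)) (α2 := (3571 / 256 : ℝ)) (c := (12 : ℝ)) (y1 := (6853 / 262144 : ℝ)) (y2 := (8309 / 262144 : ℝ))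
    (A1 := (2238147 / 2097152 : ℝ)) (B1 := (206511 / 134217728 : ℝ)) (A2 := (128586723 / 2097152 : ℝ)) (B2 := (8822615 / 67108864 : ℝ)) (l := (9085 / 262144 : ℝ)) (u := (9267 / 262144 : ℝ))
    (E := (-218229737 / 4194304 : ℝ)) (F := (-36773447 / 268435456 : ℝ)) (δ := (1 / 1073741824 : ℝ)) (by norm_num) (by norm_num) (by norm_num) (by norm_num) (by norm_num)
    (by norm_num) (by norm_num) (by norm_num) (by norm_num) (by norm_num) (by norm_num) (by norm_num) (by norm_num) (by norm_num) (by norm_num)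
  have e1 : P0C6.l = (9085 / 262144 : ℝ) := rfl
  have e2 : P0C6.u = (9267 / 262144 : ℝ) := rfl
  have e3 : P0C6.a1 = -(2238147 / 2097152 : ℝ) := by norm_num [P0C6]
  have e4 : P0C6.a2 = -(128586723 / 2097152 : ℝ) := by norm_num [P0C6]
  have e5 : P0C6.e = (-218229737 / 4194304 : ℝ) := rfl
  have e6 : P0C6.f = (206511 / 134217728 : ℝ) + (8822615 / 67108864 : ℝ) + (-36773447 / 268435456 : ℝ) + (1 / 1073741824 : ℝ) := by norm_num [P0C6]
  rw [e1, e2, e3, e4, e5, e6]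
  exact h

lemma rP0C7 : ∃ N : ℝ, Rw4 P.r2 N (coCell (243 / 1024 : ℝ) (3571 / 256 : ℝ) (12 : ℝ) 0 P0C7) := by
  refine ⟨(3221225472 : ℝ), ⟨Q35, List.mem_cons_of_mem _ (List.mem_cons_of_mem _ (List.mem_cons_of_mem _ (List.mem_cons_of_mem _ (List.mem_cons_of_mem _ (List.mem_cons_of_mem _ (List.mem_cons_of_mem _ (List.mem_cons_of_mem _ (List.mem_cons_of_mem _ (List.mem_cons_of_mem _ (List.mem_cons_of_mem _ (List.mem_cons_of_mem _ (List.mem_cons_of_mem _ (List.mem_cons_of_mem _ (List.mem_cons_of_mem _ (List.mem_cons_of_mem _ (List.mem_cons_of_mem _ (List.mem_cons_of_mem _ (List.mem_cons_of_mem _ (List.mem_cons_of_mem _ (List.mem_cons_of_mem _ (List.mem_cons_of_mem _ (List.mem_cons_of_mem _ (List.mem_cons_of_mem _ (List.mem_cons_of_mem _ (List.mem_cons_of_mem _ (List.mem_cons_of_mem _ (List.mem_cons_of_mem _ (List.mem_cons_of_mem _ (List.mem_cons_of_mem _ (List.mem_cons_of_mem _ (List.mem_cons_of_mem _ (List.mem_cons_of_mem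 _ (List.mem_cons_of_mem _ (List.mem_cons_of_mem _ (List.mem_cons_self))))))))))))))))))))))))))))))))))), ?_⟩, by norm_num⟩
  constructor <;> norm_num [Q35, coCell, P0C7]

lemma lP0C7 : ∀ x1 x2 xc : ℝ, 0 ≤ x1 → x1 ≤ 1 → 0 ≤ x2 → x2 ≤ 1 → P0C7.l ≤ xc → xc ≤ P0C7.u →
    (243 / 1024 : ℝ) * (1 - (1 - x1) ^ 5) + (3571 / 256 : ℝ) * (1 - (1 - x2) ^ 5) - (12 : ℝ) * (1 - (1 - xc) ^ 5) + (1 / 1073741824 : ℝ)
      ≤ - P0C7.a1 * x1 - P0C7.a2 * x2 + P0C7.e * xc + P0C7.f := by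
  have h := cell_lines_delta 5 (α1 := (243 / 1024 : ℝ)) (α2 := (3571 / 256 : ℝ)) (c := (12 : ℝ)) (y1 := (6965 / 262144 : ℝ)) (y2 := (2115 / 65536 : ℝ))
    (A1 := (4468443 / 4194304 : ℝ)) (B1 := (426289 / 268435456 : ℝ)) (A2 := (2004391 / 32768 : ℝ)) (B2 := (36541987 / 268435456 : ℝ)) (l := (9267 / 262144 : ℝ)) (u := (2363 / 65536 : ℝ))
    (E := (-108798611 / 2097152 : ℝ)) (F := (-38204481 / 268435456 : ℝ)) (δ := (1 / 1073741824 : ℝ)) (by norm_num) (by norm_num) (by norm_num) (by norm_num) (by norm_num)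
    (by norm_num) (by norm_num) (by norm_num) (by norm_num) (by norm_num) (by norm_num) (by norm_num) (by norm_num) (by norm_num) (by norm_num)
  have e1 : P0C7.l = (9267 / 262144 : ℝ) := rfl
  have e2 : P0C7.u = (2363 / 65536 : ℝ) := rfl
  have e3 : P0C7.a1 = -(4468443 / 4194304 : ℝ) := by norm_num [P0C7]
  have e4 : P0C7.a2 = -(2004391 / 32768 : ℝ) := by norm_num [P0C7]
  have e5 : P0C7.e = (-108798611 / 2097152 : ℝ) := rfl
  have e6 : P0C7.f = (426289 / 268435456 : ℝ) + (36541987 / 268435456 : ℝ) + (-38204481 / 268435456 : ℝ) + (1 / 1073741824 : ℝ) := by norm_num [P0C7]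
  rw [e1, e2, e3, e4, e5, e6]
  exact h

lemma rP0C8 : ∃ N : ℝ, Rw4 P.r2 N (coCell (243 / 1024 : ℝ) (3571 / 256 : ℝ) (12 : ℝ) 0 P0C8) := by
  refine ⟨(3221225472 : ℝ), ⟨Q36, List.mem_cons_of_mem _ (List.mem_cons_of_mem _ (List.mem_cons_of_mem _ (List.mem_cons_of_mem _ (List.mem_cons_of_mem _ (List.mem_cons_of_mem _ (List.mem_cons_of_mem _ (List.mem_cons_of_mem _ (List.mem_cons_of_mem _ (List.mem_cons_of_mem _ (List.mem_cons_of_mem _ (List.mem_cons_of_mem _ (List.mem_cons_of_mem _ (List.mem_cons_of_mem _ (List.mem_cons_of_mem _ (List.mem_cons_of_mem _ (List.mem_cons_of_mem _ (List.mem_cons_of_mem _ (List.mem_cons_of_mem _ (List.mem_cons_of_mem _ (List.mem_cons_of_mem _ (List.mem_cons_of_mem _ (List.mem_cons_of_mem _ (List.mem_cons_of_mem _ (List.mem_cons_of_mem _ (List.mem_cons_of_mem _ (List.mem_cons_of_mem _ (List.mem_cons_of_mem _ (List.mem_cons_of_mem _ (List.mem_cons_of_mem _ (List.mem_cons_of_mem _ (List.mem_cons_of_mem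 _ (List.mem_cons_of_mem _ (List.mem_cons_of_mem _ (List.mem_cons_of_mem _ (List.mem_cons_of_mem _ (List.mem_cons_self)))))))))))))))))))))))))))))))))))), ?_⟩, by norm_num⟩
  constructor <;> norm_num [Q36, coCell, P0C8]

lemma lP0C8 : ∀ x1 x2 xc : ℝ, 0 ≤ x1 → x1 ≤ 1 → 0 ≤ x2 → x2 ≤ 1 → P0C8.l ≤ xc → xc ≤ P0C8.u →
    (243 / 1024 : ℝ) * (1 - (1 - x1) ^ 5) + (3571 / 256 : ℝ) * (1 - (1 - x2) ^ 5) - (12 : ℝ) * (1 - (1 - xc) ^ 5) + (1 / 1073741824 : ℝ)
      ≤ - P0C8.a1 * x1 - P0C8.a2 * x2 + P0C8.e * xc + P0C8.f := by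
  have h := cell_lines_delta 5 (α1 := (243 / 1024 : ℝ)) (α2 := (3571 / 256 : ℝ)) (c := (12 : ℝ)) (y1 := (6853 / 262144 : ℝ)) (y2 := (8637 / 262144 : ℝ))
    (A1 := (2238147 / 2097152 : ℝ)) (B1 := (206511 / 134217728 : ℝ)) (A2 := (255846765 / 4194304 : ℝ)) (B2 := (9508701 / 67108864 : ℝ)) (l := (2363 / 65536 : ℝ)) (u := (9641 / 262144 : ℝ))
    (E := (-216954059 / 4194304 : ℝ)) (F := (-39688655 / 268435456 : ℝ)) (δ := (1 / 1073741824 : ℝ)) (by norm_num) (by norm_num) (by norm_num) (by norm_num) (by norm_num)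
    (by norm_num) (by norm_num) (by norm_num) (by norm_num) (by norm_num) (by norm_num) (by norm_num) (by norm_num) (by norm_num) (by norm_num)
  have e1 : P0C8.l = (2363 / 65536 : ℝ) := rfl
  have e2 : P0C8.u = (9641 / 262144 : ℝ) := rfl
  have e3 : P0C8.a1 = -(2238147 / 2097152 : ℝ) := by norm_num [P0C8]
  have e4 : P0C8.a2 = -(255846765 / 4194304 : ℝ) := by norm_num [P0C8]
  have e5 : P0C8.e = (-216954059 / 4194304 : ℝ) := rfl
  have e6 : P0C8.f = (206511 / 134217728 : ℝ) + (9508701 / 67108864 : ℝ) + (-39688655 / 268435456 : ℝ) + (1 / 1073741824 : ℝ) := by norm_num [P0C8]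
  rw [e1, e2, e3, e4, e5, e6]
  exact h

lemma rP0C9 : ∃ N : ℝ, Rw4 P.r2 N (coCell (243 / 1024 : ℝ) (3571 / 256 : ℝ) (12 : ℝ) 0 P0C9) := by
  refine ⟨(3221225472 : ℝ), ⟨Q37, List.mem_cons_of_mem _ (List.mem_cons_of_mem _ (List.mem_cons_of_mem _ (List.mem_cons_of_mem _ (List.mem_cons_of_mem _ (List.mem_cons_of_mem _ (List.mem_cons_of_mem _ (List.mem_cons_of_mem _ (List.mem_cons_of_mem _ (List.mem_cons_of_mem _ (List.mem_cons_of_mem _ (List.mem_cons_of_mem _ (List.mem_cons_of_mem _ (List.mem_cons_of_mem _ (List.mem_cons_of_mem _ (List.mem_cons_of_mem _ (List.mem_cons_of_mem _ (List.mem_cons_of_mem _ (List.mem_cons_of_mem _ (List.mem_cons_of_mem _ (List.mem_cons_of_mem _ (List.mem_cons_of_mem _ (List.mem_cons_of_mem _ (List.mem_cons_of_mem _ (List.mem_cons_of_mem _ (List.mem_cons_of_mem _ (List.mem_cons_of_mem _ (List.mem_cons_of_mem _ (List.mem_cons_of_mem _ (List.mem_cons_of_mem _ (List.mem_cons_of_mem _ (List.mem_cons_of_mem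 _ (List.mem_cons_of_mem _ (List.mem_cons_of_mem _ (List.mem_cons_of_mem _ (List.mem_cons_of_mem _ (List.mem_cons_of_mem _ (List.mem_cons_self))))))))))))))))))))))))))))))))))))), ?_⟩, by norm_num⟩
  constructor <;> norm_num [Q37, coCell, P0C9]

lemma lP0C9 : ∀ x1 x2 xc : ℝ, 0 ≤ x1 → x1 ≤ 1 → 0 ≤ x2 → x2 ≤ 1 → P0C9.l ≤ xc → xc ≤ P0C9.u →
    (243 / 1024 : ℝ) * (1 - (1 - x1) ^ 5) + (3571 / 256 : ℝ) * (1 - (1 - x2) ^ 5) - (12 : ℝ) * (1 - (1 - xc) ^ 5) + (1 / 1073741824 : ℝ)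
      ≤ - P0C9.a1 * x1 - P0C9.a2 * x2 + P0C9.e * xc + P0C9.f := by
  have h := cell_lines_delta 5 (α1 := (243 / 1024 : ℝ)) (α2 := (3571 / 256 : ℝ)) (c := (12 : ℝ)) (y1 := (891 / 32768 : ℝ)) (y2 := (2203 / 65536 : ℝ))
    (A1 := (4457037 / 4194304 : ℝ)) (B1 := (55737 / 33554432 : ℝ)) (A2 := (255141035 / 4194304 : ℝ)) (B2 := (39538015 / 268435456 : ℝ)) (l := (9641 / 262144 : ℝ)) (u := (4917 / 131072 : ℝ))
    (E := (-54074653 / 1048576 : ℝ)) (F := (-10307855 / 67108864 : ℝ)) (δ := (1 / 1073741824 : ℝ)) (by norm_num) (by norm_num) (by norm_num) (by norm_num) (by norm_num)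
    (by norm_num) (by norm_num) (by norm_num) (by norm_num) (by norm_num) (by norm_num) (by norm_num) (by norm_num) (by norm_num) (by norm_num)
  have e1 : P0C9.l = (9641 / 262144 : ℝ) := rfl
  have e2 : P0C9.u = (4917 / 131072 : ℝ) := rfl
  have e3 : P0C9.a1 = -(4457037 / 4194304 : ℝ) := by norm_num [P0C9]
  have e4 : P0C9.a2 = -(255141035 / 4194304 : ℝ) := by norm_num [P0C9]
  have e5 : P0C9.e = (-54074653 / 1048576 : ℝ) := rfl
  have e6 : P0C9.f = (55737 / 33554432 : ℝ) + (39538015 / 268435456 : ℝ) + (-10307855 / 67108864 : ℝ) + (1 / 1073741824 : ℝ) := by norm_num [P0C9]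
  rw [e1, e2, e3, e4, e5, e6]
  exact h

lemma rP0C10 : ∃ N : ℝ, Rw4 P.r2 N (coCell (243 / 1024 : ℝ) (3571 / 256 : ℝ) (12 : ℝ) 0 P0C10) := by
  refine ⟨(3221225472 : ℝ), ⟨Q38, List.mem_cons_of_mem _ (List.mem_cons_of_mem _ (List.mem_cons_of_mem _ (List.mem_cons_of_mem _ (List.mem_cons_of_mem _ (List.mem_cons_of_mem _ (List.mem_cons_of_mem _ (List.mem_cons_of_mem _ (List.mem_cons_of_mem _ (List.mem_cons_of_mem _ (List.mem_cons_of_mem _ (List.mem_cons_of_mem _ (List.mem_cons_of_mem _ (List.mem_cons_of_mem _ (List.mem_cons_of_mem _ (List.mem_cons_of_mem _ (List.mem_cons_of_mem _ (List.mem_cons_of_mem _ (List.mem_cons_of_mem _ (List.mem_cons_of_mem _ (List.mem_cons_of_mem _ (List.mem_cons_of_mem _ (List.mem_cons_of_mem _ (List.mem_cons_of_mem _ (List.mem_cons_of_mem _ (List.mem_cons_of_mem _ (List.mem_cons_of_mem _ (List.mem_cons_of_mem _ (List.mem_cons_of_mem _ (List.mem_cons_of_mem _ (List.mem_cons_of_mem _ (List.mem_cons_of_mem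 _ (List.mem_cons_of_mem _ (List.mem_cons_of_mem _ (List.mem_cons_of_mem _ (List.mem_cons_of_mem _ (List.mem_cons_of_mem _ (List.mem_cons_of_mem _ (List.mem_cons_self)))))))))))))))))))))))))))))))))))))), ?_⟩, by norm_num⟩
  constructor <;> norm_num [Q38, coCell, P0C10]

lemma lP0C10 : ∀ x1 x2 xc : ℝ, 0 ≤ x1 → x1 ≤ 1 → 0 ≤ x2 → x2 ≤ 1 → P0C10.l ≤ xc → xc ≤ P0C10.u →
    (243 / 1024 : ℝ) * (1 - (1 - x1) ^ 5) + (3571 / 256 : ℝ) * (1 - (1 - x2) ^ 5) - (12 : ℝ) * (1 - (1 - xc) ^ 5) + (1 / 1073741824 : ℝ)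
      ≤ - P0C10.a1 * x1 - P0C10.a2 * x2 + P0C10.e * xc + P0C10.f := by
  have h := cell_lines_delta 5 (α1 := (243 / 1024 : ℝ)) (α2 := (3571 / 256 : ℝ)) (c := (12 : ℝ)) (y1 := (1893 / 65536 : ℝ)) (y2 := (2247 / 65536 : ℝ))
    (A1 := (2213039 / 2097152 : ℝ)) (B1 := (250723 / 134217728 : ℝ)) (A2 := (127216373 / 2097152 : ℝ)) (B2 := (41077035 / 268435456 : ℝ)) (l := (4917 / 131072 : ℝ)) (u := (10031 / 262144 : ℝ))
    (E := (-53907743 / 1048576 : ℝ)) (F := (-42834343 / 268435456 : ℝ)) (δ := (1 / 1073741824 : ℝ)) (by norm_num) (by norm_num) (by norm_num) (by norm_num) (by norm_num)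
    (by norm_num) (by norm_num) (by norm_num) (by norm_num) (by norm_num) (by norm_num) (by norm_num) (by norm_num) (by norm_num) (by norm_num)
  have e1 : P0C10.l = (4917 / 131072 : ℝ) := rfl
  have e2 : P0C10.u = (10031 / 262144 : ℝ) := rfl
  have e3 : P0C10.a1 = -(2213039 / 2097152 : ℝ) := by norm_num [P0C10]
  have e4 : P0C10.a2 = -(127216373 / 2097152 : ℝ) := by norm_num [P0C10]
  have e5 : P0C10.e = (-53907743 / 1048576 : ℝ) := rfl
  have e6 : P0C10.f = (250723 / 134217728 : ℝ) + (41077035 / 268435456 : ℝ) + (-42834343 / 268435456 : ℝ) + (1 / 1073741824 : ℝ) := by norm_num [P0C10]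
  rw [e1, e2, e3, e4, e5, e6]
  exact h

lemma rP0C11 : ∃ N : ℝ, Rw4 P.r2 N (coCell (243 / 1024 : ℝ) (3571 / 256 : ℝ) (12 : ℝ) 0 P0C11) := by
  refine ⟨(3221225472 : ℝ), ⟨Q39, List.mem_cons_of_mem _ (List.mem_cons_of_mem _ (List.mem_cons_of_mem _ (List.mem_cons_of_mem _ (List.mem_cons_of_mem _ (List.mem_cons_of_mem _ (List.mem_cons_of_mem _ (List.mem_cons_of_mem _ (List.mem_cons_of_mem _ (List.mem_cons_of_mem _ (List.mem_cons_of_mem _ (List.mem_cons_of_mem _ (List.mem_cons_of_mem _ (List.mem_cons_of_mem _ (List.mem_cons_of_mem _ (List.mem_cons_of_mem _ (List.mem_cons_of_mem _ (List.mem_cons_of_mem _ (List.mem_cons_of_mem _ (List.mem_cons_of_mem _ (List.mem_cons_of_mem _ (List.mem_cons_of_mem _ (List.mem_cons_of_mem _ (List.mem_cons_of_mem _ (List.mem_cons_of_mem _ (List.mem_cons_of_mem _ (List.mem_cons_of_mem _ (List.mem_cons_of_mem _ (List.mem_cons_of_mem _ (List.mem_cons_of_mem _ (List.mem_cons_of_mem _ (List.mem_cons_of_mem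 _ (List.mem_cons_of_mem _ (List.mem_cons_of_mem _ (List.mem_cons_of_mem _ (List.mem_cons_of_mem _ (List.mem_cons_of_mem _ (List.mem_cons_of_mem _ (List.mem_cons_of_mem _ (List.mem_cons_self))))))))))))))))))))))))))))))))))))))), ?_⟩, by norm_num⟩
  constructor <;> norm_num [Q39, coCell, P0C11]

lemma lP0C11 : ∀ x1 x2 xc : ℝ, 0 ≤ x1 → x1 ≤ 1 → 0 ≤ x2 → x2 ≤ 1 → P0C11.l ≤ xc → xc ≤ P0C11.u →
    (243 / 1024 : ℝ) * (1 - (1 - x1) ^ 5) + (3571 / 256 : ℝ) * (1 - (1 - x2) ^ 5) - (12 : ℝ) * (1 - (1 - xc) ^ 5) + (1 / 1073741824 : ℝ)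
      ≤ - P0C11.a1 * x1 - P0C11.a2 * x2 + P0C11.e * xc + P0C11.f := by
  have h := cell_lines_delta 5 (α1 := (243 / 1024 : ℝ)) (α2 := (3571 / 256 : ℝ)) (c := (12 : ℝ)) (y1 := (3863 / 131072 : ℝ)) (y2 := (2293 / 65536 : ℝ))
    (A1 := (2207689 / 2097152 : ℝ)) (B1 := (130355 / 67108864 : ℝ)) (A2 := (253693841 / 4194304 : ℝ)) (B2 := (42715005 / 268435456 : ℝ)) (l := (10031 / 262144 : ℝ)) (u := (1279 / 32768 : ℝ))
    (E := (-214951231 / 4194304 : ℝ)) (F := (-44499011 / 268435456 : ℝ)) (δ := (1 / 1073741824 : ℝ)) (by norm_num) (by norm_num) (by norm_num) (by norm_num) (by norm_num)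
    (by norm_num) (by norm_num) (by norm_num) (by norm_num) (by norm_num) (by norm_num) (by norm_num) (by norm_num) (by norm_num) (by norm_num)
  have e1 : P0C11.l = (10031 / 262144 : ℝ) := rfl
  have e2 : P0C11.u = (1279 / 32768 : ℝ) := rfl
  have e3 : P0C11.a1 = -(2207689 / 2097152 : ℝ) := by norm_num [P0C11]
  have e4 : P0C11.a2 = -(253693841 / 4194304 : ℝ) := by norm_num [P0C11]
  have e5 : P0C11.e = (-214951231 / 4194304 : ℝ) := rfl
  have e6 : P0C11.f = (130355 / 67108864 : ℝ) + (42715005 / 268435456 : ℝ) + (-44499011 / 268435456 : ℝ) + (1 / 1073741824 : ℝ) := by norm_num [P0C11]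
  rw [e1, e2, e3, e4, e5, e6]
  exact h

lemma rP0C12 : ∃ N : ℝ, Rw4 P.r2 N (coCell (243 / 1024 : ℝ) (3571 / 256 : ℝ) (12 : ℝ) 0 P0C12) := by
  refine ⟨(3221225472 : ℝ), ⟨Q40, List.mem_cons_of_mem _ (List.mem_cons_of_mem _ (List.mem_cons_of_mem _ (List.mem_cons_of_mem _ (List.mem_cons_of_mem _ (List.mem_cons_of_mem _ (List.mem_cons_of_mem _ (List.mem_cons_of_mem _ (List.mem_cons_of_mem _ (List.mem_cons_of_mem _ (List.mem_cons_of_mem _ (List.mem_cons_of_mem _ (List.mem_cons_of_mem _ (List.mem_cons_of_mem _ (List.mem_cons_of_mem _ (List.mem_cons_of_mem _ (List.mem_cons_of_mem _ (List.mem_cons_of_mem _ (List.mem_cons_of_mem _ (List.mem_cons_of_mem _ (List.mem_cons_of_mem _ (List.mem_cons_of_mem _ (List.mem_cons_of_mem _ (List.mem_cons_of_mem _ (List.mem_cons_of_mem _ (List.mem_cons_of_mem _ (List.mem_cons_of_mem _ (List.mem_cons_of_mem _ (List.mem_cons_of_mem _ (List.mem_cons_of_mem _ (List.mem_cons_of_mem _ (List.mem_cons_of_mem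 _ (List.mem_cons_of_mem _ (List.mem_cons_of_mem _ (List.mem_cons_of_mem _ (List.mem_cons_of_mem _ (List.mem_cons_of_mem _ (List.mem_cons_of_mem _ (List.mem_cons_of_mem _ (List.mem_cons_of_mem _ (List.mem_cons_self)))))))))))))))))))))))))))))))))))))))), ?_⟩, by norm_num⟩
  constructor <;> norm_num [Q40, coCell, P0C12]

lemma lP0C12 : ∀ x1 x2 xc : ℝ, 0 ≤ x1 → x1 ≤ 1 → 0 ≤ x2 → x2 ≤ 1 → P0C12.l ≤ xc → xc ≤ P0C12.u →
    (243 / 1024 : ℝ) * (1 - (1 - x1) ^ 5) + (3571 / 256 : ℝ) * (1 - (1 - x2) ^ 5) - (12 : ℝ) * (1 - (1 - xc) ^ 5) + (1 / 1073741824 : ℝ)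
      ≤ - P0C12.a1 * x1 - P0C12.a2 * x2 + P0C12.e * xc + P0C12.f := by
  have h := cell_lines_delta 5 (α1 := (243 / 1024 : ℝ)) (α2 := (3571 / 256 : ℝ)) (c := (12 : ℝ)) (y1 := (7769 / 262144 : ℝ)) (y2 := (1173 / 32768 : ℝ))
    (A1 := (2206197 / 2097152 : ℝ)) (B1 := (65883 / 33554432 : ℝ)) (A2 := (252844489 / 4194304 : ℝ)) (B2 := (44638915 / 268435456 : ℝ)) (l := (1279 / 32768 : ℝ)) (u := (5243 / 131072 : ℝ))
    (E := (-53544037 / 1048576 : ℝ)) (F := (-46435205 / 268435456 : ℝ)) (δ := (1 / 1073741824 : ℝ)) (by norm_num) (by norm_num) (by norm_num) (by norm_num) (by norm_num)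
    (by norm_num) (by norm_num) (by norm_num) (by norm_num) (by norm_num) (by norm_num) (by norm_num) (by norm_num) (by norm_num) (by norm_num)
  have e1 : P0C12.l = (1279 / 32768 : ℝ) := rfl
  have e2 : P0C12.u = (5243 / 131072 : ℝ) := rfl
  have e3 : P0C12.a1 = -(2206197 / 2097152 : ℝ) := by norm_num [P0C12]
  have e4 : P0C12.a2 = -(252844489 / 4194304 : ℝ) := by norm_num [P0C12]
  have e5 : P0C12.e = (-53544037 / 1048576 : ℝ) := rfl
  have e6 : P0C12.f = (65883 / 33554432 : ℝ) + (44638915 / 268435456 : ℝ) + (-46435205 / 268435456 : ℝ) + (1 / 1073741824 : ℝ) := by norm_num [P0C12]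
  rw [e1, e2, e3, e4, e5, e6]
  exact h

/-- A link of the chain. -/
lemma link0 {lam : ℝ} (h0 : -(1 / 2) < lam) (h1 : lam < 1) (hB : BoxS lam P 0 HH 0 HH)
    (h : ∃ n, 1 - En 5 lam n mc ≤ (5243 / 131072 : ℝ)) : ∃ n, 1 - En 5 lam n mc ≤ (1 / 32 : ℝ) :=
  phase_of_box (by norm_num) h0 h1 hB (243 / 1024 : ℝ) (3571 / 256 : ℝ) (12 : ℝ) (1 / 1073741824 : ℝ) (1 / 32 : ℝ) (5243 / 131072 : ℝ) (by norm_num) cellsP0 hcoverP0
    (forall_cons lP0C0 (forall_cons lP0C1 (forall_cons lP0C2 (forall_cons lP0C3 (forall_cons lP0C4 (forall_cons lP0C5 (forall_cons lP0C6 (forall_cons lP0C7 (forall_cons lP0C8 (forall_cons lP0C9 (forall_cons lP0C10 (forall_cons lP0C11 (forall_cons lP0C12 (forall_nil)))))))))))))) (forall_cons rP0C0 (forall_cons rP0C1 (forall_cons rP0C2 (forall_cons rP0C3 (forall_cons rP0C4 (forall_cons rP0C5 (forall_cons rP0C6 (forall_cons rP0C7 (forall_cons rP0C8 (forall_cons rP0C9 (forall_cons rP0C10 (forall_cons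 rP0C11 (forall_cons rP0C12 (forall_nil)))))))))))))) h

/-- A chord cell of a link. -/
noncomputable def P1C0 : Cell := ⟨(5243 / 131072 : ℝ), (10695 / 262144 : ℝ), (-11264037 / 4194304 : ℝ), (-123973563 / 2097152 : ℝ), (-106694757 / 2097152 : ℝ), (-10430827 / 1073741824 : ℝ)⟩

/-- A chord cell of a link. -/
noncomputable def P1C1 : Cell := ⟨(10695 / 262144 : ℝ), (10909 / 262144 : ℝ), (-2813971 / 1048576 : ℝ), (-61777069 / 1048576 : ℝ), (-53168193 / 1048576 : ℝ), (-10024675 / 1073741824 : ℝ)⟩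

/-- A chord cell of a link. -/
noncomputable def P1C2 : Cell := ⟨(10909 / 262144 : ℝ), (1391 / 32768 : ℝ), (-11156099 / 4194304 : ℝ), (-246314513 / 4194304 : ℝ), (-211940957 / 4194304 : ℝ), (-9438815 / 1073741824 : ℝ)⟩

/-- A chord cell of a link. -/
noncomputable def P1C3 : Cell := ⟨(1391 / 32768 : ℝ), (5675 / 131072 : ℝ), (-10998173 / 4194304 : ℝ), (-245542145 / 4194304 : ℝ), (-105598781 / 2097152 : ℝ), (-8601271 / 1073741824 : ℝ)⟩

/-- A chord cell of a link. -/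
noncomputable def P1C4 : Cell := ⟨(5675 / 131072 : ℝ), (11577 / 262144 : ℝ), (-11157859 / 4194304 : ℝ), (-61132671 / 1048576 : ℝ), (-210442695 / 4194304 : ℝ), (-8313843 / 1073741824 : ℝ)⟩

/-- A chord cell of a link. -/
noncomputable def P1C5 : Cell := ⟨(11577 / 262144 : ℝ), (11809 / 262144 : ℝ), (-2779795 / 1048576 : ℝ), (-121796029 / 2097152 : ℝ), (-52418277 / 1048576 : ℝ), (-7110687 / 1073741824 : ℝ)⟩

/-- A chord cell of a link. -/
noncomputable def P1C6 : Cell := ⟨(11809 / 262144 : ℝ), (12045 / 262144 : ℝ), (-2780717 / 1048576 : ℝ), (-15176873 / 262144 : ℝ), (-208890607 / 4194304 : ℝ), (-8229759 / 1073741824 : ℝ)⟩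

/-- A chord cell of a link. -/
noncomputable def P1C7 : Cell := ⟨(12045 / 262144 : ℝ), (6143 / 131072 : ℝ), (-11115669 / 4194304 : ℝ), (-60494291 / 1048576 : ℝ), (-104047657 / 2097152 : ℝ), (-8466835 / 1073741824 : ℝ)⟩

/-- A chord cell of a link. -/
noncomputable def P1C8 : Cell := ⟨(6143 / 131072 : ℝ), (12531 / 262144 : ℝ), (-11111807 / 4194304 : ℝ), (-120544087 / 2097152 : ℝ), (-25910919 / 524288 : ℝ), (-8491215 / 1073741824 : ℝ)⟩

/-- A chord cell of a link. -/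
noncomputable def P1C9 : Cell := ⟨(12531 / 262144 : ℝ), (6391 / 131072 : ℝ), (-5530063 / 2097152 : ℝ), (-240216967 / 4194304 : ℝ), (-206465195 / 4194304 : ℝ), (-8458583 / 1073741824 : ℝ)⟩

/-- A chord cell of a link. -/
noncomputable def P1C10 : Cell := ⟨(6391 / 131072 : ℝ), (6519 / 131072 : ℝ), (-2749935 / 1048576 : ℝ), (-119670239 / 2097152 : ℝ), (-205627335 / 4194304 : ℝ), (-8474199 / 1073741824 : ℝ)⟩

/-- A chord cell of a link. -/
noncomputable def P1C11 : Cell := ⟨(6519 / 131072 : ℝ), (13107 / 262144 : ℝ), (-5474399 / 2097152 : ℝ), (-119393369 / 2097152 : ℝ), (-205091485 / 4194304 : ℝ), (-8465627 / 1073741824 : ℝ)⟩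

/-- The chord cells of a link. -/
noncomputable def cellsP1 : List Cell := [P1C0, P1C1, P1C2, P1C3, P1C4, P1C5, P1C6, P1C7, P1C8, P1C9, P1C10, P1C11]

lemma hcoverP1 : ∀ x : ℝ, (5243 / 131072 : ℝ) ≤ x → x ≤ (13107 / 262144 : ℝ) → ∃ D ∈ cellsP1, D.l ≤ x ∧ x ≤ D.u := by
  refine cover_of_chain ?_ (by norm_num [P1C0])
  simp only [ChainP, P1C0, P1C1, P1C2, P1C3, P1C4, P1C5, P1C6, P1C7, P1C8, P1C9, P1C10, P1C11]
  norm_num

lemma rP1C0 : ∃ N : ℝ, Rw4 P.r2 N (coCell (2491 / 4096 : ℝ) (56087 / 4096 : ℝ) (12 : ℝ) 0 P1C0) := by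
  refine ⟨(3221225472 : ℝ), ⟨Q41, List.mem_cons_of_mem _ (List.mem_cons_of_mem _ (List.mem_cons_of_mem _ (List.mem_cons_of_mem _ (List.mem_cons_of_mem _ (List.mem_cons_of_mem _ (List.mem_cons_of_mem _ (List.mem_cons_of_mem _ (List.mem_cons_of_mem _ (List.mem_cons_of_mem _ (List.mem_cons_of_mem _ (List.mem_cons_of_mem _ (List.mem_cons_of_mem _ (List.mem_cons_of_mem _ (List.mem_cons_of_mem _ (List.mem_cons_of_mem _ (List.mem_cons_of_mem _ (List.mem_cons_of_mem _ (List.mem_cons_of_mem _ (List.mem_cons_of_mem _ (List.mem_cons_of_mem _ (List.mem_cons_of_mem _ (List.mem_cons_of_mem _ (List.mem_cons_of_mem _ (List.mem_cons_of_mem _ (List.mem_cons_of_mem _ (List.mem_cons_of_mem _ (List.mem_cons_of_mem _ (List.mem_cons_of_mem _ (List.mem_cons_of_mem _ (List.mem_cons_of_mem _ (List.mem_cons_of_mem _ (List.mem_cons_of_mem _ (List.mem_cons_of_mem _ (List.mem_cons_of_mem _ (List.mem_cons_of_mem _ (List.mem_cons_of_mem _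 (List.mem_cons_of_mem _ (List.mem_cons_of_mem _ (List.mem_cons_of_mem _ (List.mem_cons_of_mem _ (List.mem_cons_self))))))))))))))))))))))))))))))))))))))))), ?_⟩, by norm_num⟩
  constructor <;> norm_num [Q41, coCell, P1C0]

lemma lP1C0 : ∀ x1 x2 xc : ℝ, 0 ≤ x1 → x1 ≤ 1 → 0 ≤ x2 → x2 ≤ 1 → P1C0.l ≤ xc → xc ≤ P1C0.u →
    (2491 / 4096 : ℝ) * (1 - (1 - x1) ^ 5) + (56087 / 4096 : ℝ) * (1 - (1 - x2) ^ 5) - (12 : ℝ) * (1 - (1 - xc) ^ 5) + (1 / 1073741824 : ℝ)
      ≤ - P1C0.a1 * x1 - P1C0.a2 * x2 + P1C0.e * xc + P1C0.f := by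
  have h := cell_lines_delta 5 (α1 := (2491 / 4096 : ℝ)) (α2 := (56087 / 4096 : ℝ)) (c := (12 : ℝ)) (y1 := (501 / 16384 : ℝ)) (y2 := (9449 / 262144 : ℝ))
    (A1 := (11264037 / 4194304 : ℝ)) (B1 := (1435253 / 268435456 : ℝ)) (A2 := (123973563 / 2097152 : ℝ)) (B2 := (22203037 / 134217728 : ℝ)) (l := (5243 / 131072 : ℝ)) (u := (10695 / 262144 : ℝ))
    (E := (-106694757 / 2097152 : ℝ)) (F := (-24224517 / 134217728 : ℝ)) (δ := (1 / 1073741824 : ℝ)) (by norm_num) (by norm_num) (by norm_num) (by norm_num) (by norm_num)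
    (by norm_num) (by norm_num) (by norm_num) (by norm_num) (by norm_num) (by norm_num) (by norm_num) (by norm_num) (by norm_num) (by norm_num)
  have e1 : P1C0.l = (5243 / 131072 : ℝ) := rfl
  have e2 : P1C0.u = (10695 / 262144 : ℝ) := rfl
  have e3 : P1C0.a1 = -(11264037 / 4194304 : ℝ) := by norm_num [P1C0]
  have e4 : P1C0.a2 = -(123973563 / 2097152 : ℝ) := by norm_num [P1C0]
  have e5 : P1C0.e = (-106694757 / 2097152 : ℝ) := rfl
  have e6 : P1C0.f = (1435253 / 268435456 : ℝ) + (22203037 / 134217728 : ℝ) + (-24224517 / 134217728 : ℝ) + (1 / 1073741824 : ℝ) := by norm_num [P1C0]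
  rw [e1, e2, e3, e4, e5, e6]
  exact h

lemma rP1C1 : ∃ N : ℝ, Rw4 P.r2 N (coCell (2491 / 4096 : ℝ) (56087 / 4096 : ℝ) (12 : ℝ) 0 P1C1) := by
  refine ⟨(3221225472 : ℝ), ⟨Q42, List.mem_cons_of_mem _ (List.mem_cons_of_mem _ (List.mem_cons_of_mem _ (List.mem_cons_of_mem _ (List.mem_cons_of_mem _ (List.mem_cons_of_mem _ (List.mem_cons_of_mem _ (List.mem_cons_of_mem _ (List.mem_cons_of_mem _ (List.mem_cons_of_mem _ (List.mem_cons_of_mem _ (List.mem_cons_of_mem _ (List.mem_cons_of_mem _ (List.mem_cons_of_mem _ (List.mem_cons_of_mem _ (List.mem_cons_of_mem _ (List.mem_cons_of_mem _ (List.mem_cons_of_mem _ (List.mem_cons_of_mem _ (List.mem_cons_of_mem _ (List.mem_cons_of_mem _ (List.mem_cons_of_mem _ (List.mem_cons_of_mem _ (List.mem_cons_of_mem _ (List.mem_cons_of_mem _ (List.mem_cons_of_mem _ (List.mem_cons_of_mem _ (List.mem_cons_of_mem _ (List.mem_cons_of_mem _ (List.mem_cons_of_mem _ (List.mem_cons_of_mem _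 (List.mem_cons_of_mem _ (List.mem_cons_of_mem _ (List.mem_cons_of_mem _ (List.mem_cons_of_mem _ (List.mem_cons_of_mem _ (List.mem_cons_of_mem _ (List.mem_cons_of_mem _ (List.mem_cons_of_mem _ (List.mem_cons_of_mem _ (List.mem_cons_of_mem _ (List.mem_cons_of_mem _ (List.mem_cons_self)))))))))))))))))))))))))))))))))))))))))), ?_⟩, by norm_num⟩
  constructor <;> norm_num [Q42, coCell, P1C1]

lemma lP1C1 : ∀ x1 x2 xc : ℝ, 0 ≤ x1 → x1 ≤ 1 → 0 ≤ x2 → x2 ≤ 1 → P1C1.l ≤ xc → xc ≤ P1C1.u →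
    (2491 / 4096 : ℝ) * (1 - (1 - x1) ^ 5) + (56087 / 4096 : ℝ) * (1 - (1 - x2) ^ 5) - (12 : ℝ) * (1 - (1 - xc) ^ 5) + (1 / 1073741824 : ℝ)
      ≤ - P1C1.a1 * x1 - P1C1.a2 * x2 + P1C1.e * xc + P1C1.f := by
  have h := cell_lines_delta 5 (α1 := (2491 / 4096 : ℝ)) (α2 := (56087 / 4096 : ℝ)) (c := (12 : ℝ)) (y1 := (4031 / 131072 : ℝ)) (y2 := (9663 / 262144 : ℝ))
    (A1 := (2813971 / 1048576 : ℝ)) (B1 := (1451245 / 268435456 : ℝ)) (A2 := (61777069 / 1048576 : ℝ)) (B2 := (46363093 / 268435456 : ℝ)) (l := (10695 / 262144 : ℝ)) (u := (10909 / 262144 : ℝ))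
    (E := (-53168193 / 1048576 : ℝ)) (F := (-50320507 / 268435456 : ℝ)) (δ := (1 / 1073741824 : ℝ)) (by norm_num) (by norm_num) (by norm_num) (by norm_num) (by norm_num)
    (by norm_num) (by norm_num) (by norm_num) (by norm_num) (by norm_num) (by norm_num) (by norm_num) (by norm_num) (by norm_num) (by norm_num)
  have e1 : P1C1.l = (10695 / 262144 : ℝ) := rfl
  have e2 : P1C1.u = (10909 / 262144 : ℝ) := rfl
  have e3 : P1C1.a1 = -(2813971 / 1048576 : ℝ) := by norm_num [P1C1]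
  have e4 : P1C1.a2 = -(61777069 / 1048576 : ℝ) := by norm_num [P1C1]
  have e5 : P1C1.e = (-53168193 / 1048576 : ℝ) := rfl
  have e6 : P1C1.f = (1451245 / 268435456 : ℝ) + (46363093 / 268435456 : ℝ) + (-50320507 / 268435456 : ℝ) + (1 / 1073741824 : ℝ) := by norm_num [P1C1]
  rw [e1, e2, e3, e4, e5, e6]
  exact h

lemma rP1C2 : ∃ N : ℝ, Rw4 P.r2 N (coCell (2491 / 4096 : ℝ) (56087 / 4096 : ℝ) (12 : ℝ) 0 P1C2) := by
  refine ⟨(3221225472 : ℝ), ⟨Q43, List.mem_cons_of_mem _ (List.mem_cons_of_mem _ (List.mem_cons_of_mem _ (List.mem_cons_of_mem _ (List.mem_cons_of_mem _ (List.mem_cons_of_mem _ (List.mem_cons_of_mem _ (List.mem_cons_of_mem _ (List.mem_cons_of_mem _ (List.mem_cons_of_mem _ (List.mem_cons_of_mem _ (List.mem_cons_of_mem _ (List.mem_cons_of_mem _ (List.mem_cons_of_mem _ (List.mem_cons_of_mem _ (List.mem_cons_of_mem _ (List.mem_cons_of_mem _ (List.mem_cons_of_mem _ (List.mem_cons_of_mem _ (List.mem_cons_of_mem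 _ (List.mem_cons_of_mem _ (List.mem_cons_of_mem _ (List.mem_cons_of_mem _ (List.mem_cons_of_mem _ (List.mem_cons_of_mem _ (List.mem_cons_of_mem _ (List.mem_cons_of_mem _ (List.mem_cons_of_mem _ (List.mem_cons_of_mem _ (List.mem_cons_of_mem _ (List.mem_cons_of_mem _ (List.mem_cons_of_mem _ (List.mem_cons_of_mem _ (List.mem_cons_of_mem _ (List.mem_cons_of_mem _ (List.mem_cons_of_mem _ (List.mem_cons_of_mem _ (List.mem_cons_of_mem _ (List.mem_cons_of_mem _ (List.mem_cons_of_mem _ (List.mem_cons_of_mem _ (List.mem_cons_of_mem _ (List.mem_cons_of_mem _ (List.mem_cons_self))))))))))))))))))))))))))))))))))))))))))), ?_⟩, by norm_num⟩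
  constructor <;> norm_num [Q43, coCell, P1C2]

lemma lP1C2 : ∀ x1 x2 xc : ℝ, 0 ≤ x1 → x1 ≤ 1 → 0 ≤ x2 → x2 ≤ 1 → P1C2.l ≤ xc → xc ≤ P1C2.u →
    (2491 / 4096 : ℝ) * (1 - (1 - x1) ^ 5) + (56087 / 4096 : ℝ) * (1 - (1 - x2) ^ 5) - (12 : ℝ) * (1 - (1 - xc) ^ 5) + (1 / 1073741824 : ℝ)
      ≤ - P1C2.a1 * x1 - P1C2.a2 * x2 + P1C2.e * xc + P1C2.f := by
  have h := cell_lines_delta 5 (α1 := (2491 / 4096 : ℝ)) (α2 := (56087 / 4096 : ℝ)) (c := (12 : ℝ)) (y1 := (8627 / 262144 : ℝ)) (y2 := (4933 / 131072 : ℝ))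
    (A1 := (11156099 / 4194304 : ℝ)) (B1 := (827261 / 134217728 : ℝ)) (A2 := (246314513 / 4194304 : ℝ)) (B2 := (24127673 / 134217728 : ℝ)) (l := (10909 / 262144 : ℝ)) (u := (1391 / 32768 : ℝ))
    (E := (-211940957 / 4194304 : ℝ)) (F := (-13067393 / 67108864 : ℝ)) (δ := (1 / 1073741824 : ℝ)) (by norm_num) (by norm_num) (by norm_num) (by norm_num) (by norm_num)
    (by norm_num) (by norm_num) (by norm_num) (by norm_num) (by norm_num) (by norm_num) (by norm_num) (by norm_num) (by norm_num) (by norm_num)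
  have e1 : P1C2.l = (10909 / 262144 : ℝ) := rfl
  have e2 : P1C2.u = (1391 / 32768 : ℝ) := rfl
  have e3 : P1C2.a1 = -(11156099 / 4194304 : ℝ) := by norm_num [P1C2]
  have e4 : P1C2.a2 = -(246314513 / 4194304 : ℝ) := by norm_num [P1C2]
  have e5 : P1C2.e = (-211940957 / 4194304 : ℝ) := rfl
  have e6 : P1C2.f = (827261 / 134217728 : ℝ) + (24127673 / 134217728 : ℝ) + (-13067393 / 67108864 : ℝ) + (1 / 1073741824 : ℝ) := by norm_num [P1C2]
  rw [e1, e2, e3, e4, e5, e6]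
  exact h

lemma rP1C3 : ∃ N : ℝ, Rw4 P.r2 N (coCell (2491 / 4096 : ℝ) (56087 / 4096 : ℝ) (12 : ℝ) 0 P1C3) := by
  refine ⟨(3221225472 : ℝ), ⟨Q44, List.mem_cons_of_mem _ (List.mem_cons_of_mem _ (List.mem_cons_of_mem _ (List.mem_cons_of_mem _ (List.mem_cons_of_mem _ (List.mem_cons_of_mem _ (List.mem_cons_of_mem _ (List.mem_cons_of_mem _ (List.mem_cons_of_mem _ (List.mem_cons_of_mem _ (List.mem_cons_of_mem _ (List.mem_cons_of_mem _ (List.mem_cons_of_mem _ (List.mem_cons_of_mem _ (List.mem_cons_of_mem _ (List.mem_cons_of_mem _ (List.mem_cons_of_mem _ (List.mem_cons_of_mem _ (List.mem_cons_of_mem _ (List.mem_cons_of_mem _ (List.mem_cons_of_mem _ (List.mem_cons_of_mem _ (List.mem_cons_of_mem _ (List.mem_cons_of_mem _ (List.mem_cons_of_mem _ (List.mem_cons_of_mem _ (List.mem_cons_of_mem _ (List.mem_cons_of_mem _ (List.mem_cons_of_mem _ (List.mem_cons_of_mem _ (List.mem_cons_of_mem _ (List.mem_cons_of_mem _ (List.mem_cons_of_mem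 _ (List.mem_cons_of_mem _ (List.mem_cons_of_mem _ (List.mem_cons_of_mem _ (List.mem_cons_of_mem _ (List.mem_cons_of_mem _ (List.mem_cons_of_mem _ (List.mem_cons_of_mem _ (List.mem_cons_of_mem _ (List.mem_cons_of_mem _ (List.mem_cons_of_mem _ (List.mem_cons_of_mem _ (List.mem_cons_self)))))))))))))))))))))))))))))))))))))))))))), ?_⟩, by norm_num⟩
  constructor <;> norm_num [Q44, coCell, P1C3]

lemma lP1C3 : ∀ x1 x2 xc : ℝ, 0 ≤ x1 → x1 ≤ 1 → 0 ≤ x2 → x2 ≤ 1 → P1C3.l ≤ xc → xc ≤ P1C3.u →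
    (2491 / 4096 : ℝ) * (1 - (1 - x1) ^ 5) + (56087 / 4096 : ℝ) * (1 - (1 - x2) ^ 5) - (12 : ℝ) * (1 - (1 - xc) ^ 5) + (1 / 1073741824 : ℝ)
      ≤ - P1C3.a1 * x1 - P1C3.a2 * x2 + P1C3.e * xc + P1C3.f := by
  have h := cell_lines_delta 5 (α1 := (2491 / 4096 : ℝ)) (α2 := (56087 / 4096 : ℝ)) (c := (12 : ℝ)) (y1 := (9529 / 262144 : ℝ)) (y2 := (629 / 16384 : ℝ))
    (A1 := (10998173 / 4194304 : ℝ)) (B1 := (250563 / 33554432 : ℝ)) (A2 := (245542145 / 4194304 : ℝ)) (B2 := (50134403 / 268435456 : ℝ)) (l := (1391 / 32768 : ℝ)) (u := (5675 / 131072 : ℝ))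
    (E := (-105598781 / 2097152 : ℝ)) (F := (-54289225 / 268435456 : ℝ)) (δ := (1 / 1073741824 : ℝ)) (by norm_num) (by norm_num) (by norm_num) (by norm_num) (by norm_num)
    (by norm_num) (by norm_num) (by norm_num) (by norm_num) (by norm_num) (by norm_num) (by norm_num) (by norm_num) (by norm_num) (by norm_num)
  have e1 : P1C3.l = (1391 / 32768 : ℝ) := rfl
  have e2 : P1C3.u = (5675 / 131072 : ℝ) := rfl
  have e3 : P1C3.a1 = -(10998173 / 4194304 : ℝ) := by norm_num [P1C3]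
  have e4 : P1C3.a2 = -(245542145 / 4194304 : ℝ) := by norm_num [P1C3]
  have e5 : P1C3.e = (-105598781 / 2097152 : ℝ) := rfl
  have e6 : P1C3.f = (250563 / 33554432 : ℝ) + (50134403 / 268435456 : ℝ) + (-54289225 / 268435456 : ℝ) + (1 / 1073741824 : ℝ) := by norm_num [P1C3]
  rw [e1, e2, e3, e4, e5, e6]
  exact h

lemma rP1C4 : ∃ N : ℝ, Rw4 P.r2 N (coCell (2491 / 4096 : ℝ) (56087 / 4096 : ℝ) (12 : ℝ) 0 P1C4) := by
  refine ⟨(3221225472 : ℝ), ⟨Q45, List.mem_cons_of_mem _ (List.mem_cons_of_mem _ (List.mem_cons_of_mem _ (List.mem_cons_of_mem _ (List.mem_cons_of_mem _ (List.mem_cons_of_mem _ (List.mem_cons_of_mem _ (List.mem_cons_of_mem _ (List.mem_cons_of_mem _ (List.mem_cons_of_mem _ (List.mem_cons_of_mem _ (List.mem_cons_of_mem _ (List.mem_cons_of_mem _ (List.mem_cons_of_mem _ (List.mem_cons_of_mem _ (List.mem_cons_of_mem _ (List.mem_cons_of_mem _ (List.mem_cons_of_mem _ (List.mem_cons_of_mem _ (List.mem_cons_of_mem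 _ (List.mem_cons_of_mem _ (List.mem_cons_of_mem _ (List.mem_cons_of_mem _ (List.mem_cons_of_mem _ (List.mem_cons_of_mem _ (List.mem_cons_of_mem _ (List.mem_cons_of_mem _ (List.mem_cons_of_mem _ (List.mem_cons_of_mem _ (List.mem_cons_of_mem _ (List.mem_cons_of_mem _ (List.mem_cons_of_mem _ (List.mem_cons_of_mem _ (List.mem_cons_of_mem _ (List.mem_cons_of_mem _ (List.mem_cons_of_mem _ (List.mem_cons_of_mem _ (List.mem_cons_of_mem _ (List.mem_cons_of_mem _ (List.mem_cons_of_mem _ (List.mem_cons_of_mem _ (List.mem_cons_of_mem _ (List.mem_cons_of_mem _ (List.mem_cons_of_mem _ (List.mem_cons_of_mem _ (List.mem_cons_self))))))))))))))))))))))))))))))))))))))))))))), ?_⟩, by norm_num⟩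
  constructor <;> norm_num [Q45, coCell, P1C4]

lemma lP1C4 : ∀ x1 x2 xc : ℝ, 0 ≤ x1 → x1 ≤ 1 → 0 ≤ x2 → x2 ≤ 1 → P1C4.l ≤ xc → xc ≤ P1C4.u →
    (2491 / 4096 : ℝ) * (1 - (1 - x1) ^ 5) + (56087 / 4096 : ℝ) * (1 - (1 - x2) ^ 5) - (12 : ℝ) * (1 - (1 - xc) ^ 5) + (1 / 1073741824 : ℝ)
      ≤ - P1C4.a1 * x1 - P1C4.a2 * x2 + P1C4.e * xc + P1C4.f := by
  have h := cell_lines_delta 5 (α1 := (2491 / 4096 : ℝ)) (α2 := (56087 / 4096 : ℝ)) (c := (12 : ℝ)) (y1 := (8617 / 262144 : ℝ)) (y2 := (2581 / 65536 : ℝ))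
    (A1 := (11157859 / 4194304 : ℝ)) (B1 := (1650819 / 268435456 : ℝ)) (A2 := (61132671 / 1048576 : ℝ)) (B2 := (52651679 / 268435456 : ℝ)) (l := (5675 / 131072 : ℝ)) (u := (11577 / 262144 : ℝ))
    (E := (-210442695 / 4194304 : ℝ)) (F := (-56380959 / 268435456 : ℝ)) (δ := (1 / 1073741824 : ℝ)) (by norm_num) (by norm_num) (by norm_num) (by norm_num) (by norm_num)
    (by norm_num) (by norm_num) (by norm_num) (by norm_num) (by norm_num) (by norm_num) (by norm_num) (by norm_num) (by norm_num) (by norm_num)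
  have e1 : P1C4.l = (5675 / 131072 : ℝ) := rfl
  have e2 : P1C4.u = (11577 / 262144 : ℝ) := rfl
  have e3 : P1C4.a1 = -(11157859 / 4194304 : ℝ) := by norm_num [P1C4]
  have e4 : P1C4.a2 = -(61132671 / 1048576 : ℝ) := by norm_num [P1C4]
  have e5 : P1C4.e = (-210442695 / 4194304 : ℝ) := rfl
  have e6 : P1C4.f = (1650819 / 268435456 : ℝ) + (52651679 / 268435456 : ℝ) + (-56380959 / 268435456 : ℝ) + (1 / 1073741824 : ℝ) := by norm_num [P1C4]
  rw [e1, e2, e3, e4, e5, e6]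
  exact h

lemma rP1C5 : ∃ N : ℝ, Rw4 P.r2 N (coCell (2491 / 4096 : ℝ) (56087 / 4096 : ℝ) (12 : ℝ) 0 P1C5) := by
  refine ⟨(3221225472 : ℝ), ⟨Q46, List.mem_cons_of_mem _ (List.mem_cons_of_mem _ (List.mem_cons_of_mem _ (List.mem_cons_of_mem _ (List.mem_cons_of_mem _ (List.mem_cons_of_mem _ (List.mem_cons_of_mem _ (List.mem_cons_of_mem _ (List.mem_cons_of_mem _ (List.mem_cons_of_mem _ (List.mem_cons_of_mem _ (List.mem_cons_of_mem _ (List.mem_cons_of_mem _ (List.mem_cons_of_mem _ (List.mem_cons_of_mem _ (List.mem_cons_of_mem _ (List.mem_cons_of_mem _ (List.mem_cons_of_mem _ (List.mem_cons_of_mem _ (List.mem_cons_of_mem _ (List.mem_cons_of_mem _ (List.mem_cons_of_mem _ (List.mem_cons_of_mem _ (List.mem_cons_of_mem _ (List.mem_cons_of_mem _ (List.mem_cons_of_mem _ (List.mem_cons_of_mem _ (List.mem_cons_of_mem _ (List.mem_cons_of_mem _ (List.mem_cons_of_mem _ (List.mem_cons_of_mem _ (List.mem_cons_of_mem _ (List.mem_cons_of_mem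 _ (List.mem_cons_of_mem _ (List.mem_cons_of_mem _ (List.mem_cons_of_mem _ (List.mem_cons_of_mem _ (List.mem_cons_of_mem _ (List.mem_cons_of_mem _ (List.mem_cons_of_mem _ (List.mem_cons_of_mem _ (List.mem_cons_of_mem _ (List.mem_cons_of_mem _ (List.mem_cons_of_mem _ (List.mem_cons_of_mem _ (List.mem_cons_of_mem _ (List.mem_cons_self)))))))))))))))))))))))))))))))))))))))))))))), ?_⟩, by norm_num⟩
  constructor <;> norm_num [Q46, coCell, P1C5]

lemma lP1C5 : ∀ x1 x2 xc : ℝ, 0 ≤ x1 → x1 ≤ 1 → 0 ≤ x2 → x2 ≤ 1 → P1C5.l ≤ xc → xc ≤ P1C5.u →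
    (2491 / 4096 : ℝ) * (1 - (1 - x1) ^ 5) + (56087 / 4096 : ℝ) * (1 - (1 - x2) ^ 5) - (12 : ℝ) * (1 - (1 - xc) ^ 5) + (1 / 1073741824 : ℝ)
      ≤ - P1C5.a1 * x1 - P1C5.a2 * x2 + P1C5.e * xc + P1C5.f := by
  have h := cell_lines_delta 5 (α1 := (2491 / 4096 : ℝ)) (α2 := (56087 / 4096 : ℝ)) (c := (12 : ℝ)) (y1 := (8837 / 262144 : ℝ)) (y2 := (5283 / 131072 : ℝ))
    (A1 := (2779795 / 1048576 : ℝ)) (B1 := (433309 / 67108864 : ℝ)) (A2 := (121796029 / 2097152 : ℝ)) (B2 := (6880653 / 33554432 : ℝ)) (l := (11577 / 262144 : ℝ)) (u := (11809 / 262144 : ℝ))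
    (E := (-52418277 / 1048576 : ℝ)) (F := (-14639033 / 67108864 : ℝ)) (δ := (1 / 1073741824 : ℝ)) (by norm_num) (by norm_num) (by norm_num) (by norm_num) (by norm_num)
    (by norm_num) (by norm_num) (by norm_num) (by norm_num) (by norm_num) (by norm_num) (by norm_num) (by norm_num) (by norm_num) (by norm_num)
  have e1 : P1C5.l = (11577 / 262144 : ℝ) := rfl
  have e2 : P1C5.u = (11809 / 262144 : ℝ) := rfl
  have e3 : P1C5.a1 = -(2779795 / 1048576 : ℝ) := by norm_num [P1C5]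
  have e4 : P1C5.a2 = -(121796029 / 2097152 : ℝ) := by norm_num [P1C5]
  have e5 : P1C5.e = (-52418277 / 1048576 : ℝ) := rfl
  have e6 : P1C5.f = (433309 / 67108864 : ℝ) + (6880653 / 33554432 : ℝ) + (-14639033 / 67108864 : ℝ) + (1 / 1073741824 : ℝ) := by norm_num [P1C5]
  rw [e1, e2, e3, e4, e5, e6]
  exact h

lemma rP1C6 : ∃ N : ℝ, Rw4 P.r2 N (coCell (2491 / 4096 : ℝ) (56087 / 4096 : ℝ) (12 : ℝ) 0 P1C6) := by
  refine ⟨(3221225472 : ℝ), ⟨Q47, List.mem_cons_of_mem _ (List.mem_cons_of_mem _ (List.mem_cons_of_mem _ (List.mem_cons_of_mem _ (List.mem_cons_of_mem _ (List.mem_cons_of_mem _ (List.mem_cons_of_mem _ (List.mem_cons_of_mem _ (List.mem_cons_of_mem _ (List.mem_cons_of_mem _ (List.mem_cons_of_mem _ (List.mem_cons_of_mem _ (List.mem_cons_of_mem _ (List.mem_cons_of_mem _ (List.mem_cons_of_mem _ (List.mem_cons_of_mem _ (List.mem_cons_of_mem _ (List.mem_cons_of_mem _ (List.mem_cons_of_mem _ (List.mem_cons_of_mem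 _ (List.mem_cons_of_mem _ (List.mem_cons_of_mem _ (List.mem_cons_of_mem _ (List.mem_cons_of_mem _ (List.mem_cons_of_mem _ (List.mem_cons_of_mem _ (List.mem_cons_of_mem _ (List.mem_cons_of_mem _ (List.mem_cons_of_mem _ (List.mem_cons_of_mem _ (List.mem_cons_of_mem _ (List.mem_cons_of_mem _ (List.mem_cons_of_mem _ (List.mem_cons_of_mem _ (List.mem_cons_of_mem _ (List.mem_cons_of_mem _ (List.mem_cons_of_mem _ (List.mem_cons_of_mem _ (List.mem_cons_of_mem _ (List.mem_cons_of_mem _ (List.mem_cons_of_mem _ (List.mem_cons_of_mem _ (List.mem_cons_of_mem _ (List.mem_cons_of_mem _ (List.mem_cons_of_mem _ (List.mem_cons_of_mem _ (List.mem_cons_of_mem _ (List.mem_cons_self))))))))))))))))))))))))))))))))))))))))))))))), ?_⟩, by norm_num⟩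
  constructor <;> norm_num [Q47, coCell, P1C6]

lemma lP1C6 : ∀ x1 x2 xc : ℝ, 0 ≤ x1 → x1 ≤ 1 → 0 ≤ x2 → x2 ≤ 1 → P1C6.l ≤ xc → xc ≤ P1C6.u →
    (2491 / 4096 : ℝ) * (1 - (1 - x1) ^ 5) + (56087 / 4096 : ℝ) * (1 - (1 - x2) ^ 5) - (12 : ℝ) * (1 - (1 - xc) ^ 5) + (1 / 1073741824 : ℝ)
      ≤ - P1C6.a1 * x1 - P1C6.a2 * x2 + P1C6.e * xc + P1C6.f := by
  have h := cell_lines_delta 5 (α1 := (2491 / 4096 : ℝ)) (α2 := (56087 / 4096 : ℝ)) (c := (12 : ℝ)) (y1 := (551 / 16384 : ℝ)) (y2 := (10763 / 262144 : ℝ))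
    (A1 := (2780717 / 1048576 : ℝ)) (B1 := (53915 / 8388608 : ℝ)) (A2 := (15176873 / 262144 : ℝ)) (B2 := (57029407 / 268435456 : ℝ)) (l := (11809 / 262144 : ℝ)) (u := (12045 / 262144 : ℝ))
    (E := (-208890607 / 4194304 : ℝ)) (F := (-60812127 / 268435456 : ℝ)) (δ := (1 / 1073741824 : ℝ)) (by norm_num) (by norm_num) (by norm_num) (by norm_num) (by norm_num)
    (by norm_num) (by norm_num) (by norm_num) (by norm_num) (by norm_num) (by norm_num) (by norm_num) (by norm_num) (by norm_num) (by norm_num)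
  have e1 : P1C6.l = (11809 / 262144 : ℝ) := rfl
  have e2 : P1C6.u = (12045 / 262144 : ℝ) := rfl
  have e3 : P1C6.a1 = -(2780717 / 1048576 : ℝ) := by norm_num [P1C6]
  have e4 : P1C6.a2 = -(15176873 / 262144 : ℝ) := by norm_num [P1C6]
  have e5 : P1C6.e = (-208890607 / 4194304 : ℝ) := rfl
  have e6 : P1C6.f = (53915 / 8388608 : ℝ) + (57029407 / 268435456 : ℝ) + (-60812127 / 268435456 : ℝ) + (1 / 1073741824 : ℝ) := by norm_num [P1C6]
  rw [e1, e2, e3, e4, e5, e6]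
  exact h

lemma rP1C7 : ∃ N : ℝ, Rw4 P.r2 N (coCell (2491 / 4096 : ℝ) (56087 / 4096 : ℝ) (12 : ℝ) 0 P1C7) := by
  refine ⟨(3221225472 : ℝ), ⟨Q48, List.mem_cons_of_mem _ (List.mem_cons_of_mem _ (List.mem_cons_of_mem _ (List.mem_cons_of_mem _ (List.mem_cons_of_mem _ (List.mem_cons_of_mem _ (List.mem_cons_of_mem _ (List.mem_cons_of_mem _ (List.mem_cons_of_mem _ (List.mem_cons_of_mem _ (List.mem_cons_of_mem _ (List.mem_cons_of_mem _ (List.mem_cons_of_mem _ (List.mem_cons_of_mem _ (List.mem_cons_of_mem _ (List.mem_cons_of_mem _ (List.mem_cons_of_mem _ (List.mem_cons_of_mem _ (List.mem_cons_of_mem _ (List.mem_cons_of_mem _ (List.mem_cons_of_mem _ (List.mem_cons_of_mem _ (List.mem_cons_of_mem _ (List.mem_cons_of_mem _ (List.mem_cons_of_mem _ (List.mem_cons_of_mem _ (List.mem_cons_of_mem _ (List.mem_cons_of_mem _ (List.mem_cons_of_mem _ (List.mem_cons_of_mem _ (List.mem_cons_of_mem _ (List.mem_cons_of_mem _ (List.mem_cons_of_mem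 _ (List.mem_cons_of_mem _ (List.mem_cons_of_mem _ (List.mem_cons_of_mem _ (List.mem_cons_of_mem _ (List.mem_cons_of_mem _ (List.mem_cons_of_mem _ (List.mem_cons_of_mem _ (List.mem_cons_of_mem _ (List.mem_cons_of_mem _ (List.mem_cons_of_mem _ (List.mem_cons_of_mem _ (List.mem_cons_of_mem _ (List.mem_cons_of_mem _ (List.mem_cons_of_mem _ (List.mem_cons_of_mem _ (List.mem_cons_self)))))))))))))))))))))))))))))))))))))))))))))))), ?_⟩, by norm_num⟩
  constructor <;> norm_num [Q48, coCell, P1C7]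

lemma lP1C7 : ∀ x1 x2 xc : ℝ, 0 ≤ x1 → x1 ≤ 1 → 0 ≤ x2 → x2 ≤ 1 → P1C7.l ≤ xc → xc ≤ P1C7.u →
    (2491 / 4096 : ℝ) * (1 - (1 - x1) ^ 5) + (56087 / 4096 : ℝ) * (1 - (1 - x2) ^ 5) - (12 : ℝ) * (1 - (1 - xc) ^ 5) + (1 / 1073741824 : ℝ)
      ≤ - P1C7.a1 * x1 - P1C7.a2 * x2 + P1C7.e * xc + P1C7.f := by
  have h := cell_lines_delta 5 (α1 := (2491 / 4096 : ℝ)) (α2 := (56087 / 4096 : ℝ)) (c := (12 : ℝ)) (y1 := (8857 / 262144 : ℝ)) (y2 := (1373 / 32768 : ℝ))
    (A1 := (11115669 / 4194304 : ℝ)) (B1 := (870405 / 134217728 : ℝ)) (A2 := (60494291 / 1048576 : ℝ)) (B2 := (59293305 / 268435456 : ℝ)) (l := (12045 / 262144 : ℝ)) (u := (6143 / 131072 : ℝ))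
    (E := (-104047657 / 2097152 : ℝ)) (F := (-7893853 / 33554432 : ℝ)) (δ := (1 / 1073741824 : ℝ)) (by norm_num) (by norm_num) (by norm_num) (by norm_num) (by norm_num)
    (by norm_num) (by norm_num) (by norm_num) (by norm_num) (by norm_num) (by norm_num) (by norm_num) (by norm_num) (by norm_num) (by norm_num)
  have e1 : P1C7.l = (12045 / 262144 : ℝ) := rfl
  have e2 : P1C7.u = (6143 / 131072 : ℝ) := rfl
  have e3 : P1C7.a1 = -(11115669 / 4194304 : ℝ) := by norm_num [P1C7]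
  have e4 : P1C7.a2 = -(60494291 / 1048576 : ℝ) := by norm_num [P1C7]
  have e5 : P1C7.e = (-104047657 / 2097152 : ℝ) := rfl
  have e6 : P1C7.f = (870405 / 134217728 : ℝ) + (59293305 / 268435456 : ℝ) + (-7893853 / 33554432 : ℝ) + (1 / 1073741824 : ℝ) := by norm_num [P1C7]
  rw [e1, e2, e3, e4, e5, e6]
  exact h

lemma rP1C8 : ∃ N : ℝ, Rw4 P.r2 N (coCell (2491 / 4096 : ℝ) (56087 / 4096 : ℝ) (12 : ℝ) 0 P1C8) := by
  refine ⟨(3221225472 : ℝ), ⟨Q49, List.mem_cons_of_mem _ (List.mem_cons_of_mem _ (List.mem_cons_of_mem _ (List.mem_cons_of_mem _ (List.mem_cons_of_mem _ (List.mem_cons_of_mem _ (List.mem_cons_of_mem _ (List.mem_cons_of_mem _ (List.mem_cons_of_mem _ (List.mem_cons_of_mem _ (List.mem_cons_of_mem _ (List.mem_cons_of_mem _ (List.mem_cons_of_mem _ (List.mem_cons_of_mem _ (List.mem_cons_of_mem _ (List.mem_cons_of_mem _ (List.mem_cons_of_mem _ (List.mem_cons_of_mem _ (List.mem_cons_of_mem _ (List.mem_cons_of_mem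 _ (List.mem_cons_of_mem _ (List.mem_cons_of_mem _ (List.mem_cons_of_mem _ (List.mem_cons_of_mem _ (List.mem_cons_of_mem _ (List.mem_cons_of_mem _ (List.mem_cons_of_mem _ (List.mem_cons_of_mem _ (List.mem_cons_of_mem _ (List.mem_cons_of_mem _ (List.mem_cons_of_mem _ (List.mem_cons_of_mem _ (List.mem_cons_of_mem _ (List.mem_cons_of_mem _ (List.mem_cons_of_mem _ (List.mem_cons_of_mem _ (List.mem_cons_of_mem _ (List.mem_cons_of_mem _ (List.mem_cons_of_mem _ (List.mem_cons_of_mem _ (List.mem_cons_of_mem _ (List.mem_cons_of_mem _ (List.mem_cons_of_mem _ (List.mem_cons_of_mem _ (List.mem_cons_of_mem _ (List.mem_cons_of_mem _ (List.mem_cons_of_mem _ (List.mem_cons_of_mem _ (List.mem_cons_of_mem _ (List.mem_cons_self))))))))))))))))))))))))))))))))))))))))))))))))), ?_⟩, by norm_num⟩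
  constructor <;> norm_num [Q49, coCell, P1C8]

lemma lP1C8 : ∀ x1 x2 xc : ℝ, 0 ≤ x1 → x1 ≤ 1 → 0 ≤ x2 → x2 ≤ 1 → P1C8.l ≤ xc → xc ≤ P1C8.u →
    (2491 / 4096 : ℝ) * (1 - (1 - x1) ^ 5) + (56087 / 4096 : ℝ) * (1 - (1 - x2) ^ 5) - (12 : ℝ) * (1 - (1 - xc) ^ 5) + (1 / 1073741824 : ℝ)
      ≤ - P1C8.a1 * x1 - P1C8.a2 * x2 + P1C8.e * xc + P1C8.f := by
  have h := cell_lines_delta 5 (α1 := (2491 / 4096 : ℝ)) (α2 := (56087 / 4096 : ℝ)) (c := (12 : ℝ)) (y1 := (8879 / 262144 : ℝ)) (y2 := (11215 / 262144 : ℝ))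
    (A1 := (11111807 / 4194304 : ℝ)) (B1 := (1749199 / 268435456 : ℝ)) (A2 := (120544087 / 2097152 : ℝ)) (B2 := (7712789 / 33554432 : ℝ)) (l := (6143 / 131072 : ℝ)) (u := (12531 / 262144 : ℝ))
    (E := (-25910919 / 524288 : ℝ)) (F := (-65574315 / 268435456 : ℝ)) (δ := (1 / 1073741824 : ℝ)) (by norm_num) (by norm_num) (by norm_num) (by norm_num) (by norm_num)
    (by norm_num) (by norm_num) (by norm_num) (by norm_num) (by norm_num) (by norm_num) (by norm_num) (by norm_num) (by norm_num) (by norm_num)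
  have e1 : P1C8.l = (6143 / 131072 : ℝ) := rfl
  have e2 : P1C8.u = (12531 / 262144 : ℝ) := rfl
  have e3 : P1C8.a1 = -(11111807 / 4194304 : ℝ) := by norm_num [P1C8]
  have e4 : P1C8.a2 = -(120544087 / 2097152 : ℝ) := by norm_num [P1C8]
  have e5 : P1C8.e = (-25910919 / 524288 : ℝ) := rfl
  have e6 : P1C8.f = (1749199 / 268435456 : ℝ) + (7712789 / 33554432 : ℝ) + (-65574315 / 268435456 : ℝ) + (1 / 1073741824 : ℝ) := by norm_num [P1C8]
  rw [e1, e2, e3, e4, e5, e6]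
  exact h

lemma rP1C9 : ∃ N : ℝ, Rw4 P.r2 N (coCell (2491 / 4096 : ℝ) (56087 / 4096 : ℝ) (12 : ℝ) 0 P1C9) := by
  refine ⟨(3221225472 : ℝ), ⟨Q50, List.mem_cons_of_mem _ (List.mem_cons_of_mem _ (List.mem_cons_of_mem _ (List.mem_cons_of_mem _ (List.mem_cons_of_mem _ (List.mem_cons_of_mem _ (List.mem_cons_of_mem _ (List.mem_cons_of_mem _ (List.mem_cons_of_mem _ (List.mem_cons_of_mem _ (List.mem_cons_of_mem _ (List.mem_cons_of_mem _ (List.mem_cons_of_mem _ (List.mem_cons_of_mem _ (List.mem_cons_of_mem _ (List.mem_cons_of_mem _ (List.mem_cons_of_mem _ (List.mem_cons_of_mem _ (List.mem_cons_of_mem _ (List.mem_cons_of_mem _ (List.mem_cons_of_mem _ (List.mem_cons_of_mem _ (List.mem_cons_of_mem _ (List.mem_cons_of_mem _ (List.mem_cons_of_mem _ (List.mem_cons_of_mem _ (List.mem_cons_of_mem _ (List.mem_cons_of_mem _ (List.mem_cons_of_mem _ (List.mem_cons_of_mem _ (List.mem_cons_of_mem _ (List.mem_cons_of_mem _ (List.mem_cons_of_mem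 _ (List.mem_cons_of_mem _ (List.mem_cons_of_mem _ (List.mem_cons_of_mem _ (List.mem_cons_of_mem _ (List.mem_cons_of_mem _ (List.mem_cons_of_mem _ (List.mem_cons_of_mem _ (List.mem_cons_of_mem _ (List.mem_cons_of_mem _ (List.mem_cons_of_mem _ (List.mem_cons_of_mem _ (List.mem_cons_of_mem _ (List.mem_cons_of_mem _ (List.mem_cons_of_mem _ (List.mem_cons_of_mem _ (List.mem_cons_of_mem _ (List.mem_cons_of_mem _ (List.mem_cons_self)))))))))))))))))))))))))))))))))))))))))))))))))), ?_⟩, by norm_num⟩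
  constructor <;> norm_num [Q50, coCell, P1C9]

lemma lP1C9 : ∀ x1 x2 xc : ℝ, 0 ≤ x1 → x1 ≤ 1 → 0 ≤ x2 → x2 ≤ 1 → P1C9.l ≤ xc → xc ≤ P1C9.u →
    (2491 / 4096 : ℝ) * (1 - (1 - x1) ^ 5) + (56087 / 4096 : ℝ) * (1 - (1 - x2) ^ 5) - (12 : ℝ) * (1 - (1 - xc) ^ 5) + (1 / 1073741824 : ℝ)
      ≤ - P1C9.a1 * x1 - P1C9.a2 * x2 + P1C9.e * xc + P1C9.f := by
  have h := cell_lines_delta 5 (α1 := (2491 / 4096 : ℝ)) (α2 := (56087 / 4096 : ℝ)) (c := (12 : ℝ)) (y1 := (4587 / 131072 : ℝ)) (y2 := (5721 / 131072 : ℝ))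
    (A1 := (5530063 / 2097152 : ℝ)) (B1 := (465769 / 67108864 : ℝ)) (A2 := (240216967 / 4194304 : ℝ)) (B2 := (2003495 / 8388608 : ℝ)) (l := (12531 / 262144 : ℝ)) (u := (6391 / 131072 : ℝ))
    (E := (-206465195 / 4194304 : ℝ)) (F := (-34044781 / 134217728 : ℝ)) (δ := (1 / 1073741824 : ℝ)) (by norm_num) (by norm_num) (by norm_num) (by norm_num) (by norm_num)
    (by norm_num) (by norm_num) (by norm_num) (by norm_num) (by norm_num) (by norm_num) (by norm_num) (by norm_num) (by norm_num) (by norm_num)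
  have e1 : P1C9.l = (12531 / 262144 : ℝ) := rfl
  have e2 : P1C9.u = (6391 / 131072 : ℝ) := rfl
  have e3 : P1C9.a1 = -(5530063 / 2097152 : ℝ) := by norm_num [P1C9]
  have e4 : P1C9.a2 = -(240216967 / 4194304 : ℝ) := by norm_num [P1C9]
  have e5 : P1C9.e = (-206465195 / 4194304 : ℝ) := rfl
  have e6 : P1C9.f = (465769 / 67108864 : ℝ) + (2003495 / 8388608 : ℝ) + (-34044781 / 134217728 : ℝ) + (1 / 1073741824 : ℝ) := by norm_num [P1C9]
  rw [e1, e2, e3, e4, e5, e6]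
  exact h

lemma rP1C10 : ∃ N : ℝ, Rw4 P.r2 N (coCell (2491 / 4096 : ℝ) (56087 / 4096 : ℝ) (12 : ℝ) 0 P1C10) := by
  refine ⟨(3221225472 : ℝ), ⟨Q51, List.mem_cons_of_mem _ (List.mem_cons_of_mem _ (List.mem_cons_of_mem _ (List.mem_cons_of_mem _ (List.mem_cons_of_mem _ (List.mem_cons_of_mem _ (List.mem_cons_of_mem _ (List.mem_cons_of_mem _ (List.mem_cons_of_mem _ (List.mem_cons_of_mem _ (List.mem_cons_of_mem _ (List.mem_cons_of_mem _ (List.mem_cons_of_mem _ (List.mem_cons_of_mem _ (List.mem_cons_of_mem _ (List.mem_cons_of_mem _ (List.mem_cons_of_mem _ (List.mem_cons_of_mem _ (List.mem_cons_of_mem _ (List.mem_cons_of_mem _ (List.mem_cons_of_mem _ (List.mem_cons_of_mem _ (List.mem_cons_of_mem _ (List.mem_cons_of_mem _ (List.mem_cons_of_mem _ (List.mem_cons_of_mem _ (List.mem_cons_of_mem _ (List.mem_cons_of_mem _ (List.mem_cons_of_mem _ (List.mem_cons_of_mem _ (List.mem_cons_of_mem _ (List.mem_cons_of_mem _ (List.mem_cons_of_mem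 _ (List.mem_cons_of_mem _ (List.mem_cons_of_mem _ (List.mem_cons_of_mem _ (List.mem_cons_of_mem _ (List.mem_cons_of_mem _ (List.mem_cons_of_mem _ (List.mem_cons_of_mem _ (List.mem_cons_of_mem _ (List.mem_cons_of_mem _ (List.mem_cons_of_mem _ (List.mem_cons_of_mem _ (List.mem_cons_of_mem _ (List.mem_cons_of_mem _ (List.mem_cons_of_mem _ (List.mem_cons_of_mem _ (List.mem_cons_of_mem _ (List.mem_cons_of_mem _ (List.mem_cons_of_mem _ (List.mem_cons_self))))))))))))))))))))))))))))))))))))))))))))))))))), ?_⟩, by norm_num⟩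
  constructor <;> norm_num [Q51, coCell, P1C10]

lemma lP1C10 : ∀ x1 x2 xc : ℝ, 0 ≤ x1 → x1 ≤ 1 → 0 ≤ x2 → x2 ≤ 1 → P1C10.l ≤ xc → xc ≤ P1C10.u →
    (2491 / 4096 : ℝ) * (1 - (1 - x1) ^ 5) + (56087 / 4096 : ℝ) * (1 - (1 - x2) ^ 5) - (12 : ℝ) * (1 - (1 - xc) ^ 5) + (1 / 1073741824 : ℝ)
      ≤ - P1C10.a1 * x1 - P1C10.a2 * x2 + P1C10.e * xc + P1C10.f := by
  have h := cell_lines_delta 5 (α1 := (2491 / 4096 : ℝ)) (α2 := (56087 / 4096 : ℝ)) (c := (12 : ℝ)) (y1 := (595 / 16384 : ℝ)) (y2 := (11671 / 262144 : ℝ))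
    (A1 := (2749935 / 1048576 : ℝ)) (B1 := (500219 / 67108864 : ℝ)) (A2 := (119670239 / 2097152 : ℝ)) (B2 := (33292383 / 134217728 : ℝ)) (l := (6391 / 131072 : ℝ)) (u := (6519 / 131072 : ℝ))
    (E := (-205627335 / 4194304 : ℝ)) (F := (-1104753 / 4194304 : ℝ)) (δ := (1 / 1073741824 : ℝ)) (by norm_num) (by norm_num) (by norm_num) (by norm_num) (by norm_num)
    (by norm_num) (by norm_num) (by norm_num) (by norm_num) (by norm_num) (by norm_num) (by norm_num) (by norm_num) (by norm_num) (by norm_num)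
  have e1 : P1C10.l = (6391 / 131072 : ℝ) := rfl
  have e2 : P1C10.u = (6519 / 131072 : ℝ) := rfl
  have e3 : P1C10.a1 = -(2749935 / 1048576 : ℝ) := by norm_num [P1C10]
  have e4 : P1C10.a2 = -(119670239 / 2097152 : ℝ) := by norm_num [P1C10]
  have e5 : P1C10.e = (-205627335 / 4194304 : ℝ) := rfl
  have e6 : P1C10.f = (500219 / 67108864 : ℝ) + (33292383 / 134217728 : ℝ) + (-1104753 / 4194304 : ℝ) + (1 / 1073741824 : ℝ) := by norm_num [P1C10]
  rw [e1, e2, e3, e4, e5, e6]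
  exact h

lemma rP1C11 : ∃ N : ℝ, Rw4 P.r2 N (coCell (2491 / 4096 : ℝ) (56087 / 4096 : ℝ) (12 : ℝ) 0 P1C11) := by
  refine ⟨(3221225472 : ℝ), ⟨Q52, List.mem_cons_of_mem _ (List.mem_cons_of_mem _ (List.mem_cons_of_mem _ (List.mem_cons_of_mem _ (List.mem_cons_of_mem _ (List.mem_cons_of_mem _ (List.mem_cons_of_mem _ (List.mem_cons_of_mem _ (List.mem_cons_of_mem _ (List.mem_cons_of_mem _ (List.mem_cons_of_mem _ (List.mem_cons_of_mem _ (List.mem_cons_of_mem _ (List.mem_cons_of_mem _ (List.mem_cons_of_mem _ (List.mem_cons_of_mem _ (List.mem_cons_of_mem _ (List.mem_cons_of_mem _ (List.mem_cons_of_mem _ (List.mem_cons_of_mem _ (List.mem_cons_of_mem _ (List.mem_cons_of_mem _ (List.mem_cons_of_mem _ (List.mem_cons_of_mem _ (List.mem_cons_of_mem _ (List.mem_cons_of_mem _ (List.mem_cons_of_mem _ (List.mem_cons_of_mem _ (List.mem_cons_of_mem _ (List.mem_cons_of_mem _ (List.mem_cons_of_mem _ (List.mem_cons_of_mem _ (List.mem_cons_of_mem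 _ (List.mem_cons_of_mem _ (List.mem_cons_of_mem _ (List.mem_cons_of_mem _ (List.mem_cons_of_mem _ (List.mem_cons_of_mem _ (List.mem_cons_of_mem _ (List.mem_cons_of_mem _ (List.mem_cons_of_mem _ (List.mem_cons_of_mem _ (List.mem_cons_of_mem _ (List.mem_cons_of_mem _ (List.mem_cons_of_mem _ (List.mem_cons_of_mem _ (List.mem_cons_of_mem _ (List.mem_cons_of_mem _ (List.mem_cons_of_mem _ (List.mem_cons_of_mem _ (List.mem_cons_of_mem _ (List.mem_cons_of_mem _ (List.mem_cons_self)))))))))))))))))))))))))))))))))))))))))))))))))))), ?_⟩, by norm_num⟩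
  constructor <;> norm_num [Q52, coCell, P1C11]

lemma lP1C11 : ∀ x1 x2 xc : ℝ, 0 ≤ x1 → x1 ≤ 1 → 0 ≤ x2 → x2 ≤ 1 → P1C11.l ≤ xc → xc ≤ P1C11.u →
    (2491 / 4096 : ℝ) * (1 - (1 - x1) ^ 5) + (56087 / 4096 : ℝ) * (1 - (1 - x2) ^ 5) - (12 : ℝ) * (1 - (1 - xc) ^ 5) + (1 / 1073741824 : ℝ)
      ≤ - P1C11.a1 * x1 - P1C11.a2 * x2 + P1C11.e * xc + P1C11.f := by
  have h := cell_lines_delta 5 (α1 := (2491 / 4096 : ℝ)) (α2 := (56087 / 4096 : ℝ)) (c := (12 : ℝ)) (y1 := (9813 / 262144 : ℝ)) (y2 := (1477 / 32768 : ℝ))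
    (A1 := (5474399 / 2097152 : ℝ)) (B1 := (2121081 / 268435456 : ℝ)) (A2 := (119393369 / 2097152 : ℝ)) (B2 := (68172371 / 268435456 : ℝ)) (l := (6519 / 131072 : ℝ)) (u := (13107 / 262144 : ℝ))
    (E := (-205091485 / 4194304 : ℝ)) (F := (-72409859 / 268435456 : ℝ)) (δ := (1 / 1073741824 : ℝ)) (by norm_num) (by norm_num) (by norm_num) (by norm_num) (by norm_num)
    (by norm_num) (by norm_num) (by norm_num) (by norm_num) (by norm_num) (by norm_num) (by norm_num) (by norm_num) (by norm_num) (by norm_num)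
  have e1 : P1C11.l = (6519 / 131072 : ℝ) := rfl
  have e2 : P1C11.u = (13107 / 262144 : ℝ) := rfl
  have e3 : P1C11.a1 = -(5474399 / 2097152 : ℝ) := by norm_num [P1C11]
  have e4 : P1C11.a2 = -(119393369 / 2097152 : ℝ) := by norm_num [P1C11]
  have e5 : P1C11.e = (-205091485 / 4194304 : ℝ) := rfl
  have e6 : P1C11.f = (2121081 / 268435456 : ℝ) + (68172371 / 268435456 : ℝ) + (-72409859 / 268435456 : ℝ) + (1 / 1073741824 : ℝ) := by norm_num [P1C11]
  rw [e1, e2, e3, e4, e5, e6]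
  exact h

/-- A link of the chain. -/
lemma link1 {lam : ℝ} (h0 : -(1 / 2) < lam) (h1 : lam < 1) (hB : BoxS lam P 0 HH 0 HH)
    (h : ∃ n, 1 - En 5 lam n mc ≤ (13107 / 262144 : ℝ)) : ∃ n, 1 - En 5 lam n mc ≤ (5243 / 131072 : ℝ) :=
  phase_of_box (by norm_num) h0 h1 hB (2491 / 4096 : ℝ) (56087 / 4096 : ℝ) (12 : ℝ) (1 / 1073741824 : ℝ) (5243 / 131072 : ℝ) (13107 / 262144 : ℝ) (by norm_num) cellsP1 hcoverP1
    (forall_cons lP1C0 (forall_cons lP1C1 (forall_cons lP1C2 (forall_cons lP1C3 (forall_cons lP1C4 (forall_cons lP1C5 (forall_cons lP1C6 (forall_cons lP1C7 (forall_cons lP1C8 (forall_cons lP1C9 (forall_cons lP1C10 (forall_cons lP1C11 (forall_nil))))))))))))) (forall_cons rP1C0 (forall_cons rP1C1 (forall_cons rP1C2 (forall_cons rP1C3 (forall_cons rP1C4 (forall_cons rP1C5 (forall_cons rP1C6 (forall_cons rP1C7 (forall_cons rP1C8 (forall_cons rP1C9 (forall_cons rP1C10 (forall_cons rP1C11 (forall_nil)))))))))))))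 h

/-- A chord cell of a link. -/
noncomputable def P2C0 : Cell := ⟨(13107 / 262144 : ℝ), (13369 / 262144 : ℝ), (-16993899 / 4194304 : ℝ), (-58726923 / 1048576 : ℝ), (-102273513 / 2097152 : ℝ), (-15261703 / 1073741824 : ℝ)⟩

/-- A chord cell of a link. -/
noncomputable def P2C1 : Cell := ⟨(13369 / 262144 : ℝ), (13637 / 262144 : ℝ), (-16942505 / 4194304 : ℝ), (-233926125 / 4194304 : ℝ), (-203677331 / 4194304 : ℝ), (-14682503 / 1073741824 : ℝ)⟩

/-- A chord cell of a link. -/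
noncomputable def P2C2 : Cell := ⟨(13637 / 262144 : ℝ), (13909 / 262144 : ℝ), (-2117239 / 524288 : ℝ), (-116445855 / 2097152 : ℝ), (-202794079 / 4194304 : ℝ), (-14139431 / 1073741824 : ℝ)⟩

/-- A chord cell of a link. -/
noncomputable def P2C3 : Cell := ⟨(13909 / 262144 : ℝ), (3547 / 65536 : ℝ), (-16935751 / 4194304 : ℝ), (-231842151 / 4194304 : ℝ), (-201895803 / 4194304 : ℝ), (-13596047 / 1073741824 : ℝ)⟩

/-- A chord cell of a link. -/
noncomputable def P2C4 : Cell := ⟨(3547 / 65536 : ℝ), (14471 / 262144 : ℝ), (-2117239 / 524288 : ℝ), (-14423139 / 262144 : ℝ), (-50245667 / 1048576 : ℝ), (-12981239 / 1073741824 : ℝ)⟩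

/-- A chord cell of a link. -/
noncomputable def P2C5 : Cell := ⟨(14471 / 262144 : ℝ), (14761 / 262144 : ℝ), (-529065 / 131072 : ℝ), (-114845475 / 2097152 : ℝ), (-200054855 / 4194304 : ℝ), (-12318415 / 1073741824 : ℝ)⟩

/-- A chord cell of a link. -/
noncomputable def P2C6 : Cell := ⟨(14761 / 262144 : ℝ), (941 / 16384 : ℝ), (-8465175 / 2097152 : ℝ), (-228589729 / 4194304 : ℝ), (-12444433 / 262144 : ℝ), (-11644039 / 1073741824 : ℝ)⟩

/-- A chord cell of a link. -/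
noncomputable def P2C7 : Cell := ⟨(941 / 16384 : ℝ), (15357 / 262144 : ℝ), (-264465 / 65536 : ℝ), (-227492473 / 4194304 : ℝ), (-198152693 / 4194304 : ℝ), (-11129071 / 1073741824 : ℝ)⟩

/-- A chord cell of a link. -/
noncomputable def P2C8 : Cell := ⟨(15357 / 262144 : ℝ), (15729 / 262144 : ℝ), (-8462745 / 2097152 : ℝ), (-56638127 / 1048576 : ℝ), (-197074891 / 4194304 : ℝ), (-14567955 / 1073741824 : ℝ)⟩

/-- The chord cells of a link. -/
noncomputable def cellsP2 : List Cell := [P2C0, P2C1, P2C2, P2C3, P2C4, P2C5, P2C6, P2C7, P2C8]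

lemma hcoverP2 : ∀ x : ℝ, (13107 / 262144 : ℝ) ≤ x → x ≤ (15729 / 262144 : ℝ) → ∃ D ∈ cellsP2, D.l ≤ x ∧ x ≤ D.u := by
  refine cover_of_chain ?_ (by norm_num [P2C0])
  simp only [ChainP, P2C0, P2C1, P2C2, P2C3, P2C4, P2C5, P2C6, P2C7, P2C8]
  norm_num

lemma rP2C0 : ∃ N : ℝ, Rw4 P.r2 N (coCell (987 / 1024 : ℝ) (55101 / 4096 : ℝ) (12 : ℝ) 0 P2C0) := by
  refine ⟨(1073741824 : ℝ), ⟨Q53, List.mem_cons_of_mem _ (List.mem_cons_of_mem _ (List.mem_cons_of_mem _ (List.mem_cons_of_mem _ (List.mem_cons_of_mem _ (List.mem_cons_of_mem _ (List.mem_cons_of_mem _ (List.mem_cons_of_mem _ (List.mem_cons_of_mem _ (List.mem_cons_of_mem _ (List.mem_cons_of_mem _ (List.mem_cons_of_mem _ (List.mem_cons_of_mem _ (List.mem_cons_of_mem _ (List.mem_cons_of_mem _ (List.mem_cons_of_mem _ (List.mem_cons_of_mem _ (List.mem_cons_of_mem _ (List.mem_cons_of_mem _ (List.mem_cons_of_mem _ (List.mem_cons_of_mem _ (List.mem_cons_of_mem _ (List.mem_cons_of_mem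 _ (List.mem_cons_of_mem _ (List.mem_cons_of_mem _ (List.mem_cons_of_mem _ (List.mem_cons_of_mem _ (List.mem_cons_of_mem _ (List.mem_cons_of_mem _ (List.mem_cons_of_mem _ (List.mem_cons_of_mem _ (List.mem_cons_of_mem _ (List.mem_cons_of_mem _ (List.mem_cons_of_mem _ (List.mem_cons_of_mem _ (List.mem_cons_of_mem _ (List.mem_cons_of_mem _ (List.mem_cons_of_mem _ (List.mem_cons_of_mem _ (List.mem_cons_of_mem _ (List.mem_cons_of_mem _ (List.mem_cons_of_mem _ (List.mem_cons_of_mem _ (List.mem_cons_of_mem _ (List.mem_cons_of_mem _ (List.mem_cons_of_mem _ (List.mem_cons_of_mem _ (List.mem_cons_of_mem _ (List.mem_cons_of_mem _ (List.mem_cons_of_mem _ (List.mem_cons_of_mem _ (List.mem_cons_of_mem _ (List.mem_cons_of_mem _ (List.mem_cons_self))))))))))))))))))))))))))))))))))))))))))))))))))))), ?_⟩, by norm_num⟩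
  constructor <;> norm_num [Q53, coCell, P2C0]

lemma lP2C0 : ∀ x1 x2 xc : ℝ, 0 ≤ x1 → x1 ≤ 1 → 0 ≤ x2 → x2 ≤ 1 → P2C0.l ≤ xc → xc ≤ P2C0.u →
    (987 / 1024 : ℝ) * (1 - (1 - x1) ^ 5) + (55101 / 4096 : ℝ) * (1 - (1 - x2) ^ 5) - (12 : ℝ) * (1 - (1 - xc) ^ 5) + (1 / 1073741824 : ℝ)
      ≤ - P2C0.a1 * x1 - P2C0.a2 * x2 + P2C0.e * xc + P2C0.f := by
  have h := cell_lines_delta 5 (α1 := (987 / 1024 : ℝ)) (α2 := (55101 / 4096 : ℝ)) (c := (12 : ℝ)) (y1 := (1391 / 32768 : ℝ)) (y2 := (11731 / 262144 : ℝ))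
    (A1 := (16993899 / 4194304 : ℝ)) (B1 := (2139525 / 134217728 : ℝ)) (A2 := (58726923 / 1048576 : ℝ)) (B2 := (33028813 / 134217728 : ℝ)) (l := (13107 / 262144 : ℝ)) (u := (13369 / 262144 : ℝ))
    (E := (-102273513 / 2097152 : ℝ)) (F := (-37076051 / 134217728 : ℝ)) (δ := (1 / 1073741824 : ℝ)) (by norm_num) (by norm_num) (by norm_num) (by norm_num) (by norm_num)
    (by norm_num) (by norm_num) (by norm_num) (by norm_num) (by norm_num) (by norm_num) (by norm_num) (by norm_num) (by norm_num) (by norm_num)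
  have e1 : P2C0.l = (13107 / 262144 : ℝ) := rfl
  have e2 : P2C0.u = (13369 / 262144 : ℝ) := rfl
  have e3 : P2C0.a1 = -(16993899 / 4194304 : ℝ) := by norm_num [P2C0]
  have e4 : P2C0.a2 = -(58726923 / 1048576 : ℝ) := by norm_num [P2C0]
  have e5 : P2C0.e = (-102273513 / 2097152 : ℝ) := rfl
  have e6 : P2C0.f = (2139525 / 134217728 : ℝ) + (33028813 / 134217728 : ℝ) + (-37076051 / 134217728 : ℝ) + (1 / 1073741824 : ℝ) := by norm_num [P2C0]
  rw [e1, e2, e3, e4, e5, e6]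
  exact h

lemma rP2C1 : ∃ N : ℝ, Rw4 P.r2 N (coCell (987 / 1024 : ℝ) (55101 / 4096 : ℝ) (12 : ℝ) 0 P2C1) := by
  refine ⟨(3221225472 : ℝ), ⟨Q54, List.mem_cons_of_mem _ (List.mem_cons_of_mem _ (List.mem_cons_of_mem _ (List.mem_cons_of_mem _ (List.mem_cons_of_mem _ (List.mem_cons_of_mem _ (List.mem_cons_of_mem _ (List.mem_cons_of_mem _ (List.mem_cons_of_mem _ (List.mem_cons_of_mem _ (List.mem_cons_of_mem _ (List.mem_cons_of_mem _ (List.mem_cons_of_mem _ (List.mem_cons_of_mem _ (List.mem_cons_of_mem _ (List.mem_cons_of_mem _ (List.mem_cons_of_mem _ (List.mem_cons_of_mem _ (List.mem_cons_of_mem _ (List.mem_cons_of_mem _ (List.mem_cons_of_mem _ (List.mem_cons_of_mem _ (List.mem_cons_of_mem _ (List.mem_cons_of_mem _ (List.mem_cons_of_mem _ (List.mem_cons_of_mem _ (List.mem_cons_of_mem _ (List.mem_cons_of_mem _ (List.mem_cons_of_mem _ (List.mem_cons_of_mem _ (List.mem_cons_of_mem _ (List.mem_cons_of_mem _ (List.mem_cons_of_mem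 _ (List.mem_cons_of_mem _ (List.mem_cons_of_mem _ (List.mem_cons_of_mem _ (List.mem_cons_of_mem _ (List.mem_cons_of_mem _ (List.mem_cons_of_mem _ (List.mem_cons_of_mem _ (List.mem_cons_of_mem _ (List.mem_cons_of_mem _ (List.mem_cons_of_mem _ (List.mem_cons_of_mem _ (List.mem_cons_of_mem _ (List.mem_cons_of_mem _ (List.mem_cons_of_mem _ (List.mem_cons_of_mem _ (List.mem_cons_of_mem _ (List.mem_cons_of_mem _ (List.mem_cons_of_mem _ (List.mem_cons_of_mem _ (List.mem_cons_of_mem _ (List.mem_cons_of_mem _ (List.mem_cons_self)))))))))))))))))))))))))))))))))))))))))))))))))))))), ?_⟩, by norm_num⟩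
  constructor <;> norm_num [Q54, coCell, P2C1]

lemma lP2C1 : ∀ x1 x2 xc : ℝ, 0 ≤ x1 → x1 ≤ 1 → 0 ≤ x2 → x2 ≤ 1 → P2C1.l ≤ xc → xc ≤ P2C1.u →
    (987 / 1024 : ℝ) * (1 - (1 - x1) ^ 5) + (55101 / 4096 : ℝ) * (1 - (1 - x2) ^ 5) - (12 : ℝ) * (1 - (1 - xc) ^ 5) + (1 / 1073741824 : ℝ)
      ≤ - P2C1.a1 * x1 - P2C1.a2 * x2 + P2C1.e * xc + P2C1.f := by
  have h := cell_lines_delta 5 (α1 := (987 / 1024 : ℝ)) (α2 := (55101 / 4096 : ℝ)) (c := (12 : ℝ)) (y1 := (5659 / 131072 : ℝ)) (y2 := (11993 / 262144 : ℝ))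
    (A1 := (16942505 / 4194304 : ℝ)) (B1 := (4419871 / 268435456 : ℝ)) (A2 := (233926125 / 4194304 : ℝ)) (B2 := (8612527 / 33554432 : ℝ)) (l := (13369 / 262144 : ℝ)) (u := (13637 / 262144 : ℝ))
    (E := (-203677331 / 4194304 : ℝ)) (F := (-76990713 / 268435456 : ℝ)) (δ := (1 / 1073741824 : ℝ)) (by norm_num) (by norm_num) (by norm_num) (by norm_num) (by norm_num)
    (by norm_num) (by norm_num) (by norm_num) (by norm_num) (by norm_num) (by norm_num) (by norm_num) (by norm_num) (by norm_num) (by norm_num)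
  have e1 : P2C1.l = (13369 / 262144 : ℝ) := rfl
  have e2 : P2C1.u = (13637 / 262144 : ℝ) := rfl
  have e3 : P2C1.a1 = -(16942505 / 4194304 : ℝ) := by norm_num [P2C1]
  have e4 : P2C1.a2 = -(233926125 / 4194304 : ℝ) := by norm_num [P2C1]
  have e5 : P2C1.e = (-203677331 / 4194304 : ℝ) := rfl
  have e6 : P2C1.f = (4419871 / 268435456 : ℝ) + (8612527 / 33554432 : ℝ) + (-76990713 / 268435456 : ℝ) + (1 / 1073741824 : ℝ) := by norm_num [P2C1]
  rw [e1, e2, e3, e4, e5, e6]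
  exact h

lemma rP2C2 : ∃ N : ℝ, Rw4 P.r2 N (coCell (987 / 1024 : ℝ) (55101 / 4096 : ℝ) (12 : ℝ) 0 P2C2) := by
  refine ⟨(3221225472 : ℝ), ⟨Q55, List.mem_cons_of_mem _ (List.mem_cons_of_mem _ (List.mem_cons_of_mem _ (List.mem_cons_of_mem _ (List.mem_cons_of_mem _ (List.mem_cons_of_mem _ (List.mem_cons_of_mem _ (List.mem_cons_of_mem _ (List.mem_cons_of_mem _ (List.mem_cons_of_mem _ (List.mem_cons_of_mem _ (List.mem_cons_of_mem _ (List.mem_cons_of_mem _ (List.mem_cons_of_mem _ (List.mem_cons_of_mem _ (List.mem_cons_of_mem _ (List.mem_cons_of_mem _ (List.mem_cons_of_mem _ (List.mem_cons_of_mem _ (List.mem_cons_of_mem _ (List.mem_cons_of_mem _ (List.mem_cons_of_mem _ (List.mem_cons_of_mem _ (List.mem_cons_of_mem _ (List.mem_cons_of_mem _ (List.mem_cons_of_mem _ (List.mem_cons_of_mem _ (List.mem_cons_of_mem _ (List.mem_cons_of_mem _ (List.mem_cons_of_mem _ (List.mem_cons_of_mem _ (List.mem_cons_of_mem _ (List.mem_cons_of_mem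 _ (List.mem_cons_of_mem _ (List.mem_cons_of_mem _ (List.mem_cons_of_mem _ (List.mem_cons_of_mem _ (List.mem_cons_of_mem _ (List.mem_cons_of_mem _ (List.mem_cons_of_mem _ (List.mem_cons_of_mem _ (List.mem_cons_of_mem _ (List.mem_cons_of_mem _ (List.mem_cons_of_mem _ (List.mem_cons_of_mem _ (List.mem_cons_of_mem _ (List.mem_cons_of_mem _ (List.mem_cons_of_mem _ (List.mem_cons_of_mem _ (List.mem_cons_of_mem _ (List.mem_cons_of_mem _ (List.mem_cons_of_mem _ (List.mem_cons_of_mem _ (List.mem_cons_of_mem _ (List.mem_cons_of_mem _ (List.mem_cons_self))))))))))))))))))))))))))))))))))))))))))))))))))))))), ?_⟩, by norm_num⟩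
  constructor <;> norm_num [Q55, coCell, P2C2]

lemma lP2C2 : ∀ x1 x2 xc : ℝ, 0 ≤ x1 → x1 ≤ 1 → 0 ≤ x2 → x2 ≤ 1 → P2C2.l ≤ xc → xc ≤ P2C2.u →
    (987 / 1024 : ℝ) * (1 - (1 - x1) ^ 5) + (55101 / 4096 : ℝ) * (1 - (1 - x2) ^ 5) - (12 : ℝ) * (1 - (1 - xc) ^ 5) + (1 / 1073741824 : ℝ)
      ≤ - P2C2.a1 * x1 - P2C2.a2 * x2 + P2C2.e * xc + P2C2.f := by
  have h := cell_lines_delta 5 (α1 := (987 / 1024 : ℝ)) (α2 := (55101 / 4096 : ℝ)) (c := (12 : ℝ)) (y1 := (11335 / 262144 : ℝ)) (y2 := (6135 / 131072 : ℝ))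
    (A1 := (2117239 / 524288 : ℝ)) (B1 := (4432589 / 268435456 : ℝ)) (A2 := (116445855 / 2097152 : ℝ)) (B2 := (71963917 / 268435456 : ℝ)) (l := (13637 / 262144 : ℝ)) (u := (13909 / 262144 : ℝ))
    (E := (-202794079 / 4194304 : ℝ)) (F := (-19982841 / 67108864 : ℝ)) (δ := (1 / 1073741824 : ℝ)) (by norm_num) (by norm_num) (by norm_num) (by norm_num) (by norm_num)
    (by norm_num) (by norm_num) (by norm_num) (by norm_num) (by norm_num) (by norm_num) (by norm_num) (by norm_num) (by norm_num) (by norm_num)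
  have e1 : P2C2.l = (13637 / 262144 : ℝ) := rfl
  have e2 : P2C2.u = (13909 / 262144 : ℝ) := rfl
  have e3 : P2C2.a1 = -(2117239 / 524288 : ℝ) := by norm_num [P2C2]
  have e4 : P2C2.a2 = -(116445855 / 2097152 : ℝ) := by norm_num [P2C2]
  have e5 : P2C2.e = (-202794079 / 4194304 : ℝ) := rfl
  have e6 : P2C2.f = (4432589 / 268435456 : ℝ) + (71963917 / 268435456 : ℝ) + (-19982841 / 67108864 : ℝ) + (1 / 1073741824 : ℝ) := by norm_num [P2C2]
  rw [e1, e2, e3, e4, e5, e6]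
  exact h

lemma rP2C3 : ∃ N : ℝ, Rw4 P.r2 N (coCell (987 / 1024 : ℝ) (55101 / 4096 : ℝ) (12 : ℝ) 0 P2C3) := by
  refine ⟨(3221225472 : ℝ), ⟨Q56, List.mem_cons_of_mem _ (List.mem_cons_of_mem _ (List.mem_cons_of_mem _ (List.mem_cons_of_mem _ (List.mem_cons_of_mem _ (List.mem_cons_of_mem _ (List.mem_cons_of_mem _ (List.mem_cons_of_mem _ (List.mem_cons_of_mem _ (List.mem_cons_of_mem _ (List.mem_cons_of_mem _ (List.mem_cons_of_mem _ (List.mem_cons_of_mem _ (List.mem_cons_of_mem _ (List.mem_cons_of_mem _ (List.mem_cons_of_mem _ (List.mem_cons_of_mem _ (List.mem_cons_of_mem _ (List.mem_cons_of_mem _ (List.mem_cons_of_mem _ (List.mem_cons_of_mem _ (List.mem_cons_of_mem _ (List.mem_cons_of_mem _ (List.mem_cons_of_mem _ (List.mem_cons_of_mem _ (List.mem_cons_of_mem _ (List.mem_cons_of_mem _ (List.mem_cons_of_mem _ (List.mem_cons_of_mem _ (List.mem_cons_of_mem _ (List.mem_cons_of_mem _ (List.mem_cons_of_mem _ (List.mem_cons_of_mem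 _ (List.mem_cons_of_mem _ (List.mem_cons_of_mem _ (List.mem_cons_of_mem _ (List.mem_cons_of_mem _ (List.mem_cons_of_mem _ (List.mem_cons_of_mem _ (List.mem_cons_of_mem _ (List.mem_cons_of_mem _ (List.mem_cons_of_mem _ (List.mem_cons_of_mem _ (List.mem_cons_of_mem _ (List.mem_cons_of_mem _ (List.mem_cons_of_mem _ (List.mem_cons_of_mem _ (List.mem_cons_of_mem _ (List.mem_cons_of_mem _ (List.mem_cons_of_mem _ (List.mem_cons_of_mem _ (List.mem_cons_of_mem _ (List.mem_cons_of_mem _ (List.mem_cons_of_mem _ (List.mem_cons_of_mem _ (List.mem_cons_of_mem _ (List.mem_cons_self)))))))))))))))))))))))))))))))))))))))))))))))))))))))), ?_⟩, by norm_num⟩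
  constructor <;> norm_num [Q56, coCell, P2C3]

lemma lP2C3 : ∀ x1 x2 xc : ℝ, 0 ≤ x1 → x1 ≤ 1 → 0 ≤ x2 → x2 ≤ 1 → P2C3.l ≤ xc → xc ≤ P2C3.u →
    (987 / 1024 : ℝ) * (1 - (1 - x1) ^ 5) + (55101 / 4096 : ℝ) * (1 - (1 - x2) ^ 5) - (12 : ℝ) * (1 - (1 - xc) ^ 5) + (1 / 1073741824 : ℝ)
      ≤ - P2C3.a1 * x1 - P2C3.a2 * x2 + P2C3.e * xc + P2C3.f := by
  have h := cell_lines_delta 5 (α1 := (987 / 1024 : ℝ)) (α2 := (55101 / 4096 : ℝ)) (c := (12 : ℝ)) (y1 := (11343 / 262144 : ℝ)) (y2 := (1569 / 32768 : ℝ))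
    (A1 := (16935751 / 4194304 : ℝ)) (B1 := (2219287 / 134217728 : ℝ)) (A2 := (231842151 / 4194304 : ℝ)) (B2 := (75144101 / 268435456 : ℝ)) (l := (13909 / 262144 : ℝ)) (u := (3547 / 65536 : ℝ))
    (E := (-201895803 / 4194304 : ℝ)) (F := (-82981687 / 268435456 : ℝ)) (δ := (1 / 1073741824 : ℝ)) (by norm_num) (by norm_num) (by norm_num) (by norm_num) (by norm_num)
    (by norm_num) (by norm_num) (by norm_num) (by norm_num) (by norm_num) (by norm_num) (by norm_num) (by norm_num) (by norm_num) (by norm_num)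
  have e1 : P2C3.l = (13909 / 262144 : ℝ) := rfl
  have e2 : P2C3.u = (3547 / 65536 : ℝ) := rfl
  have e3 : P2C3.a1 = -(16935751 / 4194304 : ℝ) := by norm_num [P2C3]
  have e4 : P2C3.a2 = -(231842151 / 4194304 : ℝ) := by norm_num [P2C3]
  have e5 : P2C3.e = (-201895803 / 4194304 : ℝ) := rfl
  have e6 : P2C3.f = (2219287 / 134217728 : ℝ) + (75144101 / 268435456 : ℝ) + (-82981687 / 268435456 : ℝ) + (1 / 1073741824 : ℝ) := by norm_num [P2C3]
  rw [e1, e2, e3, e4, e5, e6]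
  exact h

lemma rP2C4 : ∃ N : ℝ, Rw4 P.r2 N (coCell (987 / 1024 : ℝ) (55101 / 4096 : ℝ) (12 : ℝ) 0 P2C4) := by
  refine ⟨(3221225472 : ℝ), ⟨Q57, List.mem_cons_of_mem _ (List.mem_cons_of_mem _ (List.mem_cons_of_mem _ (List.mem_cons_of_mem _ (List.mem_cons_of_mem _ (List.mem_cons_of_mem _ (List.mem_cons_of_mem _ (List.mem_cons_of_mem _ (List.mem_cons_of_mem _ (List.mem_cons_of_mem _ (List.mem_cons_of_mem _ (List.mem_cons_of_mem _ (List.mem_cons_of_mem _ (List.mem_cons_of_mem _ (List.mem_cons_of_mem _ (List.mem_cons_of_mem _ (List.mem_cons_of_mem _ (List.mem_cons_of_mem _ (List.mem_cons_of_mem _ (List.mem_cons_of_mem _ (List.mem_cons_of_mem _ (List.mem_cons_of_mem _ (List.mem_cons_of_mem _ (List.mem_cons_of_mem _ (List.mem_cons_of_mem _ (List.mem_cons_of_mem _ (List.mem_cons_of_mem _ (List.mem_cons_of_mem _ (List.mem_cons_of_mem _ (List.mem_cons_of_mem _ (List.mem_cons_of_mem _ (List.mem_cons_of_mem _ (List.mem_cons_of_mem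 _ (List.mem_cons_of_mem _ (List.mem_cons_of_mem _ (List.mem_cons_of_mem _ (List.mem_cons_of_mem _ (List.mem_cons_of_mem _ (List.mem_cons_of_mem _ (List.mem_cons_of_mem _ (List.mem_cons_of_mem _ (List.mem_cons_of_mem _ (List.mem_cons_of_mem _ (List.mem_cons_of_mem _ (List.mem_cons_of_mem _ (List.mem_cons_of_mem _ (List.mem_cons_of_mem _ (List.mem_cons_of_mem _ (List.mem_cons_of_mem _ (List.mem_cons_of_mem _ (List.mem_cons_of_mem _ (List.mem_cons_of_mem _ (List.mem_cons_of_mem _ (List.mem_cons_of_mem _ (List.mem_cons_of_mem _ (List.mem_cons_of_mem _ (List.mem_cons_of_mem _ (List.mem_cons_self))))))))))))))))))))))))))))))))))))))))))))))))))))))))), ?_⟩, by norm_num⟩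
  constructor <;> norm_num [Q57, coCell, P2C4]

lemma lP2C4 : ∀ x1 x2 xc : ℝ, 0 ≤ x1 → x1 ≤ 1 → 0 ≤ x2 → x2 ≤ 1 → P2C4.l ≤ xc → xc ≤ P2C4.u →
    (987 / 1024 : ℝ) * (1 - (1 - x1) ^ 5) + (55101 / 4096 : ℝ) * (1 - (1 - x2) ^ 5) - (12 : ℝ) * (1 - (1 - xc) ^ 5) + (1 / 1073741824 : ℝ)
      ≤ - P2C4.a1 * x1 - P2C4.a2 * x2 + P2C4.e * xc + P2C4.f := by
  have h := cell_lines_delta 5 (α1 := (987 / 1024 : ℝ)) (α2 := (55101 / 4096 : ℝ)) (c := (12 : ℝ)) (y1 := (11335 / 262144 : ℝ)) (y2 := (12841 / 262144 : ℝ))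
    (A1 := (2117239 / 524288 : ℝ)) (B1 := (4432589 / 268435456 : ℝ)) (A2 := (14423139 / 262144 : ℝ)) (B2 := (39233383 / 134217728 : ℝ)) (l := (3547 / 65536 : ℝ)) (u := (14471 / 262144 : ℝ))
    (E := (-50245667 / 1048576 : ℝ)) (F := (-86144665 / 268435456 : ℝ)) (δ := (1 / 1073741824 : ℝ)) (by norm_num) (by norm_num) (by norm_num) (by norm_num) (by norm_num)
    (by norm_num) (by norm_num) (by norm_num) (by norm_num) (by norm_num) (by norm_num) (by norm_num) (by norm_num) (by norm_num) (by norm_num)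
  have e1 : P2C4.l = (3547 / 65536 : ℝ) := rfl
  have e2 : P2C4.u = (14471 / 262144 : ℝ) := rfl
  have e3 : P2C4.a1 = -(2117239 / 524288 : ℝ) := by norm_num [P2C4]
  have e4 : P2C4.a2 = -(14423139 / 262144 : ℝ) := by norm_num [P2C4]
  have e5 : P2C4.e = (-50245667 / 1048576 : ℝ) := rfl
  have e6 : P2C4.f = (4432589 / 268435456 : ℝ) + (39233383 / 134217728 : ℝ) + (-86144665 / 268435456 : ℝ) + (1 / 1073741824 : ℝ) := by norm_num [P2C4]
  rw [e1, e2, e3, e4, e5, e6]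
  exact h

lemma rP2C5 : ∃ N : ℝ, Rw4 P.r2 N (coCell (987 / 1024 : ℝ) (55101 / 4096 : ℝ) (12 : ℝ) 0 P2C5) := by
  refine ⟨(3221225472 : ℝ), ⟨Q58, List.mem_cons_of_mem _ (List.mem_cons_of_mem _ (List.mem_cons_of_mem _ (List.mem_cons_of_mem _ (List.mem_cons_of_mem _ (List.mem_cons_of_mem _ (List.mem_cons_of_mem _ (List.mem_cons_of_mem _ (List.mem_cons_of_mem _ (List.mem_cons_of_mem _ (List.mem_cons_of_mem _ (List.mem_cons_of_mem _ (List.mem_cons_of_mem _ (List.mem_cons_of_mem _ (List.mem_cons_of_mem _ (List.mem_cons_of_mem _ (List.mem_cons_of_mem _ (List.mem_cons_of_mem _ (List.mem_cons_of_mem _ (List.mem_cons_of_mem _ (List.mem_cons_of_mem _ (List.mem_cons_of_mem _ (List.mem_cons_of_mem _ (List.mem_cons_of_mem _ (List.mem_cons_of_mem _ (List.mem_cons_of_mem _ (List.mem_cons_of_mem _ (List.mem_cons_of_mem _ (List.mem_cons_of_mem _ (List.mem_cons_of_mem _ (List.mem_cons_of_mem _ (List.mem_cons_of_mem _ (List.mem_cons_of_mem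 _ (List.mem_cons_of_mem _ (List.mem_cons_of_mem _ (List.mem_cons_of_mem _ (List.mem_cons_of_mem _ (List.mem_cons_of_mem _ (List.mem_cons_of_mem _ (List.mem_cons_of_mem _ (List.mem_cons_of_mem _ (List.mem_cons_of_mem _ (List.mem_cons_of_mem _ (List.mem_cons_of_mem _ (List.mem_cons_of_mem _ (List.mem_cons_of_mem _ (List.mem_cons_of_mem _ (List.mem_cons_of_mem _ (List.mem_cons_of_mem _ (List.mem_cons_of_mem _ (List.mem_cons_of_mem _ (List.mem_cons_of_mem _ (List.mem_cons_of_mem _ (List.mem_cons_of_mem _ (List.mem_cons_of_mem _ (List.mem_cons_of_mem _ (List.mem_cons_of_mem _ (List.mem_cons_of_mem _ (List.mem_cons_self)))))))))))))))))))))))))))))))))))))))))))))))))))))))))), ?_⟩, by norm_num⟩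
  constructor <;> norm_num [Q58, coCell, P2C5]

lemma lP2C5 : ∀ x1 x2 xc : ℝ, 0 ≤ x1 → x1 ≤ 1 → 0 ≤ x2 → x2 ≤ 1 → P2C5.l ≤ xc → xc ≤ P2C5.u →
    (987 / 1024 : ℝ) * (1 - (1 - x1) ^ 5) + (55101 / 4096 : ℝ) * (1 - (1 - x2) ^ 5) - (12 : ℝ) * (1 - (1 - xc) ^ 5) + (1 / 1073741824 : ℝ)
      ≤ - P2C5.a1 * x1 - P2C5.a2 * x2 + P2C5.e * xc + P2C5.f := by
  have h := cell_lines_delta 5 (α1 := (987 / 1024 : ℝ)) (α2 := (55101 / 4096 : ℝ)) (c := (12 : ℝ)) (y1 := (2841 / 65536 : ℝ)) (y2 := (13133 / 262144 : ℝ))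
    (A1 := (529065 / 131072 : ℝ)) (B1 := (4454263 / 268435456 : ℝ)) (A2 := (114845475 / 2097152 : ℝ)) (B2 := (81888723 / 268435456 : ℝ)) (l := (14471 / 262144 : ℝ)) (u := (14761 / 262144 : ℝ))
    (E := (-200054855 / 4194304 : ℝ)) (F := (-44711295 / 134217728 : ℝ)) (δ := (1 / 1073741824 : ℝ)) (by norm_num) (by norm_num) (by norm_num) (by norm_num) (by norm_num)
    (by norm_num) (by norm_num) (by norm_num) (by norm_num) (by norm_num) (by norm_num) (by norm_num) (by norm_num) (by norm_num) (by norm_num)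
  have e1 : P2C5.l = (14471 / 262144 : ℝ) := rfl
  have e2 : P2C5.u = (14761 / 262144 : ℝ) := rfl
  have e3 : P2C5.a1 = -(529065 / 131072 : ℝ) := by norm_num [P2C5]
  have e4 : P2C5.a2 = -(114845475 / 2097152 : ℝ) := by norm_num [P2C5]
  have e5 : P2C5.e = (-200054855 / 4194304 : ℝ) := rfl
  have e6 : P2C5.f = (4454263 / 268435456 : ℝ) + (81888723 / 268435456 : ℝ) + (-44711295 / 134217728 : ℝ) + (1 / 1073741824 : ℝ) := by norm_num [P2C5]
  rw [e1, e2, e3, e4, e5, e6]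
  exact h

lemma rP2C6 : ∃ N : ℝ, Rw4 P.r2 N (coCell (987 / 1024 : ℝ) (55101 / 4096 : ℝ) (12 : ℝ) 0 P2C6) := by
  refine ⟨(3221225472 : ℝ), ⟨Q59, List.mem_cons_of_mem _ (List.mem_cons_of_mem _ (List.mem_cons_of_mem _ (List.mem_cons_of_mem _ (List.mem_cons_of_mem _ (List.mem_cons_of_mem _ (List.mem_cons_of_mem _ (List.mem_cons_of_mem _ (List.mem_cons_of_mem _ (List.mem_cons_of_mem _ (List.mem_cons_of_mem _ (List.mem_cons_of_mem _ (List.mem_cons_of_mem _ (List.mem_cons_of_mem _ (List.mem_cons_of_mem _ (List.mem_cons_of_mem _ (List.mem_cons_of_mem _ (List.mem_cons_of_mem _ (List.mem_cons_of_mem _ (List.mem_cons_of_mem _ (List.mem_cons_of_mem _ (List.mem_cons_of_mem _ (List.mem_cons_of_mem _ (List.mem_cons_of_mem _ (List.mem_cons_of_mem _ (List.mem_cons_of_mem _ (List.mem_cons_of_mem _ (List.mem_cons_of_mem _ (List.mem_cons_of_mem _ (List.mem_cons_of_mem _ (List.mem_cons_of_mem _ (List.mem_cons_of_mem _ (List.mem_cons_of_mem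 _ (List.mem_cons_of_mem _ (List.mem_cons_of_mem _ (List.mem_cons_of_mem _ (List.mem_cons_of_mem _ (List.mem_cons_of_mem _ (List.mem_cons_of_mem _ (List.mem_cons_of_mem _ (List.mem_cons_of_mem _ (List.mem_cons_of_mem _ (List.mem_cons_of_mem _ (List.mem_cons_of_mem _ (List.mem_cons_of_mem _ (List.mem_cons_of_mem _ (List.mem_cons_of_mem _ (List.mem_cons_of_mem _ (List.mem_cons_of_mem _ (List.mem_cons_of_mem _ (List.mem_cons_of_mem _ (List.mem_cons_of_mem _ (List.mem_cons_of_mem _ (List.mem_cons_of_mem _ (List.mem_cons_of_mem _ (List.mem_cons_of_mem _ (List.mem_cons_of_mem _ (List.mem_cons_of_mem _ (List.mem_cons_of_mem _ (List.mem_cons_self))))))))))))))))))))))))))))))))))))))))))))))))))))))))))), ?_⟩, by norm_num⟩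
  constructor <;> norm_num [Q59, coCell, P2C6]

lemma lP2C6 : ∀ x1 x2 xc : ℝ, 0 ≤ x1 → x1 ≤ 1 → 0 ≤ x2 → x2 ≤ 1 → P2C6.l ≤ xc → xc ≤ P2C6.u →
    (987 / 1024 : ℝ) * (1 - (1 - x1) ^ 5) + (55101 / 4096 : ℝ) * (1 - (1 - x2) ^ 5) - (12 : ℝ) * (1 - (1 - xc) ^ 5) + (1 / 1073741824 : ℝ)
      ≤ - P2C6.a1 * x1 - P2C6.a2 * x2 + P2C6.e * xc + P2C6.f := by
  have h := cell_lines_delta 5 (α1 := (987 / 1024 : ℝ)) (α2 := (55101 / 4096 : ℝ)) (c := (12 : ℝ)) (y1 := (11363 / 262144 : ℝ)) (y2 := (1679 / 32768 : ℝ))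
    (A1 := (8465175 / 2097152 : ℝ)) (B1 := (2226757 / 134217728 : ℝ)) (A2 := (228589729 / 4194304 : ℝ)) (B2 := (85459753 / 268435456 : ℝ)) (l := (14761 / 262144 : ℝ)) (u := (941 / 16384 : ℝ))
    (E := (-12444433 / 262144 : ℝ)) (F := (-92824277 / 268435456 : ℝ)) (δ := (1 / 1073741824 : ℝ)) (by norm_num) (by norm_num) (by norm_num) (by norm_num) (by norm_num)
    (by norm_num) (by norm_num) (by norm_num) (by norm_num) (by norm_num) (by norm_num) (by norm_num) (by norm_num) (by norm_num) (by norm_num)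
  have e1 : P2C6.l = (14761 / 262144 : ℝ) := rfl
  have e2 : P2C6.u = (941 / 16384 : ℝ) := rfl
  have e3 : P2C6.a1 = -(8465175 / 2097152 : ℝ) := by norm_num [P2C6]
  have e4 : P2C6.a2 = -(228589729 / 4194304 : ℝ) := by norm_num [P2C6]
  have e5 : P2C6.e = (-12444433 / 262144 : ℝ) := rfl
  have e6 : P2C6.f = (2226757 / 134217728 : ℝ) + (85459753 / 268435456 : ℝ) + (-92824277 / 268435456 : ℝ) + (1 / 1073741824 : ℝ) := by norm_num [P2C6]
  rw [e1, e2, e3, e4, e5, e6]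
  exact h

lemma rP2C7 : ∃ N : ℝ, Rw4 P.r2 N (coCell (987 / 1024 : ℝ) (55101 / 4096 : ℝ) (12 : ℝ) 0 P2C7) := by
  refine ⟨(3221225472 : ℝ), ⟨Q60, List.mem_cons_of_mem _ (List.mem_cons_of_mem _ (List.mem_cons_of_mem _ (List.mem_cons_of_mem _ (List.mem_cons_of_mem _ (List.mem_cons_of_mem _ (List.mem_cons_of_mem _ (List.mem_cons_of_mem _ (List.mem_cons_of_mem _ (List.mem_cons_of_mem _ (List.mem_cons_of_mem _ (List.mem_cons_of_mem _ (List.mem_cons_of_mem _ (List.mem_cons_of_mem _ (List.mem_cons_of_mem _ (List.mem_cons_of_mem _ (List.mem_cons_of_mem _ (List.mem_cons_of_mem _ (List.mem_cons_of_mem _ (List.mem_cons_of_mem _ (List.mem_cons_of_mem _ (List.mem_cons_of_mem _ (List.mem_cons_of_mem _ (List.mem_cons_of_mem _ (List.mem_cons_of_mem _ (List.mem_cons_of_mem _ (List.mem_cons_of_mem _ (List.mem_cons_of_mem _ (List.mem_cons_of_mem _ (List.mem_cons_of_mem _ (List.mem_cons_of_mem _ (List.mem_cons_of_mem _ (List.mem_cons_of_mem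 _ (List.mem_cons_of_mem _ (List.mem_cons_of_mem _ (List.mem_cons_of_mem _ (List.mem_cons_of_mem _ (List.mem_cons_of_mem _ (List.mem_cons_of_mem _ (List.mem_cons_of_mem _ (List.mem_cons_of_mem _ (List.mem_cons_of_mem _ (List.mem_cons_of_mem _ (List.mem_cons_of_mem _ (List.mem_cons_of_mem _ (List.mem_cons_of_mem _ (List.mem_cons_of_mem _ (List.mem_cons_of_mem _ (List.mem_cons_of_mem _ (List.mem_cons_of_mem _ (List.mem_cons_of_mem _ (List.mem_cons_of_mem _ (List.mem_cons_of_mem _ (List.mem_cons_of_mem _ (List.mem_cons_of_mem _ (List.mem_cons_of_mem _ (List.mem_cons_of_mem _ (List.mem_cons_of_mem _ (List.mem_cons_of_mem _ (List.mem_cons_of_mem _ (List.mem_cons_self)))))))))))))))))))))))))))))))))))))))))))))))))))))))))))), ?_⟩, by norm_num⟩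
  constructor <;> norm_num [Q60, coCell, P2C7]

lemma lP2C7 : ∀ x1 x2 xc : ℝ, 0 ≤ x1 → x1 ≤ 1 → 0 ≤ x2 → x2 ≤ 1 → P2C7.l ≤ xc → xc ≤ P2C7.u →
    (987 / 1024 : ℝ) * (1 - (1 - x1) ^ 5) + (55101 / 4096 : ℝ) * (1 - (1 - x2) ^ 5) - (12 : ℝ) * (1 - (1 - xc) ^ 5) + (1 / 1073741824 : ℝ)
      ≤ - P2C7.a1 * x1 - P2C7.a2 * x2 + P2C7.e * xc + P2C7.f := by
  have h := cell_lines_delta 5 (α1 := (987 / 1024 : ℝ)) (α2 := (55101 / 4096 : ℝ)) (c := (12 : ℝ)) (y1 := (2845 / 65536 : ℝ)) (y2 := (13731 / 262144 : ℝ))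
    (A1 := (264465 / 65536 : ℝ)) (B1 := (2233129 / 134217728 : ℝ)) (A2 := (227492473 / 4194304 : ℝ)) (B2 := (89098013 / 268435456 : ℝ)) (l := (941 / 16384 : ℝ)) (u := (15357 / 262144 : ℝ))
    (E := (-198152693 / 4194304 : ℝ)) (F := (-96346539 / 268435456 : ℝ)) (δ := (1 / 1073741824 : ℝ)) (by norm_num) (by norm_num) (by norm_num) (by norm_num) (by norm_num)
    (by norm_num) (by norm_num) (by norm_num) (by norm_num) (by norm_num) (by norm_num) (by norm_num) (by norm_num) (by norm_num) (by norm_num)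
  have e1 : P2C7.l = (941 / 16384 : ℝ) := rfl
  have e2 : P2C7.u = (15357 / 262144 : ℝ) := rfl
  have e3 : P2C7.a1 = -(264465 / 65536 : ℝ) := by norm_num [P2C7]
  have e4 : P2C7.a2 = -(227492473 / 4194304 : ℝ) := by norm_num [P2C7]
  have e5 : P2C7.e = (-198152693 / 4194304 : ℝ) := rfl
  have e6 : P2C7.f = (2233129 / 134217728 : ℝ) + (89098013 / 268435456 : ℝ) + (-96346539 / 268435456 : ℝ) + (1 / 1073741824 : ℝ) := by norm_num [P2C7]
  rw [e1, e2, e3, e4, e5, e6]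
  exact h

lemma rP2C8 : ∃ N : ℝ, Rw4 P.r2 N (coCell (987 / 1024 : ℝ) (55101 / 4096 : ℝ) (12 : ℝ) 0 P2C8) := by
  refine ⟨(3221225472 : ℝ), ⟨Q61, List.mem_cons_of_mem _ (List.mem_cons_of_mem _ (List.mem_cons_of_mem _ (List.mem_cons_of_mem _ (List.mem_cons_of_mem _ (List.mem_cons_of_mem _ (List.mem_cons_of_mem _ (List.mem_cons_of_mem _ (List.mem_cons_of_mem _ (List.mem_cons_of_mem _ (List.mem_cons_of_mem _ (List.mem_cons_of_mem _ (List.mem_cons_of_mem _ (List.mem_cons_of_mem _ (List.mem_cons_of_mem _ (List.mem_cons_of_mem _ (List.mem_cons_of_mem _ (List.mem_cons_of_mem _ (List.mem_cons_of_mem _ (List.mem_cons_of_mem _ (List.mem_cons_of_mem _ (List.mem_cons_of_mem _ (List.mem_cons_of_mem _ (List.mem_cons_of_mem _ (List.mem_cons_of_mem _ (List.mem_cons_of_mem _ (List.mem_cons_of_mem _ (List.mem_cons_of_mem _ (List.mem_cons_of_mem _ (List.mem_cons_of_mem _ (List.mem_cons_of_mem _ (List.mem_cons_of_mem _ (List.mem_cons_of_mem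 _ (List.mem_cons_of_mem _ (List.mem_cons_of_mem _ (List.mem_cons_of_mem _ (List.mem_cons_of_mem _ (List.mem_cons_of_mem _ (List.mem_cons_of_mem _ (List.mem_cons_of_mem _ (List.mem_cons_of_mem _ (List.mem_cons_of_mem _ (List.mem_cons_of_mem _ (List.mem_cons_of_mem _ (List.mem_cons_of_mem _ (List.mem_cons_of_mem _ (List.mem_cons_of_mem _ (List.mem_cons_of_mem _ (List.mem_cons_of_mem _ (List.mem_cons_of_mem _ (List.mem_cons_of_mem _ (List.mem_cons_of_mem _ (List.mem_cons_of_mem _ (List.mem_cons_of_mem _ (List.mem_cons_of_mem _ (List.mem_cons_of_mem _ (List.mem_cons_of_mem _ (List.mem_cons_of_mem _ (List.mem_cons_of_mem _ (List.mem_cons_of_mem _ (List.mem_cons_of_mem _ (List.mem_cons_self))))))))))))))))))))))))))))))))))))))))))))))))))))))))))))), ?_⟩, by norm_num⟩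
  constructor <;> norm_num [Q61, coCell, P2C8]

lemma lP2C8 : ∀ x1 x2 xc : ℝ, 0 ≤ x1 → x1 ≤ 1 → 0 ≤ x2 → x2 ≤ 1 → P2C8.l ≤ xc → xc ≤ P2C8.u →
    (987 / 1024 : ℝ) * (1 - (1 - x1) ^ 5) + (55101 / 4096 : ℝ) * (1 - (1 - x2) ^ 5) - (12 : ℝ) * (1 - (1 - xc) ^ 5) + (1 / 1073741824 : ℝ)
      ≤ - P2C8.a1 * x1 - P2C8.a2 * x2 + P2C8.e * xc + P2C8.f := by
  have h := cell_lines_delta 5 (α1 := (987 / 1024 : ℝ)) (α2 := (55101 / 4096 : ℝ)) (c := (12 : ℝ)) (y1 := (11381 / 262144 : ℝ)) (y2 := (3497 / 65536 : ℝ))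
    (A1 := (8462745 / 2097152 : ℝ)) (B1 := (69797 / 4194304 : ℝ)) (A2 := (56638127 / 1048576 : ℝ)) (B2 := (46139255 / 134217728 : ℝ)) (l := (15357 / 262144 : ℝ)) (u := (15729 / 262144 : ℝ))
    (E := (-197074891 / 4194304 : ℝ)) (F := (-100387507 / 268435456 : ℝ)) (δ := (1 / 1073741824 : ℝ)) (by norm_num) (by norm_num) (by norm_num) (by norm_num) (by norm_num)
    (by norm_num) (by norm_num) (by norm_num) (by norm_num) (by norm_num) (by norm_num) (by norm_num) (by norm_num) (by norm_num) (by norm_num)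
  have e1 : P2C8.l = (15357 / 262144 : ℝ) := rfl
  have e2 : P2C8.u = (15729 / 262144 : ℝ) := rfl
  have e3 : P2C8.a1 = -(8462745 / 2097152 : ℝ) := by norm_num [P2C8]
  have e4 : P2C8.a2 = -(56638127 / 1048576 : ℝ) := by norm_num [P2C8]
  have e5 : P2C8.e = (-197074891 / 4194304 : ℝ) := rfl
  have e6 : P2C8.f = (69797 / 4194304 : ℝ) + (46139255 / 134217728 : ℝ) + (-100387507 / 268435456 : ℝ) + (1 / 1073741824 : ℝ) := by norm_num [P2C8]
  rw [e1, e2, e3, e4, e5, e6]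
  exact h

/-- A link of the chain. -/
lemma link2 {lam : ℝ} (h0 : -(1 / 2) < lam) (h1 : lam < 1) (hB : BoxS lam P 0 HH 0 HH)
    (h : ∃ n, 1 - En 5 lam n mc ≤ (15729 / 262144 : ℝ)) : ∃ n, 1 - En 5 lam n mc ≤ (13107 / 262144 : ℝ) :=
  phase_of_box (by norm_num) h0 h1 hB (987 / 1024 : ℝ) (55101 / 4096 : ℝ) (12 : ℝ) (1 / 1073741824 : ℝ) (13107 / 262144 : ℝ) (15729 / 262144 : ℝ) (by norm_num) cellsP2 hcoverP2
    (forall_cons lP2C0 (forall_cons lP2C1 (forall_cons lP2C2 (forall_cons lP2C3 (forall_cons lP2C4 (forall_cons lP2C5 (forall_cons lP2C6 (forall_cons lP2C7 (forall_cons lP2C8 (forall_nil)))))))))) (forall_cons rP2C0 (forall_cons rP2C1 (forall_cons rP2C2 (forall_cons rP2C3 (forall_cons rP2C4 (forall_cons rP2C5 (forall_cons rP2C6 (forall_cons rP2C7 (forall_cons rP2C8 (forall_nil)))))))))) h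

/-- A chord cell of a link. -/
noncomputable def P3C0 : Cell := ⟨(15729 / 262144 : ℝ), (16043 / 262144 : ℝ), (-19445143 / 4194304 : ℝ), (-112118315 / 2097152 : ℝ), (-97990329 / 2097152 : ℝ), (-20178631 / 1073741824 : ℝ)⟩

/-- A chord cell of a link. -/
noncomputable def P3C1 : Cell := ⟨(16043 / 262144 : ℝ), (4091 / 65536 : ℝ), (-4860973 / 1048576 : ℝ), (-111540991 / 2097152 : ℝ), (-194971909 / 4194304 : ℝ), (-19950027 / 1073741824 : ℝ)⟩

/-- A chord cell of a link. -/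
noncomputable def P3C2 : Cell := ⟨(4091 / 65536 : ℝ), (16691 / 262144 : ℝ), (-19465177 / 4194304 : ℝ), (-221881581 / 4194304 : ℝ), (-96973263 / 2097152 : ℝ), (-19583523 / 1073741824 : ℝ)⟩

/-- A chord cell of a link. -/
noncomputable def P3C3 : Cell := ⟨(16691 / 262144 : ℝ), (17025 / 262144 : ℝ), (-19546411 / 4194304 : ℝ), (-110278729 / 2097152 : ℝ), (-192904747 / 4194304 : ℝ), (-18380999 / 1073741824 : ℝ)⟩

/-- A chord cell of a link. -/
noncomputable def P3C4 : Cell := ⟨(17025 / 262144 : ℝ), (8683 / 131072 : ℝ), (-19506233 / 4194304 : ℝ), (-219392161 / 4194304 : ℝ), (-191845239 / 4194304 : ℝ), (-18140843 / 1073741824 : ℝ)⟩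

/-- A chord cell of a link. -/
noncomputable def P3C5 : Cell := ⟨(8683 / 131072 : ℝ), (17713 / 262144 : ℝ), (-4909575 / 1048576 : ℝ), (-13627295 / 262144 : ℝ), (-95384911 / 2097152 : ℝ), (-17446683 / 1073741824 : ℝ)⟩

/-- A chord cell of a link. -/
noncomputable def P3C6 : Cell := ⟨(17713 / 262144 : ℝ), (18067 / 262144 : ℝ), (-76075 / 16384 : ℝ), (-3391583 / 65536 : ℝ), (-189678743 / 4194304 : ℝ), (-19054783 / 1073741824 : ℝ)⟩

/-- A chord cell of a link. -/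
noncomputable def P3C7 : Cell := ⟨(18067 / 262144 : ℝ), (9175 / 131072 : ℝ), (-9660607 / 2097152 : ℝ), (-6752677 / 131072 : ℝ), (-188691263 / 4194304 : ℝ), (-18986647 / 1073741824 : ℝ)⟩

/-- The chord cells of a link. -/
noncomputable def cellsP3 : List Cell := [P3C0, P3C1, P3C2, P3C3, P3C4, P3C5, P3C6, P3C7]

lemma hcoverP3 : ∀ x : ℝ, (15729 / 262144 : ℝ) ≤ x → x ≤ (9175 / 131072 : ℝ) → ∃ D ∈ cellsP3, D.l ≤ x ∧ x ≤ D.u := by
  refine cover_of_chain ?_ (by norm_num [P3C0])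
  simp only [ChainP, P3C0, P3C1, P3C2, P3C3, P3C4, P3C5, P3C6, P3C7]
  norm_num

lemma rP3C0 : ∃ N : ℝ, Rw4 P.r2 N (coCell (2349 / 2048 : ℝ) (54587 / 4096 : ℝ) (12 : ℝ) 0 P3C0) := by
  refine ⟨(3221225472 : ℝ), ⟨Q62, List.mem_cons_of_mem _ (List.mem_cons_of_mem _ (List.mem_cons_of_mem _ (List.mem_cons_of_mem _ (List.mem_cons_of_mem _ (List.mem_cons_of_mem _ (List.mem_cons_of_mem _ (List.mem_cons_of_mem _ (List.mem_cons_of_mem _ (List.mem_cons_of_mem _ (List.mem_cons_of_mem _ (List.mem_cons_of_mem _ (List.mem_cons_of_mem _ (List.mem_cons_of_mem _ (List.mem_cons_of_mem _ (List.mem_cons_of_mem _ (List.mem_cons_of_mem _ (List.mem_cons_of_mem _ (List.mem_cons_of_mem _ (List.mem_cons_of_mem _ (List.mem_cons_of_mem _ (List.mem_cons_of_mem _ (List.mem_cons_of_mem _ (List.mem_cons_of_mem _ (List.mem_cons_of_mem _ (List.mem_cons_of_mem _ (List.mem_cons_of_mem _ (List.mem_cons_of_mem _ (List.mem_cons_of_mem _ (List.mem_cons_of_mem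 _ (List.mem_cons_of_mem _ (List.mem_cons_of_mem _ (List.mem_cons_of_mem _ (List.mem_cons_of_mem _ (List.mem_cons_of_mem _ (List.mem_cons_of_mem _ (List.mem_cons_of_mem _ (List.mem_cons_of_mem _ (List.mem_cons_of_mem _ (List.mem_cons_of_mem _ (List.mem_cons_of_mem _ (List.mem_cons_of_mem _ (List.mem_cons_of_mem _ (List.mem_cons_of_mem _ (List.mem_cons_of_mem _ (List.mem_cons_of_mem _ (List.mem_cons_of_mem _ (List.mem_cons_of_mem _ (List.mem_cons_of_mem _ (List.mem_cons_of_mem _ (List.mem_cons_of_mem _ (List.mem_cons_of_mem _ (List.mem_cons_of_mem _ (List.mem_cons_of_mem _ (List.mem_cons_of_mem _ (List.mem_cons_of_mem _ (List.mem_cons_of_mem _ (List.mem_cons_of_mem _ (List.mem_cons_of_mem _ (List.mem_cons_of_mem _ (List.mem_cons_of_mem _ (List.mem_cons_of_mem _ (List.mem_cons_self)))))))))))))))))))))))))))))))))))))))))))))))))))))))))))))), ?_⟩, by norm_num⟩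
  constructor <;> norm_num [Q62, coCell, P3C0]

lemma lP3C0 : ∀ x1 x2 xc : ℝ, 0 ≤ x1 → x1 ≤ 1 → 0 ≤ x2 → x2 ≤ 1 → P3C0.l ≤ xc → xc ≤ P3C0.u →
    (2349 / 2048 : ℝ) * (1 - (1 - x1) ^ 5) + (54587 / 4096 : ℝ) * (1 - (1 - x2) ^ 5) - (12 : ℝ) * (1 - (1 - xc) ^ 5) + (1 / 1073741824 : ℝ)
      ≤ - P3C0.a1 * x1 - P3C0.a2 * x2 + P3C0.e * xc + P3C0.f := by
  have h := cell_lines_delta 5 (α1 := (2349 / 2048 : ℝ)) (α2 := (54587 / 4096 : ℝ)) (c := (12 : ℝ)) (y1 := (13575 / 262144 : ℝ)) (y2 := (3511 / 65536 : ℝ))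
    (A1 := (19445143 / 4194304 : ℝ)) (B1 := (7434095 / 268435456 : ℝ)) (A2 := (112118315 / 2097152 : ℝ)) (B2 := (92110705 / 268435456 : ℝ)) (l := (15729 / 262144 : ℝ)) (u := (16043 / 262144 : ℝ))
    (E := (-97990329 / 2097152 : ℝ)) (F := (-52294729 / 134217728 : ℝ)) (δ := (1 / 1073741824 : ℝ)) (by norm_num) (by norm_num) (by norm_num) (by norm_num) (by norm_num)
    (by norm_num) (by norm_num) (by norm_num) (by norm_num) (by norm_num) (by norm_num) (by norm_num) (by norm_num) (by norm_num) (by norm_num)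
  have e1 : P3C0.l = (15729 / 262144 : ℝ) := rfl
  have e2 : P3C0.u = (16043 / 262144 : ℝ) := rfl
  have e3 : P3C0.a1 = -(19445143 / 4194304 : ℝ) := by norm_num [P3C0]
  have e4 : P3C0.a2 = -(112118315 / 2097152 : ℝ) := by norm_num [P3C0]
  have e5 : P3C0.e = (-97990329 / 2097152 : ℝ) := rfl
  have e6 : P3C0.f = (7434095 / 268435456 : ℝ) + (92110705 / 268435456 : ℝ) + (-52294729 / 134217728 : ℝ) + (1 / 1073741824 : ℝ) := by norm_num [P3C0]
  rw [e1, e2, e3, e4, e5, e6]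
  exact h

lemma rP3C1 : ∃ N : ℝ, Rw4 P.r2 N (coCell (2349 / 2048 : ℝ) (54587 / 4096 : ℝ) (12 : ℝ) 0 P3C1) := by
  refine ⟨(3221225472 : ℝ), ⟨Q63, List.mem_cons_of_mem _ (List.mem_cons_of_mem _ (List.mem_cons_of_mem _ (List.mem_cons_of_mem _ (List.mem_cons_of_mem _ (List.mem_cons_of_mem _ (List.mem_cons_of_mem _ (List.mem_cons_of_mem _ (List.mem_cons_of_mem _ (List.mem_cons_of_mem _ (List.mem_cons_of_mem _ (List.mem_cons_of_mem _ (List.mem_cons_of_mem _ (List.mem_cons_of_mem _ (List.mem_cons_of_mem _ (List.mem_cons_of_mem _ (List.mem_cons_of_mem _ (List.mem_cons_of_mem _ (List.mem_cons_of_mem _ (List.mem_cons_of_mem _ (List.mem_cons_of_mem _ (List.mem_cons_of_mem _ (List.mem_cons_of_mem _ (List.mem_cons_of_mem _ (List.mem_cons_of_mem _ (List.mem_cons_of_mem _ (List.mem_cons_of_mem _ (List.mem_cons_of_mem _ (List.mem_cons_of_mem _ (List.mem_cons_of_mem _ (List.mem_cons_of_mem _ (List.mem_cons_of_mem _ (List.mem_cons_of_mem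 _ (List.mem_cons_of_mem _ (List.mem_cons_of_mem _ (List.mem_cons_of_mem _ (List.mem_cons_of_mem _ (List.mem_cons_of_mem _ (List.mem_cons_of_mem _ (List.mem_cons_of_mem _ (List.mem_cons_of_mem _ (List.mem_cons_of_mem _ (List.mem_cons_of_mem _ (List.mem_cons_of_mem _ (List.mem_cons_of_mem _ (List.mem_cons_of_mem _ (List.mem_cons_of_mem _ (List.mem_cons_of_mem _ (List.mem_cons_of_mem _ (List.mem_cons_of_mem _ (List.mem_cons_of_mem _ (List.mem_cons_of_mem _ (List.mem_cons_of_mem _ (List.mem_cons_of_mem _ (List.mem_cons_of_mem _ (List.mem_cons_of_mem _ (List.mem_cons_of_mem _ (List.mem_cons_of_mem _ (List.mem_cons_of_mem _ (List.mem_cons_of_mem _ (List.mem_cons_of_mem _ (List.mem_cons_of_mem _ (List.mem_cons_of_mem _ (List.mem_cons_self))))))))))))))))))))))))))))))))))))))))))))))))))))))))))))))), ?_⟩, by norm_num⟩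
  constructor <;> norm_num [Q63, coCell, P3C1]

lemma lP3C1 : ∀ x1 x2 xc : ℝ, 0 ≤ x1 → x1 ≤ 1 → 0 ≤ x2 → x2 ≤ 1 → P3C1.l ≤ xc → xc ≤ P3C1.u →
    (2349 / 2048 : ℝ) * (1 - (1 - x1) ^ 5) + (54587 / 4096 : ℝ) * (1 - (1 - x2) ^ 5) - (12 : ℝ) * (1 - (1 - xc) ^ 5) + (1 / 1073741824 : ℝ)
      ≤ - P3C1.a1 * x1 - P3C1.a2 * x2 + P3C1.e * xc + P3C1.f := by
  have h := cell_lines_delta 5 (α1 := (2349 / 2048 : ℝ)) (α2 := (54587 / 4096 : ℝ)) (c := (12 : ℝ)) (y1 := (13579 / 262144 : ℝ)) (y2 := (3591 / 65536 : ℝ))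
    (A1 := (4860973 / 1048576 : ℝ)) (B1 := (7438229 / 268435456 : ℝ)) (A2 := (111540991 / 2097152 : ℝ)) (B2 := (48057369 / 134217728 : ℝ)) (l := (16043 / 262144 : ℝ)) (u := (4091 / 65536 : ℝ))
    (E := (-194971909 / 4194304 : ℝ)) (F := (-54270237 / 134217728 : ℝ)) (δ := (1 / 1073741824 : ℝ)) (by norm_num) (by norm_num) (by norm_num) (by norm_num) (by norm_num)
    (by norm_num) (by norm_num) (by norm_num) (by norm_num) (by norm_num) (by norm_num) (by norm_num) (by norm_num) (by norm_num) (by norm_num)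
  have e1 : P3C1.l = (16043 / 262144 : ℝ) := rfl
  have e2 : P3C1.u = (4091 / 65536 : ℝ) := rfl
  have e3 : P3C1.a1 = -(4860973 / 1048576 : ℝ) := by norm_num [P3C1]
  have e4 : P3C1.a2 = -(111540991 / 2097152 : ℝ) := by norm_num [P3C1]
  have e5 : P3C1.e = (-194971909 / 4194304 : ℝ) := rfl
  have e6 : P3C1.f = (7438229 / 268435456 : ℝ) + (48057369 / 134217728 : ℝ) + (-54270237 / 134217728 : ℝ) + (1 / 1073741824 : ℝ) := by norm_num [P3C1]
  rw [e1, e2, e3, e4, e5, e6]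
  exact h

lemma rP3C2 : ∃ N : ℝ, Rw4 P.r2 N (coCell (2349 / 2048 : ℝ) (54587 / 4096 : ℝ) (12 : ℝ) 0 P3C2) := by
  refine ⟨(3221225472 : ℝ), ⟨Q64, List.mem_cons_of_mem _ (List.mem_cons_of_mem _ (List.mem_cons_of_mem _ (List.mem_cons_of_mem _ (List.mem_cons_of_mem _ (List.mem_cons_of_mem _ (List.mem_cons_of_mem _ (List.mem_cons_of_mem _ (List.mem_cons_of_mem _ (List.mem_cons_of_mem _ (List.mem_cons_of_mem _ (List.mem_cons_of_mem _ (List.mem_cons_of_mem _ (List.mem_cons_of_mem _ (List.mem_cons_of_mem _ (List.mem_cons_of_mem _ (List.mem_cons_of_mem _ (List.mem_cons_of_mem _ (List.mem_cons_of_mem _ (List.mem_cons_of_mem _ (List.mem_cons_of_mem _ (List.mem_cons_of_mem _ (List.mem_cons_of_mem _ (List.mem_cons_of_mem _ (List.mem_cons_of_mem _ (List.mem_cons_of_mem _ (List.mem_cons_of_mem _ (List.mem_cons_of_mem _ (List.mem_cons_of_mem _ (List.mem_cons_of_mem _ (List.mem_cons_of_mem _ (List.mem_cons_of_mem _ (List.mem_cons_of_mem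 _ (List.mem_cons_of_mem _ (List.mem_cons_of_mem _ (List.mem_cons_of_mem _ (List.mem_cons_of_mem _ (List.mem_cons_of_mem _ (List.mem_cons_of_mem _ (List.mem_cons_of_mem _ (List.mem_cons_of_mem _ (List.mem_cons_of_mem _ (List.mem_cons_of_mem _ (List.mem_cons_of_mem _ (List.mem_cons_of_mem _ (List.mem_cons_of_mem _ (List.mem_cons_of_mem _ (List.mem_cons_of_mem _ (List.mem_cons_of_mem _ (List.mem_cons_of_mem _ (List.mem_cons_of_mem _ (List.mem_cons_of_mem _ (List.mem_cons_of_mem _ (List.mem_cons_of_mem _ (List.mem_cons_of_mem _ (List.mem_cons_of_mem _ (List.mem_cons_of_mem _ (List.mem_cons_of_mem _ (List.mem_cons_of_mem _ (List.mem_cons_of_mem _ (List.mem_cons_of_mem _ (List.mem_cons_of_mem _ (List.mem_cons_of_mem _ (List.mem_cons_of_mem _ (List.mem_cons_self)))))))))))))))))))))))))))))))))))))))))))))))))))))))))))))))), ?_⟩, by norm_num⟩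
  constructor <;> norm_num [Q64, coCell, P3C2]

lemma lP3C2 : ∀ x1 x2 xc : ℝ, 0 ≤ x1 → x1 ≤ 1 → 0 ≤ x2 → x2 ≤ 1 → P3C2.l ≤ xc → xc ≤ P3C2.u →
    (2349 / 2048 : ℝ) * (1 - (1 - x1) ^ 5) + (54587 / 4096 : ℝ) * (1 - (1 - x2) ^ 5) - (12 : ℝ) * (1 - (1 - xc) ^ 5) + (1 / 1073741824 : ℝ)
      ≤ - P3C2.a1 * x1 - P3C2.a2 * x2 + P3C2.e * xc + P3C2.f := by
  have h := cell_lines_delta 5 (α1 := (2349 / 2048 : ℝ)) (α2 := (54587 / 4096 : ℝ)) (c := (12 : ℝ)) (y1 := (13511 / 262144 : ℝ)) (y2 := (7349 / 131072 : ℝ))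
    (A1 := (19465177 / 4194304 : ℝ)) (B1 := (3683933 / 134217728 : ℝ)) (A2 := (221881581 / 4194304 : ℝ)) (B2 := (25093313 / 67108864 : ℝ)) (l := (4091 / 65536 : ℝ)) (u := (16691 / 262144 : ℝ))
    (E := (-96973263 / 2097152 : ℝ)) (F := (-112636999 / 268435456 : ℝ)) (δ := (1 / 1073741824 : ℝ)) (by norm_num) (by norm_num) (by norm_num) (by norm_num) (by norm_num)
    (by norm_num) (by norm_num) (by norm_num) (by norm_num) (by norm_num) (by norm_num) (by norm_num) (by norm_num) (by norm_num) (by norm_num)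
  have e1 : P3C2.l = (4091 / 65536 : ℝ) := rfl
  have e2 : P3C2.u = (16691 / 262144 : ℝ) := rfl
  have e3 : P3C2.a1 = -(19465177 / 4194304 : ℝ) := by norm_num [P3C2]
  have e4 : P3C2.a2 = -(221881581 / 4194304 : ℝ) := by norm_num [P3C2]
  have e5 : P3C2.e = (-96973263 / 2097152 : ℝ) := rfl
  have e6 : P3C2.f = (3683933 / 134217728 : ℝ) + (25093313 / 67108864 : ℝ) + (-112636999 / 268435456 : ℝ) + (1 / 1073741824 : ℝ) := by norm_num [P3C2]
  rw [e1, e2, e3, e4, e5, e6]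
  exact h

lemma rP3C3 : ∃ N : ℝ, Rw4 P.r2 N (coCell (2349 / 2048 : ℝ) (54587 / 4096 : ℝ) (12 : ℝ) 0 P3C3) := by
  refine ⟨(3221225472 : ℝ), ⟨Q65, List.mem_cons_of_mem _ (List.mem_cons_of_mem _ (List.mem_cons_of_mem _ (List.mem_cons_of_mem _ (List.mem_cons_of_mem _ (List.mem_cons_of_mem _ (List.mem_cons_of_mem _ (List.mem_cons_of_mem _ (List.mem_cons_of_mem _ (List.mem_cons_of_mem _ (List.mem_cons_of_mem _ (List.mem_cons_of_mem _ (List.mem_cons_of_mem _ (List.mem_cons_of_mem _ (List.mem_cons_of_mem _ (List.mem_cons_of_mem _ (List.mem_cons_of_mem _ (List.mem_cons_of_mem _ (List.mem_cons_of_mem _ (List.mem_cons_of_mem _ (List.mem_cons_of_mem _ (List.mem_cons_of_mem _ (List.mem_cons_of_mem _ (List.mem_cons_of_mem _ (List.mem_cons_of_mem _ (List.mem_cons_of_mem _ (List.mem_cons_of_mem _ (List.mem_cons_of_mem _ (List.mem_cons_of_mem _ (List.mem_cons_of_mem _ (List.mem_cons_of_mem _ (List.mem_cons_of_mem _ (List.mem_cons_of_mem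 _ (List.mem_cons_of_mem _ (List.mem_cons_of_mem _ (List.mem_cons_of_mem _ (List.mem_cons_of_mem _ (List.mem_cons_of_mem _ (List.mem_cons_of_mem _ (List.mem_cons_of_mem _ (List.mem_cons_of_mem _ (List.mem_cons_of_mem _ (List.mem_cons_of_mem _ (List.mem_cons_of_mem _ (List.mem_cons_of_mem _ (List.mem_cons_of_mem _ (List.mem_cons_of_mem _ (List.mem_cons_of_mem _ (List.mem_cons_of_mem _ (List.mem_cons_of_mem _ (List.mem_cons_of_mem _ (List.mem_cons_of_mem _ (List.mem_cons_of_mem _ (List.mem_cons_of_mem _ (List.mem_cons_of_mem _ (List.mem_cons_of_mem _ (List.mem_cons_of_mem _ (List.mem_cons_of_mem _ (List.mem_cons_of_mem _ (List.mem_cons_of_mem _ (List.mem_cons_of_mem _ (List.mem_cons_of_mem _ (List.mem_cons_of_mem _ (List.mem_cons_of_mem _ (List.mem_cons_of_mem _ (List.mem_cons_self))))))))))))))))))))))))))))))))))))))))))))))))))))))))))))))))), ?_⟩, by norm_num⟩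
  constructor <;> norm_num [Q65, coCell, P3C3]

lemma lP3C3 : ∀ x1 x2 xc : ℝ, 0 ≤ x1 → x1 ≤ 1 → 0 ≤ x2 → x2 ≤ 1 → P3C3.l ≤ xc → xc ≤ P3C3.u →
    (2349 / 2048 : ℝ) * (1 - (1 - x1) ^ 5) + (54587 / 4096 : ℝ) * (1 - (1 - x2) ^ 5) - (12 : ℝ) * (1 - (1 - xc) ^ 5) + (1 / 1073741824 : ℝ)
      ≤ - P3C3.a1 * x1 - P3C3.a2 * x2 + P3C3.e * xc + P3C3.f := by
  have h := cell_lines_delta 5 (α1 := (2349 / 2048 : ℝ)) (α2 := (54587 / 4096 : ℝ)) (c := (12 : ℝ)) (y1 := (3313 / 65536 : ℝ)) (y2 := (3767 / 65536 : ℝ))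
    (A1 := (19546411 / 4194304 : ℝ)) (B1 := (7102479 / 268435456 : ℝ)) (A2 := (110278729 / 2097152 : ℝ)) (B2 := (26296117 / 67108864 : ℝ)) (l := (16691 / 262144 : ℝ)) (u := (17025 / 262144 : ℝ))
    (E := (-192904747 / 4194304 : ℝ)) (F := (-116882197 / 268435456 : ℝ)) (δ := (1 / 1073741824 : ℝ)) (by norm_num) (by norm_num) (by norm_num) (by norm_num) (by norm_num)
    (by norm_num) (by norm_num) (by norm_num) (by norm_num) (by norm_num) (by norm_num) (by norm_num) (by norm_num) (by norm_num) (by norm_num)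
  have e1 : P3C3.l = (16691 / 262144 : ℝ) := rfl
  have e2 : P3C3.u = (17025 / 262144 : ℝ) := rfl
  have e3 : P3C3.a1 = -(19546411 / 4194304 : ℝ) := by norm_num [P3C3]
  have e4 : P3C3.a2 = -(110278729 / 2097152 : ℝ) := by norm_num [P3C3]
  have e5 : P3C3.e = (-192904747 / 4194304 : ℝ) := rfl
  have e6 : P3C3.f = (7102479 / 268435456 : ℝ) + (26296117 / 67108864 : ℝ) + (-116882197 / 268435456 : ℝ) + (1 / 1073741824 : ℝ) := by norm_num [P3C3]
  rw [e1, e2, e3, e4, e5, e6]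
  exact h

lemma rP3C4 : ∃ N : ℝ, Rw4 P.r2 N (coCell (2349 / 2048 : ℝ) (54587 / 4096 : ℝ) (12 : ℝ) 0 P3C4) := by
  refine ⟨(3221225472 : ℝ), ⟨Q66, List.mem_cons_of_mem _ (List.mem_cons_of_mem _ (List.mem_cons_of_mem _ (List.mem_cons_of_mem _ (List.mem_cons_of_mem _ (List.mem_cons_of_mem _ (List.mem_cons_of_mem _ (List.mem_cons_of_mem _ (List.mem_cons_of_mem _ (List.mem_cons_of_mem _ (List.mem_cons_of_mem _ (List.mem_cons_of_mem _ (List.mem_cons_of_mem _ (List.mem_cons_of_mem _ (List.mem_cons_of_mem _ (List.mem_cons_of_mem _ (List.mem_cons_of_mem _ (List.mem_cons_of_mem _ (List.mem_cons_of_mem _ (List.mem_cons_of_mem _ (List.mem_cons_of_mem _ (List.mem_cons_of_mem _ (List.mem_cons_of_mem _ (List.mem_cons_of_mem _ (List.mem_cons_of_mem _ (List.mem_cons_of_mem _ (List.mem_cons_of_mem _ (List.mem_cons_of_mem _ (List.mem_cons_of_mem _ (List.mem_cons_of_mem _ (List.mem_cons_of_mem _ (List.mem_cons_of_mem _ (List.mem_cons_of_mem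 _ (List.mem_cons_of_mem _ (List.mem_cons_of_mem _ (List.mem_cons_of_mem _ (List.mem_cons_of_mem _ (List.mem_cons_of_mem _ (List.mem_cons_of_mem _ (List.mem_cons_of_mem _ (List.mem_cons_of_mem _ (List.mem_cons_of_mem _ (List.mem_cons_of_mem _ (List.mem_cons_of_mem _ (List.mem_cons_of_mem _ (List.mem_cons_of_mem _ (List.mem_cons_of_mem _ (List.mem_cons_of_mem _ (List.mem_cons_of_mem _ (List.mem_cons_of_mem _ (List.mem_cons_of_mem _ (List.mem_cons_of_mem _ (List.mem_cons_of_mem _ (List.mem_cons_of_mem _ (List.mem_cons_of_mem _ (List.mem_cons_of_mem _ (List.mem_cons_of_mem _ (List.mem_cons_of_mem _ (List.mem_cons_of_mem _ (List.mem_cons_of_mem _ (List.mem_cons_of_mem _ (List.mem_cons_of_mem _ (List.mem_cons_of_mem _ (List.mem_cons_of_mem _ (List.mem_cons_of_mem _ (List.mem_cons_of_mem _ (List.mem_cons_self)))))))))))))))))))))))))))))))))))))))))))))))))))))))))))))))))), ?_⟩, by norm_num⟩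
  constructor <;> norm_num [Q66, coCell, P3C4]

lemma lP3C4 : ∀ x1 x2 xc : ℝ, 0 ≤ x1 → x1 ≤ 1 → 0 ≤ x2 → x2 ≤ 1 → P3C4.l ≤ xc → xc ≤ P3C4.u →
    (2349 / 2048 : ℝ) * (1 - (1 - x1) ^ 5) + (54587 / 4096 : ℝ) * (1 - (1 - x2) ^ 5) - (12 : ℝ) * (1 - (1 - xc) ^ 5) + (1 / 1073741824 : ℝ)
      ≤ - P3C4.a1 * x1 - P3C4.a2 * x2 + P3C4.e * xc + P3C4.f := by
  have h := cell_lines_delta 5 (α1 := (2349 / 2048 : ℝ)) (α2 := (54587 / 4096 : ℝ)) (c := (12 : ℝ)) (y1 := (3345 / 65536 : ℝ)) (y2 := (15395 / 262144 : ℝ))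
    (A1 := (19506233 / 4194304 : ℝ)) (B1 := (3616541 / 134217728 : ℝ)) (A2 := (219392161 / 4194304 : ℝ)) (B2 := (109517743 / 268435456 : ℝ)) (l := (17025 / 262144 : ℝ)) (u := (8683 / 131072 : ℝ))
    (E := (-191845239 / 4194304 : ℝ)) (F := (-30321509 / 67108864 : ℝ)) (δ := (1 / 1073741824 : ℝ)) (by norm_num) (by norm_num) (by norm_num) (by norm_num) (by norm_num)
    (by norm_num) (by norm_num) (by norm_num) (by norm_num) (by norm_num) (by norm_num) (by norm_num) (by norm_num) (by norm_num) (by norm_num)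
  have e1 : P3C4.l = (17025 / 262144 : ℝ) := rfl
  have e2 : P3C4.u = (8683 / 131072 : ℝ) := rfl
  have e3 : P3C4.a1 = -(19506233 / 4194304 : ℝ) := by norm_num [P3C4]
  have e4 : P3C4.a2 = -(219392161 / 4194304 : ℝ) := by norm_num [P3C4]
  have e5 : P3C4.e = (-191845239 / 4194304 : ℝ) := rfl
  have e6 : P3C4.f = (3616541 / 134217728 : ℝ) + (109517743 / 268435456 : ℝ) + (-30321509 / 67108864 : ℝ) + (1 / 1073741824 : ℝ) := by norm_num [P3C4]
  rw [e1, e2, e3, e4, e5, e6]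
  exact h

lemma rP3C5 : ∃ N : ℝ, Rw4 P.r2 N (coCell (2349 / 2048 : ℝ) (54587 / 4096 : ℝ) (12 : ℝ) 0 P3C5) := by
  refine ⟨(3221225472 : ℝ), ⟨Q67, List.mem_cons_of_mem _ (List.mem_cons_of_mem _ (List.mem_cons_of_mem _ (List.mem_cons_of_mem _ (List.mem_cons_of_mem _ (List.mem_cons_of_mem _ (List.mem_cons_of_mem _ (List.mem_cons_of_mem _ (List.mem_cons_of_mem _ (List.mem_cons_of_mem _ (List.mem_cons_of_mem _ (List.mem_cons_of_mem _ (List.mem_cons_of_mem _ (List.mem_cons_of_mem _ (List.mem_cons_of_mem _ (List.mem_cons_of_mem _ (List.mem_cons_of_mem _ (List.mem_cons_of_mem _ (List.mem_cons_of_mem _ (List.mem_cons_of_mem _ (List.mem_cons_of_mem _ (List.mem_cons_of_mem _ (List.mem_cons_of_mem _ (List.mem_cons_of_mem _ (List.mem_cons_of_mem _ (List.mem_cons_of_mem _ (List.mem_cons_of_mem _ (List.mem_cons_of_mem _ (List.mem_cons_of_mem _ (List.mem_cons_of_mem _ (List.mem_cons_of_mem _ (List.mem_cons_of_mem _ (List.mem_cons_of_mem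 _ (List.mem_cons_of_mem _ (List.mem_cons_of_mem _ (List.mem_cons_of_mem _ (List.mem_cons_of_mem _ (List.mem_cons_of_mem _ (List.mem_cons_of_mem _ (List.mem_cons_of_mem _ (List.mem_cons_of_mem _ (List.mem_cons_of_mem _ (List.mem_cons_of_mem _ (List.mem_cons_of_mem _ (List.mem_cons_of_mem _ (List.mem_cons_of_mem _ (List.mem_cons_of_mem _ (List.mem_cons_of_mem _ (List.mem_cons_of_mem _ (List.mem_cons_of_mem _ (List.mem_cons_of_mem _ (List.mem_cons_of_mem _ (List.mem_cons_of_mem _ (List.mem_cons_of_mem _ (List.mem_cons_of_mem _ (List.mem_cons_of_mem _ (List.mem_cons_of_mem _ (List.mem_cons_of_mem _ (List.mem_cons_of_mem _ (List.mem_cons_of_mem _ (List.mem_cons_of_mem _ (List.mem_cons_of_mem _ (List.mem_cons_of_mem _ (List.mem_cons_of_mem _ (List.mem_cons_of_mem _ (List.mem_cons_of_mem _ (List.mem_cons_of_mem _ (List.mem_cons_self))))))))))))))))))))))))))))))))))))))))))))))))))))))))))))))))))), ?_⟩, by norm_num⟩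
  constructor <;> norm_num [Q67, coCell, P3C5]

lemma lP3C5 : ∀ x1 x2 xc : ℝ, 0 ≤ x1 → x1 ≤ 1 → 0 ≤ x2 → x2 ≤ 1 → P3C5.l ≤ xc → xc ≤ P3C5.u →
    (2349 / 2048 : ℝ) * (1 - (1 - x1) ^ 5) + (54587 / 4096 : ℝ) * (1 - (1 - x2) ^ 5) - (12 : ℝ) * (1 - (1 - xc) ^ 5) + (1 / 1073741824 : ℝ)
      ≤ - P3C5.a1 * x1 - P3C5.a2 * x2 + P3C5.e * xc + P3C5.f := by
  have h := cell_lines_delta 5 (α1 := (2349 / 2048 : ℝ)) (α2 := (54587 / 4096 : ℝ)) (c := (12 : ℝ)) (y1 := (405 / 8192 : ℝ)) (y2 := (15777 / 262144 : ℝ))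
    (A1 := (4909575 / 1048576 : ℝ)) (B1 := (3404229 / 134217728 : ℝ)) (A2 := (13627295 / 262144 : ℝ)) (B2 := (57337701 / 134217728 : ℝ)) (l := (8683 / 131072 : ℝ)) (u := (17713 / 262144 : ℝ))
    (E := (-95384911 / 2097152 : ℝ)) (F := (-125845531 / 268435456 : ℝ)) (δ := (1 / 1073741824 : ℝ)) (by norm_num) (by norm_num) (by norm_num) (by norm_num) (by norm_num)
    (by norm_num) (by norm_num) (by norm_num) (by norm_num) (by norm_num) (by norm_num) (by norm_num) (by norm_num) (by norm_num) (by norm_num)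
  have e1 : P3C5.l = (8683 / 131072 : ℝ) := rfl
  have e2 : P3C5.u = (17713 / 262144 : ℝ) := rfl
  have e3 : P3C5.a1 = -(4909575 / 1048576 : ℝ) := by norm_num [P3C5]
  have e4 : P3C5.a2 = -(13627295 / 262144 : ℝ) := by norm_num [P3C5]
  have e5 : P3C5.e = (-95384911 / 2097152 : ℝ) := rfl
  have e6 : P3C5.f = (3404229 / 134217728 : ℝ) + (57337701 / 134217728 : ℝ) + (-125845531 / 268435456 : ℝ) + (1 / 1073741824 : ℝ) := by norm_num [P3C5]
  rw [e1, e2, e3, e4, e5, e6]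
  exact h

lemma rP3C6 : ∃ N : ℝ, Rw4 P.r2 N (coCell (2349 / 2048 : ℝ) (54587 / 4096 : ℝ) (12 : ℝ) 0 P3C6) := by
  refine ⟨(3221225472 : ℝ), ⟨Q68, List.mem_cons_of_mem _ (List.mem_cons_of_mem _ (List.mem_cons_of_mem _ (List.mem_cons_of_mem _ (List.mem_cons_of_mem _ (List.mem_cons_of_mem _ (List.mem_cons_of_mem _ (List.mem_cons_of_mem _ (List.mem_cons_of_mem _ (List.mem_cons_of_mem _ (List.mem_cons_of_mem _ (List.mem_cons_of_mem _ (List.mem_cons_of_mem _ (List.mem_cons_of_mem _ (List.mem_cons_of_mem _ (List.mem_cons_of_mem _ (List.mem_cons_of_mem _ (List.mem_cons_of_mem _ (List.mem_cons_of_mem _ (List.mem_cons_of_mem _ (List.mem_cons_of_mem _ (List.mem_cons_of_mem _ (List.mem_cons_of_mem _ (List.mem_cons_of_mem _ (List.mem_cons_of_mem _ (List.mem_cons_of_mem _ (List.mem_cons_of_mem _ (List.mem_cons_of_mem _ (List.mem_cons_of_mem _ (List.mem_cons_of_mem _ (List.mem_cons_of_mem _ (List.mem_cons_of_mem _ (List.mem_cons_of_mem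 _ (List.mem_cons_of_mem _ (List.mem_cons_of_mem _ (List.mem_cons_of_mem _ (List.mem_cons_of_mem _ (List.mem_cons_of_mem _ (List.mem_cons_of_mem _ (List.mem_cons_of_mem _ (List.mem_cons_of_mem _ (List.mem_cons_of_mem _ (List.mem_cons_of_mem _ (List.mem_cons_of_mem _ (List.mem_cons_of_mem _ (List.mem_cons_of_mem _ (List.mem_cons_of_mem _ (List.mem_cons_of_mem _ (List.mem_cons_of_mem _ (List.mem_cons_of_mem _ (List.mem_cons_of_mem _ (List.mem_cons_of_mem _ (List.mem_cons_of_mem _ (List.mem_cons_of_mem _ (List.mem_cons_of_mem _ (List.mem_cons_of_mem _ (List.mem_cons_of_mem _ (List.mem_cons_of_mem _ (List.mem_cons_of_mem _ (List.mem_cons_of_mem _ (List.mem_cons_of_mem _ (List.mem_cons_of_mem _ (List.mem_cons_of_mem _ (List.mem_cons_of_mem _ (List.mem_cons_of_mem _ (List.mem_cons_of_mem _ (List.mem_cons_of_mem _ (List.mem_cons_of_mem _ (List.mem_cons_self)))))))))))))))))))))))))))))))))))))))))))))))))))))))))))))))))))),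 ?_⟩, by norm_num⟩
  constructor <;> norm_num [Q68, coCell, P3C6]

lemma lP3C6 : ∀ x1 x2 xc : ℝ, 0 ≤ x1 → x1 ≤ 1 → 0 ≤ x2 → x2 ≤ 1 → P3C6.l ≤ xc → xc ≤ P3C6.u →
    (2349 / 2048 : ℝ) * (1 - (1 - x1) ^ 5) + (54587 / 4096 : ℝ) * (1 - (1 - x2) ^ 5) - (12 : ℝ) * (1 - (1 - xc) ^ 5) + (1 / 1073741824 : ℝ)
      ≤ - P3C6.a1 * x1 - P3C6.a2 * x2 + P3C6.e * xc + P3C6.f := by
  have h := cell_lines_delta 5 (α1 := (2349 / 2048 : ℝ)) (α2 := (54587 / 4096 : ℝ)) (c := (12 : ℝ)) (y1 := (13479 / 262144 : ℝ)) (y2 := (16053 / 262144 : ℝ))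
    (A1 := (76075 / 16384 : ℝ)) (B1 := (7334837 / 268435456 : ℝ)) (A2 := (3391583 / 65536 : ℝ)) (B2 := (118465329 / 268435456 : ℝ)) (l := (17713 / 262144 : ℝ)) (u := (18067 / 262144 : ℝ))
    (E := (-189678743 / 4194304 : ℝ)) (F := (-65281931 / 134217728 : ℝ)) (δ := (1 / 1073741824 : ℝ)) (by norm_num) (by norm_num) (by norm_num) (by norm_num) (by norm_num)
    (by norm_num) (by norm_num) (by norm_num) (by norm_num) (by norm_num) (by norm_num) (by norm_num) (by norm_num) (by norm_num) (by norm_num)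
  have e1 : P3C6.l = (17713 / 262144 : ℝ) := rfl
  have e2 : P3C6.u = (18067 / 262144 : ℝ) := rfl
  have e3 : P3C6.a1 = -(76075 / 16384 : ℝ) := by norm_num [P3C6]
  have e4 : P3C6.a2 = -(3391583 / 65536 : ℝ) := by norm_num [P3C6]
  have e5 : P3C6.e = (-189678743 / 4194304 : ℝ) := rfl
  have e6 : P3C6.f = (7334837 / 268435456 : ℝ) + (118465329 / 268435456 : ℝ) + (-65281931 / 134217728 : ℝ) + (1 / 1073741824 : ℝ) := by norm_num [P3C6]
  rw [e1, e2, e3, e4, e5, e6]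
  exact h

lemma rP3C7 : ∃ N : ℝ, Rw4 P.r2 N (coCell (2349 / 2048 : ℝ) (54587 / 4096 : ℝ) (12 : ℝ) 0 P3C7) := by
  refine ⟨(3221225472 : ℝ), ⟨Q69, List.mem_cons_of_mem _ (List.mem_cons_of_mem _ (List.mem_cons_of_mem _ (List.mem_cons_of_mem _ (List.mem_cons_of_mem _ (List.mem_cons_of_mem _ (List.mem_cons_of_mem _ (List.mem_cons_of_mem _ (List.mem_cons_of_mem _ (List.mem_cons_of_mem _ (List.mem_cons_of_mem _ (List.mem_cons_of_mem _ (List.mem_cons_of_mem _ (List.mem_cons_of_mem _ (List.mem_cons_of_mem _ (List.mem_cons_of_mem _ (List.mem_cons_of_mem _ (List.mem_cons_of_mem _ (List.mem_cons_of_mem _ (List.mem_cons_of_mem _ (List.mem_cons_of_mem _ (List.mem_cons_of_mem _ (List.mem_cons_of_mem _ (List.mem_cons_of_mem _ (List.mem_cons_of_mem _ (List.mem_cons_of_mem _ (List.mem_cons_of_mem _ (List.mem_cons_of_mem _ (List.mem_cons_of_mem _ (List.mem_cons_of_mem _ (List.mem_cons_of_mem _ (List.mem_cons_of_mem _ (List.mem_cons_of_mem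 _ (List.mem_cons_of_mem _ (List.mem_cons_of_mem _ (List.mem_cons_of_mem _ (List.mem_cons_of_mem _ (List.mem_cons_of_mem _ (List.mem_cons_of_mem _ (List.mem_cons_of_mem _ (List.mem_cons_of_mem _ (List.mem_cons_of_mem _ (List.mem_cons_of_mem _ (List.mem_cons_of_mem _ (List.mem_cons_of_mem _ (List.mem_cons_of_mem _ (List.mem_cons_of_mem _ (List.mem_cons_of_mem _ (List.mem_cons_of_mem _ (List.mem_cons_of_mem _ (List.mem_cons_of_mem _ (List.mem_cons_of_mem _ (List.mem_cons_of_mem _ (List.mem_cons_of_mem _ (List.mem_cons_of_mem _ (List.mem_cons_of_mem _ (List.mem_cons_of_mem _ (List.mem_cons_of_mem _ (List.mem_cons_of_mem _ (List.mem_cons_of_mem _ (List.mem_cons_of_mem _ (List.mem_cons_of_mem _ (List.mem_cons_of_mem _ (List.mem_cons_of_mem _ (List.mem_cons_of_mem _ (List.mem_cons_of_mem _ (List.mem_cons_of_mem _ (List.mem_cons_of_mem _ (List.mem_cons_of_mem _ (List.mem_cons_self))))))))))))))))))))))))))))))))))))))))))))))))))))))))))))))))))))),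 ?_⟩, by norm_num⟩
  constructor <;> norm_num [Q69, coCell, P3C7]

lemma lP3C7 : ∀ x1 x2 xc : ℝ, 0 ≤ x1 → x1 ≤ 1 → 0 ≤ x2 → x2 ≤ 1 → P3C7.l ≤ xc → xc ≤ P3C7.u →
    (2349 / 2048 : ℝ) * (1 - (1 - x1) ^ 5) + (54587 / 4096 : ℝ) * (1 - (1 - x2) ^ 5) - (12 : ℝ) * (1 - (1 - xc) ^ 5) + (1 / 1073741824 : ℝ)
      ≤ - P3C7.a1 * x1 - P3C7.a2 * x2 + P3C7.e * xc + P3C7.f := by
  have h := cell_lines_delta 5 (α1 := (2349 / 2048 : ℝ)) (α2 := (54587 / 4096 : ℝ)) (c := (12 : ℝ)) (y1 := (3493 / 65536 : ℝ)) (y2 := (8165 / 131072 : ℝ))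
    (A1 := (9660607 / 2097152 : ℝ)) (B1 := (7850809 / 268435456 : ℝ)) (A2 := (6752677 / 131072 : ℝ)) (B2 := (122322055 / 268435456 : ℝ)) (l := (18067 / 262144 : ℝ)) (u := (9175 / 131072 : ℝ))
    (E := (-188691263 / 4194304 : ℝ)) (F := (-67459763 / 134217728 : ℝ)) (δ := (1 / 1073741824 : ℝ)) (by norm_num) (by norm_num) (by norm_num) (by norm_num) (by norm_num)
    (by norm_num) (by norm_num) (by norm_num) (by norm_num) (by norm_num) (by norm_num) (by norm_num) (by norm_num) (by norm_num) (by norm_num)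
  have e1 : P3C7.l = (18067 / 262144 : ℝ) := rfl
  have e2 : P3C7.u = (9175 / 131072 : ℝ) := rfl
  have e3 : P3C7.a1 = -(9660607 / 2097152 : ℝ) := by norm_num [P3C7]
  have e4 : P3C7.a2 = -(6752677 / 131072 : ℝ) := by norm_num [P3C7]
  have e5 : P3C7.e = (-188691263 / 4194304 : ℝ) := rfl
  have e6 : P3C7.f = (7850809 / 268435456 : ℝ) + (122322055 / 268435456 : ℝ) + (-67459763 / 134217728 : ℝ) + (1 / 1073741824 : ℝ) := by norm_num [P3C7]
  rw [e1, e2, e3, e4, e5, e6]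
  exact h

/-- A link of the chain. -/
lemma link3 {lam : ℝ} (h0 : -(1 / 2) < lam) (h1 : lam < 1) (hB : BoxS lam P 0 HH 0 HH)
    (h : ∃ n, 1 - En 5 lam n mc ≤ (9175 / 131072 : ℝ)) : ∃ n, 1 - En 5 lam n mc ≤ (15729 / 262144 : ℝ) :=
  phase_of_box (by norm_num) h0 h1 hB (2349 / 2048 : ℝ) (54587 / 4096 : ℝ) (12 : ℝ) (1 / 1073741824 : ℝ) (15729 / 262144 : ℝ) (9175 / 131072 : ℝ) (by norm_num) cellsP3 hcoverP3
    (forall_cons lP3C0 (forall_cons lP3C1 (forall_cons lP3C2 (forall_cons lP3C3 (forall_cons lP3C4 (forall_cons lP3C5 (forall_cons lP3C6 (forall_cons lP3C7 (forall_nil))))))))) (forall_cons rP3C0 (forall_cons rP3C1 (forall_cons rP3C2 (forall_cons rP3C3 (forall_cons rP3C4 (forall_cons rP3C5 (forall_cons rP3C6 (forall_cons rP3C7 (forall_nil))))))))) h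

/-- A chord cell of a link. -/
noncomputable def P4C0 : Cell := ⟨(9175 / 131072 : ℝ), (18717 / 262144 : ℝ), (-21883065 / 4194304 : ℝ), (-106941023 / 2097152 : ℝ), (-187687769 / 4194304 : ℝ), (-26527935 / 1073741824 : ℝ)⟩

/-- A chord cell of a link. -/
noncomputable def P4C1 : Cell := ⟨(18717 / 262144 : ℝ), (19091 / 262144 : ℝ), (-21825561 / 4194304 : ℝ), (-212611009 / 4194304 : ℝ), (-186548585 / 4194304 : ℝ), (-25948623 / 1073741824 : ℝ)⟩

/-- A chord cell of a link. -/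
noncomputable def P4C2 : Cell := ⟨(19091 / 262144 : ℝ), (19473 / 262144 : ℝ), (-5437001 / 1048576 : ℝ), (-52835549 / 1048576 : ℝ), (-92695847 / 2097152 : ℝ), (-25371995 / 1073741824 : ℝ)⟩

/-- A chord cell of a link. -/
noncomputable def P4C3 : Cell := ⟨(19473 / 262144 : ℝ), (19863 / 262144 : ℝ), (-21807481 / 4194304 : ℝ), (-209972637 / 4194304 : ℝ), (-23026985 / 524288 : ℝ), (-25564907 / 1073741824 : ℝ)⟩

/-- A chord cell of a link. -/
noncomputable def P4C4 : Cell := ⟨(19863 / 262144 : ℝ), (5065 / 65536 : ℝ), (-21923955 / 4194304 : ℝ), (-208483381 / 4194304 : ℝ), (-183022985 / 4194304 : ℝ), (-24779491 / 1073741824 : ℝ)⟩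

/-- A chord cell of a link. -/
noncomputable def P4C5 : Cell := ⟨(5065 / 65536 : ℝ), (20665 / 262144 : ℝ), (-10933895 / 2097152 : ℝ), (-103577467 / 2097152 : ℝ), (-45453331 / 1048576 : ℝ), (-24364751 / 1073741824 : ℝ)⟩

/-- A chord cell of a link. -/
noncomputable def P4C6 : Cell := ⟨(20665 / 262144 : ℝ), (5243 / 65536 : ℝ), (-21709479 / 4194304 : ℝ), (-51530113 / 1048576 : ℝ), (-22593041 / 524288 : ℝ), (-24816787 / 1073741824 : ℝ)⟩

/-- The chord cells of a link. -/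
noncomputable def cellsP4 : List Cell := [P4C0, P4C1, P4C2, P4C3, P4C4, P4C5, P4C6]

lemma hcoverP4 : ∀ x : ℝ, (9175 / 131072 : ℝ) ≤ x → x ≤ (5243 / 65536 : ℝ) → ∃ D ∈ cellsP4, D.l ≤ x ∧ x ≤ D.u := by
  refine cover_of_chain ?_ (by norm_num [P4C0])
  simp only [ChainP, P4C0, P4C1, P4C2, P4C3, P4C4, P4C5, P4C6]
  norm_num

lemma rP4C0 : ∃ N : ℝ, Rw4 P.r2 N (coCell (685 / 512 : ℝ) (6755 / 512 : ℝ) (12 : ℝ) 0 P4C0) := by
  refine ⟨(3221225472 : ℝ), ⟨Q70, List.mem_cons_of_mem _ (List.mem_cons_of_mem _ (List.mem_cons_of_mem _ (List.mem_cons_of_mem _ (List.mem_cons_of_mem _ (List.mem_cons_of_mem _ (List.mem_cons_of_mem _ (List.mem_cons_of_mem _ (List.mem_cons_of_mem _ (List.mem_cons_of_mem _ (List.mem_cons_of_mem _ (List.mem_cons_of_mem _ (List.mem_cons_of_mem _ (List.mem_cons_of_mem _ (List.mem_cons_of_mem _ (List.mem_cons_of_mem _ (List.mem_cons_of_mem _ (List.mem_cons_of_mem _ (List.mem_cons_of_mem _ (List.mem_cons_of_mem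 _ (List.mem_cons_of_mem _ (List.mem_cons_of_mem _ (List.mem_cons_of_mem _ (List.mem_cons_of_mem _ (List.mem_cons_of_mem _ (List.mem_cons_of_mem _ (List.mem_cons_of_mem _ (List.mem_cons_of_mem _ (List.mem_cons_of_mem _ (List.mem_cons_of_mem _ (List.mem_cons_of_mem _ (List.mem_cons_of_mem _ (List.mem_cons_of_mem _ (List.mem_cons_of_mem _ (List.mem_cons_of_mem _ (List.mem_cons_of_mem _ (List.mem_cons_of_mem _ (List.mem_cons_of_mem _ (List.mem_cons_of_mem _ (List.mem_cons_of_mem _ (List.mem_cons_of_mem _ (List.mem_cons_of_mem _ (List.mem_cons_of_mem _ (List.mem_cons_of_mem _ (List.mem_cons_of_mem _ (List.mem_cons_of_mem _ (List.mem_cons_of_mem _ (List.mem_cons_of_mem _ (List.mem_cons_of_mem _ (List.mem_cons_of_mem _ (List.mem_cons_of_mem _ (List.mem_cons_of_mem _ (List.mem_cons_of_mem _ (List.mem_cons_of_mem _ (List.mem_cons_of_mem _ (List.mem_cons_of_mem _ (List.mem_cons_of_mem _ (List.mem_cons_of_mem _ (List.mem_cons_of_mem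 _ (List.mem_cons_of_mem _ (List.mem_cons_of_mem _ (List.mem_cons_of_mem _ (List.mem_cons_of_mem _ (List.mem_cons_of_mem _ (List.mem_cons_of_mem _ (List.mem_cons_of_mem _ (List.mem_cons_of_mem _ (List.mem_cons_of_mem _ (List.mem_cons_of_mem _ (List.mem_cons_of_mem _ (List.mem_cons_self)))))))))))))))))))))))))))))))))))))))))))))))))))))))))))))))))))))), ?_⟩, by norm_num⟩
  constructor <;> norm_num [Q70, coCell, P4C0]

lemma lP4C0 : ∀ x1 x2 xc : ℝ, 0 ≤ x1 → x1 ≤ 1 → 0 ≤ x2 → x2 ≤ 1 → P4C0.l ≤ xc → xc ≤ P4C0.u →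
    (685 / 512 : ℝ) * (1 - (1 - x1) ^ 5) + (6755 / 512 : ℝ) * (1 - (1 - x2) ^ 5) - (12 : ℝ) * (1 - (1 - xc) ^ 5) + (1 / 1073741824 : ℝ)
      ≤ - P4C0.a1 * x1 - P4C0.a2 * x2 + P4C0.e * xc + P4C0.f := by
  have h := cell_lines_delta 5 (α1 := (685 / 512 : ℝ)) (α2 := (6755 / 512 : ℝ)) (c := (12 : ℝ)) (y1 := (15793 / 262144 : ℝ)) (y2 := (16341 / 262144 : ℝ))
    (A1 := (21883065 / 4194304 : ℝ)) (B1 := (2883549 / 67108864 : ℝ)) (A2 := (106941023 / 2097152 : ℝ)) (B2 := (30312245 / 67108864 : ℝ)) (l := (9175 / 131072 : ℝ)) (u := (18717 / 262144 : ℝ))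
    (E := (-187687769 / 4194304 : ℝ)) (F := (-17426895 / 33554432 : ℝ)) (δ := (1 / 1073741824 : ℝ)) (by norm_num) (by norm_num) (by norm_num) (by norm_num) (by norm_num)
    (by norm_num) (by norm_num) (by norm_num) (by norm_num) (by norm_num) (by norm_num) (by norm_num) (by norm_num) (by norm_num) (by norm_num)
  have e1 : P4C0.l = (9175 / 131072 : ℝ) := rfl
  have e2 : P4C0.u = (18717 / 262144 : ℝ) := rfl
  have e3 : P4C0.a1 = -(21883065 / 4194304 : ℝ) := by norm_num [P4C0]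
  have e4 : P4C0.a2 = -(106941023 / 2097152 : ℝ) := by norm_num [P4C0]
  have e5 : P4C0.e = (-187687769 / 4194304 : ℝ) := rfl
  have e6 : P4C0.f = (2883549 / 67108864 : ℝ) + (30312245 / 67108864 : ℝ) + (-17426895 / 33554432 : ℝ) + (1 / 1073741824 : ℝ) := by norm_num [P4C0]
  rw [e1, e2, e3, e4, e5, e6]
  exact h

lemma rP4C1 : ∃ N : ℝ, Rw4 P.r2 N (coCell (685 / 512 : ℝ) (6755 / 512 : ℝ) (12 : ℝ) 0 P4C1) := by
  refine ⟨(3221225472 : ℝ), ⟨Q71, List.mem_cons_of_mem _ (List.mem_cons_of_mem _ (List.mem_cons_of_mem _ (List.mem_cons_of_mem _ (List.mem_cons_of_mem _ (List.mem_cons_of_mem _ (List.mem_cons_of_mem _ (List.mem_cons_of_mem _ (List.mem_cons_of_mem _ (List.mem_cons_of_mem _ (List.mem_cons_of_mem _ (List.mem_cons_of_mem _ (List.mem_cons_of_mem _ (List.mem_cons_of_mem _ (List.mem_cons_of_mem _ (List.mem_cons_of_mem _ (List.mem_cons_of_mem _ (List.mem_cons_of_mem _ (List.mem_cons_of_mem _ (List.mem_cons_of_mem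 _ (List.mem_cons_of_mem _ (List.mem_cons_of_mem _ (List.mem_cons_of_mem _ (List.mem_cons_of_mem _ (List.mem_cons_of_mem _ (List.mem_cons_of_mem _ (List.mem_cons_of_mem _ (List.mem_cons_of_mem _ (List.mem_cons_of_mem _ (List.mem_cons_of_mem _ (List.mem_cons_of_mem _ (List.mem_cons_of_mem _ (List.mem_cons_of_mem _ (List.mem_cons_of_mem _ (List.mem_cons_of_mem _ (List.mem_cons_of_mem _ (List.mem_cons_of_mem _ (List.mem_cons_of_mem _ (List.mem_cons_of_mem _ (List.mem_cons_of_mem _ (List.mem_cons_of_mem _ (List.mem_cons_of_mem _ (List.mem_cons_of_mem _ (List.mem_cons_of_mem _ (List.mem_cons_of_mem _ (List.mem_cons_of_mem _ (List.mem_cons_of_mem _ (List.mem_cons_of_mem _ (List.mem_cons_of_mem _ (List.mem_cons_of_mem _ (List.mem_cons_of_mem _ (List.mem_cons_of_mem _ (List.mem_cons_of_mem _ (List.mem_cons_of_mem _ (List.mem_cons_of_mem _ (List.mem_cons_of_mem _ (List.mem_cons_of_mem _ (List.mem_cons_of_mem _ (List.mem_cons_of_mem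 _ (List.mem_cons_of_mem _ (List.mem_cons_of_mem _ (List.mem_cons_of_mem _ (List.mem_cons_of_mem _ (List.mem_cons_of_mem _ (List.mem_cons_of_mem _ (List.mem_cons_of_mem _ (List.mem_cons_of_mem _ (List.mem_cons_of_mem _ (List.mem_cons_of_mem _ (List.mem_cons_of_mem _ (List.mem_cons_of_mem _ (List.mem_cons_self))))))))))))))))))))))))))))))))))))))))))))))))))))))))))))))))))))))), ?_⟩, by norm_num⟩
  constructor <;> norm_num [Q71, coCell, P4C1]

lemma lP4C1 : ∀ x1 x2 xc : ℝ, 0 ≤ x1 → x1 ≤ 1 → 0 ≤ x2 → x2 ≤ 1 → P4C1.l ≤ xc → xc ≤ P4C1.u →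
    (685 / 512 : ℝ) * (1 - (1 - x1) ^ 5) + (6755 / 512 : ℝ) * (1 - (1 - x2) ^ 5) - (12 : ℝ) * (1 - (1 - xc) ^ 5) + (1 / 1073741824 : ℝ)
      ≤ - P4C1.a1 * x1 - P4C1.a2 * x2 + P4C1.e * xc + P4C1.f := by
  have h := cell_lines_delta 5 (α1 := (685 / 512 : ℝ)) (α2 := (6755 / 512 : ℝ)) (c := (12 : ℝ)) (y1 := (15955 / 262144 : ℝ)) (y2 := (16707 / 262144 : ℝ))
    (A1 := (21825561 / 4194304 : ℝ)) (B1 := (11757053 / 268435456 : ℝ)) (A2 := (212611009 / 4194304 : ℝ)) (B2 := (126376543 / 268435456 : ℝ)) (l := (18717 / 262144 : ℝ)) (u := (19091 / 262144 : ℝ))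
    (E := (-186548585 / 4194304 : ℝ)) (F := (-9038797 / 16777216 : ℝ)) (δ := (1 / 1073741824 : ℝ)) (by norm_num) (by norm_num) (by norm_num) (by norm_num) (by norm_num)
    (by norm_num) (by norm_num) (by norm_num) (by norm_num) (by norm_num) (by norm_num) (by norm_num) (by norm_num) (by norm_num) (by norm_num)
  have e1 : P4C1.l = (18717 / 262144 : ℝ) := rfl
  have e2 : P4C1.u = (19091 / 262144 : ℝ) := rfl
  have e3 : P4C1.a1 = -(21825561 / 4194304 : ℝ) := by norm_num [P4C1]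
  have e4 : P4C1.a2 = -(212611009 / 4194304 : ℝ) := by norm_num [P4C1]
  have e5 : P4C1.e = (-186548585 / 4194304 : ℝ) := rfl
  have e6 : P4C1.f = (11757053 / 268435456 : ℝ) + (126376543 / 268435456 : ℝ) + (-9038797 / 16777216 : ℝ) + (1 / 1073741824 : ℝ) := by norm_num [P4C1]
  rw [e1, e2, e3, e4, e5, e6]
  exact h

lemma rP4C2 : ∃ N : ℝ, Rw4 P.r2 N (coCell (685 / 512 : ℝ) (6755 / 512 : ℝ) (12 : ℝ) 0 P4C2) := by
  refine ⟨(3221225472 : ℝ), ⟨Q72, List.mem_cons_of_mem _ (List.mem_cons_of_mem _ (List.mem_cons_of_mem _ (List.mem_cons_of_mem _ (List.mem_cons_of_mem _ (List.mem_cons_of_mem _ (List.mem_cons_of_mem _ (List.mem_cons_of_mem _ (List.mem_cons_of_mem _ (List.mem_cons_of_mem _ (List.mem_cons_of_mem _ (List.mem_cons_of_mem _ (List.mem_cons_of_mem _ (List.mem_cons_of_mem _ (List.mem_cons_of_mem _ (List.mem_cons_of_mem _ (List.mem_cons_of_mem _ (List.mem_cons_of_mem _ (List.mem_cons_of_mem _ (List.mem_cons_of_mem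 _ (List.mem_cons_of_mem _ (List.mem_cons_of_mem _ (List.mem_cons_of_mem _ (List.mem_cons_of_mem _ (List.mem_cons_of_mem _ (List.mem_cons_of_mem _ (List.mem_cons_of_mem _ (List.mem_cons_of_mem _ (List.mem_cons_of_mem _ (List.mem_cons_of_mem _ (List.mem_cons_of_mem _ (List.mem_cons_of_mem _ (List.mem_cons_of_mem _ (List.mem_cons_of_mem _ (List.mem_cons_of_mem _ (List.mem_cons_of_mem _ (List.mem_cons_of_mem _ (List.mem_cons_of_mem _ (List.mem_cons_of_mem _ (List.mem_cons_of_mem _ (List.mem_cons_of_mem _ (List.mem_cons_of_mem _ (List.mem_cons_of_mem _ (List.mem_cons_of_mem _ (List.mem_cons_of_mem _ (List.mem_cons_of_mem _ (List.mem_cons_of_mem _ (List.mem_cons_of_mem _ (List.mem_cons_of_mem _ (List.mem_cons_of_mem _ (List.mem_cons_of_mem _ (List.mem_cons_of_mem _ (List.mem_cons_of_mem _ (List.mem_cons_of_mem _ (List.mem_cons_of_mem _ (List.mem_cons_of_mem _ (List.mem_cons_of_mem _ (List.mem_cons_of_mem _ (List.mem_cons_of_mem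 _ (List.mem_cons_of_mem _ (List.mem_cons_of_mem _ (List.mem_cons_of_mem _ (List.mem_cons_of_mem _ (List.mem_cons_of_mem _ (List.mem_cons_of_mem _ (List.mem_cons_of_mem _ (List.mem_cons_of_mem _ (List.mem_cons_of_mem _ (List.mem_cons_of_mem _ (List.mem_cons_of_mem _ (List.mem_cons_of_mem _ (List.mem_cons_of_mem _ (List.mem_cons_self)))))))))))))))))))))))))))))))))))))))))))))))))))))))))))))))))))))))), ?_⟩, by norm_num⟩
  constructor <;> norm_num [Q72, coCell, P4C2]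

lemma lP4C2 : ∀ x1 x2 xc : ℝ, 0 ≤ x1 → x1 ≤ 1 → 0 ≤ x2 → x2 ≤ 1 → P4C2.l ≤ xc → xc ≤ P4C2.u →
    (685 / 512 : ℝ) * (1 - (1 - x1) ^ 5) + (6755 / 512 : ℝ) * (1 - (1 - x2) ^ 5) - (12 : ℝ) * (1 - (1 - xc) ^ 5) + (1 / 1073741824 : ℝ)
      ≤ - P4C2.a1 * x1 - P4C2.a2 * x2 + P4C2.e * xc + P4C2.f := by
  have h := cell_lines_delta 5 (α1 := (685 / 512 : ℝ)) (α2 := (6755 / 512 : ℝ)) (c := (12 : ℝ)) (y1 := (8087 / 131072 : ℝ)) (y2 := (8537 / 131072 : ℝ))
    (A1 := (5437001 / 1048576 : ℝ)) (B1 := (12061231 / 268435456 : ℝ)) (A2 := (52835549 / 1048576 : ℝ)) (B2 := (65804331 / 134217728 : ℝ)) (l := (19091 / 262144 : ℝ)) (u := (19473 / 262144 : ℝ))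
    (E := (-92695847 / 2097152 : ℝ)) (F := (-37503223 / 67108864 : ℝ)) (δ := (1 / 1073741824 : ℝ)) (by norm_num) (by norm_num) (by norm_num) (by norm_num) (by norm_num)
    (by norm_num) (by norm_num) (by norm_num) (by norm_num) (by norm_num) (by norm_num) (by norm_num) (by norm_num) (by norm_num) (by norm_num)
  have e1 : P4C2.l = (19091 / 262144 : ℝ) := rfl
  have e2 : P4C2.u = (19473 / 262144 : ℝ) := rfl
  have e3 : P4C2.a1 = -(5437001 / 1048576 : ℝ) := by norm_num [P4C2]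
  have e4 : P4C2.a2 = -(52835549 / 1048576 : ℝ) := by norm_num [P4C2]
  have e5 : P4C2.e = (-92695847 / 2097152 : ℝ) := rfl
  have e6 : P4C2.f = (12061231 / 268435456 : ℝ) + (65804331 / 134217728 : ℝ) + (-37503223 / 67108864 : ℝ) + (1 / 1073741824 : ℝ) := by norm_num [P4C2]
  rw [e1, e2, e3, e4, e5, e6]
  exact h

lemma rP4C3 : ∃ N : ℝ, Rw4 P.r2 N (coCell (685 / 512 : ℝ) (6755 / 512 : ℝ) (12 : ℝ) 0 P4C3) := by
  refine ⟨(3221225472 : ℝ), ⟨Q73, List.mem_cons_of_mem _ (List.mem_cons_of_mem _ (List.mem_cons_of_mem _ (List.mem_cons_of_mem _ (List.mem_cons_of_mem _ (List.mem_cons_of_mem _ (List.mem_cons_of_mem _ (List.mem_cons_of_mem _ (List.mem_cons_of_mem _ (List.mem_cons_of_mem _ (List.mem_cons_of_mem _ (List.mem_cons_of_mem _ (List.mem_cons_of_mem _ (List.mem_cons_of_mem _ (List.mem_cons_of_mem _ (List.mem_cons_of_mem _ (List.mem_cons_of_mem _ (List.mem_cons_of_mem _ (List.mem_cons_of_mem _ (List.mem_cons_of_mem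 _ (List.mem_cons_of_mem _ (List.mem_cons_of_mem _ (List.mem_cons_of_mem _ (List.mem_cons_of_mem _ (List.mem_cons_of_mem _ (List.mem_cons_of_mem _ (List.mem_cons_of_mem _ (List.mem_cons_of_mem _ (List.mem_cons_of_mem _ (List.mem_cons_of_mem _ (List.mem_cons_of_mem _ (List.mem_cons_of_mem _ (List.mem_cons_of_mem _ (List.mem_cons_of_mem _ (List.mem_cons_of_mem _ (List.mem_cons_of_mem _ (List.mem_cons_of_mem _ (List.mem_cons_of_mem _ (List.mem_cons_of_mem _ (List.mem_cons_of_mem _ (List.mem_cons_of_mem _ (List.mem_cons_of_mem _ (List.mem_cons_of_mem _ (List.mem_cons_of_mem _ (List.mem_cons_of_mem _ (List.mem_cons_of_mem _ (List.mem_cons_of_mem _ (List.mem_cons_of_mem _ (List.mem_cons_of_mem _ (List.mem_cons_of_mem _ (List.mem_cons_of_mem _ (List.mem_cons_of_mem _ (List.mem_cons_of_mem _ (List.mem_cons_of_mem _ (List.mem_cons_of_mem _ (List.mem_cons_of_mem _ (List.mem_cons_of_mem _ (List.mem_cons_of_mem _ (List.mem_cons_of_mem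 _ (List.mem_cons_of_mem _ (List.mem_cons_of_mem _ (List.mem_cons_of_mem _ (List.mem_cons_of_mem _ (List.mem_cons_of_mem _ (List.mem_cons_of_mem _ (List.mem_cons_of_mem _ (List.mem_cons_of_mem _ (List.mem_cons_of_mem _ (List.mem_cons_of_mem _ (List.mem_cons_of_mem _ (List.mem_cons_of_mem _ (List.mem_cons_of_mem _ (List.mem_cons_of_mem _ (List.mem_cons_self))))))))))))))))))))))))))))))))))))))))))))))))))))))))))))))))))))))))), ?_⟩, by norm_num⟩
  constructor <;> norm_num [Q73, coCell, P4C3]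

lemma lP4C3 : ∀ x1 x2 xc : ℝ, 0 ≤ x1 → x1 ≤ 1 → 0 ≤ x2 → x2 ≤ 1 → P4C3.l ≤ xc → xc ≤ P4C3.u →
    (685 / 512 : ℝ) * (1 - (1 - x1) ^ 5) + (6755 / 512 : ℝ) * (1 - (1 - x2) ^ 5) - (12 : ℝ) * (1 - (1 - xc) ^ 5) + (1 / 1073741824 : ℝ)
      ≤ - P4C3.a1 * x1 - P4C3.a2 * x2 + P4C3.e * xc + P4C3.f := by
  have h := cell_lines_delta 5 (α1 := (685 / 512 : ℝ)) (α2 := (6755 / 512 : ℝ)) (c := (12 : ℝ)) (y1 := (8003 / 131072 : ℝ)) (y2 := (273 / 4096 : ℝ))
    (A1 := (21807481 / 4194304 : ℝ)) (B1 := (11827591 / 268435456 : ℝ)) (A2 := (209972637 / 4194304 : ℝ)) (B2 := (137384071 / 268435456 : ℝ)) (l := (19473 / 262144 : ℝ)) (u := (19863 / 262144 : ℝ))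
    (E := (-23026985 / 524288 : ℝ)) (F := (-155602889 / 268435456 : ℝ)) (δ := (1 / 1073741824 : ℝ)) (by norm_num) (by norm_num) (by norm_num) (by norm_num) (by norm_num)
    (by norm_num) (by norm_num) (by norm_num) (by norm_num) (by norm_num) (by norm_num) (by norm_num) (by norm_num) (by norm_num) (by norm_num)
  have e1 : P4C3.l = (19473 / 262144 : ℝ) := rfl
  have e2 : P4C3.u = (19863 / 262144 : ℝ) := rfl
  have e3 : P4C3.a1 = -(21807481 / 4194304 : ℝ) := by norm_num [P4C3]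
  have e4 : P4C3.a2 = -(209972637 / 4194304 : ℝ) := by norm_num [P4C3]
  have e5 : P4C3.e = (-23026985 / 524288 : ℝ) := rfl
  have e6 : P4C3.f = (11827591 / 268435456 : ℝ) + (137384071 / 268435456 : ℝ) + (-155602889 / 268435456 : ℝ) + (1 / 1073741824 : ℝ) := by norm_num [P4C3]
  rw [e1, e2, e3, e4, e5, e6]
  exact h

lemma rP4C4 : ∃ N : ℝ, Rw4 P.r2 N (coCell (685 / 512 : ℝ) (6755 / 512 : ℝ) (12 : ℝ) 0 P4C4) := by
  refine ⟨(3221225472 : ℝ), ⟨Q74, List.mem_cons_of_mem _ (List.mem_cons_of_mem _ (List.mem_cons_of_mem _ (List.mem_cons_of_mem _ (List.mem_cons_of_mem _ (List.mem_cons_of_mem _ (List.mem_cons_of_mem _ (List.mem_cons_of_mem _ (List.mem_cons_of_mem _ (List.mem_cons_of_mem _ (List.mem_cons_of_mem _ (List.mem_cons_of_mem _ (List.mem_cons_of_mem _ (List.mem_cons_of_mem _ (List.mem_cons_of_mem _ (List.mem_cons_of_mem _ (List.mem_cons_of_mem _ (List.mem_cons_of_mem _ (List.mem_cons_of_mem _ (List.mem_cons_of_mem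 _ (List.mem_cons_of_mem _ (List.mem_cons_of_mem _ (List.mem_cons_of_mem _ (List.mem_cons_of_mem _ (List.mem_cons_of_mem _ (List.mem_cons_of_mem _ (List.mem_cons_of_mem _ (List.mem_cons_of_mem _ (List.mem_cons_of_mem _ (List.mem_cons_of_mem _ (List.mem_cons_of_mem _ (List.mem_cons_of_mem _ (List.mem_cons_of_mem _ (List.mem_cons_of_mem _ (List.mem_cons_of_mem _ (List.mem_cons_of_mem _ (List.mem_cons_of_mem _ (List.mem_cons_of_mem _ (List.mem_cons_of_mem _ (List.mem_cons_of_mem _ (List.mem_cons_of_mem _ (List.mem_cons_of_mem _ (List.mem_cons_of_mem _ (List.mem_cons_of_mem _ (List.mem_cons_of_mem _ (List.mem_cons_of_mem _ (List.mem_cons_of_mem _ (List.mem_cons_of_mem _ (List.mem_cons_of_mem _ (List.mem_cons_of_mem _ (List.mem_cons_of_mem _ (List.mem_cons_of_mem _ (List.mem_cons_of_mem _ (List.mem_cons_of_mem _ (List.mem_cons_of_mem _ (List.mem_cons_of_mem _ (List.mem_cons_of_mem _ (List.mem_cons_of_mem _ (List.mem_cons_of_mem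 _ (List.mem_cons_of_mem _ (List.mem_cons_of_mem _ (List.mem_cons_of_mem _ (List.mem_cons_of_mem _ (List.mem_cons_of_mem _ (List.mem_cons_of_mem _ (List.mem_cons_of_mem _ (List.mem_cons_of_mem _ (List.mem_cons_of_mem _ (List.mem_cons_of_mem _ (List.mem_cons_of_mem _ (List.mem_cons_of_mem _ (List.mem_cons_of_mem _ (List.mem_cons_of_mem _ (List.mem_cons_of_mem _ (List.mem_cons_self)))))))))))))))))))))))))))))))))))))))))))))))))))))))))))))))))))))))))), ?_⟩, by norm_num⟩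
  constructor <;> norm_num [Q74, coCell, P4C4]

lemma lP4C4 : ∀ x1 x2 xc : ℝ, 0 ≤ x1 → x1 ≤ 1 → 0 ≤ x2 → x2 ≤ 1 → P4C4.l ≤ xc → xc ≤ P4C4.u →
    (685 / 512 : ℝ) * (1 - (1 - x1) ^ 5) + (6755 / 512 : ℝ) * (1 - (1 - x2) ^ 5) - (12 : ℝ) * (1 - (1 - xc) ^ 5) + (1 / 1073741824 : ℝ)
      ≤ - P4C4.a1 * x1 - P4C4.a2 * x2 + P4C4.e * xc + P4C4.f := by
  have h := cell_lines_delta 5 (α1 := (685 / 512 : ℝ)) (α2 := (6755 / 512 : ℝ)) (c := (12 : ℝ)) (y1 := (7839 / 131072 : ℝ)) (y2 := (17907 / 262144 : ℝ))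
    (A1 := (21923955 / 4194304 : ℝ)) (B1 := (11377111 / 268435456 : ℝ)) (A2 := (208483381 / 4194304 : ℝ)) (B2 := (17976961 / 33554432 : ℝ)) (l := (19863 / 262144 : ℝ)) (u := (5065 / 65536 : ℝ))
    (E := (-183022985 / 4194304 : ℝ)) (F := (-20173459 / 33554432 : ℝ)) (δ := (1 / 1073741824 : ℝ)) (by norm_num) (by norm_num) (by norm_num) (by norm_num) (by norm_num)
    (by norm_num) (by norm_num) (by norm_num) (by norm_num) (by norm_num) (by norm_num) (by norm_num) (by norm_num) (by norm_num) (by norm_num)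
  have e1 : P4C4.l = (19863 / 262144 : ℝ) := rfl
  have e2 : P4C4.u = (5065 / 65536 : ℝ) := rfl
  have e3 : P4C4.a1 = -(21923955 / 4194304 : ℝ) := by norm_num [P4C4]
  have e4 : P4C4.a2 = -(208483381 / 4194304 : ℝ) := by norm_num [P4C4]
  have e5 : P4C4.e = (-183022985 / 4194304 : ℝ) := rfl
  have e6 : P4C4.f = (11377111 / 268435456 : ℝ) + (17976961 / 33554432 : ℝ) + (-20173459 / 33554432 : ℝ) + (1 / 1073741824 : ℝ) := by norm_num [P4C4]
  rw [e1, e2, e3, e4, e5, e6]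
  exact h

lemma rP4C5 : ∃ N : ℝ, Rw4 P.r2 N (coCell (685 / 512 : ℝ) (6755 / 512 : ℝ) (12 : ℝ) 0 P4C5) := by
  refine ⟨(3221225472 : ℝ), ⟨Q75, List.mem_cons_of_mem _ (List.mem_cons_of_mem _ (List.mem_cons_of_mem _ (List.mem_cons_of_mem _ (List.mem_cons_of_mem _ (List.mem_cons_of_mem _ (List.mem_cons_of_mem _ (List.mem_cons_of_mem _ (List.mem_cons_of_mem _ (List.mem_cons_of_mem _ (List.mem_cons_of_mem _ (List.mem_cons_of_mem _ (List.mem_cons_of_mem _ (List.mem_cons_of_mem _ (List.mem_cons_of_mem _ (List.mem_cons_of_mem _ (List.mem_cons_of_mem _ (List.mem_cons_of_mem _ (List.mem_cons_of_mem _ (List.mem_cons_of_mem _ (List.mem_cons_of_mem _ (List.mem_cons_of_mem _ (List.mem_cons_of_mem _ (List.mem_cons_of_mem _ (List.mem_cons_of_mem _ (List.mem_cons_of_mem _ (List.mem_cons_of_mem _ (List.mem_cons_of_mem _ (List.mem_cons_of_mem _ (List.mem_cons_of_mem _ (List.mem_cons_of_mem _ (List.mem_cons_of_mem _ (List.mem_cons_of_mem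 _ (List.mem_cons_of_mem _ (List.mem_cons_of_mem _ (List.mem_cons_of_mem _ (List.mem_cons_of_mem _ (List.mem_cons_of_mem _ (List.mem_cons_of_mem _ (List.mem_cons_of_mem _ (List.mem_cons_of_mem _ (List.mem_cons_of_mem _ (List.mem_cons_of_mem _ (List.mem_cons_of_mem _ (List.mem_cons_of_mem _ (List.mem_cons_of_mem _ (List.mem_cons_of_mem _ (List.mem_cons_of_mem _ (List.mem_cons_of_mem _ (List.mem_cons_of_mem _ (List.mem_cons_of_mem _ (List.mem_cons_of_mem _ (List.mem_cons_of_mem _ (List.mem_cons_of_mem _ (List.mem_cons_of_mem _ (List.mem_cons_of_mem _ (List.mem_cons_of_mem _ (List.mem_cons_of_mem _ (List.mem_cons_of_mem _ (List.mem_cons_of_mem _ (List.mem_cons_of_mem _ (List.mem_cons_of_mem _ (List.mem_cons_of_mem _ (List.mem_cons_of_mem _ (List.mem_cons_of_mem _ (List.mem_cons_of_mem _ (List.mem_cons_of_mem _ (List.mem_cons_of_mem _ (List.mem_cons_of_mem _ (List.mem_cons_of_mem _ (List.mem_cons_of_mem _ (List.mem_cons_of_mem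 _ (List.mem_cons_of_mem _ (List.mem_cons_of_mem _ (List.mem_cons_of_mem _ (List.mem_cons_self))))))))))))))))))))))))))))))))))))))))))))))))))))))))))))))))))))))))))), ?_⟩, by norm_num⟩
  constructor <;> norm_num [Q75, coCell, P4C5]

lemma lP4C5 : ∀ x1 x2 xc : ℝ, 0 ≤ x1 → x1 ≤ 1 → 0 ≤ x2 → x2 ≤ 1 → P4C5.l ≤ xc → xc ≤ P4C5.u →
    (685 / 512 : ℝ) * (1 - (1 - x1) ^ 5) + (6755 / 512 : ℝ) * (1 - (1 - x2) ^ 5) - (12 : ℝ) * (1 - (1 - xc) ^ 5) + (1 / 1073741824 : ℝ)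
      ≤ - P4C5.a1 * x1 - P4C5.a2 * x2 + P4C5.e * xc + P4C5.f := by
  have h := cell_lines_delta 5 (α1 := (685 / 512 : ℝ)) (α2 := (6755 / 512 : ℝ)) (c := (12 : ℝ)) (y1 := (3959 / 65536 : ℝ)) (y2 := (18297 / 262144 : ℝ))
    (A1 := (10933895 / 2097152 : ℝ)) (B1 := (11593197 / 268435456 : ℝ)) (A2 := (103577467 / 2097152 : ℝ)) (B2 := (37421655 / 67108864 : ℝ)) (l := (5065 / 65536 : ℝ)) (u := (20665 / 262144 : ℝ))
    (E := (-45453331 / 1048576 : ℝ)) (F := (-167371005 / 268435456 : ℝ)) (δ := (1 / 1073741824 : ℝ)) (by norm_num) (by norm_num) (by norm_num) (by norm_num) (by norm_num)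
    (by norm_num) (by norm_num) (by norm_num) (by norm_num) (by norm_num) (by norm_num) (by norm_num) (by norm_num) (by norm_num) (by norm_num)
  have e1 : P4C5.l = (5065 / 65536 : ℝ) := rfl
  have e2 : P4C5.u = (20665 / 262144 : ℝ) := rfl
  have e3 : P4C5.a1 = -(10933895 / 2097152 : ℝ) := by norm_num [P4C5]
  have e4 : P4C5.a2 = -(103577467 / 2097152 : ℝ) := by norm_num [P4C5]
  have e5 : P4C5.e = (-45453331 / 1048576 : ℝ) := rfl
  have e6 : P4C5.f = (11593197 / 268435456 : ℝ) + (37421655 / 67108864 : ℝ) + (-167371005 / 268435456 : ℝ) + (1 / 1073741824 : ℝ) := by norm_num [P4C5]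
  rw [e1, e2, e3, e4, e5, e6]
  exact h

lemma rP4C6 : ∃ N : ℝ, Rw4 P.r2 N (coCell (685 / 512 : ℝ) (6755 / 512 : ℝ) (12 : ℝ) 0 P4C6) := by
  refine ⟨(3221225472 : ℝ), ⟨Q76, List.mem_cons_of_mem _ (List.mem_cons_of_mem _ (List.mem_cons_of_mem _ (List.mem_cons_of_mem _ (List.mem_cons_of_mem _ (List.mem_cons_of_mem _ (List.mem_cons_of_mem _ (List.mem_cons_of_mem _ (List.mem_cons_of_mem _ (List.mem_cons_of_mem _ (List.mem_cons_of_mem _ (List.mem_cons_of_mem _ (List.mem_cons_of_mem _ (List.mem_cons_of_mem _ (List.mem_cons_of_mem _ (List.mem_cons_of_mem _ (List.mem_cons_of_mem _ (List.mem_cons_of_mem _ (List.mem_cons_of_mem _ (List.mem_cons_of_mem _ (List.mem_cons_of_mem _ (List.mem_cons_of_mem _ (List.mem_cons_of_mem _ (List.mem_cons_of_mem _ (List.mem_cons_of_mem _ (List.mem_cons_of_mem _ (List.mem_cons_of_mem _ (List.mem_cons_of_mem _ (List.mem_cons_of_mem _ (List.mem_cons_of_mem _ (List.mem_cons_of_mem _ (List.mem_cons_of_mem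 _ (List.mem_cons_of_mem _ (List.mem_cons_of_mem _ (List.mem_cons_of_mem _ (List.mem_cons_of_mem _ (List.mem_cons_of_mem _ (List.mem_cons_of_mem _ (List.mem_cons_of_mem _ (List.mem_cons_of_mem _ (List.mem_cons_of_mem _ (List.mem_cons_of_mem _ (List.mem_cons_of_mem _ (List.mem_cons_of_mem _ (List.mem_cons_of_mem _ (List.mem_cons_of_mem _ (List.mem_cons_of_mem _ (List.mem_cons_of_mem _ (List.mem_cons_of_mem _ (List.mem_cons_of_mem _ (List.mem_cons_of_mem _ (List.mem_cons_of_mem _ (List.mem_cons_of_mem _ (List.mem_cons_of_mem _ (List.mem_cons_of_mem _ (List.mem_cons_of_mem _ (List.mem_cons_of_mem _ (List.mem_cons_of_mem _ (List.mem_cons_of_mem _ (List.mem_cons_of_mem _ (List.mem_cons_of_mem _ (List.mem_cons_of_mem _ (List.mem_cons_of_mem _ (List.mem_cons_of_mem _ (List.mem_cons_of_mem _ (List.mem_cons_of_mem _ (List.mem_cons_of_mem _ (List.mem_cons_of_mem _ (List.mem_cons_of_mem _ (List.mem_cons_of_mem _ (List.mem_cons_of_mem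 _ (List.mem_cons_of_mem _ (List.mem_cons_of_mem _ (List.mem_cons_of_mem _ (List.mem_cons_of_mem _ (List.mem_cons_of_mem _ (List.mem_cons_self)))))))))))))))))))))))))))))))))))))))))))))))))))))))))))))))))))))))))))), ?_⟩, by norm_num⟩
  constructor <;> norm_num [Q76, coCell, P4C6]

lemma lP4C6 : ∀ x1 x2 xc : ℝ, 0 ≤ x1 → x1 ≤ 1 → 0 ≤ x2 → x2 ≤ 1 → P4C6.l ≤ xc → xc ≤ P4C6.u →
    (685 / 512 : ℝ) * (1 - (1 - x1) ^ 5) + (6755 / 512 : ℝ) * (1 - (1 - x2) ^ 5) - (12 : ℝ) * (1 - (1 - xc) ^ 5) + (1 / 1073741824 : ℝ)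
      ≤ - P4C6.a1 * x1 - P4C6.a2 * x2 + P4C6.e * xc + P4C6.f := by
  have h := cell_lines_delta 5 (α1 := (685 / 512 : ℝ)) (α2 := (6755 / 512 : ℝ)) (c := (12 : ℝ)) (y1 := (16283 / 262144 : ℝ)) (y2 := (9301 / 131072 : ℝ))
    (A1 := (21709479 / 4194304 : ℝ)) (B1 := (12213883 / 268435456 : ℝ)) (A2 := (51530113 / 1048576 : ℝ)) (B2 := (38586547 / 67108864 : ℝ)) (l := (20665 / 262144 : ℝ)) (u := (5243 / 65536 : ℝ))
    (E := (-22593041 / 524288 : ℝ)) (F := (-43191067 / 67108864 : ℝ)) (δ := (1 / 1073741824 : ℝ)) (by norm_num) (by norm_num) (by norm_num) (by norm_num) (by norm_num)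
    (by norm_num) (by norm_num) (by norm_num) (by norm_num) (by norm_num) (by norm_num) (by norm_num) (by norm_num) (by norm_num) (by norm_num)
  have e1 : P4C6.l = (20665 / 262144 : ℝ) := rfl
  have e2 : P4C6.u = (5243 / 65536 : ℝ) := rfl
  have e3 : P4C6.a1 = -(21709479 / 4194304 : ℝ) := by norm_num [P4C6]
  have e4 : P4C6.a2 = -(51530113 / 1048576 : ℝ) := by norm_num [P4C6]
  have e5 : P4C6.e = (-22593041 / 524288 : ℝ) := rfl
  have e6 : P4C6.f = (12213883 / 268435456 : ℝ) + (38586547 / 67108864 : ℝ) + (-43191067 / 67108864 : ℝ) + (1 / 1073741824 : ℝ) := by norm_num [P4C6]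
  rw [e1, e2, e3, e4, e5, e6]
  exact h

/-- A link of the chain. -/
lemma link4 {lam : ℝ} (h0 : -(1 / 2) < lam) (h1 : lam < 1) (hB : BoxS lam P 0 HH 0 HH)
    (h : ∃ n, 1 - En 5 lam n mc ≤ (5243 / 65536 : ℝ)) : ∃ n, 1 - En 5 lam n mc ≤ (9175 / 131072 : ℝ) :=
  phase_of_box (by norm_num) h0 h1 hB (685 / 512 : ℝ) (6755 / 512 : ℝ) (12 : ℝ) (1 / 1073741824 : ℝ) (9175 / 131072 : ℝ) (5243 / 65536 : ℝ) (by norm_num) cellsP4 hcoverP4
    (forall_cons lP4C0 (forall_cons lP4C1 (forall_cons lP4C2 (forall_cons lP4C3 (forall_cons lP4C4 (forall_cons lP4C5 (forall_cons lP4C6 (forall_nil)))))))) (forall_cons rP4C0 (forall_cons rP4C1 (forall_cons rP4C2 (forall_cons rP4C3 (forall_cons rP4C4 (forall_cons rP4C5 (forall_cons rP4C6 (forall_nil)))))))) h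

/-- A chord cell of a link. -/
noncomputable def P5C0 : Cell := ⟨(5243 / 65536 : ℝ), (21223 / 262144 : ℝ), (-6101971 / 1048576 : ℝ), (-203978601 / 4194304 : ℝ), (-179909883 / 4194304 : ℝ), (-33489531 / 1073741824 : ℝ)⟩

/-- A chord cell of a link. -/
noncomputable def P5C1 : Cell := ⟨(21223 / 262144 : ℝ), (10739 / 131072 : ℝ), (-3056167 / 524288 : ℝ), (-203075383 / 4194304 : ℝ), (-179155749 / 4194304 : ℝ), (-33240343 / 1073741824 : ℝ)⟩

/-- A chord cell of a link. -/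
noncomputable def P5C2 : Cell := ⟨(10739 / 131072 : ℝ), (2717 / 32768 : ℝ), (-24403105 / 4194304 : ℝ), (-202228431 / 4194304 : ℝ), (-178393603 / 4194304 : ℝ), (-32707839 / 1073741824 : ℝ)⟩

/-- A chord cell of a link. -/
noncomputable def P5C3 : Cell := ⟨(2717 / 32768 : ℝ), (5499 / 65536 : ℝ), (-24279085 / 4194304 : ℝ), (-100731897 / 2097152 : ℝ), (-177626499 / 4194304 : ℝ), (-32506267 / 1073741824 : ℝ)⟩

/-- A chord cell of a link. -/
noncomputable def P5C4 : Cell := ⟨(5499 / 65536 : ℝ), (11141 / 131072 : ℝ), (-24423821 / 4194304 : ℝ), (-50090971 / 1048576 : ℝ), (-88410315 / 2097152 : ℝ), (-31227063 / 1073741824 : ℝ)⟩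

/-- The chord cells of a link. -/
noncomputable def cellsP5 : List Cell := [P5C0, P5C1, P5C2, P5C3, P5C4]

lemma hcoverP5 : ∀ x : ℝ, (5243 / 65536 : ℝ) ≤ x → x ≤ (11141 / 131072 : ℝ) → ∃ D ∈ cellsP5, D.l ≤ x ∧ x ≤ D.u := by
  refine cover_of_chain ?_ (by norm_num [P5C0])
  simp only [ChainP, P5C0, P5C1, P5C2, P5C3, P5C4]
  norm_num

lemma rP5C0 : ∃ N : ℝ, Rw4 P.r2 N (coCell (6237 / 4096 : ℝ) (26759 / 2048 : ℝ) (12 : ℝ) 0 P5C0) := by
  refine ⟨(3221225472 : ℝ), ⟨Q77, List.mem_cons_of_mem _ (List.mem_cons_of_mem _ (List.mem_cons_of_mem _ (List.mem_cons_of_mem _ (List.mem_cons_of_mem _ (List.mem_cons_of_mem _ (List.mem_cons_of_mem _ (List.mem_cons_of_mem _ (List.mem_cons_of_mem _ (List.mem_cons_of_mem _ (List.mem_cons_of_mem _ (List.mem_cons_of_mem _ (List.mem_cons_of_mem _ (List.mem_cons_of_mem _ (List.mem_cons_of_mem _ (List.mem_cons_of_mem _ (List.mem_cons_of_mem _ (List.mem_cons_of_mem _ (List.mem_cons_of_mem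 _ (List.mem_cons_of_mem _ (List.mem_cons_of_mem _ (List.mem_cons_of_mem _ (List.mem_cons_of_mem _ (List.mem_cons_of_mem _ (List.mem_cons_of_mem _ (List.mem_cons_of_mem _ (List.mem_cons_of_mem _ (List.mem_cons_of_mem _ (List.mem_cons_of_mem _ (List.mem_cons_of_mem _ (List.mem_cons_of_mem _ (List.mem_cons_of_mem _ (List.mem_cons_of_mem _ (List.mem_cons_of_mem _ (List.mem_cons_of_mem _ (List.mem_cons_of_mem _ (List.mem_cons_of_mem _ (List.mem_cons_of_mem _ (List.mem_cons_of_mem _ (List.mem_cons_of_mem _ (List.mem_cons_of_mem _ (List.mem_cons_of_mem _ (List.mem_cons_of_mem _ (List.mem_cons_of_mem _ (List.mem_cons_of_mem _ (List.mem_cons_of_mem _ (List.mem_cons_of_mem _ (List.mem_cons_of_mem _ (List.mem_cons_of_mem _ (List.mem_cons_of_mem _ (List.mem_cons_of_mem _ (List.mem_cons_of_mem _ (List.mem_cons_of_mem _ (List.mem_cons_of_mem _ (List.mem_cons_of_mem _ (List.mem_cons_of_mem _ (List.mem_cons_of_mem _ (List.mem_cons_of_mem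 _ (List.mem_cons_of_mem _ (List.mem_cons_of_mem _ (List.mem_cons_of_mem _ (List.mem_cons_of_mem _ (List.mem_cons_of_mem _ (List.mem_cons_of_mem _ (List.mem_cons_of_mem _ (List.mem_cons_of_mem _ (List.mem_cons_of_mem _ (List.mem_cons_of_mem _ (List.mem_cons_of_mem _ (List.mem_cons_of_mem _ (List.mem_cons_of_mem _ (List.mem_cons_of_mem _ (List.mem_cons_of_mem _ (List.mem_cons_of_mem _ (List.mem_cons_of_mem _ (List.mem_cons_of_mem _ (List.mem_cons_of_mem _ (List.mem_cons_self))))))))))))))))))))))))))))))))))))))))))))))))))))))))))))))))))))))))))))), ?_⟩, by norm_num⟩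
  constructor <;> norm_num [Q77, coCell, P5C0]

lemma lP5C0 : ∀ x1 x2 xc : ℝ, 0 ≤ x1 → x1 ≤ 1 → 0 ≤ x2 → x2 ≤ 1 → P5C0.l ≤ xc → xc ≤ P5C0.u →
    (6237 / 4096 : ℝ) * (1 - (1 - x1) ^ 5) + (26759 / 2048 : ℝ) * (1 - (1 - x2) ^ 5) - (12 : ℝ) * (1 - (1 - xc) ^ 5) + (1 / 1073741824 : ℝ)
      ≤ - P5C0.a1 * x1 - P5C0.a2 * x2 + P5C0.e * xc + P5C0.f := by
  have h := cell_lines_delta 5 (α1 := (6237 / 4096 : ℝ)) (α2 := (26759 / 2048 : ℝ)) (c := (12 : ℝ)) (y1 := (8517 / 131072 : ℝ)) (y2 := (18647 / 262144 : ℝ))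
    (A1 := (6101971 / 1048576 : ℝ)) (B1 := (15123249 / 268435456 : ℝ)) (A2 := (203978601 / 4194304 : ℝ)) (B2 := (38385273 / 67108864 : ℝ)) (l := (5243 / 65536 : ℝ)) (u := (21223 / 262144 : ℝ))
    (E := (-179909883 / 4194304 : ℝ)) (F := (-44259181 / 67108864 : ℝ)) (δ := (1 / 1073741824 : ℝ)) (by norm_num) (by norm_num) (by norm_num) (by norm_num) (by norm_num)
    (by norm_num) (by norm_num) (by norm_num) (by norm_num) (by norm_num) (by norm_num) (by norm_num) (by norm_num) (by norm_num) (by norm_num)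
  have e1 : P5C0.l = (5243 / 65536 : ℝ) := rfl
  have e2 : P5C0.u = (21223 / 262144 : ℝ) := rfl
  have e3 : P5C0.a1 = -(6101971 / 1048576 : ℝ) := by norm_num [P5C0]
  have e4 : P5C0.a2 = -(203978601 / 4194304 : ℝ) := by norm_num [P5C0]
  have e5 : P5C0.e = (-179909883 / 4194304 : ℝ) := rfl
  have e6 : P5C0.f = (15123249 / 268435456 : ℝ) + (38385273 / 67108864 : ℝ) + (-44259181 / 67108864 : ℝ) + (1 / 1073741824 : ℝ) := by norm_num [P5C0]
  rw [e1, e2, e3, e4, e5, e6]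
  exact h

lemma rP5C1 : ∃ N : ℝ, Rw4 P.r2 N (coCell (6237 / 4096 : ℝ) (26759 / 2048 : ℝ) (12 : ℝ) 0 P5C1) := by
  refine ⟨(3221225472 : ℝ), ⟨Q78, List.mem_cons_of_mem _ (List.mem_cons_of_mem _ (List.mem_cons_of_mem _ (List.mem_cons_of_mem _ (List.mem_cons_of_mem _ (List.mem_cons_of_mem _ (List.mem_cons_of_mem _ (List.mem_cons_of_mem _ (List.mem_cons_of_mem _ (List.mem_cons_of_mem _ (List.mem_cons_of_mem _ (List.mem_cons_of_mem _ (List.mem_cons_of_mem _ (List.mem_cons_of_mem _ (List.mem_cons_of_mem _ (List.mem_cons_of_mem _ (List.mem_cons_of_mem _ (List.mem_cons_of_mem _ (List.mem_cons_of_mem _ (List.mem_cons_of_mem _ (List.mem_cons_of_mem _ (List.mem_cons_of_mem _ (List.mem_cons_of_mem _ (List.mem_cons_of_mem _ (List.mem_cons_of_mem _ (List.mem_cons_of_mem _ (List.mem_cons_of_mem _ (List.mem_cons_of_mem _ (List.mem_cons_of_mem _ (List.mem_cons_of_mem _ (List.mem_cons_of_mem _ (List.mem_cons_of_mem _ (List.mem_cons_of_mem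 _ (List.mem_cons_of_mem _ (List.mem_cons_of_mem _ (List.mem_cons_of_mem _ (List.mem_cons_of_mem _ (List.mem_cons_of_mem _ (List.mem_cons_of_mem _ (List.mem_cons_of_mem _ (List.mem_cons_of_mem _ (List.mem_cons_of_mem _ (List.mem_cons_of_mem _ (List.mem_cons_of_mem _ (List.mem_cons_of_mem _ (List.mem_cons_of_mem _ (List.mem_cons_of_mem _ (List.mem_cons_of_mem _ (List.mem_cons_of_mem _ (List.mem_cons_of_mem _ (List.mem_cons_of_mem _ (List.mem_cons_of_mem _ (List.mem_cons_of_mem _ (List.mem_cons_of_mem _ (List.mem_cons_of_mem _ (List.mem_cons_of_mem _ (List.mem_cons_of_mem _ (List.mem_cons_of_mem _ (List.mem_cons_of_mem _ (List.mem_cons_of_mem _ (List.mem_cons_of_mem _ (List.mem_cons_of_mem _ (List.mem_cons_of_mem _ (List.mem_cons_of_mem _ (List.mem_cons_of_mem _ (List.mem_cons_of_mem _ (List.mem_cons_of_mem _ (List.mem_cons_of_mem _ (List.mem_cons_of_mem _ (List.mem_cons_of_mem _ (List.mem_cons_of_mem _ (List.mem_cons_of_mem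 _ (List.mem_cons_of_mem _ (List.mem_cons_of_mem _ (List.mem_cons_of_mem _ (List.mem_cons_of_mem _ (List.mem_cons_of_mem _ (List.mem_cons_of_mem _ (List.mem_cons_self)))))))))))))))))))))))))))))))))))))))))))))))))))))))))))))))))))))))))))))), ?_⟩, by norm_num⟩
  constructor <;> norm_num [Q78, coCell, P5C1]

lemma lP5C1 : ∀ x1 x2 xc : ℝ, 0 ≤ x1 → x1 ≤ 1 → 0 ≤ x2 → x2 ≤ 1 → P5C1.l ≤ xc → xc ≤ P5C1.u →
    (6237 / 4096 : ℝ) * (1 - (1 - x1) ^ 5) + (26759 / 2048 : ℝ) * (1 - (1 - x2) ^ 5) - (12 : ℝ) * (1 - (1 - xc) ^ 5) + (1 / 1073741824 : ℝ)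
      ≤ - P5C1.a1 * x1 - P5C1.a2 * x2 + P5C1.e * xc + P5C1.f := by
  have h := cell_lines_delta 5 (α1 := (6237 / 4096 : ℝ)) (α2 := (26759 / 2048 : ℝ)) (c := (12 : ℝ)) (y1 := (8465 / 131072 : ℝ)) (y2 := (18917 / 262144 : ℝ))
    (A1 := (3056167 / 524288 : ℝ)) (B1 := (1868921 / 33554432 : ℝ)) (A2 := (203075383 / 4194304 : ℝ)) (B2 := (157682737 / 268435456 : ℝ)) (l := (21223 / 262144 : ℝ)) (u := (10739 / 131072 : ℝ))
    (E := (-179155749 / 4194304 : ℝ)) (F := (-180944191 / 268435456 : ℝ)) (δ := (1 / 1073741824 : ℝ)) (by norm_num) (by norm_num) (by norm_num) (by norm_num) (by norm_num)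
    (by norm_num) (by norm_num) (by norm_num) (by norm_num) (by norm_num) (by norm_num) (by norm_num) (by norm_num) (by norm_num) (by norm_num)
  have e1 : P5C1.l = (21223 / 262144 : ℝ) := rfl
  have e2 : P5C1.u = (10739 / 131072 : ℝ) := rfl
  have e3 : P5C1.a1 = -(3056167 / 524288 : ℝ) := by norm_num [P5C1]
  have e4 : P5C1.a2 = -(203075383 / 4194304 : ℝ) := by norm_num [P5C1]
  have e5 : P5C1.e = (-179155749 / 4194304 : ℝ) := rfl
  have e6 : P5C1.f = (1868921 / 33554432 : ℝ) + (157682737 / 268435456 : ℝ) + (-180944191 / 268435456 : ℝ) + (1 / 1073741824 : ℝ) := by norm_num [P5C1]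
  rw [e1, e2, e3, e4, e5, e6]
  exact h

lemma rP5C2 : ∃ N : ℝ, Rw4 P.r2 N (coCell (6237 / 4096 : ℝ) (26759 / 2048 : ℝ) (12 : ℝ) 0 P5C2) := by
  refine ⟨(3221225472 : ℝ), ⟨Q79, List.mem_cons_of_mem _ (List.mem_cons_of_mem _ (List.mem_cons_of_mem _ (List.mem_cons_of_mem _ (List.mem_cons_of_mem _ (List.mem_cons_of_mem _ (List.mem_cons_of_mem _ (List.mem_cons_of_mem _ (List.mem_cons_of_mem _ (List.mem_cons_of_mem _ (List.mem_cons_of_mem _ (List.mem_cons_of_mem _ (List.mem_cons_of_mem _ (List.mem_cons_of_mem _ (List.mem_cons_of_mem _ (List.mem_cons_of_mem _ (List.mem_cons_of_mem _ (List.mem_cons_of_mem _ (List.mem_cons_of_mem _ (List.mem_cons_of_mem _ (List.mem_cons_of_mem _ (List.mem_cons_of_mem _ (List.mem_cons_of_mem _ (List.mem_cons_of_mem _ (List.mem_cons_of_mem _ (List.mem_cons_of_mem _ (List.mem_cons_of_mem _ (List.mem_cons_of_mem _ (List.mem_cons_of_mem _ (List.mem_cons_of_mem _ (List.mem_cons_of_mem _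 (List.mem_cons_of_mem _ (List.mem_cons_of_mem _ (List.mem_cons_of_mem _ (List.mem_cons_of_mem _ (List.mem_cons_of_mem _ (List.mem_cons_of_mem _ (List.mem_cons_of_mem _ (List.mem_cons_of_mem _ (List.mem_cons_of_mem _ (List.mem_cons_of_mem _ (List.mem_cons_of_mem _ (List.mem_cons_of_mem _ (List.mem_cons_of_mem _ (List.mem_cons_of_mem _ (List.mem_cons_of_mem _ (List.mem_cons_of_mem _ (List.mem_cons_of_mem _ (List.mem_cons_of_mem _ (List.mem_cons_of_mem _ (List.mem_cons_of_mem _ (List.mem_cons_of_mem _ (List.mem_cons_of_mem _ (List.mem_cons_of_mem _ (List.mem_cons_of_mem _ (List.mem_cons_of_mem _ (List.mem_cons_of_mem _ (List.mem_cons_of_mem _ (List.mem_cons_of_mem _ (List.mem_cons_of_mem _ (List.mem_cons_of_mem _ (List.mem_cons_of_mem _ (List.mem_cons_of_mem _ (List.mem_cons_of_mem _ (List.mem_cons_of_mem _ (List.mem_cons_of_mem _ (List.mem_cons_of_mem _ (List.mem_cons_of_mem _ (List.mem_cons_of_mem _ (List.mem_cons_of_mem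 _ (List.mem_cons_of_mem _ (List.mem_cons_of_mem _ (List.mem_cons_of_mem _ (List.mem_cons_of_mem _ (List.mem_cons_of_mem _ (List.mem_cons_of_mem _ (List.mem_cons_of_mem _ (List.mem_cons_of_mem _ (List.mem_cons_of_mem _ (List.mem_cons_self))))))))))))))))))))))))))))))))))))))))))))))))))))))))))))))))))))))))))))))), ?_⟩, by norm_num⟩
  constructor <;> norm_num [Q79, coCell, P5C2]

lemma lP5C2 : ∀ x1 x2 xc : ℝ, 0 ≤ x1 → x1 ≤ 1 → 0 ≤ x2 → x2 ≤ 1 → P5C2.l ≤ xc → xc ≤ P5C2.u →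
    (6237 / 4096 : ℝ) * (1 - (1 - x1) ^ 5) + (26759 / 2048 : ℝ) * (1 - (1 - x2) ^ 5) - (12 : ℝ) * (1 - (1 - xc) ^ 5) + (1 / 1073741824 : ℝ)
      ≤ - P5C2.a1 * x1 - P5C2.a2 * x2 + P5C2.e * xc + P5C2.f := by
  have h := cell_lines_delta 5 (α1 := (6237 / 4096 : ℝ)) (α2 := (26759 / 2048 : ℝ)) (c := (12 : ℝ)) (y1 := (8523 / 131072 : ℝ)) (y2 := (19171 / 262144 : ℝ))
    (A1 := (24403105 / 4194304 : ℝ)) (B1 := (15143109 / 268435456 : ℝ)) (A2 := (202228431 / 4194304 : ℝ)) (B2 := (161620551 / 268435456 : ℝ)) (l := (10739 / 131072 : ℝ)) (u := (2717 / 32768 : ℝ))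
    (E := (-178393603 / 4194304 : ℝ)) (F := (-46235155 / 67108864 : ℝ)) (δ := (1 / 1073741824 : ℝ)) (by norm_num) (by norm_num) (by norm_num) (by norm_num) (by norm_num)
    (by norm_num) (by norm_num) (by norm_num) (by norm_num) (by norm_num) (by norm_num) (by norm_num) (by norm_num) (by norm_num) (by norm_num)
  have e1 : P5C2.l = (10739 / 131072 : ℝ) := rfl
  have e2 : P5C2.u = (2717 / 32768 : ℝ) := rfl
  have e3 : P5C2.a1 = -(24403105 / 4194304 : ℝ) := by norm_num [P5C2]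
  have e4 : P5C2.a2 = -(202228431 / 4194304 : ℝ) := by norm_num [P5C2]
  have e5 : P5C2.e = (-178393603 / 4194304 : ℝ) := rfl
  have e6 : P5C2.f = (15143109 / 268435456 : ℝ) + (161620551 / 268435456 : ℝ) + (-46235155 / 67108864 : ℝ) + (1 / 1073741824 : ℝ) := by norm_num [P5C2]
  rw [e1, e2, e3, e4, e5, e6]
  exact h

lemma rP5C3 : ∃ N : ℝ, Rw4 P.r2 N (coCell (6237 / 4096 : ℝ) (26759 / 2048 : ℝ) (12 : ℝ) 0 P5C3) := by
  refine ⟨(3221225472 : ℝ), ⟨Q80, List.mem_cons_of_mem _ (List.mem_cons_of_mem _ (List.mem_cons_of_mem _ (List.mem_cons_of_mem _ (List.mem_cons_of_mem _ (List.mem_cons_of_mem _ (List.mem_cons_of_mem _ (List.mem_cons_of_mem _ (List.mem_cons_of_mem _ (List.mem_cons_of_mem _ (List.mem_cons_of_mem _ (List.mem_cons_of_mem _ (List.mem_cons_of_mem _ (List.mem_cons_of_mem _ (List.mem_cons_of_mem _ (List.mem_cons_of_mem _ (List.mem_cons_of_mem _ (List.mem_cons_of_mem _ (List.mem_cons_of_mem _ (List.mem_cons_of_mem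 _ (List.mem_cons_of_mem _ (List.mem_cons_of_mem _ (List.mem_cons_of_mem _ (List.mem_cons_of_mem _ (List.mem_cons_of_mem _ (List.mem_cons_of_mem _ (List.mem_cons_of_mem _ (List.mem_cons_of_mem _ (List.mem_cons_of_mem _ (List.mem_cons_of_mem _ (List.mem_cons_of_mem _ (List.mem_cons_of_mem _ (List.mem_cons_of_mem _ (List.mem_cons_of_mem _ (List.mem_cons_of_mem _ (List.mem_cons_of_mem _ (List.mem_cons_of_mem _ (List.mem_cons_of_mem _ (List.mem_cons_of_mem _ (List.mem_cons_of_mem _ (List.mem_cons_of_mem _ (List.mem_cons_of_mem _ (List.mem_cons_of_mem _ (List.mem_cons_of_mem _ (List.mem_cons_of_mem _ (List.mem_cons_of_mem _ (List.mem_cons_of_mem _ (List.mem_cons_of_mem _ (List.mem_cons_of_mem _ (List.mem_cons_of_mem _ (List.mem_cons_of_mem _ (List.mem_cons_of_mem _ (List.mem_cons_of_mem _ (List.mem_cons_of_mem _ (List.mem_cons_of_mem _ (List.mem_cons_of_mem _ (List.mem_cons_of_mem _ (List.mem_cons_of_mem _ (List.mem_cons_of_mem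 _ (List.mem_cons_of_mem _ (List.mem_cons_of_mem _ (List.mem_cons_of_mem _ (List.mem_cons_of_mem _ (List.mem_cons_of_mem _ (List.mem_cons_of_mem _ (List.mem_cons_of_mem _ (List.mem_cons_of_mem _ (List.mem_cons_of_mem _ (List.mem_cons_of_mem _ (List.mem_cons_of_mem _ (List.mem_cons_of_mem _ (List.mem_cons_of_mem _ (List.mem_cons_of_mem _ (List.mem_cons_of_mem _ (List.mem_cons_of_mem _ (List.mem_cons_of_mem _ (List.mem_cons_of_mem _ (List.mem_cons_of_mem _ (List.mem_cons_of_mem _ (List.mem_cons_of_mem _ (List.mem_cons_self)))))))))))))))))))))))))))))))))))))))))))))))))))))))))))))))))))))))))))))))), ?_⟩, by norm_num⟩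
  constructor <;> norm_num [Q80, coCell, P5C3]

lemma lP5C3 : ∀ x1 x2 xc : ℝ, 0 ≤ x1 → x1 ≤ 1 → 0 ≤ x2 → x2 ≤ 1 → P5C3.l ≤ xc → xc ≤ P5C3.u →
    (6237 / 4096 : ℝ) * (1 - (1 - x1) ^ 5) + (26759 / 2048 : ℝ) * (1 - (1 - x2) ^ 5) - (12 : ℝ) * (1 - (1 - xc) ^ 5) + (1 / 1073741824 : ℝ)
      ≤ - P5C3.a1 * x1 - P5C3.a2 * x2 + P5C3.e * xc + P5C3.f := by
  have h := cell_lines_delta 5 (α1 := (6237 / 4096 : ℝ)) (α2 := (26759 / 2048 : ℝ)) (c := (12 : ℝ)) (y1 := (8679 / 131072 : ℝ)) (y2 := (19401 / 262144 : ℝ))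
    (A1 := (24279085 / 4194304 : ℝ)) (B1 := (15663967 / 268435456 : ℝ)) (A2 := (100731897 / 2097152 : ℝ)) (B2 := (165220831 / 268435456 : ℝ)) (l := (2717 / 32768 : ℝ)) (u := (5499 / 65536 : ℝ))
    (E := (-177626499 / 4194304 : ℝ)) (F := (-189011365 / 268435456 : ℝ)) (δ := (1 / 1073741824 : ℝ)) (by norm_num) (by norm_num) (by norm_num) (by norm_num) (by norm_num)
    (by norm_num) (by norm_num) (by norm_num) (by norm_num) (by norm_num) (by norm_num) (by norm_num) (by norm_num) (by norm_num) (by norm_num)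
  have e1 : P5C3.l = (2717 / 32768 : ℝ) := rfl
  have e2 : P5C3.u = (5499 / 65536 : ℝ) := rfl
  have e3 : P5C3.a1 = -(24279085 / 4194304 : ℝ) := by norm_num [P5C3]
  have e4 : P5C3.a2 = -(100731897 / 2097152 : ℝ) := by norm_num [P5C3]
  have e5 : P5C3.e = (-177626499 / 4194304 : ℝ) := rfl
  have e6 : P5C3.f = (15663967 / 268435456 : ℝ) + (165220831 / 268435456 : ℝ) + (-189011365 / 268435456 : ℝ) + (1 / 1073741824 : ℝ) := by norm_num [P5C3]
  rw [e1, e2, e3, e4, e5, e6]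
  exact h

lemma rP5C4 : ∃ N : ℝ, Rw4 P.r2 N (coCell (6237 / 4096 : ℝ) (26759 / 2048 : ℝ) (12 : ℝ) 0 P5C4) := by
  refine ⟨(3221225472 : ℝ), ⟨Q81, List.mem_cons_of_mem _ (List.mem_cons_of_mem _ (List.mem_cons_of_mem _ (List.mem_cons_of_mem _ (List.mem_cons_of_mem _ (List.mem_cons_of_mem _ (List.mem_cons_of_mem _ (List.mem_cons_of_mem _ (List.mem_cons_of_mem _ (List.mem_cons_of_mem _ (List.mem_cons_of_mem _ (List.mem_cons_of_mem _ (List.mem_cons_of_mem _ (List.mem_cons_of_mem _ (List.mem_cons_of_mem _ (List.mem_cons_of_mem _ (List.mem_cons_of_mem _ (List.mem_cons_of_mem _ (List.mem_cons_of_mem _ (List.mem_cons_of_mem _ (List.mem_cons_of_mem _ (List.mem_cons_of_mem _ (List.mem_cons_of_mem _ (List.mem_cons_of_mem _ (List.mem_cons_of_mem _ (List.mem_cons_of_mem _ (List.mem_cons_of_mem _ (List.mem_cons_of_mem _ (List.mem_cons_of_mem _ (List.mem_cons_of_mem _ (List.mem_cons_of_mem _ (List.mem_cons_of_mem _ (List.mem_cons_of_mem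 _ (List.mem_cons_of_mem _ (List.mem_cons_of_mem _ (List.mem_cons_of_mem _ (List.mem_cons_of_mem _ (List.mem_cons_of_mem _ (List.mem_cons_of_mem _ (List.mem_cons_of_mem _ (List.mem_cons_of_mem _ (List.mem_cons_of_mem _ (List.mem_cons_of_mem _ (List.mem_cons_of_mem _ (List.mem_cons_of_mem _ (List.mem_cons_of_mem _ (List.mem_cons_of_mem _ (List.mem_cons_of_mem _ (List.mem_cons_of_mem _ (List.mem_cons_of_mem _ (List.mem_cons_of_mem _ (List.mem_cons_of_mem _ (List.mem_cons_of_mem _ (List.mem_cons_of_mem _ (List.mem_cons_of_mem _ (List.mem_cons_of_mem _ (List.mem_cons_of_mem _ (List.mem_cons_of_mem _ (List.mem_cons_of_mem _ (List.mem_cons_of_mem _ (List.mem_cons_of_mem _ (List.mem_cons_of_mem _ (List.mem_cons_of_mem _ (List.mem_cons_of_mem _ (List.mem_cons_of_mem _ (List.mem_cons_of_mem _ (List.mem_cons_of_mem _ (List.mem_cons_of_mem _ (List.mem_cons_of_mem _ (List.mem_cons_of_mem _ (List.mem_cons_of_mem _ (List.mem_cons_of_mem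 _ (List.mem_cons_of_mem _ (List.mem_cons_of_mem _ (List.mem_cons_of_mem _ (List.mem_cons_of_mem _ (List.mem_cons_of_mem _ (List.mem_cons_of_mem _ (List.mem_cons_of_mem _ (List.mem_cons_of_mem _ (List.mem_cons_of_mem _ (List.mem_cons_self))))))))))))))))))))))))))))))))))))))))))))))))))))))))))))))))))))))))))))))))), ?_⟩, by norm_num⟩
  constructor <;> norm_num [Q81, coCell, P5C4]

lemma lP5C4 : ∀ x1 x2 xc : ℝ, 0 ≤ x1 → x1 ≤ 1 → 0 ≤ x2 → x2 ≤ 1 → P5C4.l ≤ xc → xc ≤ P5C4.u →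
    (6237 / 4096 : ℝ) * (1 - (1 - x1) ^ 5) + (26759 / 2048 : ℝ) * (1 - (1 - x2) ^ 5) - (12 : ℝ) * (1 - (1 - xc) ^ 5) + (1 / 1073741824 : ℝ)
      ≤ - P5C4.a1 * x1 - P5C4.a2 * x2 + P5C4.e * xc + P5C4.f := by
  have h := cell_lines_delta 5 (α1 := (6237 / 4096 : ℝ)) (α2 := (26759 / 2048 : ℝ)) (c := (12 : ℝ)) (y1 := (8497 / 131072 : ℝ)) (y2 := (19733 / 262144 : ℝ))
    (A1 := (24423821 / 4194304 : ℝ)) (B1 := (3764257 / 67108864 : ℝ)) (A2 := (50090971 / 1048576 : ℝ)) (B2 := (85237591 / 134217728 : ℝ)) (l := (5499 / 65536 : ℝ)) (u := (11141 / 131072 : ℝ))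
    (E := (-88410315 / 2097152 : ℝ)) (F := (-6041843 / 8388608 : ℝ)) (δ := (1 / 1073741824 : ℝ)) (by norm_num) (by norm_num) (by norm_num) (by norm_num) (by norm_num)
    (by norm_num) (by norm_num) (by norm_num) (by norm_num) (by norm_num) (by norm_num) (by norm_num) (by norm_num) (by norm_num) (by norm_num)
  have e1 : P5C4.l = (5499 / 65536 : ℝ) := rfl
  have e2 : P5C4.u = (11141 / 131072 : ℝ) := rfl
  have e3 : P5C4.a1 = -(24423821 / 4194304 : ℝ) := by norm_num [P5C4]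
  have e4 : P5C4.a2 = -(50090971 / 1048576 : ℝ) := by norm_num [P5C4]
  have e5 : P5C4.e = (-88410315 / 2097152 : ℝ) := rfl
  have e6 : P5C4.f = (3764257 / 67108864 : ℝ) + (85237591 / 134217728 : ℝ) + (-6041843 / 8388608 : ℝ) + (1 / 1073741824 : ℝ) := by norm_num [P5C4]
  rw [e1, e2, e3, e4, e5, e6]
  exact h

/-- A link of the chain. -/
lemma link5 {lam : ℝ} (h0 : -(1 / 2) < lam) (h1 : lam < 1) (hB : BoxS lam P 0 HH 0 HH)
    (h : ∃ n, 1 - En 5 lam n mc ≤ (11141 / 131072 : ℝ)) : ∃ n, 1 - En 5 lam n mc ≤ (5243 / 65536 : ℝ) :=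
  phase_of_box (by norm_num) h0 h1 hB (6237 / 4096 : ℝ) (26759 / 2048 : ℝ) (12 : ℝ) (1 / 1073741824 : ℝ) (5243 / 65536 : ℝ) (11141 / 131072 : ℝ) (by norm_num) cellsP5 hcoverP5
    (forall_cons lP5C0 (forall_cons lP5C1 (forall_cons lP5C2 (forall_cons lP5C3 (forall_cons lP5C4 (forall_nil)))))) (forall_cons rP5C0 (forall_cons rP5C1 (forall_cons rP5C2 (forall_cons rP5C3 (forall_cons rP5C4 (forall_nil)))))) h

/-- A chord cell of a link. -/
noncomputable def P6C0 : Cell := ⟨(11141 / 131072 : ℝ), (11275 / 131072 : ℝ), (-6582791 / 1048576 : ℝ), (-198641115 / 4194304 : ℝ), (-88002861 / 2097152 : ℝ), (-33636063 / 1073741824 : ℝ)⟩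

/-- A chord cell of a link. -/
noncomputable def P6C1 : Cell := ⟨(11275 / 131072 : ℝ), (5705 / 65536 : ℝ), (-26360147 / 4194304 : ℝ), (-197718251 / 4194304 : ℝ), (-175217065 / 4194304 : ℝ), (-33581739 / 1073741824 : ℝ)⟩

/-- A chord cell of a link. -/
noncomputable def P6C2 : Cell := ⟨(5705 / 65536 : ℝ), (11547 / 131072 : ℝ), (-26386555 / 4194304 : ℝ), (-196779075 / 4194304 : ℝ), (-21802789 / 524288 : ℝ), (-33244391 / 1073741824 : ℝ)⟩

/-- A chord cell of a link. -/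
noncomputable def P6C3 : Cell := ⟨(11547 / 131072 : ℝ), (23371 / 262144 : ℝ), (-13199775 / 2097152 : ℝ), (-195852979 / 4194304 : ℝ), (-173620091 / 4194304 : ℝ), (-33044511 / 1073741824 : ℝ)⟩

/-- A chord cell of a link. -/
noncomputable def P6C4 : Cell := ⟨(23371 / 262144 : ℝ), (23593 / 262144 : ℝ), (-26367937 / 4194304 : ℝ), (-195072413 / 4194304 : ℝ), (-172895925 / 4194304 : ℝ), (-33187811 / 1073741824 : ℝ)⟩

/-- The chord cells of a link. -/
noncomputable def cellsP6 : List Cell := [P6C0, P6C1, P6C2, P6C3, P6C4]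

lemma hcoverP6 : ∀ x : ℝ, (11141 / 131072 : ℝ) ≤ x → x ≤ (23593 / 262144 : ℝ) → ∃ D ∈ cellsP6, D.l ≤ x ∧ x ≤ D.u := by
  refine cover_of_chain ?_ (by norm_num [P6C0])
  simp only [ChainP, P6C0, P6C1, P6C2, P6C3, P6C4]
  norm_num

lemma rP6C0 : ∃ N : ℝ, Rw4 P.r2 N (coCell (6899 / 4096 : ℝ) (13273 / 1024 : ℝ) (12 : ℝ) 0 P6C0) := by
  refine ⟨(3221225472 : ℝ), ⟨Q82, List.mem_cons_of_mem _ (List.mem_cons_of_mem _ (List.mem_cons_of_mem _ (List.mem_cons_of_mem _ (List.mem_cons_of_mem _ (List.mem_cons_of_mem _ (List.mem_cons_of_mem _ (List.mem_cons_of_mem _ (List.mem_cons_of_mem _ (List.mem_cons_of_mem _ (List.mem_cons_of_mem _ (List.mem_cons_of_mem _ (List.mem_cons_of_mem _ (List.mem_cons_of_mem _ (List.mem_cons_of_mem _ (List.mem_cons_of_mem _ (List.mem_cons_of_mem _ (List.mem_cons_of_mem _ (List.mem_cons_of_mem _ (List.mem_cons_of_mem _ (List.mem_cons_of_mem _ (List.mem_cons_of_mem _ (List.mem_cons_of_mem _ (List.mem_cons_of_mem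 _ (List.mem_cons_of_mem _ (List.mem_cons_of_mem _ (List.mem_cons_of_mem _ (List.mem_cons_of_mem _ (List.mem_cons_of_mem _ (List.mem_cons_of_mem _ (List.mem_cons_of_mem _ (List.mem_cons_of_mem _ (List.mem_cons_of_mem _ (List.mem_cons_of_mem _ (List.mem_cons_of_mem _ (List.mem_cons_of_mem _ (List.mem_cons_of_mem _ (List.mem_cons_of_mem _ (List.mem_cons_of_mem _ (List.mem_cons_of_mem _ (List.mem_cons_of_mem _ (List.mem_cons_of_mem _ (List.mem_cons_of_mem _ (List.mem_cons_of_mem _ (List.mem_cons_of_mem _ (List.mem_cons_of_mem _ (List.mem_cons_of_mem _ (List.mem_cons_of_mem _ (List.mem_cons_of_mem _ (List.mem_cons_of_mem _ (List.mem_cons_of_mem _ (List.mem_cons_of_mem _ (List.mem_cons_of_mem _ (List.mem_cons_of_mem _ (List.mem_cons_of_mem _ (List.mem_cons_of_mem _ (List.mem_cons_of_mem _ (List.mem_cons_of_mem _ (List.mem_cons_of_mem _ (List.mem_cons_of_mem _ (List.mem_cons_of_mem _ (List.mem_cons_of_mem _ (List.mem_cons_of_mem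 _ (List.mem_cons_of_mem _ (List.mem_cons_of_mem _ (List.mem_cons_of_mem _ (List.mem_cons_of_mem _ (List.mem_cons_of_mem _ (List.mem_cons_of_mem _ (List.mem_cons_of_mem _ (List.mem_cons_of_mem _ (List.mem_cons_of_mem _ (List.mem_cons_of_mem _ (List.mem_cons_of_mem _ (List.mem_cons_of_mem _ (List.mem_cons_of_mem _ (List.mem_cons_of_mem _ (List.mem_cons_of_mem _ (List.mem_cons_of_mem _ (List.mem_cons_of_mem _ (List.mem_cons_of_mem _ (List.mem_cons_of_mem _ (List.mem_cons_self)))))))))))))))))))))))))))))))))))))))))))))))))))))))))))))))))))))))))))))))))), ?_⟩, by norm_num⟩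
  constructor <;> norm_num [Q82, coCell, P6C0]

lemma lP6C0 : ∀ x1 x2 xc : ℝ, 0 ≤ x1 → x1 ≤ 1 → 0 ≤ x2 → x2 ≤ 1 → P6C0.l ≤ xc → xc ≤ P6C0.u →
    (6899 / 4096 : ℝ) * (1 - (1 - x1) ^ 5) + (13273 / 1024 : ℝ) * (1 - (1 - x2) ^ 5) - (12 : ℝ) * (1 - (1 - xc) ^ 5) + (1 / 1073741824 : ℝ)
      ≤ - P6C0.a1 * x1 - P6C0.a2 * x2 + P6C0.e * xc + P6C0.f := by
  have h := cell_lines_delta 5 (α1 := (6899 / 4096 : ℝ)) (α2 := (13273 / 1024 : ℝ)) (c := (12 : ℝ)) (y1 := (18563 / 262144 : ℝ)) (y2 := (4943 / 65536 : ℝ))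
    (A1 := (6582791 / 1048576 : ℝ)) (B1 := (19628071 / 268435456 : ℝ)) (A2 := (198641115 / 4194304 : ℝ)) (B2 := (169734941 / 268435456 : ℝ)) (l := (11141 / 131072 : ℝ)) (u := (11275 / 131072 : ℝ))
    (E := (-88002861 / 2097152 : ℝ)) (F := (-49443007 / 67108864 : ℝ)) (δ := (1 / 1073741824 : ℝ)) (by norm_num) (by norm_num) (by norm_num) (by norm_num) (by norm_num)
    (by norm_num) (by norm_num) (by norm_num) (by norm_num) (by norm_num) (by norm_num) (by norm_num) (by norm_num) (by norm_num) (by norm_num)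
  have e1 : P6C0.l = (11141 / 131072 : ℝ) := rfl
  have e2 : P6C0.u = (11275 / 131072 : ℝ) := rfl
  have e3 : P6C0.a1 = -(6582791 / 1048576 : ℝ) := by norm_num [P6C0]
  have e4 : P6C0.a2 = -(198641115 / 4194304 : ℝ) := by norm_num [P6C0]
  have e5 : P6C0.e = (-88002861 / 2097152 : ℝ) := rfl
  have e6 : P6C0.f = (19628071 / 268435456 : ℝ) + (169734941 / 268435456 : ℝ) + (-49443007 / 67108864 : ℝ) + (1 / 1073741824 : ℝ) := by norm_num [P6C0]
  rw [e1, e2, e3, e4, e5, e6]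
  exact h

lemma rP6C1 : ∃ N : ℝ, Rw4 P.r2 N (coCell (6899 / 4096 : ℝ) (13273 / 1024 : ℝ) (12 : ℝ) 0 P6C1) := by
  refine ⟨(3221225472 : ℝ), ⟨Q83, List.mem_cons_of_mem _ (List.mem_cons_of_mem _ (List.mem_cons_of_mem _ (List.mem_cons_of_mem _ (List.mem_cons_of_mem _ (List.mem_cons_of_mem _ (List.mem_cons_of_mem _ (List.mem_cons_of_mem _ (List.mem_cons_of_mem _ (List.mem_cons_of_mem _ (List.mem_cons_of_mem _ (List.mem_cons_of_mem _ (List.mem_cons_of_mem _ (List.mem_cons_of_mem _ (List.mem_cons_of_mem _ (List.mem_cons_of_mem _ (List.mem_cons_of_mem _ (List.mem_cons_of_mem _ (List.mem_cons_of_mem _ (List.mem_cons_of_mem _ (List.mem_cons_of_mem _ (List.mem_cons_of_mem _ (List.mem_cons_of_mem _ (List.mem_cons_of_mem _ (List.mem_cons_of_mem _ (List.mem_cons_of_mem _ (List.mem_cons_of_mem _ (List.mem_cons_of_mem _ (List.mem_cons_of_mem _ (List.mem_cons_of_mem _ (List.mem_cons_of_mem _ (List.mem_cons_of_mem _ (List.mem_cons_of_mem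 _ (List.mem_cons_of_mem _ (List.mem_cons_of_mem _ (List.mem_cons_of_mem _ (List.mem_cons_of_mem _ (List.mem_cons_of_mem _ (List.mem_cons_of_mem _ (List.mem_cons_of_mem _ (List.mem_cons_of_mem _ (List.mem_cons_of_mem _ (List.mem_cons_of_mem _ (List.mem_cons_of_mem _ (List.mem_cons_of_mem _ (List.mem_cons_of_mem _ (List.mem_cons_of_mem _ (List.mem_cons_of_mem _ (List.mem_cons_of_mem _ (List.mem_cons_of_mem _ (List.mem_cons_of_mem _ (List.mem_cons_of_mem _ (List.mem_cons_of_mem _ (List.mem_cons_of_mem _ (List.mem_cons_of_mem _ (List.mem_cons_of_mem _ (List.mem_cons_of_mem _ (List.mem_cons_of_mem _ (List.mem_cons_of_mem _ (List.mem_cons_of_mem _ (List.mem_cons_of_mem _ (List.mem_cons_of_mem _ (List.mem_cons_of_mem _ (List.mem_cons_of_mem _ (List.mem_cons_of_mem _ (List.mem_cons_of_mem _ (List.mem_cons_of_mem _ (List.mem_cons_of_mem _ (List.mem_cons_of_mem _ (List.mem_cons_of_mem _ (List.mem_cons_of_mem _ (List.mem_cons_of_mem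 _ (List.mem_cons_of_mem _ (List.mem_cons_of_mem _ (List.mem_cons_of_mem _ (List.mem_cons_of_mem _ (List.mem_cons_of_mem _ (List.mem_cons_of_mem _ (List.mem_cons_of_mem _ (List.mem_cons_of_mem _ (List.mem_cons_of_mem _ (List.mem_cons_of_mem _ (List.mem_cons_of_mem _ (List.mem_cons_self))))))))))))))))))))))))))))))))))))))))))))))))))))))))))))))))))))))))))))))))))), ?_⟩, by norm_num⟩
  constructor <;> norm_num [Q83, coCell, P6C1]

lemma lP6C1 : ∀ x1 x2 xc : ℝ, 0 ≤ x1 → x1 ≤ 1 → 0 ≤ x2 → x2 ≤ 1 → P6C1.l ≤ xc → xc ≤ P6C1.u →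
    (6899 / 4096 : ℝ) * (1 - (1 - x1) ^ 5) + (13273 / 1024 : ℝ) * (1 - (1 - x2) ^ 5) - (12 : ℝ) * (1 - (1 - xc) ^ 5) + (1 / 1073741824 : ℝ)
      ≤ - P6C1.a1 * x1 - P6C1.a2 * x2 + P6C1.e * xc + P6C1.f := by
  have h := cell_lines_delta 5 (α1 := (6899 / 4096 : ℝ)) (α2 := (13273 / 1024 : ℝ)) (c := (12 : ℝ)) (y1 := (289 / 4096 : ℝ)) (y2 := (10027 / 131072 : ℝ))
    (A1 := (26360147 / 4194304 : ℝ)) (B1 := (9748479 / 134217728 : ℝ)) (A2 := (197718251 / 4194304 : ℝ)) (B2 := (43555371 / 67108864 : ℝ)) (l := (11275 / 131072 : ℝ)) (u := (5705 / 65536 : ℝ))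
    (E := (-175217065 / 4194304 : ℝ)) (F := (-202113877 / 268435456 : ℝ)) (δ := (1 / 1073741824 : ℝ)) (by norm_num) (by norm_num) (by norm_num) (by norm_num) (by norm_num)
    (by norm_num) (by norm_num) (by norm_num) (by norm_num) (by norm_num) (by norm_num) (by norm_num) (by norm_num) (by norm_num) (by norm_num)
  have e1 : P6C1.l = (11275 / 131072 : ℝ) := rfl
  have e2 : P6C1.u = (5705 / 65536 : ℝ) := rfl
  have e3 : P6C1.a1 = -(26360147 / 4194304 : ℝ) := by norm_num [P6C1]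
  have e4 : P6C1.a2 = -(197718251 / 4194304 : ℝ) := by norm_num [P6C1]
  have e5 : P6C1.e = (-175217065 / 4194304 : ℝ) := rfl
  have e6 : P6C1.f = (9748479 / 134217728 : ℝ) + (43555371 / 67108864 : ℝ) + (-202113877 / 268435456 : ℝ) + (1 / 1073741824 : ℝ) := by norm_num [P6C1]
  rw [e1, e2, e3, e4, e5, e6]
  exact h

lemma rP6C2 : ∃ N : ℝ, Rw4 P.r2 N (coCell (6899 / 4096 : ℝ) (13273 / 1024 : ℝ) (12 : ℝ) 0 P6C2) := by
  refine ⟨(3221225472 : ℝ), ⟨Q84, List.mem_cons_of_mem _ (List.mem_cons_of_mem _ (List.mem_cons_of_mem _ (List.mem_cons_of_mem _ (List.mem_cons_of_mem _ (List.mem_cons_of_mem _ (List.mem_cons_of_mem _ (List.mem_cons_of_mem _ (List.mem_cons_of_mem _ (List.mem_cons_of_mem _ (List.mem_cons_of_mem _ (List.mem_cons_of_mem _ (List.mem_cons_of_mem _ (List.mem_cons_of_mem _ (List.mem_cons_of_mem _ (List.mem_cons_of_mem _ (List.mem_cons_of_mem _ (List.mem_cons_of_mem _ (List.mem_cons_of_mem _ (List.mem_cons_of_mem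 _ (List.mem_cons_of_mem _ (List.mem_cons_of_mem _ (List.mem_cons_of_mem _ (List.mem_cons_of_mem _ (List.mem_cons_of_mem _ (List.mem_cons_of_mem _ (List.mem_cons_of_mem _ (List.mem_cons_of_mem _ (List.mem_cons_of_mem _ (List.mem_cons_of_mem _ (List.mem_cons_of_mem _ (List.mem_cons_of_mem _ (List.mem_cons_of_mem _ (List.mem_cons_of_mem _ (List.mem_cons_of_mem _ (List.mem_cons_of_mem _ (List.mem_cons_of_mem _ (List.mem_cons_of_mem _ (List.mem_cons_of_mem _ (List.mem_cons_of_mem _ (List.mem_cons_of_mem _ (List.mem_cons_of_mem _ (List.mem_cons_of_mem _ (List.mem_cons_of_mem _ (List.mem_cons_of_mem _ (List.mem_cons_of_mem _ (List.mem_cons_of_mem _ (List.mem_cons_of_mem _ (List.mem_cons_of_mem _ (List.mem_cons_of_mem _ (List.mem_cons_of_mem _ (List.mem_cons_of_mem _ (List.mem_cons_of_mem _ (List.mem_cons_of_mem _ (List.mem_cons_of_mem _ (List.mem_cons_of_mem _ (List.mem_cons_of_mem _ (List.mem_cons_of_mem _ (List.mem_cons_of_mem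 _ (List.mem_cons_of_mem _ (List.mem_cons_of_mem _ (List.mem_cons_of_mem _ (List.mem_cons_of_mem _ (List.mem_cons_of_mem _ (List.mem_cons_of_mem _ (List.mem_cons_of_mem _ (List.mem_cons_of_mem _ (List.mem_cons_of_mem _ (List.mem_cons_of_mem _ (List.mem_cons_of_mem _ (List.mem_cons_of_mem _ (List.mem_cons_of_mem _ (List.mem_cons_of_mem _ (List.mem_cons_of_mem _ (List.mem_cons_of_mem _ (List.mem_cons_of_mem _ (List.mem_cons_of_mem _ (List.mem_cons_of_mem _ (List.mem_cons_of_mem _ (List.mem_cons_of_mem _ (List.mem_cons_of_mem _ (List.mem_cons_of_mem _ (List.mem_cons_of_mem _ (List.mem_cons_of_mem _ (List.mem_cons_self)))))))))))))))))))))))))))))))))))))))))))))))))))))))))))))))))))))))))))))))))))), ?_⟩, by norm_num⟩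
  constructor <;> norm_num [Q84, coCell, P6C2]

lemma lP6C2 : ∀ x1 x2 xc : ℝ, 0 ≤ x1 → x1 ≤ 1 → 0 ≤ x2 → x2 ≤ 1 → P6C2.l ≤ xc → xc ≤ P6C2.u →
    (6899 / 4096 : ℝ) * (1 - (1 - x1) ^ 5) + (13273 / 1024 : ℝ) * (1 - (1 - x2) ^ 5) - (12 : ℝ) * (1 - (1 - xc) ^ 5) + (1 / 1073741824 : ℝ)
      ≤ - P6C2.a1 * x1 - P6C2.a2 * x2 + P6C2.e * xc + P6C2.f := by
  have h := cell_lines_delta 5 (α1 := (6899 / 4096 : ℝ)) (α2 := (13273 / 1024 : ℝ)) (c := (12 : ℝ)) (y1 := (18435 / 262144 : ℝ)) (y2 := (10171 / 131072 : ℝ))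
    (A1 := (26386555 / 4194304 : ℝ)) (B1 := (9688953 / 134217728 : ℝ)) (A2 := (196779075 / 4194304 : ℝ)) (B2 := (2794573 / 4194304 : ℝ)) (l := (5705 / 65536 : ℝ)) (u := (11547 / 131072 : ℝ))
    (E := (-21802789 / 524288 : ℝ)) (F := (-51635419 / 67108864 : ℝ)) (δ := (1 / 1073741824 : ℝ)) (by norm_num) (by norm_num) (by norm_num) (by norm_num) (by norm_num)
    (by norm_num) (by norm_num) (by norm_num) (by norm_num) (by norm_num) (by norm_num) (by norm_num) (by norm_num) (by norm_num) (by norm_num)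
  have e1 : P6C2.l = (5705 / 65536 : ℝ) := rfl
  have e2 : P6C2.u = (11547 / 131072 : ℝ) := rfl
  have e3 : P6C2.a1 = -(26386555 / 4194304 : ℝ) := by norm_num [P6C2]
  have e4 : P6C2.a2 = -(196779075 / 4194304 : ℝ) := by norm_num [P6C2]
  have e5 : P6C2.e = (-21802789 / 524288 : ℝ) := rfl
  have e6 : P6C2.f = (9688953 / 134217728 : ℝ) + (2794573 / 4194304 : ℝ) + (-51635419 / 67108864 : ℝ) + (1 / 1073741824 : ℝ) := by norm_num [P6C2]
  rw [e1, e2, e3, e4, e5, e6]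
  exact h

lemma rP6C3 : ∃ N : ℝ, Rw4 P.r2 N (coCell (6899 / 4096 : ℝ) (13273 / 1024 : ℝ) (12 : ℝ) 0 P6C3) := by
  refine ⟨(3221225472 : ℝ), ⟨Q85, List.mem_cons_of_mem _ (List.mem_cons_of_mem _ (List.mem_cons_of_mem _ (List.mem_cons_of_mem _ (List.mem_cons_of_mem _ (List.mem_cons_of_mem _ (List.mem_cons_of_mem _ (List.mem_cons_of_mem _ (List.mem_cons_of_mem _ (List.mem_cons_of_mem _ (List.mem_cons_of_mem _ (List.mem_cons_of_mem _ (List.mem_cons_of_mem _ (List.mem_cons_of_mem _ (List.mem_cons_of_mem _ (List.mem_cons_of_mem _ (List.mem_cons_of_mem _ (List.mem_cons_of_mem _ (List.mem_cons_of_mem _ (List.mem_cons_of_mem _ (List.mem_cons_of_mem _ (List.mem_cons_of_mem _ (List.mem_cons_of_mem _ (List.mem_cons_of_mem _ (List.mem_cons_of_mem _ (List.mem_cons_of_mem _ (List.mem_cons_of_mem _ (List.mem_cons_of_mem _ (List.mem_cons_of_mem _ (List.mem_cons_of_mem _ (List.mem_cons_of_mem _ (List.mem_cons_of_mem _ (List.mem_cons_of_mem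 _ (List.mem_cons_of_mem _ (List.mem_cons_of_mem _ (List.mem_cons_of_mem _ (List.mem_cons_of_mem _ (List.mem_cons_of_mem _ (List.mem_cons_of_mem _ (List.mem_cons_of_mem _ (List.mem_cons_of_mem _ (List.mem_cons_of_mem _ (List.mem_cons_of_mem _ (List.mem_cons_of_mem _ (List.mem_cons_of_mem _ (List.mem_cons_of_mem _ (List.mem_cons_of_mem _ (List.mem_cons_of_mem _ (List.mem_cons_of_mem _ (List.mem_cons_of_mem _ (List.mem_cons_of_mem _ (List.mem_cons_of_mem _ (List.mem_cons_of_mem _ (List.mem_cons_of_mem _ (List.mem_cons_of_mem _ (List.mem_cons_of_mem _ (List.mem_cons_of_mem _ (List.mem_cons_of_mem _ (List.mem_cons_of_mem _ (List.mem_cons_of_mem _ (List.mem_cons_of_mem _ (List.mem_cons_of_mem _ (List.mem_cons_of_mem _ (List.mem_cons_of_mem _ (List.mem_cons_of_mem _ (List.mem_cons_of_mem _ (List.mem_cons_of_mem _ (List.mem_cons_of_mem _ (List.mem_cons_of_mem _ (List.mem_cons_of_mem _ (List.mem_cons_of_mem _ (List.mem_cons_of_mem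 _ (List.mem_cons_of_mem _ (List.mem_cons_of_mem _ (List.mem_cons_of_mem _ (List.mem_cons_of_mem _ (List.mem_cons_of_mem _ (List.mem_cons_of_mem _ (List.mem_cons_of_mem _ (List.mem_cons_of_mem _ (List.mem_cons_of_mem _ (List.mem_cons_of_mem _ (List.mem_cons_of_mem _ (List.mem_cons_of_mem _ (List.mem_cons_of_mem _ (List.mem_cons_self))))))))))))))))))))))))))))))))))))))))))))))))))))))))))))))))))))))))))))))))))))), ?_⟩, by norm_num⟩
  constructor <;> norm_num [Q85, coCell, P6C3]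

lemma lP6C3 : ∀ x1 x2 xc : ℝ, 0 ≤ x1 → x1 ≤ 1 → 0 ≤ x2 → x2 ≤ 1 → P6C3.l ≤ xc → xc ≤ P6C3.u →
    (6899 / 4096 : ℝ) * (1 - (1 - x1) ^ 5) + (13273 / 1024 : ℝ) * (1 - (1 - x2) ^ 5) - (12 : ℝ) * (1 - (1 - xc) ^ 5) + (1 / 1073741824 : ℝ)
      ≤ - P6C3.a1 * x1 - P6C3.a2 * x2 + P6C3.e * xc + P6C3.f := by
  have h := cell_lines_delta 5 (α1 := (6899 / 4096 : ℝ)) (α2 := (13273 / 1024 : ℝ)) (c := (12 : ℝ)) (y1 := (18405 / 262144 : ℝ)) (y2 := (20627 / 262144 : ℝ))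
    (A1 := (13199775 / 2097152 : ℝ)) (B1 := (19319467 / 268435456 : ℝ)) (A2 := (195852979 / 4194304 : ℝ)) (B2 := (91742075 / 134217728 : ℝ)) (l := (11547 / 131072 : ℝ)) (u := (23371 / 262144 : ℝ))
    (E := (-173620091 / 4194304 : ℝ)) (F := (-211064745 / 268435456 : ℝ)) (δ := (1 / 1073741824 : ℝ)) (by norm_num) (by norm_num) (by norm_num) (by norm_num) (by norm_num)
    (by norm_num) (by norm_num) (by norm_num) (by norm_num) (by norm_num) (by norm_num) (by norm_num) (by norm_num) (by norm_num) (by norm_num)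
  have e1 : P6C3.l = (11547 / 131072 : ℝ) := rfl
  have e2 : P6C3.u = (23371 / 262144 : ℝ) := rfl
  have e3 : P6C3.a1 = -(13199775 / 2097152 : ℝ) := by norm_num [P6C3]
  have e4 : P6C3.a2 = -(195852979 / 4194304 : ℝ) := by norm_num [P6C3]
  have e5 : P6C3.e = (-173620091 / 4194304 : ℝ) := rfl
  have e6 : P6C3.f = (19319467 / 268435456 : ℝ) + (91742075 / 134217728 : ℝ) + (-211064745 / 268435456 : ℝ) + (1 / 1073741824 : ℝ) := by norm_num [P6C3]
  rw [e1, e2, e3, e4, e5, e6]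
  exact h

lemma rP6C4 : ∃ N : ℝ, Rw4 P.r2 N (coCell (6899 / 4096 : ℝ) (13273 / 1024 : ℝ) (12 : ℝ) 0 P6C4) := by
  refine ⟨(3221225472 : ℝ), ⟨Q86, List.mem_cons_of_mem _ (List.mem_cons_of_mem _ (List.mem_cons_of_mem _ (List.mem_cons_of_mem _ (List.mem_cons_of_mem _ (List.mem_cons_of_mem _ (List.mem_cons_of_mem _ (List.mem_cons_of_mem _ (List.mem_cons_of_mem _ (List.mem_cons_of_mem _ (List.mem_cons_of_mem _ (List.mem_cons_of_mem _ (List.mem_cons_of_mem _ (List.mem_cons_of_mem _ (List.mem_cons_of_mem _ (List.mem_cons_of_mem _ (List.mem_cons_of_mem _ (List.mem_cons_of_mem _ (List.mem_cons_of_mem _ (List.mem_cons_of_mem _ (List.mem_cons_of_mem _ (List.mem_cons_of_mem _ (List.mem_cons_of_mem _ (List.mem_cons_of_mem _ (List.mem_cons_of_mem _ (List.mem_cons_of_mem _ (List.mem_cons_of_mem _ (List.mem_cons_of_mem _ (List.mem_cons_of_mem _ (List.mem_cons_of_mem _ (List.mem_cons_of_mem _ (List.mem_cons_of_mem _ (List.mem_cons_of_mem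 _ (List.mem_cons_of_mem _ (List.mem_cons_of_mem _ (List.mem_cons_of_mem _ (List.mem_cons_of_mem _ (List.mem_cons_of_mem _ (List.mem_cons_of_mem _ (List.mem_cons_of_mem _ (List.mem_cons_of_mem _ (List.mem_cons_of_mem _ (List.mem_cons_of_mem _ (List.mem_cons_of_mem _ (List.mem_cons_of_mem _ (List.mem_cons_of_mem _ (List.mem_cons_of_mem _ (List.mem_cons_of_mem _ (List.mem_cons_of_mem _ (List.mem_cons_of_mem _ (List.mem_cons_of_mem _ (List.mem_cons_of_mem _ (List.mem_cons_of_mem _ (List.mem_cons_of_mem _ (List.mem_cons_of_mem _ (List.mem_cons_of_mem _ (List.mem_cons_of_mem _ (List.mem_cons_of_mem _ (List.mem_cons_of_mem _ (List.mem_cons_of_mem _ (List.mem_cons_of_mem _ (List.mem_cons_of_mem _ (List.mem_cons_of_mem _ (List.mem_cons_of_mem _ (List.mem_cons_of_mem _ (List.mem_cons_of_mem _ (List.mem_cons_of_mem _ (List.mem_cons_of_mem _ (List.mem_cons_of_mem _ (List.mem_cons_of_mem _ (List.mem_cons_of_mem _ (List.mem_cons_of_mem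 _ (List.mem_cons_of_mem _ (List.mem_cons_of_mem _ (List.mem_cons_of_mem _ (List.mem_cons_of_mem _ (List.mem_cons_of_mem _ (List.mem_cons_of_mem _ (List.mem_cons_of_mem _ (List.mem_cons_of_mem _ (List.mem_cons_of_mem _ (List.mem_cons_of_mem _ (List.mem_cons_of_mem _ (List.mem_cons_of_mem _ (List.mem_cons_of_mem _ (List.mem_cons_of_mem _ (List.mem_cons_self)))))))))))))))))))))))))))))))))))))))))))))))))))))))))))))))))))))))))))))))))))))), ?_⟩, by norm_num⟩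
  constructor <;> norm_num [Q86, coCell, P6C4]

lemma lP6C4 : ∀ x1 x2 xc : ℝ, 0 ≤ x1 → x1 ≤ 1 → 0 ≤ x2 → x2 ≤ 1 → P6C4.l ≤ xc → xc ≤ P6C4.u →
    (6899 / 4096 : ℝ) * (1 - (1 - x1) ^ 5) + (13273 / 1024 : ℝ) * (1 - (1 - x2) ^ 5) - (12 : ℝ) * (1 - (1 - xc) ^ 5) + (1 / 1073741824 : ℝ)
      ≤ - P6C4.a1 * x1 - P6C4.a2 * x2 + P6C4.e * xc + P6C4.f := by
  have h := cell_lines_delta 5 (α1 := (6899 / 4096 : ℝ)) (α2 := (13273 / 1024 : ℝ)) (c := (12 : ℝ)) (y1 := (9239 / 131072 : ℝ)) (y2 := (5217 / 65536 : ℝ))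
    (A1 := (26367937 / 4194304 : ℝ)) (B1 := (19461803 / 268435456 : ℝ)) (A2 := (195072413 / 4194304 : ℝ)) (B2 := (187437943 / 268435456 : ℝ)) (l := (23371 / 262144 : ℝ)) (u := (23593 / 262144 : ℝ))
    (E := (-172895925 / 4194304 : ℝ)) (F := (-215196699 / 268435456 : ℝ)) (δ := (1 / 1073741824 : ℝ)) (by norm_num) (by norm_num) (by norm_num) (by norm_num) (by norm_num)
    (by norm_num) (by norm_num) (by norm_num) (by norm_num) (by norm_num) (by norm_num) (by norm_num) (by norm_num) (by norm_num) (by norm_num)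
  have e1 : P6C4.l = (23371 / 262144 : ℝ) := rfl
  have e2 : P6C4.u = (23593 / 262144 : ℝ) := rfl
  have e3 : P6C4.a1 = -(26367937 / 4194304 : ℝ) := by norm_num [P6C4]
  have e4 : P6C4.a2 = -(195072413 / 4194304 : ℝ) := by norm_num [P6C4]
  have e5 : P6C4.e = (-172895925 / 4194304 : ℝ) := rfl
  have e6 : P6C4.f = (19461803 / 268435456 : ℝ) + (187437943 / 268435456 : ℝ) + (-215196699 / 268435456 : ℝ) + (1 / 1073741824 : ℝ) := by norm_num [P6C4]
  rw [e1, e2, e3, e4, e5, e6]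
  exact h

/-- A link of the chain. -/
lemma link6 {lam : ℝ} (h0 : -(1 / 2) < lam) (h1 : lam < 1) (hB : BoxS lam P 0 HH 0 HH)
    (h : ∃ n, 1 - En 5 lam n mc ≤ (23593 / 262144 : ℝ)) : ∃ n, 1 - En 5 lam n mc ≤ (11141 / 131072 : ℝ) :=
  phase_of_box (by norm_num) h0 h1 hB (6899 / 4096 : ℝ) (13273 / 1024 : ℝ) (12 : ℝ) (1 / 1073741824 : ℝ) (11141 / 131072 : ℝ) (23593 / 262144 : ℝ) (by norm_num) cellsP6 hcoverP6
    (forall_cons lP6C0 (forall_cons lP6C1 (forall_cons lP6C2 (forall_cons lP6C3 (forall_cons lP6C4 (forall_nil)))))) (forall_cons rP6C0 (forall_cons rP6C1 (forall_cons rP6C2 (forall_cons rP6C3 (forall_cons rP6C4 (forall_nil)))))) h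

/-- A chord cell of a link. -/
noncomputable def P7C0 : Cell := ⟨(23593 / 262144 : ℝ), (5969 / 65536 : ℝ), (-3295395 / 524288 : ℝ), (-194501153 / 4194304 : ℝ), (-86082725 / 2097152 : ℝ), (-38956571 / 1073741824 : ℝ)⟩

/-- A chord cell of a link. -/
noncomputable def P7C1 : Cell := ⟨(5969 / 65536 : ℝ), (24163 / 262144 : ℝ), (-13198959 / 2097152 : ℝ), (-48380615 / 1048576 : ℝ), (-171343687 / 4194304 : ℝ), (-38614507 / 1073741824 : ℝ)⟩

/-- A chord cell of a link. -/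
noncomputable def P7C2 : Cell := ⟨(24163 / 262144 : ℝ), (24453 / 262144 : ℝ), (-26364463 / 4194304 : ℝ), (-192595487 / 4194304 : ℝ), (-170514831 / 4194304 : ℝ), (-38183287 / 1073741824 : ℝ)⟩

/-- A chord cell of a link. -/
noncomputable def P7C3 : Cell := ⟨(24453 / 262144 : ℝ), (12373 / 131072 : ℝ), (-26384011 / 4194304 : ℝ), (-191620809 / 4194304 : ℝ), (-84840207 / 2097152 : ℝ), (-37838195 / 1073741824 : ℝ)⟩

/-- A chord cell of a link. -/
noncomputable def P7C4 : Cell := ⟨(12373 / 131072 : ℝ), (3113 / 32768 : ℝ), (-13182883 / 2097152 : ℝ), (-95447309 / 2097152 : ℝ), (-42259233 / 1048576 : ℝ), (-37478763 / 1073741824 : ℝ)⟩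

/-- The chord cells of a link. -/
noncomputable def cellsP7 : List Cell := [P7C0, P7C1, P7C2, P7C3, P7C4]

lemma hcoverP7 : ∀ x : ℝ, (23593 / 262144 : ℝ) ≤ x → x ≤ (3113 / 32768 : ℝ) → ∃ D ∈ cellsP7, D.l ≤ x ∧ x ≤ D.u := by
  refine cover_of_chain ?_ (by norm_num [P7C0])
  simp only [ChainP, P7C0, P7C1, P7C2, P7C3, P7C4]
  norm_num

lemma rP7C0 : ∃ N : ℝ, Rw4 P.r2 N (coCell (6993 / 4096 : ℝ) (26499 / 2048 : ℝ) (12 : ℝ) 0 P7C0) := by
  refine ⟨(3221225472 : ℝ), ⟨Q87, List.mem_cons_of_mem _ (List.mem_cons_of_mem _ (List.mem_cons_of_mem _ (List.mem_cons_of_mem _ (List.mem_cons_of_mem _ (List.mem_cons_of_mem _ (List.mem_cons_of_mem _ (List.mem_cons_of_mem _ (List.mem_cons_of_mem _ (List.mem_cons_of_mem _ (List.mem_cons_of_mem _ (List.mem_cons_of_mem _ (List.mem_cons_of_mem _ (List.mem_cons_of_mem _ (List.mem_cons_of_mem _ (List.mem_cons_of_mem _ (List.mem_cons_of_mem _ (List.mem_cons_of_mem _ (List.mem_cons_of_mem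 _ (List.mem_cons_of_mem _ (List.mem_cons_of_mem _ (List.mem_cons_of_mem _ (List.mem_cons_of_mem _ (List.mem_cons_of_mem _ (List.mem_cons_of_mem _ (List.mem_cons_of_mem _ (List.mem_cons_of_mem _ (List.mem_cons_of_mem _ (List.mem_cons_of_mem _ (List.mem_cons_of_mem _ (List.mem_cons_of_mem _ (List.mem_cons_of_mem _ (List.mem_cons_of_mem _ (List.mem_cons_of_mem _ (List.mem_cons_of_mem _ (List.mem_cons_of_mem _ (List.mem_cons_of_mem _ (List.mem_cons_of_mem _ (List.mem_cons_of_mem _ (List.mem_cons_of_mem _ (List.mem_cons_of_mem _ (List.mem_cons_of_mem _ (List.mem_cons_of_mem _ (List.mem_cons_of_mem _ (List.mem_cons_of_mem _ (List.mem_cons_of_mem _ (List.mem_cons_of_mem _ (List.mem_cons_of_mem _ (List.mem_cons_of_mem _ (List.mem_cons_of_mem _ (List.mem_cons_of_mem _ (List.mem_cons_of_mem _ (List.mem_cons_of_mem _ (List.mem_cons_of_mem _ (List.mem_cons_of_mem _ (List.mem_cons_of_mem _ (List.mem_cons_of_mem _ (List.mem_cons_of_mem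 _ (List.mem_cons_of_mem _ (List.mem_cons_of_mem _ (List.mem_cons_of_mem _ (List.mem_cons_of_mem _ (List.mem_cons_of_mem _ (List.mem_cons_of_mem _ (List.mem_cons_of_mem _ (List.mem_cons_of_mem _ (List.mem_cons_of_mem _ (List.mem_cons_of_mem _ (List.mem_cons_of_mem _ (List.mem_cons_of_mem _ (List.mem_cons_of_mem _ (List.mem_cons_of_mem _ (List.mem_cons_of_mem _ (List.mem_cons_of_mem _ (List.mem_cons_of_mem _ (List.mem_cons_of_mem _ (List.mem_cons_of_mem _ (List.mem_cons_of_mem _ (List.mem_cons_of_mem _ (List.mem_cons_of_mem _ (List.mem_cons_of_mem _ (List.mem_cons_of_mem _ (List.mem_cons_of_mem _ (List.mem_cons_of_mem _ (List.mem_cons_of_mem _ (List.mem_cons_of_mem _ (List.mem_cons_of_mem _ (List.mem_cons_self))))))))))))))))))))))))))))))))))))))))))))))))))))))))))))))))))))))))))))))))))))))), ?_⟩, by norm_num⟩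
  constructor <;> norm_num [Q87, coCell, P7C0]

lemma lP7C0 : ∀ x1 x2 xc : ℝ, 0 ≤ x1 → x1 ≤ 1 → 0 ≤ x2 → x2 ≤ 1 → P7C0.l ≤ xc → xc ≤ P7C0.u →
    (6993 / 4096 : ℝ) * (1 - (1 - x1) ^ 5) + (26499 / 2048 : ℝ) * (1 - (1 - x2) ^ 5) - (12 : ℝ) * (1 - (1 - xc) ^ 5) + (1 / 1073741824 : ℝ)
      ≤ - P7C0.a1 * x1 - P7C0.a2 * x2 + P7C0.e * xc + P7C0.f := by
  have h := cell_lines_delta 5 (α1 := (6993 / 4096 : ℝ)) (α2 := (26499 / 2048 : ℝ)) (c := (12 : ℝ)) (y1 := (1207 / 16384 : ℝ)) (y2 := (10469 / 131072 : ℝ))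
    (A1 := (3295395 / 524288 : ℝ)) (B1 := (21406265 / 268435456 : ℝ)) (A2 := (194501153 / 4194304 : ℝ)) (B2 := (94129417 / 134217728 : ℝ)) (l := (23593 / 262144 : ℝ)) (u := (5969 / 65536 : ℝ))
    (E := (-86082725 / 2097152 : ℝ)) (F := (-109702121 / 134217728 : ℝ)) (δ := (1 / 1073741824 : ℝ)) (by norm_num) (by norm_num) (by norm_num) (by norm_num) (by norm_num)
    (by norm_num) (by norm_num) (by norm_num) (by norm_num) (by norm_num) (by norm_num) (by norm_num) (by norm_num) (by norm_num) (by norm_num)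
  have e1 : P7C0.l = (23593 / 262144 : ℝ) := rfl
  have e2 : P7C0.u = (5969 / 65536 : ℝ) := rfl
  have e3 : P7C0.a1 = -(3295395 / 524288 : ℝ) := by norm_num [P7C0]
  have e4 : P7C0.a2 = -(194501153 / 4194304 : ℝ) := by norm_num [P7C0]
  have e5 : P7C0.e = (-86082725 / 2097152 : ℝ) := rfl
  have e6 : P7C0.f = (21406265 / 268435456 : ℝ) + (94129417 / 134217728 : ℝ) + (-109702121 / 134217728 : ℝ) + (1 / 1073741824 : ℝ) := by norm_num [P7C0]
  rw [e1, e2, e3, e4, e5, e6]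
  exact h

lemma rP7C1 : ∃ N : ℝ, Rw4 P.r2 N (coCell (6993 / 4096 : ℝ) (26499 / 2048 : ℝ) (12 : ℝ) 0 P7C1) := by
  refine ⟨(3221225472 : ℝ), ⟨Q88, List.mem_cons_of_mem _ (List.mem_cons_of_mem _ (List.mem_cons_of_mem _ (List.mem_cons_of_mem _ (List.mem_cons_of_mem _ (List.mem_cons_of_mem _ (List.mem_cons_of_mem _ (List.mem_cons_of_mem _ (List.mem_cons_of_mem _ (List.mem_cons_of_mem _ (List.mem_cons_of_mem _ (List.mem_cons_of_mem _ (List.mem_cons_of_mem _ (List.mem_cons_of_mem _ (List.mem_cons_of_mem _ (List.mem_cons_of_mem _ (List.mem_cons_of_mem _ (List.mem_cons_of_mem _ (List.mem_cons_of_mem _ (List.mem_cons_of_mem _ (List.mem_cons_of_mem _ (List.mem_cons_of_mem _ (List.mem_cons_of_mem _ (List.mem_cons_of_mem _ (List.mem_cons_of_mem _ (List.mem_cons_of_mem _ (List.mem_cons_of_mem _ (List.mem_cons_of_mem _ (List.mem_cons_of_mem _ (List.mem_cons_of_mem _ (List.mem_cons_of_mem _ (List.mem_cons_of_mem _ (List.mem_cons_of_mem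 _ (List.mem_cons_of_mem _ (List.mem_cons_of_mem _ (List.mem_cons_of_mem _ (List.mem_cons_of_mem _ (List.mem_cons_of_mem _ (List.mem_cons_of_mem _ (List.mem_cons_of_mem _ (List.mem_cons_of_mem _ (List.mem_cons_of_mem _ (List.mem_cons_of_mem _ (List.mem_cons_of_mem _ (List.mem_cons_of_mem _ (List.mem_cons_of_mem _ (List.mem_cons_of_mem _ (List.mem_cons_of_mem _ (List.mem_cons_of_mem _ (List.mem_cons_of_mem _ (List.mem_cons_of_mem _ (List.mem_cons_of_mem _ (List.mem_cons_of_mem _ (List.mem_cons_of_mem _ (List.mem_cons_of_mem _ (List.mem_cons_of_mem _ (List.mem_cons_of_mem _ (List.mem_cons_of_mem _ (List.mem_cons_of_mem _ (List.mem_cons_of_mem _ (List.mem_cons_of_mem _ (List.mem_cons_of_mem _ (List.mem_cons_of_mem _ (List.mem_cons_of_mem _ (List.mem_cons_of_mem _ (List.mem_cons_of_mem _ (List.mem_cons_of_mem _ (List.mem_cons_of_mem _ (List.mem_cons_of_mem _ (List.mem_cons_of_mem _ (List.mem_cons_of_mem _ (List.mem_cons_of_mem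 _ (List.mem_cons_of_mem _ (List.mem_cons_of_mem _ (List.mem_cons_of_mem _ (List.mem_cons_of_mem _ (List.mem_cons_of_mem _ (List.mem_cons_of_mem _ (List.mem_cons_of_mem _ (List.mem_cons_of_mem _ (List.mem_cons_of_mem _ (List.mem_cons_of_mem _ (List.mem_cons_of_mem _ (List.mem_cons_of_mem _ (List.mem_cons_of_mem _ (List.mem_cons_of_mem _ (List.mem_cons_of_mem _ (List.mem_cons_of_mem _ (List.mem_cons_self)))))))))))))))))))))))))))))))))))))))))))))))))))))))))))))))))))))))))))))))))))))))), ?_⟩, by norm_num⟩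
  constructor <;> norm_num [Q88, coCell, P7C1]

lemma lP7C1 : ∀ x1 x2 xc : ℝ, 0 ≤ x1 → x1 ≤ 1 → 0 ≤ x2 → x2 ≤ 1 → P7C1.l ≤ xc → xc ≤ P7C1.u →
    (6993 / 4096 : ℝ) * (1 - (1 - x1) ^ 5) + (26499 / 2048 : ℝ) * (1 - (1 - x2) ^ 5) - (12 : ℝ) * (1 - (1 - xc) ^ 5) + (1 / 1073741824 : ℝ)
      ≤ - P7C1.a1 * x1 - P7C1.a2 * x2 + P7C1.e * xc + P7C1.f := by
  have h := cell_lines_delta 5 (α1 := (6993 / 4096 : ℝ)) (α2 := (26499 / 2048 : ℝ)) (c := (12 : ℝ)) (y1 := (601 / 8192 : ℝ)) (y2 := (10621 / 131072 : ℝ))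
    (A1 := (13198959 / 2097152 : ℝ)) (B1 := (21242733 / 268435456 : ℝ)) (A2 := (48380615 / 1048576 : ℝ)) (B2 := (96649011 / 134217728 : ℝ)) (l := (5969 / 65536 : ℝ)) (u := (24163 / 262144 : ℝ))
    (E := (-171343687 / 4194304 : ℝ)) (F := (-112097191 / 134217728 : ℝ)) (δ := (1 / 1073741824 : ℝ)) (by norm_num) (by norm_num) (by norm_num) (by norm_num) (by norm_num)
    (by norm_num) (by norm_num) (by norm_num) (by norm_num) (by norm_num) (by norm_num) (by norm_num) (by norm_num) (by norm_num) (by norm_num)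
  have e1 : P7C1.l = (5969 / 65536 : ℝ) := rfl
  have e2 : P7C1.u = (24163 / 262144 : ℝ) := rfl
  have e3 : P7C1.a1 = -(13198959 / 2097152 : ℝ) := by norm_num [P7C1]
  have e4 : P7C1.a2 = -(48380615 / 1048576 : ℝ) := by norm_num [P7C1]
  have e5 : P7C1.e = (-171343687 / 4194304 : ℝ) := rfl
  have e6 : P7C1.f = (21242733 / 268435456 : ℝ) + (96649011 / 134217728 : ℝ) + (-112097191 / 134217728 : ℝ) + (1 / 1073741824 : ℝ) := by norm_num [P7C1]
  rw [e1, e2, e3, e4, e5, e6]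
  exact h

lemma rP7C2 : ∃ N : ℝ, Rw4 P.r2 N (coCell (6993 / 4096 : ℝ) (26499 / 2048 : ℝ) (12 : ℝ) 0 P7C2) := by
  refine ⟨(3221225472 : ℝ), ⟨Q89, List.mem_cons_of_mem _ (List.mem_cons_of_mem _ (List.mem_cons_of_mem _ (List.mem_cons_of_mem _ (List.mem_cons_of_mem _ (List.mem_cons_of_mem _ (List.mem_cons_of_mem _ (List.mem_cons_of_mem _ (List.mem_cons_of_mem _ (List.mem_cons_of_mem _ (List.mem_cons_of_mem _ (List.mem_cons_of_mem _ (List.mem_cons_of_mem _ (List.mem_cons_of_mem _ (List.mem_cons_of_mem _ (List.mem_cons_of_mem _ (List.mem_cons_of_mem _ (List.mem_cons_of_mem _ (List.mem_cons_of_mem _ (List.mem_cons_of_mem _ (List.mem_cons_of_mem _ (List.mem_cons_of_mem _ (List.mem_cons_of_mem _ (List.mem_cons_of_mem _ (List.mem_cons_of_mem _ (List.mem_cons_of_mem _ (List.mem_cons_of_mem _ (List.mem_cons_of_mem _ (List.mem_cons_of_mem _ (List.mem_cons_of_mem _ (List.mem_cons_of_mem _ (List.mem_cons_of_mem _ (List.mem_cons_of_mem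 _ (List.mem_cons_of_mem _ (List.mem_cons_of_mem _ (List.mem_cons_of_mem _ (List.mem_cons_of_mem _ (List.mem_cons_of_mem _ (List.mem_cons_of_mem _ (List.mem_cons_of_mem _ (List.mem_cons_of_mem _ (List.mem_cons_of_mem _ (List.mem_cons_of_mem _ (List.mem_cons_of_mem _ (List.mem_cons_of_mem _ (List.mem_cons_of_mem _ (List.mem_cons_of_mem _ (List.mem_cons_of_mem _ (List.mem_cons_of_mem _ (List.mem_cons_of_mem _ (List.mem_cons_of_mem _ (List.mem_cons_of_mem _ (List.mem_cons_of_mem _ (List.mem_cons_of_mem _ (List.mem_cons_of_mem _ (List.mem_cons_of_mem _ (List.mem_cons_of_mem _ (List.mem_cons_of_mem _ (List.mem_cons_of_mem _ (List.mem_cons_of_mem _ (List.mem_cons_of_mem _ (List.mem_cons_of_mem _ (List.mem_cons_of_mem _ (List.mem_cons_of_mem _ (List.mem_cons_of_mem _ (List.mem_cons_of_mem _ (List.mem_cons_of_mem _ (List.mem_cons_of_mem _ (List.mem_cons_of_mem _ (List.mem_cons_of_mem _ (List.mem_cons_of_mem _ (List.mem_cons_of_mem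 _ (List.mem_cons_of_mem _ (List.mem_cons_of_mem _ (List.mem_cons_of_mem _ (List.mem_cons_of_mem _ (List.mem_cons_of_mem _ (List.mem_cons_of_mem _ (List.mem_cons_of_mem _ (List.mem_cons_of_mem _ (List.mem_cons_of_mem _ (List.mem_cons_of_mem _ (List.mem_cons_of_mem _ (List.mem_cons_of_mem _ (List.mem_cons_of_mem _ (List.mem_cons_of_mem _ (List.mem_cons_of_mem _ (List.mem_cons_of_mem _ (List.mem_cons_of_mem _ (List.mem_cons_self))))))))))))))))))))))))))))))))))))))))))))))))))))))))))))))))))))))))))))))))))))))))), ?_⟩, by norm_num⟩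
  constructor <;> norm_num [Q89, coCell, P7C2]

lemma lP7C2 : ∀ x1 x2 xc : ℝ, 0 ≤ x1 → x1 ≤ 1 → 0 ≤ x2 → x2 ≤ 1 → P7C2.l ≤ xc → xc ≤ P7C2.u →
    (6993 / 4096 : ℝ) * (1 - (1 - x1) ^ 5) + (26499 / 2048 : ℝ) * (1 - (1 - x2) ^ 5) - (12 : ℝ) * (1 - (1 - xc) ^ 5) + (1 / 1073741824 : ℝ)
      ≤ - P7C2.a1 * x1 - P7C2.a2 * x2 + P7C2.e * xc + P7C2.f := by
  have h := cell_lines_delta 5 (α1 := (6993 / 4096 : ℝ)) (α2 := (26499 / 2048 : ℝ)) (c := (12 : ℝ)) (y1 := (19309 / 262144 : ℝ)) (y2 := (21531 / 262144 : ℝ))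
    (A1 := (26364463 / 4194304 : ℝ)) (B1 := (21400111 / 268435456 : ℝ)) (A2 := (192595487 / 4194304 : ℝ)) (B2 := (49534503 / 67108864 : ℝ)) (l := (24163 / 262144 : ℝ)) (u := (24453 / 262144 : ℝ))
    (E := (-170514831 / 4194304 : ℝ)) (F := (-229083945 / 268435456 : ℝ)) (δ := (1 / 1073741824 : ℝ)) (by norm_num) (by norm_num) (by norm_num) (by norm_num) (by norm_num)
    (by norm_num) (by norm_num) (by norm_num) (by norm_num) (by norm_num) (by norm_num) (by norm_num) (by norm_num) (by norm_num) (by norm_num)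
  have e1 : P7C2.l = (24163 / 262144 : ℝ) := rfl
  have e2 : P7C2.u = (24453 / 262144 : ℝ) := rfl
  have e3 : P7C2.a1 = -(26364463 / 4194304 : ℝ) := by norm_num [P7C2]
  have e4 : P7C2.a2 = -(192595487 / 4194304 : ℝ) := by norm_num [P7C2]
  have e5 : P7C2.e = (-170514831 / 4194304 : ℝ) := rfl
  have e6 : P7C2.f = (21400111 / 268435456 : ℝ) + (49534503 / 67108864 : ℝ) + (-229083945 / 268435456 : ℝ) + (1 / 1073741824 : ℝ) := by norm_num [P7C2]
  rw [e1, e2, e3, e4, e5, e6]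
  exact h

lemma rP7C3 : ∃ N : ℝ, Rw4 P.r2 N (coCell (6993 / 4096 : ℝ) (26499 / 2048 : ℝ) (12 : ℝ) 0 P7C3) := by
  refine ⟨(3221225472 : ℝ), ⟨Q90, List.mem_cons_of_mem _ (List.mem_cons_of_mem _ (List.mem_cons_of_mem _ (List.mem_cons_of_mem _ (List.mem_cons_of_mem _ (List.mem_cons_of_mem _ (List.mem_cons_of_mem _ (List.mem_cons_of_mem _ (List.mem_cons_of_mem _ (List.mem_cons_of_mem _ (List.mem_cons_of_mem _ (List.mem_cons_of_mem _ (List.mem_cons_of_mem _ (List.mem_cons_of_mem _ (List.mem_cons_of_mem _ (List.mem_cons_of_mem _ (List.mem_cons_of_mem _ (List.mem_cons_of_mem _ (List.mem_cons_of_mem _ (List.mem_cons_of_mem _ (List.mem_cons_of_mem _ (List.mem_cons_of_mem _ (List.mem_cons_of_mem _ (List.mem_cons_of_mem _ (List.mem_cons_of_mem _ (List.mem_cons_of_mem _ (List.mem_cons_of_mem _ (List.mem_cons_of_mem _ (List.mem_cons_of_mem _ (List.mem_cons_of_mem _ (List.mem_cons_of_mem _ (List.mem_cons_of_mem _ (List.mem_cons_of_mem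 _ (List.mem_cons_of_mem _ (List.mem_cons_of_mem _ (List.mem_cons_of_mem _ (List.mem_cons_of_mem _ (List.mem_cons_of_mem _ (List.mem_cons_of_mem _ (List.mem_cons_of_mem _ (List.mem_cons_of_mem _ (List.mem_cons_of_mem _ (List.mem_cons_of_mem _ (List.mem_cons_of_mem _ (List.mem_cons_of_mem _ (List.mem_cons_of_mem _ (List.mem_cons_of_mem _ (List.mem_cons_of_mem _ (List.mem_cons_of_mem _ (List.mem_cons_of_mem _ (List.mem_cons_of_mem _ (List.mem_cons_of_mem _ (List.mem_cons_of_mem _ (List.mem_cons_of_mem _ (List.mem_cons_of_mem _ (List.mem_cons_of_mem _ (List.mem_cons_of_mem _ (List.mem_cons_of_mem _ (List.mem_cons_of_mem _ (List.mem_cons_of_mem _ (List.mem_cons_of_mem _ (List.mem_cons_of_mem _ (List.mem_cons_of_mem _ (List.mem_cons_of_mem _ (List.mem_cons_of_mem _ (List.mem_cons_of_mem _ (List.mem_cons_of_mem _ (List.mem_cons_of_mem _ (List.mem_cons_of_mem _ (List.mem_cons_of_mem _ (List.mem_cons_of_mem _ (List.mem_cons_of_mem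 _ (List.mem_cons_of_mem _ (List.mem_cons_of_mem _ (List.mem_cons_of_mem _ (List.mem_cons_of_mem _ (List.mem_cons_of_mem _ (List.mem_cons_of_mem _ (List.mem_cons_of_mem _ (List.mem_cons_of_mem _ (List.mem_cons_of_mem _ (List.mem_cons_of_mem _ (List.mem_cons_of_mem _ (List.mem_cons_of_mem _ (List.mem_cons_of_mem _ (List.mem_cons_of_mem _ (List.mem_cons_of_mem _ (List.mem_cons_of_mem _ (List.mem_cons_of_mem _ (List.mem_cons_of_mem _ (List.mem_cons_self)))))))))))))))))))))))))))))))))))))))))))))))))))))))))))))))))))))))))))))))))))))))))), ?_⟩, by norm_num⟩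
  constructor <;> norm_num [Q90, coCell, P7C3]

lemma lP7C3 : ∀ x1 x2 xc : ℝ, 0 ≤ x1 → x1 ≤ 1 → 0 ≤ x2 → x2 ≤ 1 → P7C3.l ≤ xc → xc ≤ P7C3.u →
    (6993 / 4096 : ℝ) * (1 - (1 - x1) ^ 5) + (26499 / 2048 : ℝ) * (1 - (1 - x2) ^ 5) - (12 : ℝ) * (1 - (1 - xc) ^ 5) + (1 / 1073741824 : ℝ)
      ≤ - P7C3.a1 * x1 - P7C3.a2 * x2 + P7C3.e * xc + P7C3.f := by
  have h := cell_lines_delta 5 (α1 := (6993 / 4096 : ℝ)) (α2 := (26499 / 2048 : ℝ)) (c := (12 : ℝ)) (y1 := (301 / 4096 : ℝ)) (y2 := (5459 / 65536 : ℝ))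
    (A1 := (26384011 / 4194304 : ℝ)) (B1 := (21308067 / 268435456 : ℝ)) (A2 := (191620809 / 4194304 : ℝ)) (B2 := (101648887 / 134217728 : ℝ)) (l := (24453 / 262144 : ℝ)) (u := (12373 / 131072 : ℝ))
    (E := (-84840207 / 2097152 : ℝ)) (F := (-117032695 / 134217728 : ℝ)) (δ := (1 / 1073741824 : ℝ)) (by norm_num) (by norm_num) (by norm_num) (by norm_num) (by norm_num)
    (by norm_num) (by norm_num) (by norm_num) (by norm_num) (by norm_num) (by norm_num) (by norm_num) (by norm_num) (by norm_num) (by norm_num)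
  have e1 : P7C3.l = (24453 / 262144 : ℝ) := rfl
  have e2 : P7C3.u = (12373 / 131072 : ℝ) := rfl
  have e3 : P7C3.a1 = -(26384011 / 4194304 : ℝ) := by norm_num [P7C3]
  have e4 : P7C3.a2 = -(191620809 / 4194304 : ℝ) := by norm_num [P7C3]
  have e5 : P7C3.e = (-84840207 / 2097152 : ℝ) := rfl
  have e6 : P7C3.f = (21308067 / 268435456 : ℝ) + (101648887 / 134217728 : ℝ) + (-117032695 / 134217728 : ℝ) + (1 / 1073741824 : ℝ) := by norm_num [P7C3]
  rw [e1, e2, e3, e4, e5, e6]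
  exact h

lemma rP7C4 : ∃ N : ℝ, Rw4 P.r2 N (coCell (6993 / 4096 : ℝ) (26499 / 2048 : ℝ) (12 : ℝ) 0 P7C4) := by
  refine ⟨(3221225472 : ℝ), ⟨Q91, List.mem_cons_of_mem _ (List.mem_cons_of_mem _ (List.mem_cons_of_mem _ (List.mem_cons_of_mem _ (List.mem_cons_of_mem _ (List.mem_cons_of_mem _ (List.mem_cons_of_mem _ (List.mem_cons_of_mem _ (List.mem_cons_of_mem _ (List.mem_cons_of_mem _ (List.mem_cons_of_mem _ (List.mem_cons_of_mem _ (List.mem_cons_of_mem _ (List.mem_cons_of_mem _ (List.mem_cons_of_mem _ (List.mem_cons_of_mem _ (List.mem_cons_of_mem _ (List.mem_cons_of_mem _ (List.mem_cons_of_mem _ (List.mem_cons_of_mem _ (List.mem_cons_of_mem _ (List.mem_cons_of_mem _ (List.mem_cons_of_mem _ (List.mem_cons_of_mem _ (List.mem_cons_of_mem _ (List.mem_cons_of_mem _ (List.mem_cons_of_mem _ (List.mem_cons_of_mem _ (List.mem_cons_of_mem _ (List.mem_cons_of_mem _ (List.mem_cons_of_mem _ (List.mem_cons_of_mem _ (List.mem_cons_of_mem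 _ (List.mem_cons_of_mem _ (List.mem_cons_of_mem _ (List.mem_cons_of_mem _ (List.mem_cons_of_mem _ (List.mem_cons_of_mem _ (List.mem_cons_of_mem _ (List.mem_cons_of_mem _ (List.mem_cons_of_mem _ (List.mem_cons_of_mem _ (List.mem_cons_of_mem _ (List.mem_cons_of_mem _ (List.mem_cons_of_mem _ (List.mem_cons_of_mem _ (List.mem_cons_of_mem _ (List.mem_cons_of_mem _ (List.mem_cons_of_mem _ (List.mem_cons_of_mem _ (List.mem_cons_of_mem _ (List.mem_cons_of_mem _ (List.mem_cons_of_mem _ (List.mem_cons_of_mem _ (List.mem_cons_of_mem _ (List.mem_cons_of_mem _ (List.mem_cons_of_mem _ (List.mem_cons_of_mem _ (List.mem_cons_of_mem _ (List.mem_cons_of_mem _ (List.mem_cons_of_mem _ (List.mem_cons_of_mem _ (List.mem_cons_of_mem _ (List.mem_cons_of_mem _ (List.mem_cons_of_mem _ (List.mem_cons_of_mem _ (List.mem_cons_of_mem _ (List.mem_cons_of_mem _ (List.mem_cons_of_mem _ (List.mem_cons_of_mem _ (List.mem_cons_of_mem _ (List.mem_cons_of_mem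 _ (List.mem_cons_of_mem _ (List.mem_cons_of_mem _ (List.mem_cons_of_mem _ (List.mem_cons_of_mem _ (List.mem_cons_of_mem _ (List.mem_cons_of_mem _ (List.mem_cons_of_mem _ (List.mem_cons_of_mem _ (List.mem_cons_of_mem _ (List.mem_cons_of_mem _ (List.mem_cons_of_mem _ (List.mem_cons_of_mem _ (List.mem_cons_of_mem _ (List.mem_cons_of_mem _ (List.mem_cons_of_mem _ (List.mem_cons_of_mem _ (List.mem_cons_of_mem _ (List.mem_cons_of_mem _ (List.mem_cons_of_mem _ (List.mem_cons_self))))))))))))))))))))))))))))))))))))))))))))))))))))))))))))))))))))))))))))))))))))))))))), ?_⟩, by norm_num⟩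
  constructor <;> norm_num [Q91, coCell, P7C4]

lemma lP7C4 : ∀ x1 x2 xc : ℝ, 0 ≤ x1 → x1 ≤ 1 → 0 ≤ x2 → x2 ≤ 1 → P7C4.l ≤ xc → xc ≤ P7C4.u →
    (6993 / 4096 : ℝ) * (1 - (1 - x1) ^ 5) + (26499 / 2048 : ℝ) * (1 - (1 - x2) ^ 5) - (12 : ℝ) * (1 - (1 - xc) ^ 5) + (1 / 1073741824 : ℝ)
      ≤ - P7C4.a1 * x1 - P7C4.a2 * x2 + P7C4.e * xc + P7C4.f := by
  have h := cell_lines_delta 5 (α1 := (6993 / 4096 : ℝ)) (α2 := (26499 / 2048 : ℝ)) (c := (12 : ℝ)) (y1 := (9653 / 131072 : ℝ)) (y2 := (1379 / 16384 : ℝ))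
    (A1 := (13182883 / 2097152 : ℝ)) (B1 := (10696985 / 134217728 : ℝ)) (A2 := (95447309 / 2097152 : ℝ)) (B2 := (12949333 / 16777216 : ℝ)) (l := (12373 / 131072 : ℝ)) (u := (3113 / 32768 : ℝ))
    (E := (-42259233 / 1048576 : ℝ)) (F := (-237952989 / 268435456 : ℝ)) (δ := (1 / 1073741824 : ℝ)) (by norm_num) (by norm_num) (by norm_num) (by norm_num) (by norm_num)
    (by norm_num) (by norm_num) (by norm_num) (by norm_num) (by norm_num) (by norm_num) (by norm_num) (by norm_num) (by norm_num) (by norm_num)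
  have e1 : P7C4.l = (12373 / 131072 : ℝ) := rfl
  have e2 : P7C4.u = (3113 / 32768 : ℝ) := rfl
  have e3 : P7C4.a1 = -(13182883 / 2097152 : ℝ) := by norm_num [P7C4]
  have e4 : P7C4.a2 = -(95447309 / 2097152 : ℝ) := by norm_num [P7C4]
  have e5 : P7C4.e = (-42259233 / 1048576 : ℝ) := rfl
  have e6 : P7C4.f = (10696985 / 134217728 : ℝ) + (12949333 / 16777216 : ℝ) + (-237952989 / 268435456 : ℝ) + (1 / 1073741824 : ℝ) := by norm_num [P7C4]
  rw [e1, e2, e3, e4, e5, e6]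
  exact h

/-- A link of the chain. -/
lemma link7 {lam : ℝ} (h0 : -(1 / 2) < lam) (h1 : lam < 1) (hB : BoxS lam P 0 HH 0 HH)
    (h : ∃ n, 1 - En 5 lam n mc ≤ (3113 / 32768 : ℝ)) : ∃ n, 1 - En 5 lam n mc ≤ (23593 / 262144 : ℝ) :=
  phase_of_box (by norm_num) h0 h1 hB (6993 / 4096 : ℝ) (26499 / 2048 : ℝ) (12 : ℝ) (1 / 1073741824 : ℝ) (23593 / 262144 : ℝ) (3113 / 32768 : ℝ) (by norm_num) cellsP7 hcoverP7
    (forall_cons lP7C0 (forall_cons lP7C1 (forall_cons lP7C2 (forall_cons lP7C3 (forall_cons lP7C4 (forall_nil)))))) (forall_cons rP7C0 (forall_cons rP7C1 (forall_cons rP7C2 (forall_cons rP7C3 (forall_cons rP7C4 (forall_nil)))))) h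

/-- A chord cell of a link. -/
noncomputable def P8C0 : Cell := ⟨(3113 / 32768 : ℝ), (25203 / 262144 : ℝ), (-28400491 / 4194304 : ℝ), (-189459869 / 4194304 : ℝ), (-168386947 / 4194304 : ℝ), (-45478923 / 1073741824 : ℝ)⟩

/-- A chord cell of a link. -/
noncomputable def P8C1 : Cell := ⟨(25203 / 262144 : ℝ), (25505 / 262144 : ℝ), (-7105065 / 1048576 : ℝ), (-188474185 / 4194304 : ℝ), (-41883721 / 1048576 : ℝ), (-45556307 / 1073741824 : ℝ)⟩

/-- A chord cell of a link. -/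
noncomputable def P8C2 : Cell := ⟨(25505 / 262144 : ℝ), (25811 / 262144 : ℝ), (-28323393 / 4194304 : ℝ), (-93769659 / 2097152 : ℝ), (-166676193 / 4194304 : ℝ), (-44501667 / 1073741824 : ℝ)⟩

/-- A chord cell of a link. -/
noncomputable def P8C3 : Cell := ⟨(25811 / 262144 : ℝ), (13107 / 131072 : ℝ), (-28270363 / 4194304 : ℝ), (-46614559 / 1048576 : ℝ), (-165679129 / 4194304 : ℝ), (-44531455 / 1073741824 : ℝ)⟩

/-- The chord cells of a link. -/
noncomputable def cellsP8 : List Cell := [P8C0, P8C1, P8C2, P8C3]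

lemma hcoverP8 : ∀ x : ℝ, (3113 / 32768 : ℝ) ≤ x → x ≤ (13107 / 131072 : ℝ) → ∃ D ∈ cellsP8, D.l ≤ x ∧ x ≤ D.u := by
  refine cover_of_chain ?_ (by norm_num [P8C0])
  simp only [ChainP, P8C0, P8C1, P8C2, P8C3]
  norm_num

lemma rP8C0 : ∃ N : ℝ, Rw4 P.r2 N (coCell (7713 / 4096 : ℝ) (52513 / 4096 : ℝ) (12 : ℝ) 0 P8C0) := by
  refine ⟨(3221225472 : ℝ), ⟨Q92, List.mem_cons_of_mem _ (List.mem_cons_of_mem _ (List.mem_cons_of_mem _ (List.mem_cons_of_mem _ (List.mem_cons_of_mem _ (List.mem_cons_of_mem _ (List.mem_cons_of_mem _ (List.mem_cons_of_mem _ (List.mem_cons_of_mem _ (List.mem_cons_of_mem _ (List.mem_cons_of_mem _ (List.mem_cons_of_mem _ (List.mem_cons_of_mem _ (List.mem_cons_of_mem _ (List.mem_cons_of_mem _ (List.mem_cons_of_mem _ (List.mem_cons_of_mem _ (List.mem_cons_of_mem _ (List.mem_cons_of_mem _ (List.mem_cons_of_mem _ (List.mem_cons_of_mem _ (List.mem_cons_of_mem _ (List.mem_cons_of_mem _ (List.mem_cons_of_mem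 _ (List.mem_cons_of_mem _ (List.mem_cons_of_mem _ (List.mem_cons_of_mem _ (List.mem_cons_of_mem _ (List.mem_cons_of_mem _ (List.mem_cons_of_mem _ (List.mem_cons_of_mem _ (List.mem_cons_of_mem _ (List.mem_cons_of_mem _ (List.mem_cons_of_mem _ (List.mem_cons_of_mem _ (List.mem_cons_of_mem _ (List.mem_cons_of_mem _ (List.mem_cons_of_mem _ (List.mem_cons_of_mem _ (List.mem_cons_of_mem _ (List.mem_cons_of_mem _ (List.mem_cons_of_mem _ (List.mem_cons_of_mem _ (List.mem_cons_of_mem _ (List.mem_cons_of_mem _ (List.mem_cons_of_mem _ (List.mem_cons_of_mem _ (List.mem_cons_of_mem _ (List.mem_cons_of_mem _ (List.mem_cons_of_mem _ (List.mem_cons_of_mem _ (List.mem_cons_of_mem _ (List.mem_cons_of_mem _ (List.mem_cons_of_mem _ (List.mem_cons_of_mem _ (List.mem_cons_of_mem _ (List.mem_cons_of_mem _ (List.mem_cons_of_mem _ (List.mem_cons_of_mem _ (List.mem_cons_of_mem _ (List.mem_cons_of_mem _ (List.mem_cons_of_mem _ (List.mem_cons_of_mem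 _ (List.mem_cons_of_mem _ (List.mem_cons_of_mem _ (List.mem_cons_of_mem _ (List.mem_cons_of_mem _ (List.mem_cons_of_mem _ (List.mem_cons_of_mem _ (List.mem_cons_of_mem _ (List.mem_cons_of_mem _ (List.mem_cons_of_mem _ (List.mem_cons_of_mem _ (List.mem_cons_of_mem _ (List.mem_cons_of_mem _ (List.mem_cons_of_mem _ (List.mem_cons_of_mem _ (List.mem_cons_of_mem _ (List.mem_cons_of_mem _ (List.mem_cons_of_mem _ (List.mem_cons_of_mem _ (List.mem_cons_of_mem _ (List.mem_cons_of_mem _ (List.mem_cons_of_mem _ (List.mem_cons_of_mem _ (List.mem_cons_of_mem _ (List.mem_cons_of_mem _ (List.mem_cons_of_mem _ (List.mem_cons_of_mem _ (List.mem_cons_of_mem _ (List.mem_cons_of_mem _ (List.mem_cons_of_mem _ (List.mem_cons_self)))))))))))))))))))))))))))))))))))))))))))))))))))))))))))))))))))))))))))))))))))))))))))), ?_⟩, by norm_num⟩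
  constructor <;> norm_num [Q92, coCell, P8C0]

lemma lP8C0 : ∀ x1 x2 xc : ℝ, 0 ≤ x1 → x1 ≤ 1 → 0 ≤ x2 → x2 ≤ 1 → P8C0.l ≤ xc → xc ≤ P8C0.u →
    (7713 / 4096 : ℝ) * (1 - (1 - x1) ^ 5) + (52513 / 4096 : ℝ) * (1 - (1 - x2) ^ 5) - (12 : ℝ) * (1 - (1 - xc) ^ 5) + (1 / 1073741824 : ℝ)
      ≤ - P8C0.a1 * x1 - P8C0.a2 * x2 + P8C0.e * xc + P8C0.f := by
  have h := cell_lines_delta 5 (α1 := (7713 / 4096 : ℝ)) (α2 := (52513 / 4096 : ℝ)) (c := (12 : ℝ)) (y1 := (10369 / 131072 : ℝ)) (y2 := (21965 / 262144 : ℝ))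
    (A1 := (28400491 / 4194304 : ℝ)) (B1 := (26919805 / 268435456 : ℝ)) (A2 := (189459869 / 4194304 : ℝ)) (B2 := (50903853 / 67108864 : ℝ)) (l := (3113 / 32768 : ℝ)) (u := (25203 / 262144 : ℝ))
    (E := (-168386947 / 4194304 : ℝ)) (F := (-60476237 / 67108864 : ℝ)) (δ := (1 / 1073741824 : ℝ)) (by norm_num) (by norm_num) (by norm_num) (by norm_num) (by norm_num)
    (by norm_num) (by norm_num) (by norm_num) (by norm_num) (by norm_num) (by norm_num) (by norm_num) (by norm_num) (by norm_num) (by norm_num)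
  have e1 : P8C0.l = (3113 / 32768 : ℝ) := rfl
  have e2 : P8C0.u = (25203 / 262144 : ℝ) := rfl
  have e3 : P8C0.a1 = -(28400491 / 4194304 : ℝ) := by norm_num [P8C0]
  have e4 : P8C0.a2 = -(189459869 / 4194304 : ℝ) := by norm_num [P8C0]
  have e5 : P8C0.e = (-168386947 / 4194304 : ℝ) := rfl
  have e6 : P8C0.f = (26919805 / 268435456 : ℝ) + (50903853 / 67108864 : ℝ) + (-60476237 / 67108864 : ℝ) + (1 / 1073741824 : ℝ) := by norm_num [P8C0]
  rw [e1, e2, e3, e4, e5, e6]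
  exact h

lemma rP8C1 : ∃ N : ℝ, Rw4 P.r2 N (coCell (7713 / 4096 : ℝ) (52513 / 4096 : ℝ) (12 : ℝ) 0 P8C1) := by
  refine ⟨(3221225472 : ℝ), ⟨Q93, List.mem_cons_of_mem _ (List.mem_cons_of_mem _ (List.mem_cons_of_mem _ (List.mem_cons_of_mem _ (List.mem_cons_of_mem _ (List.mem_cons_of_mem _ (List.mem_cons_of_mem _ (List.mem_cons_of_mem _ (List.mem_cons_of_mem _ (List.mem_cons_of_mem _ (List.mem_cons_of_mem _ (List.mem_cons_of_mem _ (List.mem_cons_of_mem _ (List.mem_cons_of_mem _ (List.mem_cons_of_mem _ (List.mem_cons_of_mem _ (List.mem_cons_of_mem _ (List.mem_cons_of_mem _ (List.mem_cons_of_mem _ (List.mem_cons_of_mem _ (List.mem_cons_of_mem _ (List.mem_cons_of_mem _ (List.mem_cons_of_mem _ (List.mem_cons_of_mem _ (List.mem_cons_of_mem _ (List.mem_cons_of_mem _ (List.mem_cons_of_mem _ (List.mem_cons_of_mem _ (List.mem_cons_of_mem _ (List.mem_cons_of_mem _ (List.mem_cons_of_mem _ (List.mem_cons_of_mem _ (List.mem_cons_of_mem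 _ (List.mem_cons_of_mem _ (List.mem_cons_of_mem _ (List.mem_cons_of_mem _ (List.mem_cons_of_mem _ (List.mem_cons_of_mem _ (List.mem_cons_of_mem _ (List.mem_cons_of_mem _ (List.mem_cons_of_mem _ (List.mem_cons_of_mem _ (List.mem_cons_of_mem _ (List.mem_cons_of_mem _ (List.mem_cons_of_mem _ (List.mem_cons_of_mem _ (List.mem_cons_of_mem _ (List.mem_cons_of_mem _ (List.mem_cons_of_mem _ (List.mem_cons_of_mem _ (List.mem_cons_of_mem _ (List.mem_cons_of_mem _ (List.mem_cons_of_mem _ (List.mem_cons_of_mem _ (List.mem_cons_of_mem _ (List.mem_cons_of_mem _ (List.mem_cons_of_mem _ (List.mem_cons_of_mem _ (List.mem_cons_of_mem _ (List.mem_cons_of_mem _ (List.mem_cons_of_mem _ (List.mem_cons_of_mem _ (List.mem_cons_of_mem _ (List.mem_cons_of_mem _ (List.mem_cons_of_mem _ (List.mem_cons_of_mem _ (List.mem_cons_of_mem _ (List.mem_cons_of_mem _ (List.mem_cons_of_mem _ (List.mem_cons_of_mem _ (List.mem_cons_of_mem _ (List.mem_cons_of_mem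 _ (List.mem_cons_of_mem _ (List.mem_cons_of_mem _ (List.mem_cons_of_mem _ (List.mem_cons_of_mem _ (List.mem_cons_of_mem _ (List.mem_cons_of_mem _ (List.mem_cons_of_mem _ (List.mem_cons_of_mem _ (List.mem_cons_of_mem _ (List.mem_cons_of_mem _ (List.mem_cons_of_mem _ (List.mem_cons_of_mem _ (List.mem_cons_of_mem _ (List.mem_cons_of_mem _ (List.mem_cons_of_mem _ (List.mem_cons_of_mem _ (List.mem_cons_of_mem _ (List.mem_cons_of_mem _ (List.mem_cons_of_mem _ (List.mem_cons_of_mem _ (List.mem_cons_of_mem _ (List.mem_cons_self))))))))))))))))))))))))))))))))))))))))))))))))))))))))))))))))))))))))))))))))))))))))))))), ?_⟩, by norm_num⟩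
  constructor <;> norm_num [Q93, coCell, P8C1]

lemma lP8C1 : ∀ x1 x2 xc : ℝ, 0 ≤ x1 → x1 ≤ 1 → 0 ≤ x2 → x2 ≤ 1 → P8C1.l ≤ xc → xc ≤ P8C1.u →
    (7713 / 4096 : ℝ) * (1 - (1 - x1) ^ 5) + (52513 / 4096 : ℝ) * (1 - (1 - x2) ^ 5) - (12 : ℝ) * (1 - (1 - xc) ^ 5) + (1 / 1073741824 : ℝ)
      ≤ - P8C1.a1 * x1 - P8C1.a2 * x2 + P8C1.e * xc + P8C1.f := by
  have h := cell_lines_delta 5 (α1 := (7713 / 4096 : ℝ)) (α2 := (52513 / 4096 : ℝ)) (c := (12 : ℝ)) (y1 := (2587 / 32768 : ℝ)) (y2 := (11139 / 131072 : ℝ))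
    (A1 := (7105065 / 1048576 : ℝ)) (B1 := (26819843 / 268435456 : ℝ)) (A2 := (188474185 / 4194304 : ℝ)) (B2 := (208938837 / 268435456 : ℝ)) (l := (25203 / 262144 : ℝ)) (u := (25505 / 262144 : ℝ))
    (E := (-41883721 / 1048576 : ℝ)) (F := (-247147757 / 268435456 : ℝ)) (δ := (1 / 1073741824 : ℝ)) (by norm_num) (by norm_num) (by norm_num) (by norm_num) (by norm_num)
    (by norm_num) (by norm_num) (by norm_num) (by norm_num) (by norm_num) (by norm_num) (by norm_num) (by norm_num) (by norm_num) (by norm_num)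
  have e1 : P8C1.l = (25203 / 262144 : ℝ) := rfl
  have e2 : P8C1.u = (25505 / 262144 : ℝ) := rfl
  have e3 : P8C1.a1 = -(7105065 / 1048576 : ℝ) := by norm_num [P8C1]
  have e4 : P8C1.a2 = -(188474185 / 4194304 : ℝ) := by norm_num [P8C1]
  have e5 : P8C1.e = (-41883721 / 1048576 : ℝ) := rfl
  have e6 : P8C1.f = (26819843 / 268435456 : ℝ) + (208938837 / 268435456 : ℝ) + (-247147757 / 268435456 : ℝ) + (1 / 1073741824 : ℝ) := by norm_num [P8C1]
  rw [e1, e2, e3, e4, e5, e6]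
  exact h

lemma rP8C2 : ∃ N : ℝ, Rw4 P.r2 N (coCell (7713 / 4096 : ℝ) (52513 / 4096 : ℝ) (12 : ℝ) 0 P8C2) := by
  refine ⟨(3221225472 : ℝ), ⟨Q94, List.mem_cons_of_mem _ (List.mem_cons_of_mem _ (List.mem_cons_of_mem _ (List.mem_cons_of_mem _ (List.mem_cons_of_mem _ (List.mem_cons_of_mem _ (List.mem_cons_of_mem _ (List.mem_cons_of_mem _ (List.mem_cons_of_mem _ (List.mem_cons_of_mem _ (List.mem_cons_of_mem _ (List.mem_cons_of_mem _ (List.mem_cons_of_mem _ (List.mem_cons_of_mem _ (List.mem_cons_of_mem _ (List.mem_cons_of_mem _ (List.mem_cons_of_mem _ (List.mem_cons_of_mem _ (List.mem_cons_of_mem _ (List.mem_cons_of_mem _ (List.mem_cons_of_mem _ (List.mem_cons_of_mem _ (List.mem_cons_of_mem _ (List.mem_cons_of_mem _ (List.mem_cons_of_mem _ (List.mem_cons_of_mem _ (List.mem_cons_of_mem _ (List.mem_cons_of_mem _ (List.mem_cons_of_mem _ (List.mem_cons_of_mem _ (List.mem_cons_of_mem _ (List.mem_cons_of_mem _ (List.mem_cons_of_mem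 _ (List.mem_cons_of_mem _ (List.mem_cons_of_mem _ (List.mem_cons_of_mem _ (List.mem_cons_of_mem _ (List.mem_cons_of_mem _ (List.mem_cons_of_mem _ (List.mem_cons_of_mem _ (List.mem_cons_of_mem _ (List.mem_cons_of_mem _ (List.mem_cons_of_mem _ (List.mem_cons_of_mem _ (List.mem_cons_of_mem _ (List.mem_cons_of_mem _ (List.mem_cons_of_mem _ (List.mem_cons_of_mem _ (List.mem_cons_of_mem _ (List.mem_cons_of_mem _ (List.mem_cons_of_mem _ (List.mem_cons_of_mem _ (List.mem_cons_of_mem _ (List.mem_cons_of_mem _ (List.mem_cons_of_mem _ (List.mem_cons_of_mem _ (List.mem_cons_of_mem _ (List.mem_cons_of_mem _ (List.mem_cons_of_mem _ (List.mem_cons_of_mem _ (List.mem_cons_of_mem _ (List.mem_cons_of_mem _ (List.mem_cons_of_mem _ (List.mem_cons_of_mem _ (List.mem_cons_of_mem _ (List.mem_cons_of_mem _ (List.mem_cons_of_mem _ (List.mem_cons_of_mem _ (List.mem_cons_of_mem _ (List.mem_cons_of_mem _ (List.mem_cons_of_mem _ (List.mem_cons_of_mem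 _ (List.mem_cons_of_mem _ (List.mem_cons_of_mem _ (List.mem_cons_of_mem _ (List.mem_cons_of_mem _ (List.mem_cons_of_mem _ (List.mem_cons_of_mem _ (List.mem_cons_of_mem _ (List.mem_cons_of_mem _ (List.mem_cons_of_mem _ (List.mem_cons_of_mem _ (List.mem_cons_of_mem _ (List.mem_cons_of_mem _ (List.mem_cons_of_mem _ (List.mem_cons_of_mem _ (List.mem_cons_of_mem _ (List.mem_cons_of_mem _ (List.mem_cons_of_mem _ (List.mem_cons_of_mem _ (List.mem_cons_of_mem _ (List.mem_cons_of_mem _ (List.mem_cons_of_mem _ (List.mem_cons_of_mem _ (List.mem_cons_self)))))))))))))))))))))))))))))))))))))))))))))))))))))))))))))))))))))))))))))))))))))))))))))), ?_⟩, by norm_num⟩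
  constructor <;> norm_num [Q94, coCell, P8C2]

lemma lP8C2 : ∀ x1 x2 xc : ℝ, 0 ≤ x1 → x1 ≤ 1 → 0 ≤ x2 → x2 ≤ 1 → P8C2.l ≤ xc → xc ≤ P8C2.u →
    (7713 / 4096 : ℝ) * (1 - (1 - x1) ^ 5) + (52513 / 4096 : ℝ) * (1 - (1 - x2) ^ 5) - (12 : ℝ) * (1 - (1 - xc) ^ 5) + (1 / 1073741824 : ℝ)
      ≤ - P8C2.a1 * x1 - P8C2.a2 * x2 + P8C2.e * xc + P8C2.f := by
  have h := cell_lines_delta 5 (α1 := (7713 / 4096 : ℝ)) (α2 := (52513 / 4096 : ℝ)) (c := (12 : ℝ)) (y1 := (10451 / 131072 : ℝ)) (y2 := (1411 / 16384 : ℝ))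
    (A1 := (28323393 / 4194304 : ℝ)) (B1 := (27311721 / 268435456 : ℝ)) (A2 := (93769659 / 2097152 : ℝ)) (B2 := (107028761 / 134217728 : ℝ)) (l := (25505 / 262144 : ℝ)) (u := (25811 / 262144 : ℝ))
    (E := (-166676193 / 4194304 : ℝ)) (F := (-63123665 / 67108864 : ℝ)) (δ := (1 / 1073741824 : ℝ)) (by norm_num) (by norm_num) (by norm_num) (by norm_num) (by norm_num)
    (by norm_num) (by norm_num) (by norm_num) (by norm_num) (by norm_num) (by norm_num) (by norm_num) (by norm_num) (by norm_num) (by norm_num)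
  have e1 : P8C2.l = (25505 / 262144 : ℝ) := rfl
  have e2 : P8C2.u = (25811 / 262144 : ℝ) := rfl
  have e3 : P8C2.a1 = -(28323393 / 4194304 : ℝ) := by norm_num [P8C2]
  have e4 : P8C2.a2 = -(93769659 / 2097152 : ℝ) := by norm_num [P8C2]
  have e5 : P8C2.e = (-166676193 / 4194304 : ℝ) := rfl
  have e6 : P8C2.f = (27311721 / 268435456 : ℝ) + (107028761 / 134217728 : ℝ) + (-63123665 / 67108864 : ℝ) + (1 / 1073741824 : ℝ) := by norm_num [P8C2]
  rw [e1, e2, e3, e4, e5, e6]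
  exact h

lemma rP8C3 : ∃ N : ℝ, Rw4 P.r2 N (coCell (7713 / 4096 : ℝ) (52513 / 4096 : ℝ) (12 : ℝ) 0 P8C3) := by
  refine ⟨(3221225472 : ℝ), ⟨Q95, List.mem_cons_of_mem _ (List.mem_cons_of_mem _ (List.mem_cons_of_mem _ (List.mem_cons_of_mem _ (List.mem_cons_of_mem _ (List.mem_cons_of_mem _ (List.mem_cons_of_mem _ (List.mem_cons_of_mem _ (List.mem_cons_of_mem _ (List.mem_cons_of_mem _ (List.mem_cons_of_mem _ (List.mem_cons_of_mem _ (List.mem_cons_of_mem _ (List.mem_cons_of_mem _ (List.mem_cons_of_mem _ (List.mem_cons_of_mem _ (List.mem_cons_of_mem _ (List.mem_cons_of_mem _ (List.mem_cons_of_mem _ (List.mem_cons_of_mem _ (List.mem_cons_of_mem _ (List.mem_cons_of_mem _ (List.mem_cons_of_mem _ (List.mem_cons_of_mem _ (List.mem_cons_of_mem _ (List.mem_cons_of_mem _ (List.mem_cons_of_mem _ (List.mem_cons_of_mem _ (List.mem_cons_of_mem _ (List.mem_cons_of_mem _ (List.mem_cons_of_mem _ (List.mem_cons_of_mem _ (List.mem_cons_of_mem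 _ (List.mem_cons_of_mem _ (List.mem_cons_of_mem _ (List.mem_cons_of_mem _ (List.mem_cons_of_mem _ (List.mem_cons_of_mem _ (List.mem_cons_of_mem _ (List.mem_cons_of_mem _ (List.mem_cons_of_mem _ (List.mem_cons_of_mem _ (List.mem_cons_of_mem _ (List.mem_cons_of_mem _ (List.mem_cons_of_mem _ (List.mem_cons_of_mem _ (List.mem_cons_of_mem _ (List.mem_cons_of_mem _ (List.mem_cons_of_mem _ (List.mem_cons_of_mem _ (List.mem_cons_of_mem _ (List.mem_cons_of_mem _ (List.mem_cons_of_mem _ (List.mem_cons_of_mem _ (List.mem_cons_of_mem _ (List.mem_cons_of_mem _ (List.mem_cons_of_mem _ (List.mem_cons_of_mem _ (List.mem_cons_of_mem _ (List.mem_cons_of_mem _ (List.mem_cons_of_mem _ (List.mem_cons_of_mem _ (List.mem_cons_of_mem _ (List.mem_cons_of_mem _ (List.mem_cons_of_mem _ (List.mem_cons_of_mem _ (List.mem_cons_of_mem _ (List.mem_cons_of_mem _ (List.mem_cons_of_mem _ (List.mem_cons_of_mem _ (List.mem_cons_of_mem _ (List.mem_cons_of_mem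 _ (List.mem_cons_of_mem _ (List.mem_cons_of_mem _ (List.mem_cons_of_mem _ (List.mem_cons_of_mem _ (List.mem_cons_of_mem _ (List.mem_cons_of_mem _ (List.mem_cons_of_mem _ (List.mem_cons_of_mem _ (List.mem_cons_of_mem _ (List.mem_cons_of_mem _ (List.mem_cons_of_mem _ (List.mem_cons_of_mem _ (List.mem_cons_of_mem _ (List.mem_cons_of_mem _ (List.mem_cons_of_mem _ (List.mem_cons_of_mem _ (List.mem_cons_of_mem _ (List.mem_cons_of_mem _ (List.mem_cons_of_mem _ (List.mem_cons_of_mem _ (List.mem_cons_of_mem _ (List.mem_cons_of_mem _ (List.mem_cons_of_mem _ (List.mem_cons_self))))))))))))))))))))))))))))))))))))))))))))))))))))))))))))))))))))))))))))))))))))))))))))))), ?_⟩, by norm_num⟩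
  constructor <;> norm_num [Q95, coCell, P8C3]

lemma lP8C3 : ∀ x1 x2 xc : ℝ, 0 ≤ x1 → x1 ≤ 1 → 0 ≤ x2 → x2 ≤ 1 → P8C3.l ≤ xc → xc ≤ P8C3.u →
    (7713 / 4096 : ℝ) * (1 - (1 - x1) ^ 5) + (52513 / 4096 : ℝ) * (1 - (1 - x2) ^ 5) - (12 : ℝ) * (1 - (1 - xc) ^ 5) + (1 / 1073741824 : ℝ)
      ≤ - P8C3.a1 * x1 - P8C3.a2 * x2 + P8C3.e * xc + P8C3.f := by
  have h := cell_lines_delta 5 (α1 := (7713 / 4096 : ℝ)) (α2 := (52513 / 4096 : ℝ)) (c := (12 : ℝ)) (y1 := (21015 / 262144 : ℝ)) (y2 := (11461 / 131072 : ℝ))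
    (A1 := (28270363 / 4194304 : ℝ)) (B1 := (13791519 / 134217728 : ℝ)) (A2 := (46614559 / 1048576 : ℝ)) (B2 := (110030885 / 134217728 : ℝ)) (l := (25811 / 262144 : ℝ)) (u := (13107 / 131072 : ℝ))
    (E := (-165679129 / 4194304 : ℝ)) (F := (-32347209 / 33554432 : ℝ)) (δ := (1 / 1073741824 : ℝ)) (by norm_num) (by norm_num) (by norm_num) (by norm_num) (by norm_num)
    (by norm_num) (by norm_num) (by norm_num) (by norm_num) (by norm_num) (by norm_num) (by norm_num) (by norm_num) (by norm_num) (by norm_num)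
  have e1 : P8C3.l = (25811 / 262144 : ℝ) := rfl
  have e2 : P8C3.u = (13107 / 131072 : ℝ) := rfl
  have e3 : P8C3.a1 = -(28270363 / 4194304 : ℝ) := by norm_num [P8C3]
  have e4 : P8C3.a2 = -(46614559 / 1048576 : ℝ) := by norm_num [P8C3]
  have e5 : P8C3.e = (-165679129 / 4194304 : ℝ) := rfl
  have e6 : P8C3.f = (13791519 / 134217728 : ℝ) + (110030885 / 134217728 : ℝ) + (-32347209 / 33554432 : ℝ) + (1 / 1073741824 : ℝ) := by norm_num [P8C3]
  rw [e1, e2, e3, e4, e5, e6]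
  exact h

/-- A link of the chain. -/
lemma link8 {lam : ℝ} (h0 : -(1 / 2) < lam) (h1 : lam < 1) (hB : BoxS lam P 0 HH 0 HH)
    (h : ∃ n, 1 - En 5 lam n mc ≤ (13107 / 131072 : ℝ)) : ∃ n, 1 - En 5 lam n mc ≤ (3113 / 32768 : ℝ) :=
  phase_of_box (by norm_num) h0 h1 hB (7713 / 4096 : ℝ) (52513 / 4096 : ℝ) (12 : ℝ) (1 / 1073741824 : ℝ) (3113 / 32768 : ℝ) (13107 / 131072 : ℝ) (by norm_num) cellsP8 hcoverP8
    (forall_cons lP8C0 (forall_cons lP8C1 (forall_cons lP8C2 (forall_cons lP8C3 (forall_nil))))) (forall_cons rP8C0 (forall_cons rP8C1 (forall_cons rP8C2 (forall_cons rP8C3 (forall_nil))))) h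

/-- A chord cell of a link. -/
noncomputable def P9C0 : Cell := ⟨(13107 / 131072 : ℝ), (26529 / 262144 : ℝ), (-26982693 / 4194304 : ℝ), (-93021199 / 2097152 : ℝ), (-82336889 / 2097152 : ℝ), (-44074731 / 1073741824 : ℝ)⟩

/-- A chord cell of a link. -/
noncomputable def P9C1 : Cell := ⟨(26529 / 262144 : ℝ), (26847 / 262144 : ℝ), (-27134959 / 4194304 : ℝ), (-92440003 / 2097152 : ℝ), (-81895665 / 2097152 : ℝ), (-43459191 / 1073741824 : ℝ)⟩

/-- A chord cell of a link. -/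
noncomputable def P9C2 : Cell := ⟨(26847 / 262144 : ℝ), (27169 / 262144 : ℝ), (-27003765 / 4194304 : ℝ), (-183966995 / 4194304 : ℝ), (-10181421 / 262144 : ℝ), (-42834547 / 1073741824 : ℝ)⟩

/-- A chord cell of a link. -/
noncomputable def P9C3 : Cell := ⟨(27169 / 262144 : ℝ), (27525 / 262144 : ℝ), (-27027093 / 4194304 : ℝ), (-182885077 / 4194304 : ℝ), (-10122835 / 262144 : ℝ), (-42712443 / 1073741824 : ℝ)⟩

/-- The chord cells of a link. -/
noncomputable def cellsP9 : List Cell := [P9C0, P9C1, P9C2, P9C3]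

lemma hcoverP9 : ∀ x : ℝ, (13107 / 131072 : ℝ) ≤ x → x ≤ (27525 / 262144 : ℝ) → ∃ D ∈ cellsP9, D.l ≤ x ∧ x ≤ D.u := by
  refine cover_of_chain ?_ (by norm_num [P9C0])
  simp only [ChainP, P9C0, P9C1, P9C2, P9C3]
  norm_num

lemma rP9C0 : ∃ N : ℝ, Rw4 P.r2 N (coCell (3701 / 2048 : ℝ) (52701 / 4096 : ℝ) (12 : ℝ) 0 P9C0) := by
  refine ⟨(3221225472 : ℝ), ⟨Q96, List.mem_cons_of_mem _ (List.mem_cons_of_mem _ (List.mem_cons_of_mem _ (List.mem_cons_of_mem _ (List.mem_cons_of_mem _ (List.mem_cons_of_mem _ (List.mem_cons_of_mem _ (List.mem_cons_of_mem _ (List.mem_cons_of_mem _ (List.mem_cons_of_mem _ (List.mem_cons_of_mem _ (List.mem_cons_of_mem _ (List.mem_cons_of_mem _ (List.mem_cons_of_mem _ (List.mem_cons_of_mem _ (List.mem_cons_of_mem _ (List.mem_cons_of_mem _ (List.mem_cons_of_mem _ (List.mem_cons_of_mem _ (List.mem_cons_of_mem _ (List.mem_cons_of_mem _ (List.mem_cons_of_mem _ (List.mem_cons_of_mem _ (List.mem_cons_of_mem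 _ (List.mem_cons_of_mem _ (List.mem_cons_of_mem _ (List.mem_cons_of_mem _ (List.mem_cons_of_mem _ (List.mem_cons_of_mem _ (List.mem_cons_of_mem _ (List.mem_cons_of_mem _ (List.mem_cons_of_mem _ (List.mem_cons_of_mem _ (List.mem_cons_of_mem _ (List.mem_cons_of_mem _ (List.mem_cons_of_mem _ (List.mem_cons_of_mem _ (List.mem_cons_of_mem _ (List.mem_cons_of_mem _ (List.mem_cons_of_mem _ (List.mem_cons_of_mem _ (List.mem_cons_of_mem _ (List.mem_cons_of_mem _ (List.mem_cons_of_mem _ (List.mem_cons_of_mem _ (List.mem_cons_of_mem _ (List.mem_cons_of_mem _ (List.mem_cons_of_mem _ (List.mem_cons_of_mem _ (List.mem_cons_of_mem _ (List.mem_cons_of_mem _ (List.mem_cons_of_mem _ (List.mem_cons_of_mem _ (List.mem_cons_of_mem _ (List.mem_cons_of_mem _ (List.mem_cons_of_mem _ (List.mem_cons_of_mem _ (List.mem_cons_of_mem _ (List.mem_cons_of_mem _ (List.mem_cons_of_mem _ (List.mem_cons_of_mem _ (List.mem_cons_of_mem _ (List.mem_cons_of_mem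 _ (List.mem_cons_of_mem _ (List.mem_cons_of_mem _ (List.mem_cons_of_mem _ (List.mem_cons_of_mem _ (List.mem_cons_of_mem _ (List.mem_cons_of_mem _ (List.mem_cons_of_mem _ (List.mem_cons_of_mem _ (List.mem_cons_of_mem _ (List.mem_cons_of_mem _ (List.mem_cons_of_mem _ (List.mem_cons_of_mem _ (List.mem_cons_of_mem _ (List.mem_cons_of_mem _ (List.mem_cons_of_mem _ (List.mem_cons_of_mem _ (List.mem_cons_of_mem _ (List.mem_cons_of_mem _ (List.mem_cons_of_mem _ (List.mem_cons_of_mem _ (List.mem_cons_of_mem _ (List.mem_cons_of_mem _ (List.mem_cons_of_mem _ (List.mem_cons_of_mem _ (List.mem_cons_of_mem _ (List.mem_cons_of_mem _ (List.mem_cons_of_mem _ (List.mem_cons_of_mem _ (List.mem_cons_of_mem _ (List.mem_cons_of_mem _ (List.mem_cons_of_mem _ (List.mem_cons_of_mem _ (List.mem_cons_of_mem _ (List.mem_cons_self)))))))))))))))))))))))))))))))))))))))))))))))))))))))))))))))))))))))))))))))))))))))))))))))), ?_⟩, by norm_num⟩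
  constructor <;> norm_num [Q96, coCell, P9C0]

lemma lP9C0 : ∀ x1 x2 xc : ℝ, 0 ≤ x1 → x1 ≤ 1 → 0 ≤ x2 → x2 ≤ 1 → P9C0.l ≤ xc → xc ≤ P9C0.u →
    (3701 / 2048 : ℝ) * (1 - (1 - x1) ^ 5) + (52701 / 4096 : ℝ) * (1 - (1 - x2) ^ 5) - (12 : ℝ) * (1 - (1 - xc) ^ 5) + (1 / 1073741824 : ℝ)
      ≤ - P9C0.a1 * x1 - P9C0.a2 * x2 + P9C0.e * xc + P9C0.f := by
  have h := cell_lines_delta 5 (α1 := (3701 / 2048 : ℝ)) (α2 := (52701 / 4096 : ℝ)) (c := (12 : ℝ)) (y1 := (667 / 8192 : ℝ)) (y2 := (23269 / 262144 : ℝ))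
    (A1 := (26982693 / 4194304 : ℝ)) (B1 := (27234909 / 268435456 : ℝ)) (A2 := (93021199 / 2097152 : ℝ)) (B2 := (56739557 / 67108864 : ℝ)) (l := (13107 / 131072 : ℝ)) (u := (26529 / 262144 : ℝ))
    (E := (-82336889 / 2097152 : ℝ)) (F := (-66302955 / 67108864 : ℝ)) (δ := (1 / 1073741824 : ℝ)) (by norm_num) (by norm_num) (by norm_num) (by norm_num) (by norm_num)
    (by norm_num) (by norm_num) (by norm_num) (by norm_num) (by norm_num) (by norm_num) (by norm_num) (by norm_num) (by norm_num) (by norm_num)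
  have e1 : P9C0.l = (13107 / 131072 : ℝ) := rfl
  have e2 : P9C0.u = (26529 / 262144 : ℝ) := rfl
  have e3 : P9C0.a1 = -(26982693 / 4194304 : ℝ) := by norm_num [P9C0]
  have e4 : P9C0.a2 = -(93021199 / 2097152 : ℝ) := by norm_num [P9C0]
  have e5 : P9C0.e = (-82336889 / 2097152 : ℝ) := rfl
  have e6 : P9C0.f = (27234909 / 268435456 : ℝ) + (56739557 / 67108864 : ℝ) + (-66302955 / 67108864 : ℝ) + (1 / 1073741824 : ℝ) := by norm_num [P9C0]
  rw [e1, e2, e3, e4, e5, e6]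
  exact h

lemma rP9C1 : ∃ N : ℝ, Rw4 P.r2 N (coCell (3701 / 2048 : ℝ) (52701 / 4096 : ℝ) (12 : ℝ) 0 P9C1) := by
  refine ⟨(3221225472 : ℝ), ⟨Q97, List.mem_cons_of_mem _ (List.mem_cons_of_mem _ (List.mem_cons_of_mem _ (List.mem_cons_of_mem _ (List.mem_cons_of_mem _ (List.mem_cons_of_mem _ (List.mem_cons_of_mem _ (List.mem_cons_of_mem _ (List.mem_cons_of_mem _ (List.mem_cons_of_mem _ (List.mem_cons_of_mem _ (List.mem_cons_of_mem _ (List.mem_cons_of_mem _ (List.mem_cons_of_mem _ (List.mem_cons_of_mem _ (List.mem_cons_of_mem _ (List.mem_cons_of_mem _ (List.mem_cons_of_mem _ (List.mem_cons_of_mem _ (List.mem_cons_of_mem _ (List.mem_cons_of_mem _ (List.mem_cons_of_mem _ (List.mem_cons_of_mem _ (List.mem_cons_of_mem _ (List.mem_cons_of_mem _ (List.mem_cons_of_mem _ (List.mem_cons_of_mem _ (List.mem_cons_of_mem _ (List.mem_cons_of_mem _ (List.mem_cons_of_mem _ (List.mem_cons_of_mem _ (List.mem_cons_of_mem _ (List.mem_cons_of_mem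 _ (List.mem_cons_of_mem _ (List.mem_cons_of_mem _ (List.mem_cons_of_mem _ (List.mem_cons_of_mem _ (List.mem_cons_of_mem _ (List.mem_cons_of_mem _ (List.mem_cons_of_mem _ (List.mem_cons_of_mem _ (List.mem_cons_of_mem _ (List.mem_cons_of_mem _ (List.mem_cons_of_mem _ (List.mem_cons_of_mem _ (List.mem_cons_of_mem _ (List.mem_cons_of_mem _ (List.mem_cons_of_mem _ (List.mem_cons_of_mem _ (List.mem_cons_of_mem _ (List.mem_cons_of_mem _ (List.mem_cons_of_mem _ (List.mem_cons_of_mem _ (List.mem_cons_of_mem _ (List.mem_cons_of_mem _ (List.mem_cons_of_mem _ (List.mem_cons_of_mem _ (List.mem_cons_of_mem _ (List.mem_cons_of_mem _ (List.mem_cons_of_mem _ (List.mem_cons_of_mem _ (List.mem_cons_of_mem _ (List.mem_cons_of_mem _ (List.mem_cons_of_mem _ (List.mem_cons_of_mem _ (List.mem_cons_of_mem _ (List.mem_cons_of_mem _ (List.mem_cons_of_mem _ (List.mem_cons_of_mem _ (List.mem_cons_of_mem _ (List.mem_cons_of_mem _ (List.mem_cons_of_mem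 _ (List.mem_cons_of_mem _ (List.mem_cons_of_mem _ (List.mem_cons_of_mem _ (List.mem_cons_of_mem _ (List.mem_cons_of_mem _ (List.mem_cons_of_mem _ (List.mem_cons_of_mem _ (List.mem_cons_of_mem _ (List.mem_cons_of_mem _ (List.mem_cons_of_mem _ (List.mem_cons_of_mem _ (List.mem_cons_of_mem _ (List.mem_cons_of_mem _ (List.mem_cons_of_mem _ (List.mem_cons_of_mem _ (List.mem_cons_of_mem _ (List.mem_cons_of_mem _ (List.mem_cons_of_mem _ (List.mem_cons_of_mem _ (List.mem_cons_of_mem _ (List.mem_cons_of_mem _ (List.mem_cons_of_mem _ (List.mem_cons_of_mem _ (List.mem_cons_of_mem _ (List.mem_cons_of_mem _ (List.mem_cons_self))))))))))))))))))))))))))))))))))))))))))))))))))))))))))))))))))))))))))))))))))))))))))))))))), ?_⟩, by norm_num⟩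
  constructor <;> norm_num [Q97, coCell, P9C1]

lemma lP9C1 : ∀ x1 x2 xc : ℝ, 0 ≤ x1 → x1 ≤ 1 → 0 ≤ x2 → x2 ≤ 1 → P9C1.l ≤ xc → xc ≤ P9C1.u →
    (3701 / 2048 : ℝ) * (1 - (1 - x1) ^ 5) + (52701 / 4096 : ℝ) * (1 - (1 - x2) ^ 5) - (12 : ℝ) * (1 - (1 - xc) ^ 5) + (1 / 1073741824 : ℝ)
      ≤ - P9C1.a1 * x1 - P9C1.a2 * x2 + P9C1.e * xc + P9C1.f := by
  have h := cell_lines_delta 5 (α1 := (3701 / 2048 : ℝ)) (α2 := (52701 / 4096 : ℝ)) (c := (12 : ℝ)) (y1 := (21005 / 262144 : ℝ)) (y2 := (23643 / 262144 : ℝ))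
    (A1 := (27134959 / 4194304 : ℝ)) (B1 := (26447787 / 268435456 : ℝ)) (A2 := (92440003 / 2097152 : ℝ)) (B2 := (29201835 / 33554432 : ℝ)) (l := (26529 / 262144 : ℝ)) (u := (26847 / 262144 : ℝ))
    (E := (-81895665 / 2097152 : ℝ)) (F := (-270927265 / 268435456 : ℝ)) (δ := (1 / 1073741824 : ℝ)) (by norm_num) (by norm_num) (by norm_num) (by norm_num) (by norm_num)
    (by norm_num) (by norm_num) (by norm_num) (by norm_num) (by norm_num) (by norm_num) (by norm_num) (by norm_num) (by norm_num) (by norm_num)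
  have e1 : P9C1.l = (26529 / 262144 : ℝ) := rfl
  have e2 : P9C1.u = (26847 / 262144 : ℝ) := rfl
  have e3 : P9C1.a1 = -(27134959 / 4194304 : ℝ) := by norm_num [P9C1]
  have e4 : P9C1.a2 = -(92440003 / 2097152 : ℝ) := by norm_num [P9C1]
  have e5 : P9C1.e = (-81895665 / 2097152 : ℝ) := rfl
  have e6 : P9C1.f = (26447787 / 268435456 : ℝ) + (29201835 / 33554432 : ℝ) + (-270927265 / 268435456 : ℝ) + (1 / 1073741824 : ℝ) := by norm_num [P9C1]
  rw [e1, e2, e3, e4, e5, e6]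
  exact h

lemma rP9C2 : ∃ N : ℝ, Rw4 P.r2 N (coCell (3701 / 2048 : ℝ) (52701 / 4096 : ℝ) (12 : ℝ) 0 P9C2) := by
  refine ⟨(3221225472 : ℝ), ⟨Q98, List.mem_cons_of_mem _ (List.mem_cons_of_mem _ (List.mem_cons_of_mem _ (List.mem_cons_of_mem _ (List.mem_cons_of_mem _ (List.mem_cons_of_mem _ (List.mem_cons_of_mem _ (List.mem_cons_of_mem _ (List.mem_cons_of_mem _ (List.mem_cons_of_mem _ (List.mem_cons_of_mem _ (List.mem_cons_of_mem _ (List.mem_cons_of_mem _ (List.mem_cons_of_mem _ (List.mem_cons_of_mem _ (List.mem_cons_of_mem _ (List.mem_cons_of_mem _ (List.mem_cons_of_mem _ (List.mem_cons_of_mem _ (List.mem_cons_of_mem _ (List.mem_cons_of_mem _ (List.mem_cons_of_mem _ (List.mem_cons_of_mem _ (List.mem_cons_of_mem _ (List.mem_cons_of_mem _ (List.mem_cons_of_mem _ (List.mem_cons_of_mem _ (List.mem_cons_of_mem _ (List.mem_cons_of_mem _ (List.mem_cons_of_mem _ (List.mem_cons_of_mem _ (List.mem_cons_of_mem _ (List.mem_cons_of_mem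 _ (List.mem_cons_of_mem _ (List.mem_cons_of_mem _ (List.mem_cons_of_mem _ (List.mem_cons_of_mem _ (List.mem_cons_of_mem _ (List.mem_cons_of_mem _ (List.mem_cons_of_mem _ (List.mem_cons_of_mem _ (List.mem_cons_of_mem _ (List.mem_cons_of_mem _ (List.mem_cons_of_mem _ (List.mem_cons_of_mem _ (List.mem_cons_of_mem _ (List.mem_cons_of_mem _ (List.mem_cons_of_mem _ (List.mem_cons_of_mem _ (List.mem_cons_of_mem _ (List.mem_cons_of_mem _ (List.mem_cons_of_mem _ (List.mem_cons_of_mem _ (List.mem_cons_of_mem _ (List.mem_cons_of_mem _ (List.mem_cons_of_mem _ (List.mem_cons_of_mem _ (List.mem_cons_of_mem _ (List.mem_cons_of_mem _ (List.mem_cons_of_mem _ (List.mem_cons_of_mem _ (List.mem_cons_of_mem _ (List.mem_cons_of_mem _ (List.mem_cons_of_mem _ (List.mem_cons_of_mem _ (List.mem_cons_of_mem _ (List.mem_cons_of_mem _ (List.mem_cons_of_mem _ (List.mem_cons_of_mem _ (List.mem_cons_of_mem _ (List.mem_cons_of_mem _ (List.mem_cons_of_mem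 _ (List.mem_cons_of_mem _ (List.mem_cons_of_mem _ (List.mem_cons_of_mem _ (List.mem_cons_of_mem _ (List.mem_cons_of_mem _ (List.mem_cons_of_mem _ (List.mem_cons_of_mem _ (List.mem_cons_of_mem _ (List.mem_cons_of_mem _ (List.mem_cons_of_mem _ (List.mem_cons_of_mem _ (List.mem_cons_of_mem _ (List.mem_cons_of_mem _ (List.mem_cons_of_mem _ (List.mem_cons_of_mem _ (List.mem_cons_of_mem _ (List.mem_cons_of_mem _ (List.mem_cons_of_mem _ (List.mem_cons_of_mem _ (List.mem_cons_of_mem _ (List.mem_cons_of_mem _ (List.mem_cons_of_mem _ (List.mem_cons_of_mem _ (List.mem_cons_of_mem _ (List.mem_cons_of_mem _ (List.mem_cons_of_mem _ (List.mem_cons_self)))))))))))))))))))))))))))))))))))))))))))))))))))))))))))))))))))))))))))))))))))))))))))))))))), ?_⟩, by norm_num⟩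
  constructor <;> norm_num [Q98, coCell, P9C2]

lemma lP9C2 : ∀ x1 x2 xc : ℝ, 0 ≤ x1 → x1 ≤ 1 → 0 ≤ x2 → x2 ≤ 1 → P9C2.l ≤ xc → xc ≤ P9C2.u →
    (3701 / 2048 : ℝ) * (1 - (1 - x1) ^ 5) + (52701 / 4096 : ℝ) * (1 - (1 - x2) ^ 5) - (12 : ℝ) * (1 - (1 - xc) ^ 5) + (1 / 1073741824 : ℝ)
      ≤ - P9C2.a1 * x1 - P9C2.a2 * x2 + P9C2.e * xc + P9C2.f := by
  have h := cell_lines_delta 5 (α1 := (3701 / 2048 : ℝ)) (α2 := (52701 / 4096 : ℝ)) (c := (12 : ℝ)) (y1 := (21297 / 262144 : ℝ)) (y2 := (11969 / 131072 : ℝ))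
    (A1 := (27003765 / 4194304 : ℝ)) (B1 := (27125223 / 268435456 : ℝ)) (A2 := (183966995 / 4194304 : ℝ)) (B2 := (238917645 / 268435456 : ℝ)) (l := (26847 / 262144 : ℝ)) (u := (27169 / 262144 : ℝ))
    (E := (-10181421 / 262144 : ℝ)) (F := (-276751505 / 268435456 : ℝ)) (δ := (1 / 1073741824 : ℝ)) (by norm_num) (by norm_num) (by norm_num) (by norm_num) (by norm_num)
    (by norm_num) (by norm_num) (by norm_num) (by norm_num) (by norm_num) (by norm_num) (by norm_num) (by norm_num) (by norm_num) (by norm_num)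
  have e1 : P9C2.l = (26847 / 262144 : ℝ) := rfl
  have e2 : P9C2.u = (27169 / 262144 : ℝ) := rfl
  have e3 : P9C2.a1 = -(27003765 / 4194304 : ℝ) := by norm_num [P9C2]
  have e4 : P9C2.a2 = -(183966995 / 4194304 : ℝ) := by norm_num [P9C2]
  have e5 : P9C2.e = (-10181421 / 262144 : ℝ) := rfl
  have e6 : P9C2.f = (27125223 / 268435456 : ℝ) + (238917645 / 268435456 : ℝ) + (-276751505 / 268435456 : ℝ) + (1 / 1073741824 : ℝ) := by norm_num [P9C2]
  rw [e1, e2, e3, e4, e5, e6]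
  exact h

lemma rP9C3 : ∃ N : ℝ, Rw4 P.r2 N (coCell (3701 / 2048 : ℝ) (52701 / 4096 : ℝ) (12 : ℝ) 0 P9C3) := by
  refine ⟨(3221225472 : ℝ), ⟨Q99, List.mem_cons_of_mem _ (List.mem_cons_of_mem _ (List.mem_cons_of_mem _ (List.mem_cons_of_mem _ (List.mem_cons_of_mem _ (List.mem_cons_of_mem _ (List.mem_cons_of_mem _ (List.mem_cons_of_mem _ (List.mem_cons_of_mem _ (List.mem_cons_of_mem _ (List.mem_cons_of_mem _ (List.mem_cons_of_mem _ (List.mem_cons_of_mem _ (List.mem_cons_of_mem _ (List.mem_cons_of_mem _ (List.mem_cons_of_mem _ (List.mem_cons_of_mem _ (List.mem_cons_of_mem _ (List.mem_cons_of_mem _ (List.mem_cons_of_mem _ (List.mem_cons_of_mem _ (List.mem_cons_of_mem _ (List.mem_cons_of_mem _ (List.mem_cons_of_mem _ (List.mem_cons_of_mem _ (List.mem_cons_of_mem _ (List.mem_cons_of_mem _ (List.mem_cons_of_mem _ (List.mem_cons_of_mem _ (List.mem_cons_of_mem _ (List.mem_cons_of_mem _ (List.mem_cons_of_mem _ (List.mem_cons_of_mem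 _ (List.mem_cons_of_mem _ (List.mem_cons_of_mem _ (List.mem_cons_of_mem _ (List.mem_cons_of_mem _ (List.mem_cons_of_mem _ (List.mem_cons_of_mem _ (List.mem_cons_of_mem _ (List.mem_cons_of_mem _ (List.mem_cons_of_mem _ (List.mem_cons_of_mem _ (List.mem_cons_of_mem _ (List.mem_cons_of_mem _ (List.mem_cons_of_mem _ (List.mem_cons_of_mem _ (List.mem_cons_of_mem _ (List.mem_cons_of_mem _ (List.mem_cons_of_mem _ (List.mem_cons_of_mem _ (List.mem_cons_of_mem _ (List.mem_cons_of_mem _ (List.mem_cons_of_mem _ (List.mem_cons_of_mem _ (List.mem_cons_of_mem _ (List.mem_cons_of_mem _ (List.mem_cons_of_mem _ (List.mem_cons_of_mem _ (List.mem_cons_of_mem _ (List.mem_cons_of_mem _ (List.mem_cons_of_mem _ (List.mem_cons_of_mem _ (List.mem_cons_of_mem _ (List.mem_cons_of_mem _ (List.mem_cons_of_mem _ (List.mem_cons_of_mem _ (List.mem_cons_of_mem _ (List.mem_cons_of_mem _ (List.mem_cons_of_mem _ (List.mem_cons_of_mem _ (List.mem_cons_of_mem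 _ (List.mem_cons_of_mem _ (List.mem_cons_of_mem _ (List.mem_cons_of_mem _ (List.mem_cons_of_mem _ (List.mem_cons_of_mem _ (List.mem_cons_of_mem _ (List.mem_cons_of_mem _ (List.mem_cons_of_mem _ (List.mem_cons_of_mem _ (List.mem_cons_of_mem _ (List.mem_cons_of_mem _ (List.mem_cons_of_mem _ (List.mem_cons_of_mem _ (List.mem_cons_of_mem _ (List.mem_cons_of_mem _ (List.mem_cons_of_mem _ (List.mem_cons_of_mem _ (List.mem_cons_of_mem _ (List.mem_cons_of_mem _ (List.mem_cons_of_mem _ (List.mem_cons_of_mem _ (List.mem_cons_of_mem _ (List.mem_cons_of_mem _ (List.mem_cons_of_mem _ (List.mem_cons_of_mem _ (List.mem_cons_of_mem _ (List.mem_cons_of_mem _ (List.mem_cons_self))))))))))))))))))))))))))))))))))))))))))))))))))))))))))))))))))))))))))))))))))))))))))))))))))), ?_⟩, by norm_num⟩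
  constructor <;> norm_num [Q99, coCell, P9C3]

lemma lP9C3 : ∀ x1 x2 xc : ℝ, 0 ≤ x1 → x1 ≤ 1 → 0 ≤ x2 → x2 ≤ 1 → P9C3.l ≤ xc → xc ≤ P9C3.u →
    (3701 / 2048 : ℝ) * (1 - (1 - x1) ^ 5) + (52701 / 4096 : ℝ) * (1 - (1 - x2) ^ 5) - (12 : ℝ) * (1 - (1 - xc) ^ 5) + (1 / 1073741824 : ℝ)
      ≤ - P9C3.a1 * x1 - P9C3.a2 * x2 + P9C3.e * xc + P9C3.f := by
  have h := cell_lines_delta 5 (α1 := (3701 / 2048 : ℝ)) (α2 := (52701 / 4096 : ℝ)) (c := (12 : ℝ)) (y1 := (21245 / 262144 : ℝ)) (y2 := (24289 / 262144 : ℝ))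
    (A1 := (27027093 / 4194304 : ℝ)) (B1 := (13502051 / 134217728 : ℝ)) (A2 := (182885077 / 4194304 : ℝ)) (B2 := (15330435 / 16777216 : ℝ)) (l := (27169 / 262144 : ℝ)) (u := (27525 / 262144 : ℝ))
    (E := (-10122835 / 262144 : ℝ)) (F := (-282969173 / 268435456 : ℝ)) (δ := (1 / 1073741824 : ℝ)) (by norm_num) (by norm_num) (by norm_num) (by norm_num) (by norm_num)
    (by norm_num) (by norm_num) (by norm_num) (by norm_num) (by norm_num) (by norm_num) (by norm_num) (by norm_num) (by norm_num) (by norm_num)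
  have e1 : P9C3.l = (27169 / 262144 : ℝ) := rfl
  have e2 : P9C3.u = (27525 / 262144 : ℝ) := rfl
  have e3 : P9C3.a1 = -(27027093 / 4194304 : ℝ) := by norm_num [P9C3]
  have e4 : P9C3.a2 = -(182885077 / 4194304 : ℝ) := by norm_num [P9C3]
  have e5 : P9C3.e = (-10122835 / 262144 : ℝ) := rfl
  have e6 : P9C3.f = (13502051 / 134217728 : ℝ) + (15330435 / 16777216 : ℝ) + (-282969173 / 268435456 : ℝ) + (1 / 1073741824 : ℝ) := by norm_num [P9C3]
  rw [e1, e2, e3, e4, e5, e6]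
  exact h

/-- A link of the chain. -/
lemma link9 {lam : ℝ} (h0 : -(1 / 2) < lam) (h1 : lam < 1) (hB : BoxS lam P 0 HH 0 HH)
    (h : ∃ n, 1 - En 5 lam n mc ≤ (27525 / 262144 : ℝ)) : ∃ n, 1 - En 5 lam n mc ≤ (13107 / 131072 : ℝ) :=
  phase_of_box (by norm_num) h0 h1 hB (3701 / 2048 : ℝ) (52701 / 4096 : ℝ) (12 : ℝ) (1 / 1073741824 : ℝ) (13107 / 131072 : ℝ) (27525 / 262144 : ℝ) (by norm_num) cellsP9 hcoverP9
    (forall_cons lP9C0 (forall_cons lP9C1 (forall_cons lP9C2 (forall_cons lP9C3 (forall_nil))))) (forall_cons rP9C0 (forall_cons rP9C1 (forall_cons rP9C2 (forall_cons rP9C3 (forall_nil))))) h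

/-- A chord cell of a link. -/
noncomputable def P10C0 : Cell := ⟨(27525 / 262144 : ℝ), (27855 / 262144 : ℝ), (-28045025 / 4194304 : ℝ), (-182016303 / 4194304 : ℝ), (-161020987 / 4194304 : ℝ), (-62302819 / 1073741824 : ℝ)⟩

/-- A chord cell of a link. -/
noncomputable def P10C1 : Cell := ⟨(27855 / 262144 : ℝ), (14095 / 131072 : ℝ), (-27959683 / 4194304 : ℝ), (-11316877 / 262144 : ℝ), (-160109501 / 4194304 : ℝ), (-62749331 / 1073741824 : ℝ)⟩

/-- A chord cell of a link. -/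
noncomputable def P10C2 : Cell := ⟨(14095 / 131072 : ℝ), (1783 / 16384 : ℝ), (-27848843 / 4194304 : ℝ), (-180042501 / 4194304 : ℝ), (-159190993 / 4194304 : ℝ), (-60835591 / 1073741824 : ℝ)⟩

/-- A chord cell of a link. -/
noncomputable def P10C3 : Cell := ⟨(1783 / 16384 : ℝ), (7209 / 65536 : ℝ), (-27811503 / 4194304 : ℝ), (-89535353 / 2097152 : ℝ), (-158313027 / 4194304 : ℝ), (-60800291 / 1073741824 : ℝ)⟩

/-- The chord cells of a link. -/
noncomputable def cellsP10 : List Cell := [P10C0, P10C1, P10C2, P10C3]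

lemma hcoverP10 : ∀ x : ℝ, (27525 / 262144 : ℝ) ≤ x → x ≤ (7209 / 65536 : ℝ) → ∃ D ∈ cellsP10, D.l ≤ x ∧ x ≤ D.u := by
  refine cover_of_chain ?_ (by norm_num [P10C0])
  simp only [ChainP, P10C0, P10C1, P10C2, P10C3]
  norm_num

lemma rP10C0 : ∃ N : ℝ, Rw4 P.r2 N (coCell (7933 / 4096 : ℝ) (52279 / 4096 : ℝ) (12 : ℝ) 0 P10C0) := by
  refine ⟨(3221225472 : ℝ), ⟨Q100, List.mem_cons_of_mem _ (List.mem_cons_of_mem _ (List.mem_cons_of_mem _ (List.mem_cons_of_mem _ (List.mem_cons_of_mem _ (List.mem_cons_of_mem _ (List.mem_cons_of_mem _ (List.mem_cons_of_mem _ (List.mem_cons_of_mem _ (List.mem_cons_of_mem _ (List.mem_cons_of_mem _ (List.mem_cons_of_mem _ (List.mem_cons_of_mem _ (List.mem_cons_of_mem _ (List.mem_cons_of_mem _ (List.mem_cons_of_mem _ (List.mem_cons_of_mem _ (List.mem_cons_of_mem _ (List.mem_cons_of_mem _ (List.mem_cons_of_mem _ (List.mem_cons_of_mem _ (List.mem_cons_of_mem _ (List.mem_cons_of_mem _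 (List.mem_cons_of_mem _ (List.mem_cons_of_mem _ (List.mem_cons_of_mem _ (List.mem_cons_of_mem _ (List.mem_cons_of_mem _ (List.mem_cons_of_mem _ (List.mem_cons_of_mem _ (List.mem_cons_of_mem _ (List.mem_cons_of_mem _ (List.mem_cons_of_mem _ (List.mem_cons_of_mem _ (List.mem_cons_of_mem _ (List.mem_cons_of_mem _ (List.mem_cons_of_mem _ (List.mem_cons_of_mem _ (List.mem_cons_of_mem _ (List.mem_cons_of_mem _ (List.mem_cons_of_mem _ (List.mem_cons_of_mem _ (List.mem_cons_of_mem _ (List.mem_cons_of_mem _ (List.mem_cons_of_mem _ (List.mem_cons_of_mem _ (List.mem_cons_of_mem _ (List.mem_cons_of_mem _ (List.mem_cons_of_mem _ (List.mem_cons_of_mem _ (List.mem_cons_of_mem _ (List.mem_cons_of_mem _ (List.mem_cons_of_mem _ (List.mem_cons_of_mem _ (List.mem_cons_of_mem _ (List.mem_cons_of_mem _ (List.mem_cons_of_mem _ (List.mem_cons_of_mem _ (List.mem_cons_of_mem _ (List.mem_cons_of_mem _ (List.mem_cons_of_mem _ (List.mem_cons_of_mem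 _ (List.mem_cons_of_mem _ (List.mem_cons_of_mem _ (List.mem_cons_of_mem _ (List.mem_cons_of_mem _ (List.mem_cons_of_mem _ (List.mem_cons_of_mem _ (List.mem_cons_of_mem _ (List.mem_cons_of_mem _ (List.mem_cons_of_mem _ (List.mem_cons_of_mem _ (List.mem_cons_of_mem _ (List.mem_cons_of_mem _ (List.mem_cons_of_mem _ (List.mem_cons_of_mem _ (List.mem_cons_of_mem _ (List.mem_cons_of_mem _ (List.mem_cons_of_mem _ (List.mem_cons_of_mem _ (List.mem_cons_of_mem _ (List.mem_cons_of_mem _ (List.mem_cons_of_mem _ (List.mem_cons_of_mem _ (List.mem_cons_of_mem _ (List.mem_cons_of_mem _ (List.mem_cons_of_mem _ (List.mem_cons_of_mem _ (List.mem_cons_of_mem _ (List.mem_cons_of_mem _ (List.mem_cons_of_mem _ (List.mem_cons_of_mem _ (List.mem_cons_of_mem _ (List.mem_cons_of_mem _ (List.mem_cons_of_mem _ (List.mem_cons_of_mem _ (List.mem_cons_of_mem _ (List.mem_cons_of_mem _ (List.mem_cons_of_mem _ (List.mem_cons_of_mem _ (List.mem_cons_self)))))))))))))))))))))))))))))))))))))))))))))))))))))))))))))))))))))))))))))))))))))))))))))))))))),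 ?_⟩, by norm_num⟩
  constructor <;> norm_num [Q100, coCell, P10C0]

lemma lP10C0 : ∀ x1 x2 xc : ℝ, 0 ≤ x1 → x1 ≤ 1 → 0 ≤ x2 → x2 ≤ 1 → P10C0.l ≤ xc → xc ≤ P10C0.u →
    (7933 / 4096 : ℝ) * (1 - (1 - x1) ^ 5) + (52279 / 4096 : ℝ) * (1 - (1 - x2) ^ 5) - (12 : ℝ) * (1 - (1 - xc) ^ 5) + (1 / 1073741824 : ℝ)
      ≤ - P10C0.a1 * x1 - P10C0.a2 * x2 + P10C0.e * xc + P10C0.f := by
  have h := cell_lines_delta 5 (α1 := (7933 / 4096 : ℝ)) (α2 := (52279 / 4096 : ℝ)) (c := (12 : ℝ)) (y1 := (23183 / 262144 : ℝ)) (y2 := (12047 / 131072 : ℝ))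
    (A1 := (28045025 / 4194304 : ℝ)) (B1 := (1060465 / 8388608 : ℝ)) (A2 := (182016303 / 4194304 : ℝ)) (B2 := (119902373 / 134217728 : ℝ)) (l := (27525 / 262144 : ℝ)) (u := (27855 / 262144 : ℝ))
    (E := (-161020987 / 4194304 : ℝ)) (F := (-289315331 / 268435456 : ℝ)) (δ := (1 / 1073741824 : ℝ)) (by norm_num) (by norm_num) (by norm_num) (by norm_num) (by norm_num)
    (by norm_num) (by norm_num) (by norm_num) (by norm_num) (by norm_num) (by norm_num) (by norm_num) (by norm_num) (by norm_num) (by norm_num)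
  have e1 : P10C0.l = (27525 / 262144 : ℝ) := rfl
  have e2 : P10C0.u = (27855 / 262144 : ℝ) := rfl
  have e3 : P10C0.a1 = -(28045025 / 4194304 : ℝ) := by norm_num [P10C0]
  have e4 : P10C0.a2 = -(182016303 / 4194304 : ℝ) := by norm_num [P10C0]
  have e5 : P10C0.e = (-161020987 / 4194304 : ℝ) := rfl
  have e6 : P10C0.f = (1060465 / 8388608 : ℝ) + (119902373 / 134217728 : ℝ) + (-289315331 / 268435456 : ℝ) + (1 / 1073741824 : ℝ) := by norm_num [P10C0]
  rw [e1, e2, e3, e4, e5, e6]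
  exact h

lemma rP10C1 : ∃ N : ℝ, Rw4 P.r2 N (coCell (7933 / 4096 : ℝ) (52279 / 4096 : ℝ) (12 : ℝ) 0 P10C1) := by
  refine ⟨(3221225472 : ℝ), ⟨Q101, List.mem_cons_of_mem _ (List.mem_cons_of_mem _ (List.mem_cons_of_mem _ (List.mem_cons_of_mem _ (List.mem_cons_of_mem _ (List.mem_cons_of_mem _ (List.mem_cons_of_mem _ (List.mem_cons_of_mem _ (List.mem_cons_of_mem _ (List.mem_cons_of_mem _ (List.mem_cons_of_mem _ (List.mem_cons_of_mem _ (List.mem_cons_of_mem _ (List.mem_cons_of_mem _ (List.mem_cons_of_mem _ (List.mem_cons_of_mem _ (List.mem_cons_of_mem _ (List.mem_cons_of_mem _ (List.mem_cons_of_mem _ (List.mem_cons_of_mem _ (List.mem_cons_of_mem _ (List.mem_cons_of_mem _ (List.mem_cons_of_mem _ (List.mem_cons_of_mem _ (List.mem_cons_of_mem _ (List.mem_cons_of_mem _ (List.mem_cons_of_mem _ (List.mem_cons_of_mem _ (List.mem_cons_of_mem _ (List.mem_cons_of_mem _ (List.mem_cons_of_mem _ (List.mem_cons_of_mem _ (List.mem_cons_of_mem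 _ (List.mem_cons_of_mem _ (List.mem_cons_of_mem _ (List.mem_cons_of_mem _ (List.mem_cons_of_mem _ (List.mem_cons_of_mem _ (List.mem_cons_of_mem _ (List.mem_cons_of_mem _ (List.mem_cons_of_mem _ (List.mem_cons_of_mem _ (List.mem_cons_of_mem _ (List.mem_cons_of_mem _ (List.mem_cons_of_mem _ (List.mem_cons_of_mem _ (List.mem_cons_of_mem _ (List.mem_cons_of_mem _ (List.mem_cons_of_mem _ (List.mem_cons_of_mem _ (List.mem_cons_of_mem _ (List.mem_cons_of_mem _ (List.mem_cons_of_mem _ (List.mem_cons_of_mem _ (List.mem_cons_of_mem _ (List.mem_cons_of_mem _ (List.mem_cons_of_mem _ (List.mem_cons_of_mem _ (List.mem_cons_of_mem _ (List.mem_cons_of_mem _ (List.mem_cons_of_mem _ (List.mem_cons_of_mem _ (List.mem_cons_of_mem _ (List.mem_cons_of_mem _ (List.mem_cons_of_mem _ (List.mem_cons_of_mem _ (List.mem_cons_of_mem _ (List.mem_cons_of_mem _ (List.mem_cons_of_mem _ (List.mem_cons_of_mem _ (List.mem_cons_of_mem _ (List.mem_cons_of_mem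 _ (List.mem_cons_of_mem _ (List.mem_cons_of_mem _ (List.mem_cons_of_mem _ (List.mem_cons_of_mem _ (List.mem_cons_of_mem _ (List.mem_cons_of_mem _ (List.mem_cons_of_mem _ (List.mem_cons_of_mem _ (List.mem_cons_of_mem _ (List.mem_cons_of_mem _ (List.mem_cons_of_mem _ (List.mem_cons_of_mem _ (List.mem_cons_of_mem _ (List.mem_cons_of_mem _ (List.mem_cons_of_mem _ (List.mem_cons_of_mem _ (List.mem_cons_of_mem _ (List.mem_cons_of_mem _ (List.mem_cons_of_mem _ (List.mem_cons_of_mem _ (List.mem_cons_of_mem _ (List.mem_cons_of_mem _ (List.mem_cons_of_mem _ (List.mem_cons_of_mem _ (List.mem_cons_of_mem _ (List.mem_cons_of_mem _ (List.mem_cons_of_mem _ (List.mem_cons_of_mem _ (List.mem_cons_of_mem _ (List.mem_cons_self))))))))))))))))))))))))))))))))))))))))))))))))))))))))))))))))))))))))))))))))))))))))))))))))))))), ?_⟩, by norm_num⟩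
  constructor <;> norm_num [Q101, coCell, P10C1]

lemma lP10C1 : ∀ x1 x2 xc : ℝ, 0 ≤ x1 → x1 ≤ 1 → 0 ≤ x2 → x2 ≤ 1 → P10C1.l ≤ xc → xc ≤ P10C1.u →
    (7933 / 4096 : ℝ) * (1 - (1 - x1) ^ 5) + (52279 / 4096 : ℝ) * (1 - (1 - x2) ^ 5) - (12 : ℝ) * (1 - (1 - xc) ^ 5) + (1 / 1073741824 : ℝ)
      ≤ - P10C1.a1 * x1 - P10C1.a2 * x2 + P10C1.e * xc + P10C1.f := by
  have h := cell_lines_delta 5 (α1 := (7933 / 4096 : ℝ)) (α2 := (52279 / 4096 : ℝ)) (c := (12 : ℝ)) (y1 := (23365 / 262144 : ℝ)) (y2 := (6101 / 65536 : ℝ))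
    (A1 := (27959683 / 4194304 : ℝ)) (B1 := (34419789 / 268435456 : ℝ)) (A2 := (11316877 / 262144 : ℝ)) (B2 := (61351701 / 67108864 : ℝ)) (l := (27855 / 262144 : ℝ)) (u := (14095 / 131072 : ℝ))
    (E := (-160109501 / 4194304 : ℝ)) (F := (-147756963 / 134217728 : ℝ)) (δ := (1 / 1073741824 : ℝ)) (by norm_num) (by norm_num) (by norm_num) (by norm_num) (by norm_num)
    (by norm_num) (by norm_num) (by norm_num) (by norm_num) (by norm_num) (by norm_num) (by norm_num) (by norm_num) (by norm_num) (by norm_num)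
  have e1 : P10C1.l = (27855 / 262144 : ℝ) := rfl
  have e2 : P10C1.u = (14095 / 131072 : ℝ) := rfl
  have e3 : P10C1.a1 = -(27959683 / 4194304 : ℝ) := by norm_num [P10C1]
  have e4 : P10C1.a2 = -(11316877 / 262144 : ℝ) := by norm_num [P10C1]
  have e5 : P10C1.e = (-160109501 / 4194304 : ℝ) := rfl
  have e6 : P10C1.f = (34419789 / 268435456 : ℝ) + (61351701 / 67108864 : ℝ) + (-147756963 / 134217728 : ℝ) + (1 / 1073741824 : ℝ) := by norm_num [P10C1]
  rw [e1, e2, e3, e4, e5, e6]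
  exact h

lemma rP10C2 : ∃ N : ℝ, Rw4 P.r2 N (coCell (7933 / 4096 : ℝ) (52279 / 4096 : ℝ) (12 : ℝ) 0 P10C2) := by
  refine ⟨(3221225472 : ℝ), ⟨Q102, List.mem_cons_of_mem _ (List.mem_cons_of_mem _ (List.mem_cons_of_mem _ (List.mem_cons_of_mem _ (List.mem_cons_of_mem _ (List.mem_cons_of_mem _ (List.mem_cons_of_mem _ (List.mem_cons_of_mem _ (List.mem_cons_of_mem _ (List.mem_cons_of_mem _ (List.mem_cons_of_mem _ (List.mem_cons_of_mem _ (List.mem_cons_of_mem _ (List.mem_cons_of_mem _ (List.mem_cons_of_mem _ (List.mem_cons_of_mem _ (List.mem_cons_of_mem _ (List.mem_cons_of_mem _ (List.mem_cons_of_mem _ (List.mem_cons_of_mem _ (List.mem_cons_of_mem _ (List.mem_cons_of_mem _ (List.mem_cons_of_mem _ (List.mem_cons_of_mem _ (List.mem_cons_of_mem _ (List.mem_cons_of_mem _ (List.mem_cons_of_mem _ (List.mem_cons_of_mem _ (List.mem_cons_of_mem _ (List.mem_cons_of_mem _ (List.mem_cons_of_mem _ (List.mem_cons_of_mem _ (List.mem_cons_of_mem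 _ (List.mem_cons_of_mem _ (List.mem_cons_of_mem _ (List.mem_cons_of_mem _ (List.mem_cons_of_mem _ (List.mem_cons_of_mem _ (List.mem_cons_of_mem _ (List.mem_cons_of_mem _ (List.mem_cons_of_mem _ (List.mem_cons_of_mem _ (List.mem_cons_of_mem _ (List.mem_cons_of_mem _ (List.mem_cons_of_mem _ (List.mem_cons_of_mem _ (List.mem_cons_of_mem _ (List.mem_cons_of_mem _ (List.mem_cons_of_mem _ (List.mem_cons_of_mem _ (List.mem_cons_of_mem _ (List.mem_cons_of_mem _ (List.mem_cons_of_mem _ (List.mem_cons_of_mem _ (List.mem_cons_of_mem _ (List.mem_cons_of_mem _ (List.mem_cons_of_mem _ (List.mem_cons_of_mem _ (List.mem_cons_of_mem _ (List.mem_cons_of_mem _ (List.mem_cons_of_mem _ (List.mem_cons_of_mem _ (List.mem_cons_of_mem _ (List.mem_cons_of_mem _ (List.mem_cons_of_mem _ (List.mem_cons_of_mem _ (List.mem_cons_of_mem _ (List.mem_cons_of_mem _ (List.mem_cons_of_mem _ (List.mem_cons_of_mem _ (List.mem_cons_of_mem _ (List.mem_cons_of_mem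 _ (List.mem_cons_of_mem _ (List.mem_cons_of_mem _ (List.mem_cons_of_mem _ (List.mem_cons_of_mem _ (List.mem_cons_of_mem _ (List.mem_cons_of_mem _ (List.mem_cons_of_mem _ (List.mem_cons_of_mem _ (List.mem_cons_of_mem _ (List.mem_cons_of_mem _ (List.mem_cons_of_mem _ (List.mem_cons_of_mem _ (List.mem_cons_of_mem _ (List.mem_cons_of_mem _ (List.mem_cons_of_mem _ (List.mem_cons_of_mem _ (List.mem_cons_of_mem _ (List.mem_cons_of_mem _ (List.mem_cons_of_mem _ (List.mem_cons_of_mem _ (List.mem_cons_of_mem _ (List.mem_cons_of_mem _ (List.mem_cons_of_mem _ (List.mem_cons_of_mem _ (List.mem_cons_of_mem _ (List.mem_cons_of_mem _ (List.mem_cons_of_mem _ (List.mem_cons_of_mem _ (List.mem_cons_of_mem _ (List.mem_cons_of_mem _ (List.mem_cons_self)))))))))))))))))))))))))))))))))))))))))))))))))))))))))))))))))))))))))))))))))))))))))))))))))))))), ?_⟩, by norm_num⟩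
  constructor <;> norm_num [Q102, coCell, P10C2]

lemma lP10C2 : ∀ x1 x2 xc : ℝ, 0 ≤ x1 → x1 ≤ 1 → 0 ≤ x2 → x2 ≤ 1 → P10C2.l ≤ xc → xc ≤ P10C2.u →
    (7933 / 4096 : ℝ) * (1 - (1 - x1) ^ 5) + (52279 / 4096 : ℝ) * (1 - (1 - x2) ^ 5) - (12 : ℝ) * (1 - (1 - xc) ^ 5) + (1 / 1073741824 : ℝ)
      ≤ - P10C2.a1 * x1 - P10C2.a2 * x2 + P10C2.e * xc + P10C2.f := by
  have h := cell_lines_delta 5 (α1 := (7933 / 4096 : ℝ)) (α2 := (52279 / 4096 : ℝ)) (c := (12 : ℝ)) (y1 := (11801 / 131072 : ℝ)) (y2 := (12371 / 131072 : ℝ))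
    (A1 := (27848843 / 4194304 : ℝ)) (B1 := (1095477 / 8388608 : ℝ)) (A2 := (180042501 / 4194304 : ℝ)) (B2 := (125785617 / 134217728 : ℝ)) (l := (14095 / 131072 : ℝ)) (u := (1783 / 16384 : ℝ))
    (E := (-159190993 / 4194304 : ℝ)) (F := (-75458849 / 67108864 : ℝ)) (δ := (1 / 1073741824 : ℝ)) (by norm_num) (by norm_num) (by norm_num) (by norm_num) (by norm_num)
    (by norm_num) (by norm_num) (by norm_num) (by norm_num) (by norm_num) (by norm_num) (by norm_num) (by norm_num) (by norm_num) (by norm_num)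
  have e1 : P10C2.l = (14095 / 131072 : ℝ) := rfl
  have e2 : P10C2.u = (1783 / 16384 : ℝ) := rfl
  have e3 : P10C2.a1 = -(27848843 / 4194304 : ℝ) := by norm_num [P10C2]
  have e4 : P10C2.a2 = -(180042501 / 4194304 : ℝ) := by norm_num [P10C2]
  have e5 : P10C2.e = (-159190993 / 4194304 : ℝ) := rfl
  have e6 : P10C2.f = (1095477 / 8388608 : ℝ) + (125785617 / 134217728 : ℝ) + (-75458849 / 67108864 : ℝ) + (1 / 1073741824 : ℝ) := by norm_num [P10C2]
  rw [e1, e2, e3, e4, e5, e6]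
  exact h

lemma rP10C3 : ∃ N : ℝ, Rw4 P.r2 N (coCell (7933 / 4096 : ℝ) (52279 / 4096 : ℝ) (12 : ℝ) 0 P10C3) := by
  refine ⟨(3221225472 : ℝ), ⟨Q103, List.mem_cons_of_mem _ (List.mem_cons_of_mem _ (List.mem_cons_of_mem _ (List.mem_cons_of_mem _ (List.mem_cons_of_mem _ (List.mem_cons_of_mem _ (List.mem_cons_of_mem _ (List.mem_cons_of_mem _ (List.mem_cons_of_mem _ (List.mem_cons_of_mem _ (List.mem_cons_of_mem _ (List.mem_cons_of_mem _ (List.mem_cons_of_mem _ (List.mem_cons_of_mem _ (List.mem_cons_of_mem _ (List.mem_cons_of_mem _ (List.mem_cons_of_mem _ (List.mem_cons_of_mem _ (List.mem_cons_of_mem _ (List.mem_cons_of_mem _ (List.mem_cons_of_mem _ (List.mem_cons_of_mem _ (List.mem_cons_of_mem _ (List.mem_cons_of_mem _ (List.mem_cons_of_mem _ (List.mem_cons_of_mem _ (List.mem_cons_of_mem _ (List.mem_cons_of_mem _ (List.mem_cons_of_mem _ (List.mem_cons_of_mem _ (List.mem_cons_of_mem _ (List.mem_cons_of_mem _ (List.mem_cons_of_mem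 _ (List.mem_cons_of_mem _ (List.mem_cons_of_mem _ (List.mem_cons_of_mem _ (List.mem_cons_of_mem _ (List.mem_cons_of_mem _ (List.mem_cons_of_mem _ (List.mem_cons_of_mem _ (List.mem_cons_of_mem _ (List.mem_cons_of_mem _ (List.mem_cons_of_mem _ (List.mem_cons_of_mem _ (List.mem_cons_of_mem _ (List.mem_cons_of_mem _ (List.mem_cons_of_mem _ (List.mem_cons_of_mem _ (List.mem_cons_of_mem _ (List.mem_cons_of_mem _ (List.mem_cons_of_mem _ (List.mem_cons_of_mem _ (List.mem_cons_of_mem _ (List.mem_cons_of_mem _ (List.mem_cons_of_mem _ (List.mem_cons_of_mem _ (List.mem_cons_of_mem _ (List.mem_cons_of_mem _ (List.mem_cons_of_mem _ (List.mem_cons_of_mem _ (List.mem_cons_of_mem _ (List.mem_cons_of_mem _ (List.mem_cons_of_mem _ (List.mem_cons_of_mem _ (List.mem_cons_of_mem _ (List.mem_cons_of_mem _ (List.mem_cons_of_mem _ (List.mem_cons_of_mem _ (List.mem_cons_of_mem _ (List.mem_cons_of_mem _ (List.mem_cons_of_mem _ (List.mem_cons_of_mem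 _ (List.mem_cons_of_mem _ (List.mem_cons_of_mem _ (List.mem_cons_of_mem _ (List.mem_cons_of_mem _ (List.mem_cons_of_mem _ (List.mem_cons_of_mem _ (List.mem_cons_of_mem _ (List.mem_cons_of_mem _ (List.mem_cons_of_mem _ (List.mem_cons_of_mem _ (List.mem_cons_of_mem _ (List.mem_cons_of_mem _ (List.mem_cons_of_mem _ (List.mem_cons_of_mem _ (List.mem_cons_of_mem _ (List.mem_cons_of_mem _ (List.mem_cons_of_mem _ (List.mem_cons_of_mem _ (List.mem_cons_of_mem _ (List.mem_cons_of_mem _ (List.mem_cons_of_mem _ (List.mem_cons_of_mem _ (List.mem_cons_of_mem _ (List.mem_cons_of_mem _ (List.mem_cons_of_mem _ (List.mem_cons_of_mem _ (List.mem_cons_of_mem _ (List.mem_cons_of_mem _ (List.mem_cons_of_mem _ (List.mem_cons_of_mem _ (List.mem_cons_of_mem _ (List.mem_cons_self))))))))))))))))))))))))))))))))))))))))))))))))))))))))))))))))))))))))))))))))))))))))))))))))))))))), ?_⟩, by norm_num⟩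
  constructor <;> norm_num [Q103, coCell, P10C3]

lemma lP10C3 : ∀ x1 x2 xc : ℝ, 0 ≤ x1 → x1 ≤ 1 → 0 ≤ x2 → x2 ≤ 1 → P10C3.l ≤ xc → xc ≤ P10C3.u →
    (7933 / 4096 : ℝ) * (1 - (1 - x1) ^ 5) + (52279 / 4096 : ℝ) * (1 - (1 - x2) ^ 5) - (12 : ℝ) * (1 - (1 - xc) ^ 5) + (1 / 1073741824 : ℝ)
      ≤ - P10C3.a1 * x1 - P10C3.a2 * x2 + P10C3.e * xc + P10C3.f := by
  have h := cell_lines_delta 5 (α1 := (7933 / 4096 : ℝ)) (α2 := (52279 / 4096 : ℝ)) (c := (12 : ℝ)) (y1 := (11841 / 131072 : ℝ)) (y2 := (25063 / 262144 : ℝ))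
    (A1 := (27811503 / 4194304 : ℝ)) (B1 := (35270789 / 268435456 : ℝ)) (A2 := (89535353 / 2097152 : ℝ)) (B2 := (128739715 / 134217728 : ℝ)) (l := (1783 / 16384 : ℝ)) (u := (7209 / 65536 : ℝ))
    (E := (-158313027 / 4194304 : ℝ)) (F := (-76987573 / 67108864 : ℝ)) (δ := (1 / 1073741824 : ℝ)) (by norm_num) (by norm_num) (by norm_num) (by norm_num) (by norm_num)
    (by norm_num) (by norm_num) (by norm_num) (by norm_num) (by norm_num) (by norm_num) (by norm_num) (by norm_num) (by norm_num) (by norm_num)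
  have e1 : P10C3.l = (1783 / 16384 : ℝ) := rfl
  have e2 : P10C3.u = (7209 / 65536 : ℝ) := rfl
  have e3 : P10C3.a1 = -(27811503 / 4194304 : ℝ) := by norm_num [P10C3]
  have e4 : P10C3.a2 = -(89535353 / 2097152 : ℝ) := by norm_num [P10C3]
  have e5 : P10C3.e = (-158313027 / 4194304 : ℝ) := rfl
  have e6 : P10C3.f = (35270789 / 268435456 : ℝ) + (128739715 / 134217728 : ℝ) + (-76987573 / 67108864 : ℝ) + (1 / 1073741824 : ℝ) := by norm_num [P10C3]
  rw [e1, e2, e3, e4, e5, e6]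
  exact h

/-- A link of the chain. -/
lemma link10 {lam : ℝ} (h0 : -(1 / 2) < lam) (h1 : lam < 1) (hB : BoxS lam P 0 HH 0 HH)
    (h : ∃ n, 1 - En 5 lam n mc ≤ (7209 / 65536 : ℝ)) : ∃ n, 1 - En 5 lam n mc ≤ (27525 / 262144 : ℝ) :=
  phase_of_box (by norm_num) h0 h1 hB (7933 / 4096 : ℝ) (52279 / 4096 : ℝ) (12 : ℝ) (1 / 1073741824 : ℝ) (27525 / 262144 : ℝ) (7209 / 65536 : ℝ) (by norm_num) cellsP10 hcoverP10
    (forall_cons lP10C0 (forall_cons lP10C1 (forall_cons lP10C2 (forall_cons lP10C3 (forall_nil))))) (forall_cons rP10C0 (forall_cons rP10C1 (forall_cons rP10C2 (forall_cons rP10C3 (forall_nil))))) h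

/-- A chord cell of a link. -/
noncomputable def P11C0 : Cell := ⟨(7209 / 65536 : ℝ), (14591 / 131072 : ℝ), (-16106297 / 2097152 : ℝ), (-87894455 / 2097152 : ℝ), (-39356989 / 1048576 : ℝ), (-62792767 / 1073741824 : ℝ)⟩

/-- A chord cell of a link. -/
noncomputable def P11C1 : Cell := ⟨(14591 / 131072 : ℝ), (7383 / 65536 : ℝ), (-32163985 / 4194304 : ℝ), (-87340653 / 2097152 : ℝ), (-78245047 / 2097152 : ℝ), (-60852623 / 1073741824 : ℝ)⟩

/-- A chord cell of a link. -/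
noncomputable def P11C2 : Cell := ⟨(7383 / 65536 : ℝ), (14943 / 131072 : ℝ), (-2008529 / 262144 : ℝ), (-86807117 / 2097152 : ℝ), (-155545721 / 4194304 : ℝ), (-60532539 / 1073741824 : ℝ)⟩

/-- A chord cell of a link. -/
noncomputable def P11C3 : Cell := ⟨(14943 / 131072 : ℝ), (30147 / 262144 : ℝ), (-16013817 / 2097152 : ℝ), (-86399047 / 2097152 : ℝ), (-77362077 / 2097152 : ℝ), (-61123663 / 1073741824 : ℝ)⟩

/-- The chord cells of a link. -/
noncomputable def cellsP11 : List Cell := [P11C0, P11C1, P11C2, P11C3]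

lemma hcoverP11 : ∀ x : ℝ, (7209 / 65536 : ℝ) ≤ x → x ≤ (30147 / 262144 : ℝ) → ∃ D ∈ cellsP11, D.l ≤ x ∧ x ≤ D.u := by
  refine cover_of_chain ?_ (by norm_num [P11C0])
  simp only [ChainP, P11C0, P11C1, P11C2, P11C3]
  norm_num

lemma rP11C0 : ∃ N : ℝ, Rw4 P.r2 N (coCell (9193 / 4096 : ℝ) (3219 / 256 : ℝ) (12 : ℝ) 0 P11C0) := by
  refine ⟨(3221225472 : ℝ), ⟨Q104, List.mem_cons_of_mem _ (List.mem_cons_of_mem _ (List.mem_cons_of_mem _ (List.mem_cons_of_mem _ (List.mem_cons_of_mem _ (List.mem_cons_of_mem _ (List.mem_cons_of_mem _ (List.mem_cons_of_mem _ (List.mem_cons_of_mem _ (List.mem_cons_of_mem _ (List.mem_cons_of_mem _ (List.mem_cons_of_mem _ (List.mem_cons_of_mem _ (List.mem_cons_of_mem _ (List.mem_cons_of_mem _ (List.mem_cons_of_mem _ (List.mem_cons_of_mem _ (List.mem_cons_of_mem _ (List.mem_cons_of_mem _ (List.mem_cons_of_mem _ (List.mem_cons_of_mem _ (List.mem_cons_of_mem _ (List.mem_cons_of_mem _ (List.mem_cons_of_mem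 _ (List.mem_cons_of_mem _ (List.mem_cons_of_mem _ (List.mem_cons_of_mem _ (List.mem_cons_of_mem _ (List.mem_cons_of_mem _ (List.mem_cons_of_mem _ (List.mem_cons_of_mem _ (List.mem_cons_of_mem _ (List.mem_cons_of_mem _ (List.mem_cons_of_mem _ (List.mem_cons_of_mem _ (List.mem_cons_of_mem _ (List.mem_cons_of_mem _ (List.mem_cons_of_mem _ (List.mem_cons_of_mem _ (List.mem_cons_of_mem _ (List.mem_cons_of_mem _ (List.mem_cons_of_mem _ (List.mem_cons_of_mem _ (List.mem_cons_of_mem _ (List.mem_cons_of_mem _ (List.mem_cons_of_mem _ (List.mem_cons_of_mem _ (List.mem_cons_of_mem _ (List.mem_cons_of_mem _ (List.mem_cons_of_mem _ (List.mem_cons_of_mem _ (List.mem_cons_of_mem _ (List.mem_cons_of_mem _ (List.mem_cons_of_mem _ (List.mem_cons_of_mem _ (List.mem_cons_of_mem _ (List.mem_cons_of_mem _ (List.mem_cons_of_mem _ (List.mem_cons_of_mem _ (List.mem_cons_of_mem _ (List.mem_cons_of_mem _ (List.mem_cons_of_mem _ (List.mem_cons_of_mem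 _ (List.mem_cons_of_mem _ (List.mem_cons_of_mem _ (List.mem_cons_of_mem _ (List.mem_cons_of_mem _ (List.mem_cons_of_mem _ (List.mem_cons_of_mem _ (List.mem_cons_of_mem _ (List.mem_cons_of_mem _ (List.mem_cons_of_mem _ (List.mem_cons_of_mem _ (List.mem_cons_of_mem _ (List.mem_cons_of_mem _ (List.mem_cons_of_mem _ (List.mem_cons_of_mem _ (List.mem_cons_of_mem _ (List.mem_cons_of_mem _ (List.mem_cons_of_mem _ (List.mem_cons_of_mem _ (List.mem_cons_of_mem _ (List.mem_cons_of_mem _ (List.mem_cons_of_mem _ (List.mem_cons_of_mem _ (List.mem_cons_of_mem _ (List.mem_cons_of_mem _ (List.mem_cons_of_mem _ (List.mem_cons_of_mem _ (List.mem_cons_of_mem _ (List.mem_cons_of_mem _ (List.mem_cons_of_mem _ (List.mem_cons_of_mem _ (List.mem_cons_of_mem _ (List.mem_cons_of_mem _ (List.mem_cons_of_mem _ (List.mem_cons_of_mem _ (List.mem_cons_of_mem _ (List.mem_cons_of_mem _ (List.mem_cons_of_mem _ (List.mem_cons_of_mem _ (List.mem_cons_of_mem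 _ (List.mem_cons_of_mem _ (List.mem_cons_of_mem _ (List.mem_cons_self)))))))))))))))))))))))))))))))))))))))))))))))))))))))))))))))))))))))))))))))))))))))))))))))))))))))), ?_⟩, by norm_num⟩
  constructor <;> norm_num [Q104, coCell, P11C0]

lemma lP11C0 : ∀ x1 x2 xc : ℝ, 0 ≤ x1 → x1 ≤ 1 → 0 ≤ x2 → x2 ≤ 1 → P11C0.l ≤ xc → xc ≤ P11C0.u →
    (9193 / 4096 : ℝ) * (1 - (1 - x1) ^ 5) + (3219 / 256 : ℝ) * (1 - (1 - x2) ^ 5) - (12 : ℝ) * (1 - (1 - xc) ^ 5) + (1 / 1073741824 : ℝ)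
      ≤ - P11C0.a1 * x1 - P11C0.a2 * x2 + P11C0.e * xc + P11C0.f := by
  have h := cell_lines_delta 5 (α1 := (9193 / 4096 : ℝ)) (α2 := (3219 / 256 : ℝ)) (c := (12 : ℝ)) (y1 := (741 / 8192 : ℝ)) (y2 := (12637 / 131072 : ℝ))
    (A1 := (16106297 / 2097152 : ℝ)) (B1 := (20483337 / 134217728 : ℝ)) (A2 := (87894455 / 2097152 : ℝ)) (B2 := (32189545 / 33554432 : ℝ)) (l := (7209 / 65536 : ℝ)) (u := (14591 / 131072 : ℝ))
    (E := (-39356989 / 1048576 : ℝ)) (F := (-157090613 / 134217728 : ℝ)) (δ := (1 / 1073741824 : ℝ)) (by norm_num) (by norm_num) (by norm_num) (by norm_num) (by norm_num)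
    (by norm_num) (by norm_num) (by norm_num) (by norm_num) (by norm_num) (by norm_num) (by norm_num) (by norm_num) (by norm_num) (by norm_num)
  have e1 : P11C0.l = (7209 / 65536 : ℝ) := rfl
  have e2 : P11C0.u = (14591 / 131072 : ℝ) := rfl
  have e3 : P11C0.a1 = -(16106297 / 2097152 : ℝ) := by norm_num [P11C0]
  have e4 : P11C0.a2 = -(87894455 / 2097152 : ℝ) := by norm_num [P11C0]
  have e5 : P11C0.e = (-39356989 / 1048576 : ℝ) := rfl
  have e6 : P11C0.f = (20483337 / 134217728 : ℝ) + (32189545 / 33554432 : ℝ) + (-157090613 / 134217728 : ℝ) + (1 / 1073741824 : ℝ) := by norm_num [P11C0]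
  rw [e1, e2, e3, e4, e5, e6]
  exact h

lemma rP11C1 : ∃ N : ℝ, Rw4 P.r2 N (coCell (9193 / 4096 : ℝ) (3219 / 256 : ℝ) (12 : ℝ) 0 P11C1) := by
  refine ⟨(3221225472 : ℝ), ⟨Q105, List.mem_cons_of_mem _ (List.mem_cons_of_mem _ (List.mem_cons_of_mem _ (List.mem_cons_of_mem _ (List.mem_cons_of_mem _ (List.mem_cons_of_mem _ (List.mem_cons_of_mem _ (List.mem_cons_of_mem _ (List.mem_cons_of_mem _ (List.mem_cons_of_mem _ (List.mem_cons_of_mem _ (List.mem_cons_of_mem _ (List.mem_cons_of_mem _ (List.mem_cons_of_mem _ (List.mem_cons_of_mem _ (List.mem_cons_of_mem _ (List.mem_cons_of_mem _ (List.mem_cons_of_mem _ (List.mem_cons_of_mem _ (List.mem_cons_of_mem _ (List.mem_cons_of_mem _ (List.mem_cons_of_mem _ (List.mem_cons_of_mem _ (List.mem_cons_of_mem _ (List.mem_cons_of_mem _ (List.mem_cons_of_mem _ (List.mem_cons_of_mem _ (List.mem_cons_of_mem _ (List.mem_cons_of_mem _ (List.mem_cons_of_mem _ (List.mem_cons_of_mem _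 (List.mem_cons_of_mem _ (List.mem_cons_of_mem _ (List.mem_cons_of_mem _ (List.mem_cons_of_mem _ (List.mem_cons_of_mem _ (List.mem_cons_of_mem _ (List.mem_cons_of_mem _ (List.mem_cons_of_mem _ (List.mem_cons_of_mem _ (List.mem_cons_of_mem _ (List.mem_cons_of_mem _ (List.mem_cons_of_mem _ (List.mem_cons_of_mem _ (List.mem_cons_of_mem _ (List.mem_cons_of_mem _ (List.mem_cons_of_mem _ (List.mem_cons_of_mem _ (List.mem_cons_of_mem _ (List.mem_cons_of_mem _ (List.mem_cons_of_mem _ (List.mem_cons_of_mem _ (List.mem_cons_of_mem _ (List.mem_cons_of_mem _ (List.mem_cons_of_mem _ (List.mem_cons_of_mem _ (List.mem_cons_of_mem _ (List.mem_cons_of_mem _ (List.mem_cons_of_mem _ (List.mem_cons_of_mem _ (List.mem_cons_of_mem _ (List.mem_cons_of_mem _ (List.mem_cons_of_mem _ (List.mem_cons_of_mem _ (List.mem_cons_of_mem _ (List.mem_cons_of_mem _ (List.mem_cons_of_mem _ (List.mem_cons_of_mem _ (List.mem_cons_of_mem _ (List.mem_cons_of_mem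 _ (List.mem_cons_of_mem _ (List.mem_cons_of_mem _ (List.mem_cons_of_mem _ (List.mem_cons_of_mem _ (List.mem_cons_of_mem _ (List.mem_cons_of_mem _ (List.mem_cons_of_mem _ (List.mem_cons_of_mem _ (List.mem_cons_of_mem _ (List.mem_cons_of_mem _ (List.mem_cons_of_mem _ (List.mem_cons_of_mem _ (List.mem_cons_of_mem _ (List.mem_cons_of_mem _ (List.mem_cons_of_mem _ (List.mem_cons_of_mem _ (List.mem_cons_of_mem _ (List.mem_cons_of_mem _ (List.mem_cons_of_mem _ (List.mem_cons_of_mem _ (List.mem_cons_of_mem _ (List.mem_cons_of_mem _ (List.mem_cons_of_mem _ (List.mem_cons_of_mem _ (List.mem_cons_of_mem _ (List.mem_cons_of_mem _ (List.mem_cons_of_mem _ (List.mem_cons_of_mem _ (List.mem_cons_of_mem _ (List.mem_cons_of_mem _ (List.mem_cons_of_mem _ (List.mem_cons_of_mem _ (List.mem_cons_of_mem _ (List.mem_cons_of_mem _ (List.mem_cons_of_mem _ (List.mem_cons_self))))))))))))))))))))))))))))))))))))))))))))))))))))))))))))))))))))))))))))))))))))))))))))))))))))))))),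 ?_⟩, by norm_num⟩
  constructor <;> norm_num [Q105, coCell, P11C1]

lemma lP11C1 : ∀ x1 x2 xc : ℝ, 0 ≤ x1 → x1 ≤ 1 → 0 ≤ x2 → x2 ≤ 1 → P11C1.l ≤ xc → xc ≤ P11C1.u →
    (9193 / 4096 : ℝ) * (1 - (1 - x1) ^ 5) + (3219 / 256 : ℝ) * (1 - (1 - x2) ^ 5) - (12 : ℝ) * (1 - (1 - xc) ^ 5) + (1 / 1073741824 : ℝ)
      ≤ - P11C1.a1 * x1 - P11C1.a2 * x2 + P11C1.e * xc + P11C1.f := by
  have h := cell_lines_delta 5 (α1 := (9193 / 4096 : ℝ)) (α2 := (3219 / 256 : ℝ)) (c := (12 : ℝ)) (y1 := (11901 / 131072 : ℝ)) (y2 := (1603 / 16384 : ℝ))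
    (A1 := (32163985 / 4194304 : ℝ)) (B1 := (41248603 / 268435456 : ℝ)) (A2 := (87340653 / 2097152 : ℝ)) (B2 := (66100319 / 67108864 : ℝ)) (l := (14591 / 131072 : ℝ)) (u := (7383 / 65536 : ℝ))
    (E := (-78245047 / 2097152 : ℝ)) (F := (-320863035 / 268435456 : ℝ)) (δ := (1 / 1073741824 : ℝ)) (by norm_num) (by norm_num) (by norm_num) (by norm_num) (by norm_num)
    (by norm_num) (by norm_num) (by norm_num) (by norm_num) (by norm_num) (by norm_num) (by norm_num) (by norm_num) (by norm_num) (by norm_num)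
  have e1 : P11C1.l = (14591 / 131072 : ℝ) := rfl
  have e2 : P11C1.u = (7383 / 65536 : ℝ) := rfl
  have e3 : P11C1.a1 = -(32163985 / 4194304 : ℝ) := by norm_num [P11C1]
  have e4 : P11C1.a2 = -(87340653 / 2097152 : ℝ) := by norm_num [P11C1]
  have e5 : P11C1.e = (-78245047 / 2097152 : ℝ) := rfl
  have e6 : P11C1.f = (41248603 / 268435456 : ℝ) + (66100319 / 67108864 : ℝ) + (-320863035 / 268435456 : ℝ) + (1 / 1073741824 : ℝ) := by norm_num [P11C1]
  rw [e1, e2, e3, e4, e5, e6]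
  exact h

lemma rP11C2 : ∃ N : ℝ, Rw4 P.r2 N (coCell (9193 / 4096 : ℝ) (3219 / 256 : ℝ) (12 : ℝ) 0 P11C2) := by
  refine ⟨(3221225472 : ℝ), ⟨Q106, List.mem_cons_of_mem _ (List.mem_cons_of_mem _ (List.mem_cons_of_mem _ (List.mem_cons_of_mem _ (List.mem_cons_of_mem _ (List.mem_cons_of_mem _ (List.mem_cons_of_mem _ (List.mem_cons_of_mem _ (List.mem_cons_of_mem _ (List.mem_cons_of_mem _ (List.mem_cons_of_mem _ (List.mem_cons_of_mem _ (List.mem_cons_of_mem _ (List.mem_cons_of_mem _ (List.mem_cons_of_mem _ (List.mem_cons_of_mem _ (List.mem_cons_of_mem _ (List.mem_cons_of_mem _ (List.mem_cons_of_mem _ (List.mem_cons_of_mem _ (List.mem_cons_of_mem _ (List.mem_cons_of_mem _ (List.mem_cons_of_mem _ (List.mem_cons_of_mem _ (List.mem_cons_of_mem _ (List.mem_cons_of_mem _ (List.mem_cons_of_mem _ (List.mem_cons_of_mem _ (List.mem_cons_of_mem _ (List.mem_cons_of_mem _ (List.mem_cons_of_mem _ (List.mem_cons_of_mem _ (List.mem_cons_of_mem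 _ (List.mem_cons_of_mem _ (List.mem_cons_of_mem _ (List.mem_cons_of_mem _ (List.mem_cons_of_mem _ (List.mem_cons_of_mem _ (List.mem_cons_of_mem _ (List.mem_cons_of_mem _ (List.mem_cons_of_mem _ (List.mem_cons_of_mem _ (List.mem_cons_of_mem _ (List.mem_cons_of_mem _ (List.mem_cons_of_mem _ (List.mem_cons_of_mem _ (List.mem_cons_of_mem _ (List.mem_cons_of_mem _ (List.mem_cons_of_mem _ (List.mem_cons_of_mem _ (List.mem_cons_of_mem _ (List.mem_cons_of_mem _ (List.mem_cons_of_mem _ (List.mem_cons_of_mem _ (List.mem_cons_of_mem _ (List.mem_cons_of_mem _ (List.mem_cons_of_mem _ (List.mem_cons_of_mem _ (List.mem_cons_of_mem _ (List.mem_cons_of_mem _ (List.mem_cons_of_mem _ (List.mem_cons_of_mem _ (List.mem_cons_of_mem _ (List.mem_cons_of_mem _ (List.mem_cons_of_mem _ (List.mem_cons_of_mem _ (List.mem_cons_of_mem _ (List.mem_cons_of_mem _ (List.mem_cons_of_mem _ (List.mem_cons_of_mem _ (List.mem_cons_of_mem _ (List.mem_cons_of_mem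 _ (List.mem_cons_of_mem _ (List.mem_cons_of_mem _ (List.mem_cons_of_mem _ (List.mem_cons_of_mem _ (List.mem_cons_of_mem _ (List.mem_cons_of_mem _ (List.mem_cons_of_mem _ (List.mem_cons_of_mem _ (List.mem_cons_of_mem _ (List.mem_cons_of_mem _ (List.mem_cons_of_mem _ (List.mem_cons_of_mem _ (List.mem_cons_of_mem _ (List.mem_cons_of_mem _ (List.mem_cons_of_mem _ (List.mem_cons_of_mem _ (List.mem_cons_of_mem _ (List.mem_cons_of_mem _ (List.mem_cons_of_mem _ (List.mem_cons_of_mem _ (List.mem_cons_of_mem _ (List.mem_cons_of_mem _ (List.mem_cons_of_mem _ (List.mem_cons_of_mem _ (List.mem_cons_of_mem _ (List.mem_cons_of_mem _ (List.mem_cons_of_mem _ (List.mem_cons_of_mem _ (List.mem_cons_of_mem _ (List.mem_cons_of_mem _ (List.mem_cons_of_mem _ (List.mem_cons_of_mem _ (List.mem_cons_of_mem _ (List.mem_cons_of_mem _ (List.mem_cons_self)))))))))))))))))))))))))))))))))))))))))))))))))))))))))))))))))))))))))))))))))))))))))))))))))))))))))),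 ?_⟩, by norm_num⟩
  constructor <;> norm_num [Q106, coCell, P11C2]

lemma lP11C2 : ∀ x1 x2 xc : ℝ, 0 ≤ x1 → x1 ≤ 1 → 0 ≤ x2 → x2 ≤ 1 → P11C2.l ≤ xc → xc ≤ P11C2.u →
    (9193 / 4096 : ℝ) * (1 - (1 - x1) ^ 5) + (3219 / 256 : ℝ) * (1 - (1 - x2) ^ 5) - (12 : ℝ) * (1 - (1 - xc) ^ 5) + (1 / 1073741824 : ℝ)
      ≤ - P11C2.a1 * x1 - P11C2.a2 * x2 + P11C2.e * xc + P11C2.f := by
  have h := cell_lines_delta 5 (α1 := (9193 / 4096 : ℝ)) (α2 := (3219 / 256 : ℝ)) (c := (12 : ℝ)) (y1 := (23853 / 262144 : ℝ)) (y2 := (13005 / 131072 : ℝ))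
    (A1 := (2008529 / 262144 : ℝ)) (B1 := (41408713 / 268435456 : ℝ)) (A2 := (86807117 / 2097152 : ℝ)) (B2 := (271130079 / 268435456 : ℝ)) (l := (7383 / 65536 : ℝ)) (u := (14943 / 131072 : ℝ))
    (E := (-155545721 / 4194304 : ℝ)) (F := (-327671927 / 268435456 : ℝ)) (δ := (1 / 1073741824 : ℝ)) (by norm_num) (by norm_num) (by norm_num) (by norm_num) (by norm_num)
    (by norm_num) (by norm_num) (by norm_num) (by norm_num) (by norm_num) (by norm_num) (by norm_num) (by norm_num) (by norm_num) (by norm_num)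
  have e1 : P11C2.l = (7383 / 65536 : ℝ) := rfl
  have e2 : P11C2.u = (14943 / 131072 : ℝ) := rfl
  have e3 : P11C2.a1 = -(2008529 / 262144 : ℝ) := by norm_num [P11C2]
  have e4 : P11C2.a2 = -(86807117 / 2097152 : ℝ) := by norm_num [P11C2]
  have e5 : P11C2.e = (-155545721 / 4194304 : ℝ) := rfl
  have e6 : P11C2.f = (41408713 / 268435456 : ℝ) + (271130079 / 268435456 : ℝ) + (-327671927 / 268435456 : ℝ) + (1 / 1073741824 : ℝ) := by norm_num [P11C2]
  rw [e1, e2, e3, e4, e5, e6]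
  exact h

lemma rP11C3 : ∃ N : ℝ, Rw4 P.r2 N (coCell (9193 / 4096 : ℝ) (3219 / 256 : ℝ) (12 : ℝ) 0 P11C3) := by
  refine ⟨(3221225472 : ℝ), ⟨Q107, List.mem_cons_of_mem _ (List.mem_cons_of_mem _ (List.mem_cons_of_mem _ (List.mem_cons_of_mem _ (List.mem_cons_of_mem _ (List.mem_cons_of_mem _ (List.mem_cons_of_mem _ (List.mem_cons_of_mem _ (List.mem_cons_of_mem _ (List.mem_cons_of_mem _ (List.mem_cons_of_mem _ (List.mem_cons_of_mem _ (List.mem_cons_of_mem _ (List.mem_cons_of_mem _ (List.mem_cons_of_mem _ (List.mem_cons_of_mem _ (List.mem_cons_of_mem _ (List.mem_cons_of_mem _ (List.mem_cons_of_mem _ (List.mem_cons_of_mem _ (List.mem_cons_of_mem _ (List.mem_cons_of_mem _ (List.mem_cons_of_mem _ (List.mem_cons_of_mem _ (List.mem_cons_of_mem _ (List.mem_cons_of_mem _ (List.mem_cons_of_mem _ (List.mem_cons_of_mem _ (List.mem_cons_of_mem _ (List.mem_cons_of_mem _ (List.mem_cons_of_mem _ (List.mem_cons_of_mem _ (List.mem_cons_of_mem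 _ (List.mem_cons_of_mem _ (List.mem_cons_of_mem _ (List.mem_cons_of_mem _ (List.mem_cons_of_mem _ (List.mem_cons_of_mem _ (List.mem_cons_of_mem _ (List.mem_cons_of_mem _ (List.mem_cons_of_mem _ (List.mem_cons_of_mem _ (List.mem_cons_of_mem _ (List.mem_cons_of_mem _ (List.mem_cons_of_mem _ (List.mem_cons_of_mem _ (List.mem_cons_of_mem _ (List.mem_cons_of_mem _ (List.mem_cons_of_mem _ (List.mem_cons_of_mem _ (List.mem_cons_of_mem _ (List.mem_cons_of_mem _ (List.mem_cons_of_mem _ (List.mem_cons_of_mem _ (List.mem_cons_of_mem _ (List.mem_cons_of_mem _ (List.mem_cons_of_mem _ (List.mem_cons_of_mem _ (List.mem_cons_of_mem _ (List.mem_cons_of_mem _ (List.mem_cons_of_mem _ (List.mem_cons_of_mem _ (List.mem_cons_of_mem _ (List.mem_cons_of_mem _ (List.mem_cons_of_mem _ (List.mem_cons_of_mem _ (List.mem_cons_of_mem _ (List.mem_cons_of_mem _ (List.mem_cons_of_mem _ (List.mem_cons_of_mem _ (List.mem_cons_of_mem _ (List.mem_cons_of_mem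 _ (List.mem_cons_of_mem _ (List.mem_cons_of_mem _ (List.mem_cons_of_mem _ (List.mem_cons_of_mem _ (List.mem_cons_of_mem _ (List.mem_cons_of_mem _ (List.mem_cons_of_mem _ (List.mem_cons_of_mem _ (List.mem_cons_of_mem _ (List.mem_cons_of_mem _ (List.mem_cons_of_mem _ (List.mem_cons_of_mem _ (List.mem_cons_of_mem _ (List.mem_cons_of_mem _ (List.mem_cons_of_mem _ (List.mem_cons_of_mem _ (List.mem_cons_of_mem _ (List.mem_cons_of_mem _ (List.mem_cons_of_mem _ (List.mem_cons_of_mem _ (List.mem_cons_of_mem _ (List.mem_cons_of_mem _ (List.mem_cons_of_mem _ (List.mem_cons_of_mem _ (List.mem_cons_of_mem _ (List.mem_cons_of_mem _ (List.mem_cons_of_mem _ (List.mem_cons_of_mem _ (List.mem_cons_of_mem _ (List.mem_cons_of_mem _ (List.mem_cons_of_mem _ (List.mem_cons_of_mem _ (List.mem_cons_of_mem _ (List.mem_cons_of_mem _ (List.mem_cons_of_mem _ (List.mem_cons_self))))))))))))))))))))))))))))))))))))))))))))))))))))))))))))))))))))))))))))))))))))))))))))))))))))))))))),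 ?_⟩, by norm_num⟩
  constructor <;> norm_num [Q107, coCell, P11C3]

lemma lP11C3 : ∀ x1 x2 xc : ℝ, 0 ≤ x1 → x1 ≤ 1 → 0 ≤ x2 → x2 ≤ 1 → P11C3.l ≤ xc → xc ≤ P11C3.u →
    (9193 / 4096 : ℝ) * (1 - (1 - x1) ^ 5) + (3219 / 256 : ℝ) * (1 - (1 - x2) ^ 5) - (12 : ℝ) * (1 - (1 - xc) ^ 5) + (1 / 1073741824 : ℝ)
      ≤ - P11C3.a1 * x1 - P11C3.a2 * x2 + P11C3.e * xc + P11C3.f := by
  have h := cell_lines_delta 5 (α1 := (9193 / 4096 : ℝ)) (α2 := (3219 / 256 : ℝ)) (c := (12 : ℝ)) (y1 := (24055 / 262144 : ℝ)) (y2 := (1643 / 16384 : ℝ))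
    (A1 := (16013817 / 2097152 : ℝ)) (B1 := (42045153 / 268435456 : ℝ)) (A2 := (86399047 / 2097152 : ℝ)) (B2 := (276340329 / 268435456 : ℝ)) (l := (14943 / 131072 : ℝ)) (u := (30147 / 262144 : ℝ))
    (E := (-77362077 / 2097152 : ℝ)) (F := (-166833199 / 134217728 : ℝ)) (δ := (1 / 1073741824 : ℝ)) (by norm_num) (by norm_num) (by norm_num) (by norm_num) (by norm_num)
    (by norm_num) (by norm_num) (by norm_num) (by norm_num) (by norm_num) (by norm_num) (by norm_num) (by norm_num) (by norm_num) (by norm_num)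
  have e1 : P11C3.l = (14943 / 131072 : ℝ) := rfl
  have e2 : P11C3.u = (30147 / 262144 : ℝ) := rfl
  have e3 : P11C3.a1 = -(16013817 / 2097152 : ℝ) := by norm_num [P11C3]
  have e4 : P11C3.a2 = -(86399047 / 2097152 : ℝ) := by norm_num [P11C3]
  have e5 : P11C3.e = (-77362077 / 2097152 : ℝ) := rfl
  have e6 : P11C3.f = (42045153 / 268435456 : ℝ) + (276340329 / 268435456 : ℝ) + (-166833199 / 134217728 : ℝ) + (1 / 1073741824 : ℝ) := by norm_num [P11C3]
  rw [e1, e2, e3, e4, e5, e6]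
  exact h

/-- A link of the chain. -/
lemma link11 {lam : ℝ} (h0 : -(1 / 2) < lam) (h1 : lam < 1) (hB : BoxS lam P 0 HH 0 HH)
    (h : ∃ n, 1 - En 5 lam n mc ≤ (30147 / 262144 : ℝ)) : ∃ n, 1 - En 5 lam n mc ≤ (7209 / 65536 : ℝ) :=
  phase_of_box (by norm_num) h0 h1 hB (9193 / 4096 : ℝ) (3219 / 256 : ℝ) (12 : ℝ) (1 / 1073741824 : ℝ) (7209 / 65536 : ℝ) (30147 / 262144 : ℝ) (by norm_num) cellsP11 hcoverP11
    (forall_cons lP11C0 (forall_cons lP11C1 (forall_cons lP11C2 (forall_cons lP11C3 (forall_nil))))) (forall_cons rP11C0 (forall_cons rP11C1 (forall_cons rP11C2 (forall_cons rP11C3 (forall_nil))))) h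

/-- A chord cell of a link. -/
noncomputable def P12C0 : Cell := ⟨(30147 / 262144 : ℝ), (7627 / 65536 : ℝ), (-31754879 / 4194304 : ℝ), (-43027079 / 1048576 : ℝ), (-153896723 / 4194304 : ℝ), (-61297411 / 1073741824 : ℝ)⟩

/-- A chord cell of a link. -/
noncomputable def P12C1 : Cell := ⟨(7627 / 65536 : ℝ), (15437 / 131072 : ℝ), (-31720665 / 4194304 : ℝ), (-85503299 / 2097152 : ℝ), (-152933725 / 4194304 : ℝ), (-60438483 / 1073741824 : ℝ)⟩

/-- A chord cell of a link. -/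
noncomputable def P12C2 : Cell := ⟨(15437 / 131072 : ℝ), (31245 / 262144 : ℝ), (-15845375 / 2097152 : ℝ), (-169921753 / 4194304 : ℝ), (-75981051 / 2097152 : ℝ), (-60327123 / 1073741824 : ℝ)⟩

/-- A chord cell of a link. -/
noncomputable def P12C3 : Cell := ⟨(31245 / 262144 : ℝ), (31457 / 262144 : ℝ), (-31654987 / 4194304 : ℝ), (-10565055 / 262144 : ℝ), (-75598327 / 2097152 : ℝ), (-59234443 / 1073741824 : ℝ)⟩

/-- The chord cells of a link. -/
noncomputable def cellsP12 : List Cell := [P12C0, P12C1, P12C2, P12C3]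

lemma hcoverP12 : ∀ x : ℝ, (30147 / 262144 : ℝ) ≤ x → x ≤ (31457 / 262144 : ℝ) → ∃ D ∈ cellsP12, D.l ≤ x ∧ x ≤ D.u := by
  refine cover_of_chain ?_ (by norm_num [P12C0])
  simp only [ChainP, P12C0, P12C1, P12C2, P12C3]
  norm_num

lemma rP12C0 : ∃ N : ℝ, Rw4 P.r2 N (coCell (9205 / 4096 : ℝ) (12873 / 1024 : ℝ) (12 : ℝ) 0 P12C0) := by
  refine ⟨(3221225472 : ℝ), ⟨Q108, List.mem_cons_of_mem _ (List.mem_cons_of_mem _ (List.mem_cons_of_mem _ (List.mem_cons_of_mem _ (List.mem_cons_of_mem _ (List.mem_cons_of_mem _ (List.mem_cons_of_mem _ (List.mem_cons_of_mem _ (List.mem_cons_of_mem _ (List.mem_cons_of_mem _ (List.mem_cons_of_mem _ (List.mem_cons_of_mem _ (List.mem_cons_of_mem _ (List.mem_cons_of_mem _ (List.mem_cons_of_mem _ (List.mem_cons_of_mem _ (List.mem_cons_of_mem _ (List.mem_cons_of_mem _ (List.mem_cons_of_mem _ (List.mem_cons_of_mem _ (List.mem_cons_of_mem _ (List.mem_cons_of_mem _ (List.mem_cons_of_mem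 _ (List.mem_cons_of_mem _ (List.mem_cons_of_mem _ (List.mem_cons_of_mem _ (List.mem_cons_of_mem _ (List.mem_cons_of_mem _ (List.mem_cons_of_mem _ (List.mem_cons_of_mem _ (List.mem_cons_of_mem _ (List.mem_cons_of_mem _ (List.mem_cons_of_mem _ (List.mem_cons_of_mem _ (List.mem_cons_of_mem _ (List.mem_cons_of_mem _ (List.mem_cons_of_mem _ (List.mem_cons_of_mem _ (List.mem_cons_of_mem _ (List.mem_cons_of_mem _ (List.mem_cons_of_mem _ (List.mem_cons_of_mem _ (List.mem_cons_of_mem _ (List.mem_cons_of_mem _ (List.mem_cons_of_mem _ (List.mem_cons_of_mem _ (List.mem_cons_of_mem _ (List.mem_cons_of_mem _ (List.mem_cons_of_mem _ (List.mem_cons_of_mem _ (List.mem_cons_of_mem _ (List.mem_cons_of_mem _ (List.mem_cons_of_mem _ (List.mem_cons_of_mem _ (List.mem_cons_of_mem _ (List.mem_cons_of_mem _ (List.mem_cons_of_mem _ (List.mem_cons_of_mem _ (List.mem_cons_of_mem _ (List.mem_cons_of_mem _ (List.mem_cons_of_mem _ (List.mem_cons_of_mem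 _ (List.mem_cons_of_mem _ (List.mem_cons_of_mem _ (List.mem_cons_of_mem _ (List.mem_cons_of_mem _ (List.mem_cons_of_mem _ (List.mem_cons_of_mem _ (List.mem_cons_of_mem _ (List.mem_cons_of_mem _ (List.mem_cons_of_mem _ (List.mem_cons_of_mem _ (List.mem_cons_of_mem _ (List.mem_cons_of_mem _ (List.mem_cons_of_mem _ (List.mem_cons_of_mem _ (List.mem_cons_of_mem _ (List.mem_cons_of_mem _ (List.mem_cons_of_mem _ (List.mem_cons_of_mem _ (List.mem_cons_of_mem _ (List.mem_cons_of_mem _ (List.mem_cons_of_mem _ (List.mem_cons_of_mem _ (List.mem_cons_of_mem _ (List.mem_cons_of_mem _ (List.mem_cons_of_mem _ (List.mem_cons_of_mem _ (List.mem_cons_of_mem _ (List.mem_cons_of_mem _ (List.mem_cons_of_mem _ (List.mem_cons_of_mem _ (List.mem_cons_of_mem _ (List.mem_cons_of_mem _ (List.mem_cons_of_mem _ (List.mem_cons_of_mem _ (List.mem_cons_of_mem _ (List.mem_cons_of_mem _ (List.mem_cons_of_mem _ (List.mem_cons_of_mem _ (List.mem_cons_of_mem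 _ (List.mem_cons_of_mem _ (List.mem_cons_of_mem _ (List.mem_cons_of_mem _ (List.mem_cons_of_mem _ (List.mem_cons_of_mem _ (List.mem_cons_of_mem _ (List.mem_cons_of_mem _ (List.mem_cons_self)))))))))))))))))))))))))))))))))))))))))))))))))))))))))))))))))))))))))))))))))))))))))))))))))))))))))))), ?_⟩, by norm_num⟩
  constructor <;> norm_num [Q108, coCell, P12C0]

lemma lP12C0 : ∀ x1 x2 xc : ℝ, 0 ≤ x1 → x1 ≤ 1 → 0 ≤ x2 → x2 ≤ 1 → P12C0.l ≤ xc → xc ≤ P12C0.u →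
    (9205 / 4096 : ℝ) * (1 - (1 - x1) ^ 5) + (12873 / 1024 : ℝ) * (1 - (1 - x2) ^ 5) - (12 : ℝ) * (1 - (1 - xc) ^ 5) + (1 / 1073741824 : ℝ)
      ≤ - P12C0.a1 * x1 - P12C0.a2 * x2 + P12C0.e * xc + P12C0.f := by
  have h := cell_lines_delta 5 (α1 := (9205 / 4096 : ℝ)) (α2 := (12873 / 1024 : ℝ)) (c := (12 : ℝ)) (y1 := (24641 / 262144 : ℝ)) (y2 := (13255 / 131072 : ℝ))
    (A1 := (31754879 / 4194304 : ℝ)) (B1 := (43969881 / 268435456 : ℝ)) (A2 := (43027079 / 1048576 : ℝ)) (B2 := (280462145 / 268435456 : ℝ)) (l := (30147 / 262144 : ℝ)) (u := (7627 / 65536 : ℝ))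
    (E := (-153896723 / 4194304 : ℝ)) (F := (-339756379 / 268435456 : ℝ)) (δ := (1 / 1073741824 : ℝ)) (by norm_num) (by norm_num) (by norm_num) (by norm_num) (by norm_num)
    (by norm_num) (by norm_num) (by norm_num) (by norm_num) (by norm_num) (by norm_num) (by norm_num) (by norm_num) (by norm_num) (by norm_num)
  have e1 : P12C0.l = (30147 / 262144 : ℝ) := rfl
  have e2 : P12C0.u = (7627 / 65536 : ℝ) := rfl
  have e3 : P12C0.a1 = -(31754879 / 4194304 : ℝ) := by norm_num [P12C0]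
  have e4 : P12C0.a2 = -(43027079 / 1048576 : ℝ) := by norm_num [P12C0]
  have e5 : P12C0.e = (-153896723 / 4194304 : ℝ) := rfl
  have e6 : P12C0.f = (43969881 / 268435456 : ℝ) + (280462145 / 268435456 : ℝ) + (-339756379 / 268435456 : ℝ) + (1 / 1073741824 : ℝ) := by norm_num [P12C0]
  rw [e1, e2, e3, e4, e5, e6]
  exact h

lemma rP12C1 : ∃ N : ℝ, Rw4 P.r2 N (coCell (9205 / 4096 : ℝ) (12873 / 1024 : ℝ) (12 : ℝ) 0 P12C1) := by
  refine ⟨(3221225472 : ℝ), ⟨Q109, List.mem_cons_of_mem _ (List.mem_cons_of_mem _ (List.mem_cons_of_mem _ (List.mem_cons_of_mem _ (List.mem_cons_of_mem _ (List.mem_cons_of_mem _ (List.mem_cons_of_mem _ (List.mem_cons_of_mem _ (List.mem_cons_of_mem _ (List.mem_cons_of_mem _ (List.mem_cons_of_mem _ (List.mem_cons_of_mem _ (List.mem_cons_of_mem _ (List.mem_cons_of_mem _ (List.mem_cons_of_mem _ (List.mem_cons_of_mem _ (List.mem_cons_of_mem _ (List.mem_cons_of_mem _ (List.mem_cons_of_mem _ (List.mem_cons_of_mem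 _ (List.mem_cons_of_mem _ (List.mem_cons_of_mem _ (List.mem_cons_of_mem _ (List.mem_cons_of_mem _ (List.mem_cons_of_mem _ (List.mem_cons_of_mem _ (List.mem_cons_of_mem _ (List.mem_cons_of_mem _ (List.mem_cons_of_mem _ (List.mem_cons_of_mem _ (List.mem_cons_of_mem _ (List.mem_cons_of_mem _ (List.mem_cons_of_mem _ (List.mem_cons_of_mem _ (List.mem_cons_of_mem _ (List.mem_cons_of_mem _ (List.mem_cons_of_mem _ (List.mem_cons_of_mem _ (List.mem_cons_of_mem _ (List.mem_cons_of_mem _ (List.mem_cons_of_mem _ (List.mem_cons_of_mem _ (List.mem_cons_of_mem _ (List.mem_cons_of_mem _ (List.mem_cons_of_mem _ (List.mem_cons_of_mem _ (List.mem_cons_of_mem _ (List.mem_cons_of_mem _ (List.mem_cons_of_mem _ (List.mem_cons_of_mem _ (List.mem_cons_of_mem _ (List.mem_cons_of_mem _ (List.mem_cons_of_mem _ (List.mem_cons_of_mem _ (List.mem_cons_of_mem _ (List.mem_cons_of_mem _ (List.mem_cons_of_mem _ (List.mem_cons_of_mem _ (List.mem_cons_of_mem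 _ (List.mem_cons_of_mem _ (List.mem_cons_of_mem _ (List.mem_cons_of_mem _ (List.mem_cons_of_mem _ (List.mem_cons_of_mem _ (List.mem_cons_of_mem _ (List.mem_cons_of_mem _ (List.mem_cons_of_mem _ (List.mem_cons_of_mem _ (List.mem_cons_of_mem _ (List.mem_cons_of_mem _ (List.mem_cons_of_mem _ (List.mem_cons_of_mem _ (List.mem_cons_of_mem _ (List.mem_cons_of_mem _ (List.mem_cons_of_mem _ (List.mem_cons_of_mem _ (List.mem_cons_of_mem _ (List.mem_cons_of_mem _ (List.mem_cons_of_mem _ (List.mem_cons_of_mem _ (List.mem_cons_of_mem _ (List.mem_cons_of_mem _ (List.mem_cons_of_mem _ (List.mem_cons_of_mem _ (List.mem_cons_of_mem _ (List.mem_cons_of_mem _ (List.mem_cons_of_mem _ (List.mem_cons_of_mem _ (List.mem_cons_of_mem _ (List.mem_cons_of_mem _ (List.mem_cons_of_mem _ (List.mem_cons_of_mem _ (List.mem_cons_of_mem _ (List.mem_cons_of_mem _ (List.mem_cons_of_mem _ (List.mem_cons_of_mem _ (List.mem_cons_of_mem _ (List.mem_cons_of_mem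 _ (List.mem_cons_of_mem _ (List.mem_cons_of_mem _ (List.mem_cons_of_mem _ (List.mem_cons_of_mem _ (List.mem_cons_of_mem _ (List.mem_cons_of_mem _ (List.mem_cons_of_mem _ (List.mem_cons_of_mem _ (List.mem_cons_of_mem _ (List.mem_cons_of_mem _ (List.mem_cons_of_mem _ (List.mem_cons_self))))))))))))))))))))))))))))))))))))))))))))))))))))))))))))))))))))))))))))))))))))))))))))))))))))))))))))), ?_⟩, by norm_num⟩
  constructor <;> norm_num [Q109, coCell, P12C1]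

lemma lP12C1 : ∀ x1 x2 xc : ℝ, 0 ≤ x1 → x1 ≤ 1 → 0 ≤ x2 → x2 ≤ 1 → P12C1.l ≤ xc → xc ≤ P12C1.u →
    (9205 / 4096 : ℝ) * (1 - (1 - x1) ^ 5) + (12873 / 1024 : ℝ) * (1 - (1 - x2) ^ 5) - (12 : ℝ) * (1 - (1 - xc) ^ 5) + (1 / 1073741824 : ℝ)
      ≤ - P12C1.a1 * x1 - P12C1.a2 * x2 + P12C1.e * xc + P12C1.f := by
  have h := cell_lines_delta 5 (α1 := (9205 / 4096 : ℝ)) (α2 := (12873 / 1024 : ℝ)) (c := (12 : ℝ)) (y1 := (24705 / 262144 : ℝ)) (y2 := (3361 / 32768 : ℝ))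
    (A1 := (31720665 / 4194304 : ℝ)) (B1 := (44175967 / 268435456 : ℝ)) (A2 := (85503299 / 2097152 : ℝ)) (B2 := (287643433 / 268435456 : ℝ)) (l := (7627 / 65536 : ℝ)) (u := (15437 / 131072 : ℝ))
    (E := (-152933725 / 4194304 : ℝ)) (F := (-346929021 / 268435456 : ℝ)) (δ := (1 / 1073741824 : ℝ)) (by norm_num) (by norm_num) (by norm_num) (by norm_num) (by norm_num)
    (by norm_num) (by norm_num) (by norm_num) (by norm_num) (by norm_num) (by norm_num) (by norm_num) (by norm_num) (by norm_num) (by norm_num)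
  have e1 : P12C1.l = (7627 / 65536 : ℝ) := rfl
  have e2 : P12C1.u = (15437 / 131072 : ℝ) := rfl
  have e3 : P12C1.a1 = -(31720665 / 4194304 : ℝ) := by norm_num [P12C1]
  have e4 : P12C1.a2 = -(85503299 / 2097152 : ℝ) := by norm_num [P12C1]
  have e5 : P12C1.e = (-152933725 / 4194304 : ℝ) := rfl
  have e6 : P12C1.f = (44175967 / 268435456 : ℝ) + (287643433 / 268435456 : ℝ) + (-346929021 / 268435456 : ℝ) + (1 / 1073741824 : ℝ) := by norm_num [P12C1]
  rw [e1, e2, e3, e4, e5, e6]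
  exact h

lemma rP12C2 : ∃ N : ℝ, Rw4 P.r2 N (coCell (9205 / 4096 : ℝ) (12873 / 1024 : ℝ) (12 : ℝ) 0 P12C2) := by
  refine ⟨(3221225472 : ℝ), ⟨Q110, List.mem_cons_of_mem _ (List.mem_cons_of_mem _ (List.mem_cons_of_mem _ (List.mem_cons_of_mem _ (List.mem_cons_of_mem _ (List.mem_cons_of_mem _ (List.mem_cons_of_mem _ (List.mem_cons_of_mem _ (List.mem_cons_of_mem _ (List.mem_cons_of_mem _ (List.mem_cons_of_mem _ (List.mem_cons_of_mem _ (List.mem_cons_of_mem _ (List.mem_cons_of_mem _ (List.mem_cons_of_mem _ (List.mem_cons_of_mem _ (List.mem_cons_of_mem _ (List.mem_cons_of_mem _ (List.mem_cons_of_mem _ (List.mem_cons_of_mem _ (List.mem_cons_of_mem _ (List.mem_cons_of_mem _ (List.mem_cons_of_mem _ (List.mem_cons_of_mem _ (List.mem_cons_of_mem _ (List.mem_cons_of_mem _ (List.mem_cons_of_mem _ (List.mem_cons_of_mem _ (List.mem_cons_of_mem _ (List.mem_cons_of_mem _ (List.mem_cons_of_mem _ (List.mem_cons_of_mem _ (List.mem_cons_of_mem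 _ (List.mem_cons_of_mem _ (List.mem_cons_of_mem _ (List.mem_cons_of_mem _ (List.mem_cons_of_mem _ (List.mem_cons_of_mem _ (List.mem_cons_of_mem _ (List.mem_cons_of_mem _ (List.mem_cons_of_mem _ (List.mem_cons_of_mem _ (List.mem_cons_of_mem _ (List.mem_cons_of_mem _ (List.mem_cons_of_mem _ (List.mem_cons_of_mem _ (List.mem_cons_of_mem _ (List.mem_cons_of_mem _ (List.mem_cons_of_mem _ (List.mem_cons_of_mem _ (List.mem_cons_of_mem _ (List.mem_cons_of_mem _ (List.mem_cons_of_mem _ (List.mem_cons_of_mem _ (List.mem_cons_of_mem _ (List.mem_cons_of_mem _ (List.mem_cons_of_mem _ (List.mem_cons_of_mem _ (List.mem_cons_of_mem _ (List.mem_cons_of_mem _ (List.mem_cons_of_mem _ (List.mem_cons_of_mem _ (List.mem_cons_of_mem _ (List.mem_cons_of_mem _ (List.mem_cons_of_mem _ (List.mem_cons_of_mem _ (List.mem_cons_of_mem _ (List.mem_cons_of_mem _ (List.mem_cons_of_mem _ (List.mem_cons_of_mem _ (List.mem_cons_of_mem _ (List.mem_cons_of_mem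 _ (List.mem_cons_of_mem _ (List.mem_cons_of_mem _ (List.mem_cons_of_mem _ (List.mem_cons_of_mem _ (List.mem_cons_of_mem _ (List.mem_cons_of_mem _ (List.mem_cons_of_mem _ (List.mem_cons_of_mem _ (List.mem_cons_of_mem _ (List.mem_cons_of_mem _ (List.mem_cons_of_mem _ (List.mem_cons_of_mem _ (List.mem_cons_of_mem _ (List.mem_cons_of_mem _ (List.mem_cons_of_mem _ (List.mem_cons_of_mem _ (List.mem_cons_of_mem _ (List.mem_cons_of_mem _ (List.mem_cons_of_mem _ (List.mem_cons_of_mem _ (List.mem_cons_of_mem _ (List.mem_cons_of_mem _ (List.mem_cons_of_mem _ (List.mem_cons_of_mem _ (List.mem_cons_of_mem _ (List.mem_cons_of_mem _ (List.mem_cons_of_mem _ (List.mem_cons_of_mem _ (List.mem_cons_of_mem _ (List.mem_cons_of_mem _ (List.mem_cons_of_mem _ (List.mem_cons_of_mem _ (List.mem_cons_of_mem _ (List.mem_cons_of_mem _ (List.mem_cons_of_mem _ (List.mem_cons_of_mem _ (List.mem_cons_of_mem _ (List.mem_cons_of_mem _ (List.mem_cons_self)))))))))))))))))))))))))))))))))))))))))))))))))))))))))))))))))))))))))))))))))))))))))))))))))))))))))))))),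 ?_⟩, by norm_num⟩
  constructor <;> norm_num [Q110, coCell, P12C2]

lemma lP12C2 : ∀ x1 x2 xc : ℝ, 0 ≤ x1 → x1 ≤ 1 → 0 ≤ x2 → x2 ≤ 1 → P12C2.l ≤ xc → xc ≤ P12C2.u →
    (9205 / 4096 : ℝ) * (1 - (1 - x1) ^ 5) + (12873 / 1024 : ℝ) * (1 - (1 - x2) ^ 5) - (12 : ℝ) * (1 - (1 - xc) ^ 5) + (1 / 1073741824 : ℝ)
      ≤ - P12C2.a1 * x1 - P12C2.a2 * x2 + P12C2.e * xc + P12C2.f := by
  have h := cell_lines_delta 5 (α1 := (9205 / 4096 : ℝ)) (α2 := (12873 / 1024 : ℝ)) (c := (12 : ℝ)) (y1 := (24761 / 262144 : ℝ)) (y2 := (13631 / 131072 : ℝ))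
    (A1 := (15845375 / 2097152 : ℝ)) (B1 := (44356621 / 268435456 : ℝ)) (A2 := (169921753 / 4194304 : ℝ)) (B2 := (294814323 / 268435456 : ℝ)) (l := (15437 / 131072 : ℝ)) (u := (31245 / 262144 : ℝ))
    (E := (-75981051 / 2097152 : ℝ)) (F := (-354252725 / 268435456 : ℝ)) (δ := (1 / 1073741824 : ℝ)) (by norm_num) (by norm_num) (by norm_num) (by norm_num) (by norm_num)
    (by norm_num) (by norm_num) (by norm_num) (by norm_num) (by norm_num) (by norm_num) (by norm_num) (by norm_num) (by norm_num) (by norm_num)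
  have e1 : P12C2.l = (15437 / 131072 : ℝ) := rfl
  have e2 : P12C2.u = (31245 / 262144 : ℝ) := rfl
  have e3 : P12C2.a1 = -(15845375 / 2097152 : ℝ) := by norm_num [P12C2]
  have e4 : P12C2.a2 = -(169921753 / 4194304 : ℝ) := by norm_num [P12C2]
  have e5 : P12C2.e = (-75981051 / 2097152 : ℝ) := rfl
  have e6 : P12C2.f = (44356621 / 268435456 : ℝ) + (294814323 / 268435456 : ℝ) + (-354252725 / 268435456 : ℝ) + (1 / 1073741824 : ℝ) := by norm_num [P12C2]
  rw [e1, e2, e3, e4, e5, e6]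
  exact h

lemma rP12C3 : ∃ N : ℝ, Rw4 P.r2 N (coCell (9205 / 4096 : ℝ) (12873 / 1024 : ℝ) (12 : ℝ) 0 P12C3) := by
  refine ⟨(3221225472 : ℝ), ⟨Q111, List.mem_cons_of_mem _ (List.mem_cons_of_mem _ (List.mem_cons_of_mem _ (List.mem_cons_of_mem _ (List.mem_cons_of_mem _ (List.mem_cons_of_mem _ (List.mem_cons_of_mem _ (List.mem_cons_of_mem _ (List.mem_cons_of_mem _ (List.mem_cons_of_mem _ (List.mem_cons_of_mem _ (List.mem_cons_of_mem _ (List.mem_cons_of_mem _ (List.mem_cons_of_mem _ (List.mem_cons_of_mem _ (List.mem_cons_of_mem _ (List.mem_cons_of_mem _ (List.mem_cons_of_mem _ (List.mem_cons_of_mem _ (List.mem_cons_of_mem _ (List.mem_cons_of_mem _ (List.mem_cons_of_mem _ (List.mem_cons_of_mem _ (List.mem_cons_of_mem _ (List.mem_cons_of_mem _ (List.mem_cons_of_mem _ (List.mem_cons_of_mem _ (List.mem_cons_of_mem _ (List.mem_cons_of_mem _ (List.mem_cons_of_mem _ (List.mem_cons_of_mem _ (List.mem_cons_of_mem _ (List.mem_cons_of_mem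 _ (List.mem_cons_of_mem _ (List.mem_cons_of_mem _ (List.mem_cons_of_mem _ (List.mem_cons_of_mem _ (List.mem_cons_of_mem _ (List.mem_cons_of_mem _ (List.mem_cons_of_mem _ (List.mem_cons_of_mem _ (List.mem_cons_of_mem _ (List.mem_cons_of_mem _ (List.mem_cons_of_mem _ (List.mem_cons_of_mem _ (List.mem_cons_of_mem _ (List.mem_cons_of_mem _ (List.mem_cons_of_mem _ (List.mem_cons_of_mem _ (List.mem_cons_of_mem _ (List.mem_cons_of_mem _ (List.mem_cons_of_mem _ (List.mem_cons_of_mem _ (List.mem_cons_of_mem _ (List.mem_cons_of_mem _ (List.mem_cons_of_mem _ (List.mem_cons_of_mem _ (List.mem_cons_of_mem _ (List.mem_cons_of_mem _ (List.mem_cons_of_mem _ (List.mem_cons_of_mem _ (List.mem_cons_of_mem _ (List.mem_cons_of_mem _ (List.mem_cons_of_mem _ (List.mem_cons_of_mem _ (List.mem_cons_of_mem _ (List.mem_cons_of_mem _ (List.mem_cons_of_mem _ (List.mem_cons_of_mem _ (List.mem_cons_of_mem _ (List.mem_cons_of_mem _ (List.mem_cons_of_mem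 _ (List.mem_cons_of_mem _ (List.mem_cons_of_mem _ (List.mem_cons_of_mem _ (List.mem_cons_of_mem _ (List.mem_cons_of_mem _ (List.mem_cons_of_mem _ (List.mem_cons_of_mem _ (List.mem_cons_of_mem _ (List.mem_cons_of_mem _ (List.mem_cons_of_mem _ (List.mem_cons_of_mem _ (List.mem_cons_of_mem _ (List.mem_cons_of_mem _ (List.mem_cons_of_mem _ (List.mem_cons_of_mem _ (List.mem_cons_of_mem _ (List.mem_cons_of_mem _ (List.mem_cons_of_mem _ (List.mem_cons_of_mem _ (List.mem_cons_of_mem _ (List.mem_cons_of_mem _ (List.mem_cons_of_mem _ (List.mem_cons_of_mem _ (List.mem_cons_of_mem _ (List.mem_cons_of_mem _ (List.mem_cons_of_mem _ (List.mem_cons_of_mem _ (List.mem_cons_of_mem _ (List.mem_cons_of_mem _ (List.mem_cons_of_mem _ (List.mem_cons_of_mem _ (List.mem_cons_of_mem _ (List.mem_cons_of_mem _ (List.mem_cons_of_mem _ (List.mem_cons_of_mem _ (List.mem_cons_of_mem _ (List.mem_cons_of_mem _ (List.mem_cons_of_mem _ (List.mem_cons_of_mem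 _ (List.mem_cons_self))))))))))))))))))))))))))))))))))))))))))))))))))))))))))))))))))))))))))))))))))))))))))))))))))))))))))))))), ?_⟩, by norm_num⟩
  constructor <;> norm_num [Q111, coCell, P12C3]

lemma lP12C3 : ∀ x1 x2 xc : ℝ, 0 ≤ x1 → x1 ≤ 1 → 0 ≤ x2 → x2 ≤ 1 → P12C3.l ≤ xc → xc ≤ P12C3.u →
    (9205 / 4096 : ℝ) * (1 - (1 - x1) ^ 5) + (12873 / 1024 : ℝ) * (1 - (1 - x2) ^ 5) - (12 : ℝ) * (1 - (1 - xc) ^ 5) + (1 / 1073741824 : ℝ)
      ≤ - P12C3.a1 * x1 - P12C3.a2 * x2 + P12C3.e * xc + P12C3.f := by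
  have h := cell_lines_delta 5 (α1 := (9205 / 4096 : ℝ)) (α2 := (12873 / 1024 : ℝ)) (c := (12 : ℝ)) (y1 := (6207 / 65536 : ℝ)) (y2 := (27567 / 262144 : ℝ))
    (A1 := (31654987 / 4194304 : ℝ)) (B1 := (44573107 / 268435456 : ℝ)) (A2 := (10565055 / 262144 : ℝ)) (B2 := (300709977 / 268435456 : ℝ)) (l := (31245 / 262144 : ℝ)) (u := (31457 / 262144 : ℝ))
    (E := (-75598327 / 2097152 : ℝ)) (F := (-360091695 / 268435456 : ℝ)) (δ := (1 / 1073741824 : ℝ)) (by norm_num) (by norm_num) (by norm_num) (by norm_num) (by norm_num)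
    (by norm_num) (by norm_num) (by norm_num) (by norm_num) (by norm_num) (by norm_num) (by norm_num) (by norm_num) (by norm_num) (by norm_num)
  have e1 : P12C3.l = (31245 / 262144 : ℝ) := rfl
  have e2 : P12C3.u = (31457 / 262144 : ℝ) := rfl
  have e3 : P12C3.a1 = -(31654987 / 4194304 : ℝ) := by norm_num [P12C3]
  have e4 : P12C3.a2 = -(10565055 / 262144 : ℝ) := by norm_num [P12C3]
  have e5 : P12C3.e = (-75598327 / 2097152 : ℝ) := rfl
  have e6 : P12C3.f = (44573107 / 268435456 : ℝ) + (300709977 / 268435456 : ℝ) + (-360091695 / 268435456 : ℝ) + (1 / 1073741824 : ℝ) := by norm_num [P12C3]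
  rw [e1, e2, e3, e4, e5, e6]
  exact h

/-- A link of the chain. -/
lemma link12 {lam : ℝ} (h0 : -(1 / 2) < lam) (h1 : lam < 1) (hB : BoxS lam P 0 HH 0 HH)
    (h : ∃ n, 1 - En 5 lam n mc ≤ (31457 / 262144 : ℝ)) : ∃ n, 1 - En 5 lam n mc ≤ (30147 / 262144 : ℝ) :=
  phase_of_box (by norm_num) h0 h1 hB (9205 / 4096 : ℝ) (12873 / 1024 : ℝ) (12 : ℝ) (1 / 1073741824 : ℝ) (30147 / 262144 : ℝ) (31457 / 262144 : ℝ) (by norm_num) cellsP12 hcoverP12
    (forall_cons lP12C0 (forall_cons lP12C1 (forall_cons lP12C2 (forall_cons lP12C3 (forall_nil))))) (forall_cons rP12C0 (forall_cons rP12C1 (forall_cons rP12C2 (forall_cons rP12C3 (forall_nil))))) h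

/-- A chord cell of a link. -/
noncomputable def P13C0 : Cell := ⟨(31457 / 262144 : ℝ), (31929 / 262144 : ℝ), (-42349167 / 4194304 : ℝ), (-40771407 / 1048576 : ℝ), (-75151347 / 2097152 : ℝ), (-83447283 / 1073741824 : ℝ)⟩

/-- A chord cell of a link. -/
noncomputable def P13C1 : Cell := ⟨(31929 / 262144 : ℝ), (4051 / 32768 : ℝ), (-10576919 / 1048576 : ℝ), (-80831355 / 2097152 : ℝ), (-74533017 / 2097152 : ℝ), (-82723687 / 1073741824 : ℝ)⟩

/-- A chord cell of a link. -/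
noncomputable def P13C2 : Cell := ⟨(4051 / 32768 : ℝ), (16447 / 131072 : ℝ), (-21208597 / 2097152 : ℝ), (-160101155 / 4194304 : ℝ), (-18477373 / 524288 : ℝ), (-82106023 / 1073741824 : ℝ)⟩

/-- A chord cell of a link. -/
noncomputable def P13C3 : Cell := ⟨(16447 / 131072 : ℝ), (8347 / 65536 : ℝ), (-5289711 / 524288 : ℝ), (-79358441 / 2097152 : ℝ), (-146560577 / 4194304 : ℝ), (-81389763 / 1073741824 : ℝ)⟩

/-- A chord cell of a link. -/
noncomputable def P13C4 : Cell := ⟨(8347 / 65536 : ℝ), (1059 / 8192 : ℝ), (-42326271 / 4194304 : ℝ), (-39308371 / 1048576 : ℝ), (-72646207 / 2097152 : ℝ), (-80749015 / 1073741824 : ℝ)⟩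

/-- A chord cell of a link. -/
noncomputable def P13C5 : Cell := ⟨(1059 / 8192 : ℝ), (34397 / 262144 : ℝ), (-21155983 / 2097152 : ℝ), (-19470399 / 524288 : ℝ), (-144013553 / 4194304 : ℝ), (-80100439 / 1073741824 : ℝ)⟩

/-- A chord cell of a link. -/
noncomputable def P13C6 : Cell := ⟨(34397 / 262144 : ℝ), (34913 / 262144 : ℝ), (-10580495 / 1048576 : ℝ), (-9641621 / 262144 : ℝ), (-71361537 / 2097152 : ℝ), (-79492795 / 1073741824 : ℝ)⟩

/-- A chord cell of a link. -/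
noncomputable def P13C7 : Cell := ⟨(34913 / 262144 : ℝ), (35389 / 262144 : ℝ), (-2644185 / 262144 : ℝ), (-76426783 / 2097152 : ℝ), (-141482355 / 4194304 : ℝ), (-78968823 / 1073741824 : ℝ)⟩

/-- The chord cells of a link. -/
noncomputable def cellsP13 : List Cell := [P13C0, P13C1, P13C2, P13C3, P13C4, P13C5, P13C6, P13C7]

lemma hcoverP13 : ∀ x : ℝ, (31457 / 262144 : ℝ) ≤ x → x ≤ (35389 / 262144 : ℝ) → ∃ D ∈ cellsP13, D.l ≤ x ∧ x ≤ D.u := by
  refine cover_of_chain ?_ (by norm_num [P13C0])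
  simp only [ChainP, P13C0, P13C1, P13C2, P13C3, P13C4, P13C5, P13C6, P13C7]
  norm_num

lemma rP13C0 : ∃ N : ℝ, Rw4 P.r2 N (coCell (6221 / 2048 : ℝ) (12357 / 1024 : ℝ) (12 : ℝ) 0 P13C0) := by
  refine ⟨(3221225472 : ℝ), ⟨Q112, List.mem_cons_of_mem _ (List.mem_cons_of_mem _ (List.mem_cons_of_mem _ (List.mem_cons_of_mem _ (List.mem_cons_of_mem _ (List.mem_cons_of_mem _ (List.mem_cons_of_mem _ (List.mem_cons_of_mem _ (List.mem_cons_of_mem _ (List.mem_cons_of_mem _ (List.mem_cons_of_mem _ (List.mem_cons_of_mem _ (List.mem_cons_of_mem _ (List.mem_cons_of_mem _ (List.mem_cons_of_mem _ (List.mem_cons_of_mem _ (List.mem_cons_of_mem _ (List.mem_cons_of_mem _ (List.mem_cons_of_mem _ (List.mem_cons_of_mem _ (List.mem_cons_of_mem _ (List.mem_cons_of_mem _ (List.mem_cons_of_mem _ (List.mem_cons_of_mem _ (List.mem_cons_of_mem _ (List.mem_cons_of_mem _ (List.mem_cons_of_mem _ (List.mem_cons_of_mem _ (List.mem_cons_of_mem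 _ (List.mem_cons_of_mem _ (List.mem_cons_of_mem _ (List.mem_cons_of_mem _ (List.mem_cons_of_mem _ (List.mem_cons_of_mem _ (List.mem_cons_of_mem _ (List.mem_cons_of_mem _ (List.mem_cons_of_mem _ (List.mem_cons_of_mem _ (List.mem_cons_of_mem _ (List.mem_cons_of_mem _ (List.mem_cons_of_mem _ (List.mem_cons_of_mem _ (List.mem_cons_of_mem _ (List.mem_cons_of_mem _ (List.mem_cons_of_mem _ (List.mem_cons_of_mem _ (List.mem_cons_of_mem _ (List.mem_cons_of_mem _ (List.mem_cons_of_mem _ (List.mem_cons_of_mem _ (List.mem_cons_of_mem _ (List.mem_cons_of_mem _ (List.mem_cons_of_mem _ (List.mem_cons_of_mem _ (List.mem_cons_of_mem _ (List.mem_cons_of_mem _ (List.mem_cons_of_mem _ (List.mem_cons_of_mem _ (List.mem_cons_of_mem _ (List.mem_cons_of_mem _ (List.mem_cons_of_mem _ (List.mem_cons_of_mem _ (List.mem_cons_of_mem _ (List.mem_cons_of_mem _ (List.mem_cons_of_mem _ (List.mem_cons_of_mem _ (List.mem_cons_of_mem _ (List.mem_cons_of_mem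 _ (List.mem_cons_of_mem _ (List.mem_cons_of_mem _ (List.mem_cons_of_mem _ (List.mem_cons_of_mem _ (List.mem_cons_of_mem _ (List.mem_cons_of_mem _ (List.mem_cons_of_mem _ (List.mem_cons_of_mem _ (List.mem_cons_of_mem _ (List.mem_cons_of_mem _ (List.mem_cons_of_mem _ (List.mem_cons_of_mem _ (List.mem_cons_of_mem _ (List.mem_cons_of_mem _ (List.mem_cons_of_mem _ (List.mem_cons_of_mem _ (List.mem_cons_of_mem _ (List.mem_cons_of_mem _ (List.mem_cons_of_mem _ (List.mem_cons_of_mem _ (List.mem_cons_of_mem _ (List.mem_cons_of_mem _ (List.mem_cons_of_mem _ (List.mem_cons_of_mem _ (List.mem_cons_of_mem _ (List.mem_cons_of_mem _ (List.mem_cons_of_mem _ (List.mem_cons_of_mem _ (List.mem_cons_of_mem _ (List.mem_cons_of_mem _ (List.mem_cons_of_mem _ (List.mem_cons_of_mem _ (List.mem_cons_of_mem _ (List.mem_cons_of_mem _ (List.mem_cons_of_mem _ (List.mem_cons_of_mem _ (List.mem_cons_of_mem _ (List.mem_cons_of_mem _ (List.mem_cons_of_mem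 _ (List.mem_cons_of_mem _ (List.mem_cons_of_mem _ (List.mem_cons_of_mem _ (List.mem_cons_of_mem _ (List.mem_cons_of_mem _ (List.mem_cons_self)))))))))))))))))))))))))))))))))))))))))))))))))))))))))))))))))))))))))))))))))))))))))))))))))))))))))))))))), ?_⟩, by norm_num⟩
  constructor <;> norm_num [Q112, coCell, P13C0]

lemma lP13C0 : ∀ x1 x2 xc : ℝ, 0 ≤ x1 → x1 ≤ 1 → 0 ≤ x2 → x2 ≤ 1 → P13C0.l ≤ xc → xc ≤ P13C0.u →
    (6221 / 2048 : ℝ) * (1 - (1 - x1) ^ 5) + (12357 / 1024 : ℝ) * (1 - (1 - x2) ^ 5) - (12 : ℝ) * (1 - (1 - xc) ^ 5) + (1 / 1073741824 : ℝ)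
      ≤ - P13C0.a1 * x1 - P13C0.a2 * x2 + P13C0.e * xc + P13C0.f := by
  have h := cell_lines_delta 5 (α1 := (6221 / 2048 : ℝ)) (α2 := (12357 / 1024 : ℝ)) (c := (12 : ℝ)) (y1 := (25437 / 262144 : ℝ)) (y2 := (27271 / 262144 : ℝ))
    (A1 := (42349167 / 4194304 : ℝ)) (B1 := (62931979 / 268435456 : ℝ)) (A2 := (40771407 / 1048576 : ℝ)) (B2 := (283163447 / 268435456 : ℝ)) (l := (31457 / 262144 : ℝ)) (u := (31929 / 262144 : ℝ))
    (E := (-75151347 / 2097152 : ℝ)) (F := (-366957247 / 268435456 : ℝ)) (δ := (1 / 1073741824 : ℝ)) (by norm_num) (by norm_num) (by norm_num) (by norm_num) (by norm_num)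
    (by norm_num) (by norm_num) (by norm_num) (by norm_num) (by norm_num) (by norm_num) (by norm_num) (by norm_num) (by norm_num) (by norm_num)
  have e1 : P13C0.l = (31457 / 262144 : ℝ) := rfl
  have e2 : P13C0.u = (31929 / 262144 : ℝ) := rfl
  have e3 : P13C0.a1 = -(42349167 / 4194304 : ℝ) := by norm_num [P13C0]
  have e4 : P13C0.a2 = -(40771407 / 1048576 : ℝ) := by norm_num [P13C0]
  have e5 : P13C0.e = (-75151347 / 2097152 : ℝ) := rfl
  have e6 : P13C0.f = (62931979 / 268435456 : ℝ) + (283163447 / 268435456 : ℝ) + (-366957247 / 268435456 : ℝ) + (1 / 1073741824 : ℝ) := by norm_num [P13C0]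
  rw [e1, e2, e3, e4, e5, e6]
  exact h

lemma rP13C1 : ∃ N : ℝ, Rw4 P.r2 N (coCell (6221 / 2048 : ℝ) (12357 / 1024 : ℝ) (12 : ℝ) 0 P13C1) := by
  refine ⟨(3221225472 : ℝ), ⟨Q113, List.mem_cons_of_mem _ (List.mem_cons_of_mem _ (List.mem_cons_of_mem _ (List.mem_cons_of_mem _ (List.mem_cons_of_mem _ (List.mem_cons_of_mem _ (List.mem_cons_of_mem _ (List.mem_cons_of_mem _ (List.mem_cons_of_mem _ (List.mem_cons_of_mem _ (List.mem_cons_of_mem _ (List.mem_cons_of_mem _ (List.mem_cons_of_mem _ (List.mem_cons_of_mem _ (List.mem_cons_of_mem _ (List.mem_cons_of_mem _ (List.mem_cons_of_mem _ (List.mem_cons_of_mem _ (List.mem_cons_of_mem _ (List.mem_cons_of_mem _ (List.mem_cons_of_mem _ (List.mem_cons_of_mem _ (List.mem_cons_of_mem _ (List.mem_cons_of_mem _ (List.mem_cons_of_mem _ (List.mem_cons_of_mem _ (List.mem_cons_of_mem _ (List.mem_cons_of_mem _ (List.mem_cons_of_mem _ (List.mem_cons_of_mem _ (List.mem_cons_of_mem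 _ (List.mem_cons_of_mem _ (List.mem_cons_of_mem _ (List.mem_cons_of_mem _ (List.mem_cons_of_mem _ (List.mem_cons_of_mem _ (List.mem_cons_of_mem _ (List.mem_cons_of_mem _ (List.mem_cons_of_mem _ (List.mem_cons_of_mem _ (List.mem_cons_of_mem _ (List.mem_cons_of_mem _ (List.mem_cons_of_mem _ (List.mem_cons_of_mem _ (List.mem_cons_of_mem _ (List.mem_cons_of_mem _ (List.mem_cons_of_mem _ (List.mem_cons_of_mem _ (List.mem_cons_of_mem _ (List.mem_cons_of_mem _ (List.mem_cons_of_mem _ (List.mem_cons_of_mem _ (List.mem_cons_of_mem _ (List.mem_cons_of_mem _ (List.mem_cons_of_mem _ (List.mem_cons_of_mem _ (List.mem_cons_of_mem _ (List.mem_cons_of_mem _ (List.mem_cons_of_mem _ (List.mem_cons_of_mem _ (List.mem_cons_of_mem _ (List.mem_cons_of_mem _ (List.mem_cons_of_mem _ (List.mem_cons_of_mem _ (List.mem_cons_of_mem _ (List.mem_cons_of_mem _ (List.mem_cons_of_mem _ (List.mem_cons_of_mem _ (List.mem_cons_of_mem _ (List.mem_cons_of_mem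 _ (List.mem_cons_of_mem _ (List.mem_cons_of_mem _ (List.mem_cons_of_mem _ (List.mem_cons_of_mem _ (List.mem_cons_of_mem _ (List.mem_cons_of_mem _ (List.mem_cons_of_mem _ (List.mem_cons_of_mem _ (List.mem_cons_of_mem _ (List.mem_cons_of_mem _ (List.mem_cons_of_mem _ (List.mem_cons_of_mem _ (List.mem_cons_of_mem _ (List.mem_cons_of_mem _ (List.mem_cons_of_mem _ (List.mem_cons_of_mem _ (List.mem_cons_of_mem _ (List.mem_cons_of_mem _ (List.mem_cons_of_mem _ (List.mem_cons_of_mem _ (List.mem_cons_of_mem _ (List.mem_cons_of_mem _ (List.mem_cons_of_mem _ (List.mem_cons_of_mem _ (List.mem_cons_of_mem _ (List.mem_cons_of_mem _ (List.mem_cons_of_mem _ (List.mem_cons_of_mem _ (List.mem_cons_of_mem _ (List.mem_cons_of_mem _ (List.mem_cons_of_mem _ (List.mem_cons_of_mem _ (List.mem_cons_of_mem _ (List.mem_cons_of_mem _ (List.mem_cons_of_mem _ (List.mem_cons_of_mem _ (List.mem_cons_of_mem _ (List.mem_cons_of_mem _ (List.mem_cons_of_mem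 _ (List.mem_cons_of_mem _ (List.mem_cons_of_mem _ (List.mem_cons_of_mem _ (List.mem_cons_of_mem _ (List.mem_cons_self))))))))))))))))))))))))))))))))))))))))))))))))))))))))))))))))))))))))))))))))))))))))))))))))))))))))))))))))), ?_⟩, by norm_num⟩
  constructor <;> norm_num [Q113, coCell, P13C1]

lemma lP13C1 : ∀ x1 x2 xc : ℝ, 0 ≤ x1 → x1 ≤ 1 → 0 ≤ x2 → x2 ≤ 1 → P13C1.l ≤ xc → xc ≤ P13C1.u →
    (6221 / 2048 : ℝ) * (1 - (1 - x1) ^ 5) + (12357 / 1024 : ℝ) * (1 - (1 - x2) ^ 5) - (12 : ℝ) * (1 - (1 - xc) ^ 5) + (1 / 1073741824 : ℝ)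
      ≤ - P13C1.a1 * x1 - P13C1.a2 * x2 + P13C1.e * xc + P13C1.f := by
  have h := cell_lines_delta 5 (α1 := (6221 / 2048 : ℝ)) (α2 := (12357 / 1024 : ℝ)) (c := (12 : ℝ)) (y1 := (25495 / 262144 : ℝ)) (y2 := (27785 / 262144 : ℝ))
    (A1 := (10576919 / 1048576 : ℝ)) (B1 := (31594963 / 134217728 : ℝ)) (A2 := (80831355 / 2097152 : ℝ)) (B2 := (292726369 / 268435456 : ℝ)) (l := (31929 / 262144 : ℝ)) (u := (4051 / 32768 : ℝ))
    (E := (-74533017 / 2097152 : ℝ)) (F := (-376597217 / 268435456 : ℝ)) (δ := (1 / 1073741824 : ℝ)) (by norm_num) (by norm_num) (by norm_num) (by norm_num) (by norm_num)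
    (by norm_num) (by norm_num) (by norm_num) (by norm_num) (by norm_num) (by norm_num) (by norm_num) (by norm_num) (by norm_num) (by norm_num)
  have e1 : P13C1.l = (31929 / 262144 : ℝ) := rfl
  have e2 : P13C1.u = (4051 / 32768 : ℝ) := rfl
  have e3 : P13C1.a1 = -(10576919 / 1048576 : ℝ) := by norm_num [P13C1]
  have e4 : P13C1.a2 = -(80831355 / 2097152 : ℝ) := by norm_num [P13C1]
  have e5 : P13C1.e = (-74533017 / 2097152 : ℝ) := rfl
  have e6 : P13C1.f = (31594963 / 134217728 : ℝ) + (292726369 / 268435456 : ℝ) + (-376597217 / 268435456 : ℝ) + (1 / 1073741824 : ℝ) := by norm_num [P13C1]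
  rw [e1, e2, e3, e4, e5, e6]
  exact h

lemma rP13C2 : ∃ N : ℝ, Rw4 P.r2 N (coCell (6221 / 2048 : ℝ) (12357 / 1024 : ℝ) (12 : ℝ) 0 P13C2) := by
  refine ⟨(3221225472 : ℝ), ⟨Q114, List.mem_cons_of_mem _ (List.mem_cons_of_mem _ (List.mem_cons_of_mem _ (List.mem_cons_of_mem _ (List.mem_cons_of_mem _ (List.mem_cons_of_mem _ (List.mem_cons_of_mem _ (List.mem_cons_of_mem _ (List.mem_cons_of_mem _ (List.mem_cons_of_mem _ (List.mem_cons_of_mem _ (List.mem_cons_of_mem _ (List.mem_cons_of_mem _ (List.mem_cons_of_mem _ (List.mem_cons_of_mem _ (List.mem_cons_of_mem _ (List.mem_cons_of_mem _ (List.mem_cons_of_mem _ (List.mem_cons_of_mem _ (List.mem_cons_of_mem _ (List.mem_cons_of_mem _ (List.mem_cons_of_mem _ (List.mem_cons_of_mem _ (List.mem_cons_of_mem _ (List.mem_cons_of_mem _ (List.mem_cons_of_mem _ (List.mem_cons_of_mem _ (List.mem_cons_of_mem _ (List.mem_cons_of_mem _ (List.mem_cons_of_mem _ (List.mem_cons_of_mem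 _ (List.mem_cons_of_mem _ (List.mem_cons_of_mem _ (List.mem_cons_of_mem _ (List.mem_cons_of_mem _ (List.mem_cons_of_mem _ (List.mem_cons_of_mem _ (List.mem_cons_of_mem _ (List.mem_cons_of_mem _ (List.mem_cons_of_mem _ (List.mem_cons_of_mem _ (List.mem_cons_of_mem _ (List.mem_cons_of_mem _ (List.mem_cons_of_mem _ (List.mem_cons_of_mem _ (List.mem_cons_of_mem _ (List.mem_cons_of_mem _ (List.mem_cons_of_mem _ (List.mem_cons_of_mem _ (List.mem_cons_of_mem _ (List.mem_cons_of_mem _ (List.mem_cons_of_mem _ (List.mem_cons_of_mem _ (List.mem_cons_of_mem _ (List.mem_cons_of_mem _ (List.mem_cons_of_mem _ (List.mem_cons_of_mem _ (List.mem_cons_of_mem _ (List.mem_cons_of_mem _ (List.mem_cons_of_mem _ (List.mem_cons_of_mem _ (List.mem_cons_of_mem _ (List.mem_cons_of_mem _ (List.mem_cons_of_mem _ (List.mem_cons_of_mem _ (List.mem_cons_of_mem _ (List.mem_cons_of_mem _ (List.mem_cons_of_mem _ (List.mem_cons_of_mem _ (List.mem_cons_of_mem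 _ (List.mem_cons_of_mem _ (List.mem_cons_of_mem _ (List.mem_cons_of_mem _ (List.mem_cons_of_mem _ (List.mem_cons_of_mem _ (List.mem_cons_of_mem _ (List.mem_cons_of_mem _ (List.mem_cons_of_mem _ (List.mem_cons_of_mem _ (List.mem_cons_of_mem _ (List.mem_cons_of_mem _ (List.mem_cons_of_mem _ (List.mem_cons_of_mem _ (List.mem_cons_of_mem _ (List.mem_cons_of_mem _ (List.mem_cons_of_mem _ (List.mem_cons_of_mem _ (List.mem_cons_of_mem _ (List.mem_cons_of_mem _ (List.mem_cons_of_mem _ (List.mem_cons_of_mem _ (List.mem_cons_of_mem _ (List.mem_cons_of_mem _ (List.mem_cons_of_mem _ (List.mem_cons_of_mem _ (List.mem_cons_of_mem _ (List.mem_cons_of_mem _ (List.mem_cons_of_mem _ (List.mem_cons_of_mem _ (List.mem_cons_of_mem _ (List.mem_cons_of_mem _ (List.mem_cons_of_mem _ (List.mem_cons_of_mem _ (List.mem_cons_of_mem _ (List.mem_cons_of_mem _ (List.mem_cons_of_mem _ (List.mem_cons_of_mem _ (List.mem_cons_of_mem _ (List.mem_cons_of_mem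 _ (List.mem_cons_of_mem _ (List.mem_cons_of_mem _ (List.mem_cons_of_mem _ (List.mem_cons_of_mem _ (List.mem_cons_of_mem _ (List.mem_cons_self)))))))))))))))))))))))))))))))))))))))))))))))))))))))))))))))))))))))))))))))))))))))))))))))))))))))))))))))))), ?_⟩, by norm_num⟩
  constructor <;> norm_num [Q114, coCell, P13C2]

lemma lP13C2 : ∀ x1 x2 xc : ℝ, 0 ≤ x1 → x1 ≤ 1 → 0 ≤ x2 → x2 ≤ 1 → P13C2.l ≤ xc → xc ≤ P13C2.u →
    (6221 / 2048 : ℝ) * (1 - (1 - x1) ^ 5) + (12357 / 1024 : ℝ) * (1 - (1 - x2) ^ 5) - (12 : ℝ) * (1 - (1 - xc) ^ 5) + (1 / 1073741824 : ℝ)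
      ≤ - P13C2.a1 * x1 - P13C2.a2 * x2 + P13C2.e * xc + P13C2.f := by
  have h := cell_lines_delta 5 (α1 := (6221 / 2048 : ℝ)) (α2 := (12357 / 1024 : ℝ)) (c := (12 : ℝ)) (y1 := (12671 / 131072 : ℝ)) (y2 := (28353 / 262144 : ℝ))
    (A1 := (21208597 / 2097152 : ℝ)) (B1 := (31255145 / 134217728 : ℝ)) (A2 := (160101155 / 4194304 : ℝ)) (B2 := (303427217 / 268435456 : ℝ)) (l := (4051 / 32768 : ℝ)) (u := (16447 / 131072 : ℝ))
    (E := (-18477373 / 524288 : ℝ)) (F := (-386464013 / 268435456 : ℝ)) (δ := (1 / 1073741824 : ℝ)) (by norm_num) (by norm_num) (by norm_num) (by norm_num) (by norm_num)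
    (by norm_num) (by norm_num) (by norm_num) (by norm_num) (by norm_num) (by norm_num) (by norm_num) (by norm_num) (by norm_num) (by norm_num)
  have e1 : P13C2.l = (4051 / 32768 : ℝ) := rfl
  have e2 : P13C2.u = (16447 / 131072 : ℝ) := rfl
  have e3 : P13C2.a1 = -(21208597 / 2097152 : ℝ) := by norm_num [P13C2]
  have e4 : P13C2.a2 = -(160101155 / 4194304 : ℝ) := by norm_num [P13C2]
  have e5 : P13C2.e = (-18477373 / 524288 : ℝ) := rfl
  have e6 : P13C2.f = (31255145 / 134217728 : ℝ) + (303427217 / 268435456 : ℝ) + (-386464013 / 268435456 : ℝ) + (1 / 1073741824 : ℝ) := by norm_num [P13C2]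
  rw [e1, e2, e3, e4, e5, e6]
  exact h

lemma rP13C3 : ∃ N : ℝ, Rw4 P.r2 N (coCell (6221 / 2048 : ℝ) (12357 / 1024 : ℝ) (12 : ℝ) 0 P13C3) := by
  refine ⟨(3221225472 : ℝ), ⟨Q115, List.mem_cons_of_mem _ (List.mem_cons_of_mem _ (List.mem_cons_of_mem _ (List.mem_cons_of_mem _ (List.mem_cons_of_mem _ (List.mem_cons_of_mem _ (List.mem_cons_of_mem _ (List.mem_cons_of_mem _ (List.mem_cons_of_mem _ (List.mem_cons_of_mem _ (List.mem_cons_of_mem _ (List.mem_cons_of_mem _ (List.mem_cons_of_mem _ (List.mem_cons_of_mem _ (List.mem_cons_of_mem _ (List.mem_cons_of_mem _ (List.mem_cons_of_mem _ (List.mem_cons_of_mem _ (List.mem_cons_of_mem _ (List.mem_cons_of_mem _ (List.mem_cons_of_mem _ (List.mem_cons_of_mem _ (List.mem_cons_of_mem _ (List.mem_cons_of_mem _ (List.mem_cons_of_mem _ (List.mem_cons_of_mem _ (List.mem_cons_of_mem _ (List.mem_cons_of_mem _ (List.mem_cons_of_mem _ (List.mem_cons_of_mem _ (List.mem_cons_of_mem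 _ (List.mem_cons_of_mem _ (List.mem_cons_of_mem _ (List.mem_cons_of_mem _ (List.mem_cons_of_mem _ (List.mem_cons_of_mem _ (List.mem_cons_of_mem _ (List.mem_cons_of_mem _ (List.mem_cons_of_mem _ (List.mem_cons_of_mem _ (List.mem_cons_of_mem _ (List.mem_cons_of_mem _ (List.mem_cons_of_mem _ (List.mem_cons_of_mem _ (List.mem_cons_of_mem _ (List.mem_cons_of_mem _ (List.mem_cons_of_mem _ (List.mem_cons_of_mem _ (List.mem_cons_of_mem _ (List.mem_cons_of_mem _ (List.mem_cons_of_mem _ (List.mem_cons_of_mem _ (List.mem_cons_of_mem _ (List.mem_cons_of_mem _ (List.mem_cons_of_mem _ (List.mem_cons_of_mem _ (List.mem_cons_of_mem _ (List.mem_cons_of_mem _ (List.mem_cons_of_mem _ (List.mem_cons_of_mem _ (List.mem_cons_of_mem _ (List.mem_cons_of_mem _ (List.mem_cons_of_mem _ (List.mem_cons_of_mem _ (List.mem_cons_of_mem _ (List.mem_cons_of_mem _ (List.mem_cons_of_mem _ (List.mem_cons_of_mem _ (List.mem_cons_of_mem _ (List.mem_cons_of_mem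 _ (List.mem_cons_of_mem _ (List.mem_cons_of_mem _ (List.mem_cons_of_mem _ (List.mem_cons_of_mem _ (List.mem_cons_of_mem _ (List.mem_cons_of_mem _ (List.mem_cons_of_mem _ (List.mem_cons_of_mem _ (List.mem_cons_of_mem _ (List.mem_cons_of_mem _ (List.mem_cons_of_mem _ (List.mem_cons_of_mem _ (List.mem_cons_of_mem _ (List.mem_cons_of_mem _ (List.mem_cons_of_mem _ (List.mem_cons_of_mem _ (List.mem_cons_of_mem _ (List.mem_cons_of_mem _ (List.mem_cons_of_mem _ (List.mem_cons_of_mem _ (List.mem_cons_of_mem _ (List.mem_cons_of_mem _ (List.mem_cons_of_mem _ (List.mem_cons_of_mem _ (List.mem_cons_of_mem _ (List.mem_cons_of_mem _ (List.mem_cons_of_mem _ (List.mem_cons_of_mem _ (List.mem_cons_of_mem _ (List.mem_cons_of_mem _ (List.mem_cons_of_mem _ (List.mem_cons_of_mem _ (List.mem_cons_of_mem _ (List.mem_cons_of_mem _ (List.mem_cons_of_mem _ (List.mem_cons_of_mem _ (List.mem_cons_of_mem _ (List.mem_cons_of_mem _ (List.mem_cons_of_mem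 _ (List.mem_cons_of_mem _ (List.mem_cons_of_mem _ (List.mem_cons_of_mem _ (List.mem_cons_of_mem _ (List.mem_cons_of_mem _ (List.mem_cons_of_mem _ (List.mem_cons_self))))))))))))))))))))))))))))))))))))))))))))))))))))))))))))))))))))))))))))))))))))))))))))))))))))))))))))))))))), ?_⟩, by norm_num⟩
  constructor <;> norm_num [Q115, coCell, P13C3]

lemma lP13C3 : ∀ x1 x2 xc : ℝ, 0 ≤ x1 → x1 ≤ 1 → 0 ≤ x2 → x2 ≤ 1 → P13C3.l ≤ xc → xc ≤ P13C3.u →
    (6221 / 2048 : ℝ) * (1 - (1 - x1) ^ 5) + (12357 / 1024 : ℝ) * (1 - (1 - x2) ^ 5) - (12 : ℝ) * (1 - (1 - xc) ^ 5) + (1 / 1073741824 : ℝ)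
      ≤ - P13C3.a1 * x1 - P13C3.a2 * x2 + P13C3.e * xc + P13C3.f := by
  have h := cell_lines_delta 5 (α1 := (6221 / 2048 : ℝ)) (α2 := (12357 / 1024 : ℝ)) (c := (12 : ℝ)) (y1 := (25481 / 262144 : ℝ)) (y2 := (7215 / 65536 : ℝ))
    (A1 := (5289711 / 524288 : ℝ)) (B1 := (31563811 / 134217728 : ℝ)) (A2 := (79358441 / 2097152 : ℝ)) (B2 := (78273729 / 67108864 : ℝ)) (l := (16447 / 131072 : ℝ)) (u := (8347 / 65536 : ℝ))
    (E := (-146560577 / 4194304 : ℝ)) (F := (-396569979 / 268435456 : ℝ)) (δ := (1 / 1073741824 : ℝ)) (by norm_num) (by norm_num) (by norm_num) (by norm_num) (by norm_num)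
    (by norm_num) (by norm_num) (by norm_num) (by norm_num) (by norm_num) (by norm_num) (by norm_num) (by norm_num) (by norm_num) (by norm_num)
  have e1 : P13C3.l = (16447 / 131072 : ℝ) := rfl
  have e2 : P13C3.u = (8347 / 65536 : ℝ) := rfl
  have e3 : P13C3.a1 = -(5289711 / 524288 : ℝ) := by norm_num [P13C3]
  have e4 : P13C3.a2 = -(79358441 / 2097152 : ℝ) := by norm_num [P13C3]
  have e5 : P13C3.e = (-146560577 / 4194304 : ℝ) := rfl
  have e6 : P13C3.f = (31563811 / 134217728 : ℝ) + (78273729 / 67108864 : ℝ) + (-396569979 / 268435456 : ℝ) + (1 / 1073741824 : ℝ) := by norm_num [P13C3]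
  rw [e1, e2, e3, e4, e5, e6]
  exact h

lemma rP13C4 : ∃ N : ℝ, Rw4 P.r2 N (coCell (6221 / 2048 : ℝ) (12357 / 1024 : ℝ) (12 : ℝ) 0 P13C4) := by
  refine ⟨(3221225472 : ℝ), ⟨Q116, List.mem_cons_of_mem _ (List.mem_cons_of_mem _ (List.mem_cons_of_mem _ (List.mem_cons_of_mem _ (List.mem_cons_of_mem _ (List.mem_cons_of_mem _ (List.mem_cons_of_mem _ (List.mem_cons_of_mem _ (List.mem_cons_of_mem _ (List.mem_cons_of_mem _ (List.mem_cons_of_mem _ (List.mem_cons_of_mem _ (List.mem_cons_of_mem _ (List.mem_cons_of_mem _ (List.mem_cons_of_mem _ (List.mem_cons_of_mem _ (List.mem_cons_of_mem _ (List.mem_cons_of_mem _ (List.mem_cons_of_mem _ (List.mem_cons_of_mem _ (List.mem_cons_of_mem _ (List.mem_cons_of_mem _ (List.mem_cons_of_mem _ (List.mem_cons_of_mem _ (List.mem_cons_of_mem _ (List.mem_cons_of_mem _ (List.mem_cons_of_mem _ (List.mem_cons_of_mem _ (List.mem_cons_of_mem _ (List.mem_cons_of_mem _ (List.mem_cons_of_mem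 _ (List.mem_cons_of_mem _ (List.mem_cons_of_mem _ (List.mem_cons_of_mem _ (List.mem_cons_of_mem _ (List.mem_cons_of_mem _ (List.mem_cons_of_mem _ (List.mem_cons_of_mem _ (List.mem_cons_of_mem _ (List.mem_cons_of_mem _ (List.mem_cons_of_mem _ (List.mem_cons_of_mem _ (List.mem_cons_of_mem _ (List.mem_cons_of_mem _ (List.mem_cons_of_mem _ (List.mem_cons_of_mem _ (List.mem_cons_of_mem _ (List.mem_cons_of_mem _ (List.mem_cons_of_mem _ (List.mem_cons_of_mem _ (List.mem_cons_of_mem _ (List.mem_cons_of_mem _ (List.mem_cons_of_mem _ (List.mem_cons_of_mem _ (List.mem_cons_of_mem _ (List.mem_cons_of_mem _ (List.mem_cons_of_mem _ (List.mem_cons_of_mem _ (List.mem_cons_of_mem _ (List.mem_cons_of_mem _ (List.mem_cons_of_mem _ (List.mem_cons_of_mem _ (List.mem_cons_of_mem _ (List.mem_cons_of_mem _ (List.mem_cons_of_mem _ (List.mem_cons_of_mem _ (List.mem_cons_of_mem _ (List.mem_cons_of_mem _ (List.mem_cons_of_mem _ (List.mem_cons_of_mem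 _ (List.mem_cons_of_mem _ (List.mem_cons_of_mem _ (List.mem_cons_of_mem _ (List.mem_cons_of_mem _ (List.mem_cons_of_mem _ (List.mem_cons_of_mem _ (List.mem_cons_of_mem _ (List.mem_cons_of_mem _ (List.mem_cons_of_mem _ (List.mem_cons_of_mem _ (List.mem_cons_of_mem _ (List.mem_cons_of_mem _ (List.mem_cons_of_mem _ (List.mem_cons_of_mem _ (List.mem_cons_of_mem _ (List.mem_cons_of_mem _ (List.mem_cons_of_mem _ (List.mem_cons_of_mem _ (List.mem_cons_of_mem _ (List.mem_cons_of_mem _ (List.mem_cons_of_mem _ (List.mem_cons_of_mem _ (List.mem_cons_of_mem _ (List.mem_cons_of_mem _ (List.mem_cons_of_mem _ (List.mem_cons_of_mem _ (List.mem_cons_of_mem _ (List.mem_cons_of_mem _ (List.mem_cons_of_mem _ (List.mem_cons_of_mem _ (List.mem_cons_of_mem _ (List.mem_cons_of_mem _ (List.mem_cons_of_mem _ (List.mem_cons_of_mem _ (List.mem_cons_of_mem _ (List.mem_cons_of_mem _ (List.mem_cons_of_mem _ (List.mem_cons_of_mem _ (List.mem_cons_of_mem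 _ (List.mem_cons_of_mem _ (List.mem_cons_of_mem _ (List.mem_cons_of_mem _ (List.mem_cons_of_mem _ (List.mem_cons_of_mem _ (List.mem_cons_of_mem _ (List.mem_cons_of_mem _ (List.mem_cons_self)))))))))))))))))))))))))))))))))))))))))))))))))))))))))))))))))))))))))))))))))))))))))))))))))))))))))))))))))))), ?_⟩, by norm_num⟩
  constructor <;> norm_num [Q116, coCell, P13C4]

lemma lP13C4 : ∀ x1 x2 xc : ℝ, 0 ≤ x1 → x1 ≤ 1 → 0 ≤ x2 → x2 ≤ 1 → P13C4.l ≤ xc → xc ≤ P13C4.u →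
    (6221 / 2048 : ℝ) * (1 - (1 - x1) ^ 5) + (12357 / 1024 : ℝ) * (1 - (1 - x2) ^ 5) - (12 : ℝ) * (1 - (1 - xc) ^ 5) + (1 / 1073741824 : ℝ)
      ≤ - P13C4.a1 * x1 - P13C4.a2 * x2 + P13C4.e * xc + P13C4.f := by
  have h := cell_lines_delta 5 (α1 := (6221 / 2048 : ℝ)) (α2 := (12357 / 1024 : ℝ)) (c := (12 : ℝ)) (y1 := (25469 / 262144 : ℝ)) (y2 := (29407 / 262144 : ℝ))
    (A1 := (42326271 / 4194304 : ℝ)) (B1 := (63074269 / 268435456 : ℝ)) (A2 := (39308371 / 1048576 : ℝ)) (B2 := (323645719 / 268435456 : ℝ)) (l := (8347 / 65536 : ℝ)) (u := (1059 / 8192 : ℝ))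
    (E := (-72646207 / 2097152 : ℝ)) (F := (-203453621 / 134217728 : ℝ)) (δ := (1 / 1073741824 : ℝ)) (by norm_num) (by norm_num) (by norm_num) (by norm_num) (by norm_num)
    (by norm_num) (by norm_num) (by norm_num) (by norm_num) (by norm_num) (by norm_num) (by norm_num) (by norm_num) (by norm_num) (by norm_num)
  have e1 : P13C4.l = (8347 / 65536 : ℝ) := rfl
  have e2 : P13C4.u = (1059 / 8192 : ℝ) := rfl
  have e3 : P13C4.a1 = -(42326271 / 4194304 : ℝ) := by norm_num [P13C4]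
  have e4 : P13C4.a2 = -(39308371 / 1048576 : ℝ) := by norm_num [P13C4]
  have e5 : P13C4.e = (-72646207 / 2097152 : ℝ) := rfl
  have e6 : P13C4.f = (63074269 / 268435456 : ℝ) + (323645719 / 268435456 : ℝ) + (-203453621 / 134217728 : ℝ) + (1 / 1073741824 : ℝ) := by norm_num [P13C4]
  rw [e1, e2, e3, e4, e5, e6]
  exact h

lemma rP13C5 : ∃ N : ℝ, Rw4 P.r2 N (coCell (6221 / 2048 : ℝ) (12357 / 1024 : ℝ) (12 : ℝ) 0 P13C5) := by
  refine ⟨(3221225472 : ℝ), ⟨Q117, List.mem_cons_of_mem _ (List.mem_cons_of_mem _ (List.mem_cons_of_mem _ (List.mem_cons_of_mem _ (List.mem_cons_of_mem _ (List.mem_cons_of_mem _ (List.mem_cons_of_mem _ (List.mem_cons_of_mem _ (List.mem_cons_of_mem _ (List.mem_cons_of_mem _ (List.mem_cons_of_mem _ (List.mem_cons_of_mem _ (List.mem_cons_of_mem _ (List.mem_cons_of_mem _ (List.mem_cons_of_mem _ (List.mem_cons_of_mem _ (List.mem_cons_of_mem _ (List.mem_cons_of_mem _ (List.mem_cons_of_mem _ (List.mem_cons_of_mem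 _ (List.mem_cons_of_mem _ (List.mem_cons_of_mem _ (List.mem_cons_of_mem _ (List.mem_cons_of_mem _ (List.mem_cons_of_mem _ (List.mem_cons_of_mem _ (List.mem_cons_of_mem _ (List.mem_cons_of_mem _ (List.mem_cons_of_mem _ (List.mem_cons_of_mem _ (List.mem_cons_of_mem _ (List.mem_cons_of_mem _ (List.mem_cons_of_mem _ (List.mem_cons_of_mem _ (List.mem_cons_of_mem _ (List.mem_cons_of_mem _ (List.mem_cons_of_mem _ (List.mem_cons_of_mem _ (List.mem_cons_of_mem _ (List.mem_cons_of_mem _ (List.mem_cons_of_mem _ (List.mem_cons_of_mem _ (List.mem_cons_of_mem _ (List.mem_cons_of_mem _ (List.mem_cons_of_mem _ (List.mem_cons_of_mem _ (List.mem_cons_of_mem _ (List.mem_cons_of_mem _ (List.mem_cons_of_mem _ (List.mem_cons_of_mem _ (List.mem_cons_of_mem _ (List.mem_cons_of_mem _ (List.mem_cons_of_mem _ (List.mem_cons_of_mem _ (List.mem_cons_of_mem _ (List.mem_cons_of_mem _ (List.mem_cons_of_mem _ (List.mem_cons_of_mem _ (List.mem_cons_of_mem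 _ (List.mem_cons_of_mem _ (List.mem_cons_of_mem _ (List.mem_cons_of_mem _ (List.mem_cons_of_mem _ (List.mem_cons_of_mem _ (List.mem_cons_of_mem _ (List.mem_cons_of_mem _ (List.mem_cons_of_mem _ (List.mem_cons_of_mem _ (List.mem_cons_of_mem _ (List.mem_cons_of_mem _ (List.mem_cons_of_mem _ (List.mem_cons_of_mem _ (List.mem_cons_of_mem _ (List.mem_cons_of_mem _ (List.mem_cons_of_mem _ (List.mem_cons_of_mem _ (List.mem_cons_of_mem _ (List.mem_cons_of_mem _ (List.mem_cons_of_mem _ (List.mem_cons_of_mem _ (List.mem_cons_of_mem _ (List.mem_cons_of_mem _ (List.mem_cons_of_mem _ (List.mem_cons_of_mem _ (List.mem_cons_of_mem _ (List.mem_cons_of_mem _ (List.mem_cons_of_mem _ (List.mem_cons_of_mem _ (List.mem_cons_of_mem _ (List.mem_cons_of_mem _ (List.mem_cons_of_mem _ (List.mem_cons_of_mem _ (List.mem_cons_of_mem _ (List.mem_cons_of_mem _ (List.mem_cons_of_mem _ (List.mem_cons_of_mem _ (List.mem_cons_of_mem _ (List.mem_cons_of_mem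 _ (List.mem_cons_of_mem _ (List.mem_cons_of_mem _ (List.mem_cons_of_mem _ (List.mem_cons_of_mem _ (List.mem_cons_of_mem _ (List.mem_cons_of_mem _ (List.mem_cons_of_mem _ (List.mem_cons_of_mem _ (List.mem_cons_of_mem _ (List.mem_cons_of_mem _ (List.mem_cons_of_mem _ (List.mem_cons_of_mem _ (List.mem_cons_of_mem _ (List.mem_cons_of_mem _ (List.mem_cons_of_mem _ (List.mem_cons_of_mem _ (List.mem_cons_of_mem _ (List.mem_cons_of_mem _ (List.mem_cons_of_mem _ (List.mem_cons_self))))))))))))))))))))))))))))))))))))))))))))))))))))))))))))))))))))))))))))))))))))))))))))))))))))))))))))))))))))), ?_⟩, by norm_num⟩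
  constructor <;> norm_num [Q117, coCell, P13C5]

lemma lP13C5 : ∀ x1 x2 xc : ℝ, 0 ≤ x1 → x1 ≤ 1 → 0 ≤ x2 → x2 ≤ 1 → P13C5.l ≤ xc → xc ≤ P13C5.u →
    (6221 / 2048 : ℝ) * (1 - (1 - x1) ^ 5) + (12357 / 1024 : ℝ) * (1 - (1 - x2) ^ 5) - (12 : ℝ) * (1 - (1 - xc) ^ 5) + (1 / 1073741824 : ℝ)
      ≤ - P13C5.a1 * x1 - P13C5.a2 * x2 + P13C5.e * xc + P13C5.f := by
  have h := cell_lines_delta 5 (α1 := (6221 / 2048 : ℝ)) (α2 := (12357 / 1024 : ℝ)) (c := (12 : ℝ)) (y1 := (25489 / 262144 : ℝ)) (y2 := (29953 / 262144 : ℝ))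
    (A1 := (21155983 / 2097152 : ℝ)) (B1 := (15790811 / 67108864 : ℝ)) (A2 := (19470399 / 524288 : ℝ)) (B2 := (41787433 / 33554432 : ℝ)) (l := (1059 / 8192 : ℝ)) (u := (34397 / 262144 : ℝ))
    (E := (-144013553 / 4194304 : ℝ)) (F := (-208743909 / 134217728 : ℝ)) (δ := (1 / 1073741824 : ℝ)) (by norm_num) (by norm_num) (by norm_num) (by norm_num) (by norm_num)
    (by norm_num) (by norm_num) (by norm_num) (by norm_num) (by norm_num) (by norm_num) (by norm_num) (by norm_num) (by norm_num) (by norm_num)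
  have e1 : P13C5.l = (1059 / 8192 : ℝ) := rfl
  have e2 : P13C5.u = (34397 / 262144 : ℝ) := rfl
  have e3 : P13C5.a1 = -(21155983 / 2097152 : ℝ) := by norm_num [P13C5]
  have e4 : P13C5.a2 = -(19470399 / 524288 : ℝ) := by norm_num [P13C5]
  have e5 : P13C5.e = (-144013553 / 4194304 : ℝ) := rfl
  have e6 : P13C5.f = (15790811 / 67108864 : ℝ) + (41787433 / 33554432 : ℝ) + (-208743909 / 134217728 : ℝ) + (1 / 1073741824 : ℝ) := by norm_num [P13C5]
  rw [e1, e2, e3, e4, e5, e6]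
  exact h

lemma rP13C6 : ∃ N : ℝ, Rw4 P.r2 N (coCell (6221 / 2048 : ℝ) (12357 / 1024 : ℝ) (12 : ℝ) 0 P13C6) := by
  refine ⟨(3221225472 : ℝ), ⟨Q118, List.mem_cons_of_mem _ (List.mem_cons_of_mem _ (List.mem_cons_of_mem _ (List.mem_cons_of_mem _ (List.mem_cons_of_mem _ (List.mem_cons_of_mem _ (List.mem_cons_of_mem _ (List.mem_cons_of_mem _ (List.mem_cons_of_mem _ (List.mem_cons_of_mem _ (List.mem_cons_of_mem _ (List.mem_cons_of_mem _ (List.mem_cons_of_mem _ (List.mem_cons_of_mem _ (List.mem_cons_of_mem _ (List.mem_cons_of_mem _ (List.mem_cons_of_mem _ (List.mem_cons_of_mem _ (List.mem_cons_of_mem _ (List.mem_cons_of_mem _ (List.mem_cons_of_mem _ (List.mem_cons_of_mem _ (List.mem_cons_of_mem _ (List.mem_cons_of_mem _ (List.mem_cons_of_mem _ (List.mem_cons_of_mem _ (List.mem_cons_of_mem _ (List.mem_cons_of_mem _ (List.mem_cons_of_mem _ (List.mem_cons_of_mem _ (List.mem_cons_of_mem _ (List.mem_cons_of_mem _ (List.mem_cons_of_mem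 _ (List.mem_cons_of_mem _ (List.mem_cons_of_mem _ (List.mem_cons_of_mem _ (List.mem_cons_of_mem _ (List.mem_cons_of_mem _ (List.mem_cons_of_mem _ (List.mem_cons_of_mem _ (List.mem_cons_of_mem _ (List.mem_cons_of_mem _ (List.mem_cons_of_mem _ (List.mem_cons_of_mem _ (List.mem_cons_of_mem _ (List.mem_cons_of_mem _ (List.mem_cons_of_mem _ (List.mem_cons_of_mem _ (List.mem_cons_of_mem _ (List.mem_cons_of_mem _ (List.mem_cons_of_mem _ (List.mem_cons_of_mem _ (List.mem_cons_of_mem _ (List.mem_cons_of_mem _ (List.mem_cons_of_mem _ (List.mem_cons_of_mem _ (List.mem_cons_of_mem _ (List.mem_cons_of_mem _ (List.mem_cons_of_mem _ (List.mem_cons_of_mem _ (List.mem_cons_of_mem _ (List.mem_cons_of_mem _ (List.mem_cons_of_mem _ (List.mem_cons_of_mem _ (List.mem_cons_of_mem _ (List.mem_cons_of_mem _ (List.mem_cons_of_mem _ (List.mem_cons_of_mem _ (List.mem_cons_of_mem _ (List.mem_cons_of_mem _ (List.mem_cons_of_mem _ (List.mem_cons_of_mem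 _ (List.mem_cons_of_mem _ (List.mem_cons_of_mem _ (List.mem_cons_of_mem _ (List.mem_cons_of_mem _ (List.mem_cons_of_mem _ (List.mem_cons_of_mem _ (List.mem_cons_of_mem _ (List.mem_cons_of_mem _ (List.mem_cons_of_mem _ (List.mem_cons_of_mem _ (List.mem_cons_of_mem _ (List.mem_cons_of_mem _ (List.mem_cons_of_mem _ (List.mem_cons_of_mem _ (List.mem_cons_of_mem _ (List.mem_cons_of_mem _ (List.mem_cons_of_mem _ (List.mem_cons_of_mem _ (List.mem_cons_of_mem _ (List.mem_cons_of_mem _ (List.mem_cons_of_mem _ (List.mem_cons_of_mem _ (List.mem_cons_of_mem _ (List.mem_cons_of_mem _ (List.mem_cons_of_mem _ (List.mem_cons_of_mem _ (List.mem_cons_of_mem _ (List.mem_cons_of_mem _ (List.mem_cons_of_mem _ (List.mem_cons_of_mem _ (List.mem_cons_of_mem _ (List.mem_cons_of_mem _ (List.mem_cons_of_mem _ (List.mem_cons_of_mem _ (List.mem_cons_of_mem _ (List.mem_cons_of_mem _ (List.mem_cons_of_mem _ (List.mem_cons_of_mem _ (List.mem_cons_of_mem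 _ (List.mem_cons_of_mem _ (List.mem_cons_of_mem _ (List.mem_cons_of_mem _ (List.mem_cons_of_mem _ (List.mem_cons_of_mem _ (List.mem_cons_of_mem _ (List.mem_cons_of_mem _ (List.mem_cons_self)))))))))))))))))))))))))))))))))))))))))))))))))))))))))))))))))))))))))))))))))))))))))))))))))))))))))))))))))))))), ?_⟩, by norm_num⟩
  constructor <;> norm_num [Q118, coCell, P13C6]

lemma lP13C6 : ∀ x1 x2 xc : ℝ, 0 ≤ x1 → x1 ≤ 1 → 0 ≤ x2 → x2 ≤ 1 → P13C6.l ≤ xc → xc ≤ P13C6.u →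
    (6221 / 2048 : ℝ) * (1 - (1 - x1) ^ 5) + (12357 / 1024 : ℝ) * (1 - (1 - x2) ^ 5) - (12 : ℝ) * (1 - (1 - xc) ^ 5) + (1 / 1073741824 : ℝ)
      ≤ - P13C6.a1 * x1 - P13C6.a2 * x2 + P13C6.e * xc + P13C6.f := by
  have h := cell_lines_delta 5 (α1 := (6221 / 2048 : ℝ)) (α2 := (12357 / 1024 : ℝ)) (c := (12 : ℝ)) (y1 := (25475 / 262144 : ℝ)) (y2 := (30513 / 262144 : ℝ))
    (A1 := (10580495 / 1048576 : ℝ)) (B1 := (30811 / 131072 : ℝ)) (A2 := (9641621 / 262144 : ℝ)) (B2 := (345350753 / 268435456 : ℝ)) (l := (34397 / 262144 : ℝ)) (u := (34913 / 262144 : ℝ))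
    (E := (-71361537 / 2097152 : ℝ)) (F := (-26770305 / 16777216 : ℝ)) (δ := (1 / 1073741824 : ℝ)) (by norm_num) (by norm_num) (by norm_num) (by norm_num) (by norm_num)
    (by norm_num) (by norm_num) (by norm_num) (by norm_num) (by norm_num) (by norm_num) (by norm_num) (by norm_num) (by norm_num) (by norm_num)
  have e1 : P13C6.l = (34397 / 262144 : ℝ) := rfl
  have e2 : P13C6.u = (34913 / 262144 : ℝ) := rfl
  have e3 : P13C6.a1 = -(10580495 / 1048576 : ℝ) := by norm_num [P13C6]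
  have e4 : P13C6.a2 = -(9641621 / 262144 : ℝ) := by norm_num [P13C6]
  have e5 : P13C6.e = (-71361537 / 2097152 : ℝ) := rfl
  have e6 : P13C6.f = (30811 / 131072 : ℝ) + (345350753 / 268435456 : ℝ) + (-26770305 / 16777216 : ℝ) + (1 / 1073741824 : ℝ) := by norm_num [P13C6]
  rw [e1, e2, e3, e4, e5, e6]
  exact h

lemma rP13C7 : ∃ N : ℝ, Rw4 P.r2 N (coCell (6221 / 2048 : ℝ) (12357 / 1024 : ℝ) (12 : ℝ) 0 P13C7) := by
  refine ⟨(3221225472 : ℝ), ⟨Q119, List.mem_cons_of_mem _ (List.mem_cons_of_mem _ (List.mem_cons_of_mem _ (List.mem_cons_of_mem _ (List.mem_cons_of_mem _ (List.mem_cons_of_mem _ (List.mem_cons_of_mem _ (List.mem_cons_of_mem _ (List.mem_cons_of_mem _ (List.mem_cons_of_mem _ (List.mem_cons_of_mem _ (List.mem_cons_of_mem _ (List.mem_cons_of_mem _ (List.mem_cons_of_mem _ (List.mem_cons_of_mem _ (List.mem_cons_of_mem _ (List.mem_cons_of_mem _ (List.mem_cons_of_mem _ (List.mem_cons_of_mem _ (List.mem_cons_of_mem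 _ (List.mem_cons_of_mem _ (List.mem_cons_of_mem _ (List.mem_cons_of_mem _ (List.mem_cons_of_mem _ (List.mem_cons_of_mem _ (List.mem_cons_of_mem _ (List.mem_cons_of_mem _ (List.mem_cons_of_mem _ (List.mem_cons_of_mem _ (List.mem_cons_of_mem _ (List.mem_cons_of_mem _ (List.mem_cons_of_mem _ (List.mem_cons_of_mem _ (List.mem_cons_of_mem _ (List.mem_cons_of_mem _ (List.mem_cons_of_mem _ (List.mem_cons_of_mem _ (List.mem_cons_of_mem _ (List.mem_cons_of_mem _ (List.mem_cons_of_mem _ (List.mem_cons_of_mem _ (List.mem_cons_of_mem _ (List.mem_cons_of_mem _ (List.mem_cons_of_mem _ (List.mem_cons_of_mem _ (List.mem_cons_of_mem _ (List.mem_cons_of_mem _ (List.mem_cons_of_mem _ (List.mem_cons_of_mem _ (List.mem_cons_of_mem _ (List.mem_cons_of_mem _ (List.mem_cons_of_mem _ (List.mem_cons_of_mem _ (List.mem_cons_of_mem _ (List.mem_cons_of_mem _ (List.mem_cons_of_mem _ (List.mem_cons_of_mem _ (List.mem_cons_of_mem _ (List.mem_cons_of_mem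 _ (List.mem_cons_of_mem _ (List.mem_cons_of_mem _ (List.mem_cons_of_mem _ (List.mem_cons_of_mem _ (List.mem_cons_of_mem _ (List.mem_cons_of_mem _ (List.mem_cons_of_mem _ (List.mem_cons_of_mem _ (List.mem_cons_of_mem _ (List.mem_cons_of_mem _ (List.mem_cons_of_mem _ (List.mem_cons_of_mem _ (List.mem_cons_of_mem _ (List.mem_cons_of_mem _ (List.mem_cons_of_mem _ (List.mem_cons_of_mem _ (List.mem_cons_of_mem _ (List.mem_cons_of_mem _ (List.mem_cons_of_mem _ (List.mem_cons_of_mem _ (List.mem_cons_of_mem _ (List.mem_cons_of_mem _ (List.mem_cons_of_mem _ (List.mem_cons_of_mem _ (List.mem_cons_of_mem _ (List.mem_cons_of_mem _ (List.mem_cons_of_mem _ (List.mem_cons_of_mem _ (List.mem_cons_of_mem _ (List.mem_cons_of_mem _ (List.mem_cons_of_mem _ (List.mem_cons_of_mem _ (List.mem_cons_of_mem _ (List.mem_cons_of_mem _ (List.mem_cons_of_mem _ (List.mem_cons_of_mem _ (List.mem_cons_of_mem _ (List.mem_cons_of_mem _ (List.mem_cons_of_mem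 _ (List.mem_cons_of_mem _ (List.mem_cons_of_mem _ (List.mem_cons_of_mem _ (List.mem_cons_of_mem _ (List.mem_cons_of_mem _ (List.mem_cons_of_mem _ (List.mem_cons_of_mem _ (List.mem_cons_of_mem _ (List.mem_cons_of_mem _ (List.mem_cons_of_mem _ (List.mem_cons_of_mem _ (List.mem_cons_of_mem _ (List.mem_cons_of_mem _ (List.mem_cons_of_mem _ (List.mem_cons_of_mem _ (List.mem_cons_of_mem _ (List.mem_cons_of_mem _ (List.mem_cons_of_mem _ (List.mem_cons_of_mem _ (List.mem_cons_of_mem _ (List.mem_cons_of_mem _ (List.mem_cons_self))))))))))))))))))))))))))))))))))))))))))))))))))))))))))))))))))))))))))))))))))))))))))))))))))))))))))))))))))))))), ?_⟩, by norm_num⟩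
  constructor <;> norm_num [Q119, coCell, P13C7]

lemma lP13C7 : ∀ x1 x2 xc : ℝ, 0 ≤ x1 → x1 ≤ 1 → 0 ≤ x2 → x2 ≤ 1 → P13C7.l ≤ xc → xc ≤ P13C7.u →
    (6221 / 2048 : ℝ) * (1 - (1 - x1) ^ 5) + (12357 / 1024 : ℝ) * (1 - (1 - x2) ^ 5) - (12 : ℝ) * (1 - (1 - xc) ^ 5) + (1 / 1073741824 : ℝ)
      ≤ - P13C7.a1 * x1 - P13C7.a2 * x2 + P13C7.e * xc + P13C7.f := by
  have h := cell_lines_delta 5 (α1 := (6221 / 2048 : ℝ)) (α2 := (12357 / 1024 : ℝ)) (c := (12 : ℝ)) (y1 := (3187 / 32768 : ℝ)) (y2 := (31045 / 262144 : ℝ))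
    (A1 := (2644185 / 262144 : ℝ)) (B1 := (63194403 / 268435456 : ℝ)) (A2 := (76426783 / 2097152 : ℝ)) (B2 := (355963765 / 268435456 : ℝ)) (l := (34913 / 262144 : ℝ)) (u := (35389 / 262144 : ℝ))
    (E := (-141482355 / 4194304 : ℝ)) (F := (-219450187 / 134217728 : ℝ)) (δ := (1 / 1073741824 : ℝ)) (by norm_num) (by norm_num) (by norm_num) (by norm_num) (by norm_num)
    (by norm_num) (by norm_num) (by norm_num) (by norm_num) (by norm_num) (by norm_num) (by norm_num) (by norm_num) (by norm_num) (by norm_num)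
  have e1 : P13C7.l = (34913 / 262144 : ℝ) := rfl
  have e2 : P13C7.u = (35389 / 262144 : ℝ) := rfl
  have e3 : P13C7.a1 = -(2644185 / 262144 : ℝ) := by norm_num [P13C7]
  have e4 : P13C7.a2 = -(76426783 / 2097152 : ℝ) := by norm_num [P13C7]
  have e5 : P13C7.e = (-141482355 / 4194304 : ℝ) := rfl
  have e6 : P13C7.f = (63194403 / 268435456 : ℝ) + (355963765 / 268435456 : ℝ) + (-219450187 / 134217728 : ℝ) + (1 / 1073741824 : ℝ) := by norm_num [P13C7]
  rw [e1, e2, e3, e4, e5, e6]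
  exact h

/-- A link of the chain. -/
lemma link13 {lam : ℝ} (h0 : -(1 / 2) < lam) (h1 : lam < 1) (hB : BoxS lam P 0 HH 0 HH)
    (h : ∃ n, 1 - En 5 lam n mc ≤ (35389 / 262144 : ℝ)) : ∃ n, 1 - En 5 lam n mc ≤ (31457 / 262144 : ℝ) :=
  phase_of_box (by norm_num) h0 h1 hB (6221 / 2048 : ℝ) (12357 / 1024 : ℝ) (12 : ℝ) (1 / 1073741824 : ℝ) (31457 / 262144 : ℝ) (35389 / 262144 : ℝ) (by norm_num) cellsP13 hcoverP13
    (forall_cons lP13C0 (forall_cons lP13C1 (forall_cons lP13C2 (forall_cons lP13C3 (forall_cons lP13C4 (forall_cons lP13C5 (forall_cons lP13C6 (forall_cons lP13C7 (forall_nil))))))))) (forall_cons rP13C0 (forall_cons rP13C1 (forall_cons rP13C2 (forall_cons rP13C3 (forall_cons rP13C4 (forall_cons rP13C5 (forall_cons rP13C6 (forall_cons rP13C7 (forall_nil))))))))) h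

/-- A chord cell of a link. -/
noncomputable def P14C0 : Cell := ⟨(35389 / 262144 : ℝ), (2245 / 16384 : ℝ), (-59173977 / 4194304 : ℝ), (-142950245 / 4194304 : ℝ), (-70115649 / 2097152 : ℝ), (-91237127 / 1073741824 : ℝ)⟩

/-- A chord cell of a link. -/
noncomputable def P14C1 : Cell := ⟨(2245 / 16384 : ℝ), (36459 / 262144 : ℝ), (-58715655 / 4194304 : ℝ), (-17722961 / 524288 : ℝ), (-69455507 / 2097152 : ℝ), (-90215535 / 1073741824 : ℝ)⟩

/-- A chord cell of a link. -/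
noncomputable def P14C2 : Cell := ⟨(36459 / 262144 : ℝ), (18503 / 131072 : ℝ), (-58258029 / 4194304 : ℝ), (-140604697 / 4194304 : ℝ), (-33589 / 1024 : ℝ), (-89128711 / 1073741824 : ℝ)⟩

/-- A chord cell of a link. -/
noncomputable def P14C3 : Cell := ⟨(18503 / 131072 : ℝ), (37561 / 262144 : ℝ), (-57801123 / 4194304 : ℝ), (-139418475 / 4194304 : ℝ), (-136240265 / 4194304 : ℝ), (-88130899 / 1073741824 : ℝ)⟩

/-- A chord cell of a link. -/
noncomputable def P14C4 : Cell := ⟨(37561 / 262144 : ℝ), (9531 / 65536 : ℝ), (-57344963 / 4194304 : ℝ), (-138220435 / 4194304 : ℝ), (-134890557 / 4194304 : ℝ), (-87066203 / 1073741824 : ℝ)⟩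

/-- A chord cell of a link. -/
noncomputable def P14C5 : Cell := ⟨(9531 / 65536 : ℝ), (4837 / 32768 : ℝ), (-14222151 / 1048576 : ℝ), (-17126365 / 524288 : ℝ), (-133530611 / 4194304 : ℝ), (-85950779 / 1073741824 : ℝ)⟩

/-- A chord cell of a link. -/
noncomputable def P14C6 : Cell := ⟨(4837 / 32768 : ℝ), (19661 / 131072 : ℝ), (-56354187 / 4194304 : ℝ), (-67896331 / 2097152 : ℝ), (-132106433 / 4194304 : ℝ), (-84819503 / 1073741824 : ℝ)⟩

/-- The chord cells of a link. -/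
noncomputable def cellsP14 : List Cell := [P14C0, P14C1, P14C2, P14C3, P14C4, P14C5, P14C6]

lemma hcoverP14 : ∀ x : ℝ, (35389 / 262144 : ℝ) ≤ x → x ≤ (19661 / 131072 : ℝ) → ∃ D ∈ cellsP14, D.l ≤ x ∧ x ≤ D.u := by
  refine cover_of_chain ?_ (by norm_num [P14C0])
  simp only [ChainP, P14C0, P14C1, P14C2, P14C3, P14C4, P14C5, P14C6]
  norm_num

lemma rP14C0 : ∃ N : ℝ, Rw4 P.r2 N (coCell (17187 / 4096 : ℝ) (46589 / 4096 : ℝ) (12 : ℝ) 0 P14C0) := by
  refine ⟨(3221225472 : ℝ), ⟨Q120, List.mem_cons_of_mem _ (List.mem_cons_of_mem _ (List.mem_cons_of_mem _ (List.mem_cons_of_mem _ (List.mem_cons_of_mem _ (List.mem_cons_of_mem _ (List.mem_cons_of_mem _ (List.mem_cons_of_mem _ (List.mem_cons_of_mem _ (List.mem_cons_of_mem _ (List.mem_cons_of_mem _ (List.mem_cons_of_mem _ (List.mem_cons_of_mem _ (List.mem_cons_of_mem _ (List.mem_cons_of_mem _ (List.mem_cons_of_mem _ (List.mem_cons_of_mem _ (List.mem_cons_of_mem _ (List.mem_cons_of_mem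 _ (List.mem_cons_of_mem _ (List.mem_cons_of_mem _ (List.mem_cons_of_mem _ (List.mem_cons_of_mem _ (List.mem_cons_of_mem _ (List.mem_cons_of_mem _ (List.mem_cons_of_mem _ (List.mem_cons_of_mem _ (List.mem_cons_of_mem _ (List.mem_cons_of_mem _ (List.mem_cons_of_mem _ (List.mem_cons_of_mem _ (List.mem_cons_of_mem _ (List.mem_cons_of_mem _ (List.mem_cons_of_mem _ (List.mem_cons_of_mem _ (List.mem_cons_of_mem _ (List.mem_cons_of_mem _ (List.mem_cons_of_mem _ (List.mem_cons_of_mem _ (List.mem_cons_of_mem _ (List.mem_cons_of_mem _ (List.mem_cons_of_mem _ (List.mem_cons_of_mem _ (List.mem_cons_of_mem _ (List.mem_cons_of_mem _ (List.mem_cons_of_mem _ (List.mem_cons_of_mem _ (List.mem_cons_of_mem _ (List.mem_cons_of_mem _ (List.mem_cons_of_mem _ (List.mem_cons_of_mem _ (List.mem_cons_of_mem _ (List.mem_cons_of_mem _ (List.mem_cons_of_mem _ (List.mem_cons_of_mem _ (List.mem_cons_of_mem _ (List.mem_cons_of_mem _ (List.mem_cons_of_mem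 _ (List.mem_cons_of_mem _ (List.mem_cons_of_mem _ (List.mem_cons_of_mem _ (List.mem_cons_of_mem _ (List.mem_cons_of_mem _ (List.mem_cons_of_mem _ (List.mem_cons_of_mem _ (List.mem_cons_of_mem _ (List.mem_cons_of_mem _ (List.mem_cons_of_mem _ (List.mem_cons_of_mem _ (List.mem_cons_of_mem _ (List.mem_cons_of_mem _ (List.mem_cons_of_mem _ (List.mem_cons_of_mem _ (List.mem_cons_of_mem _ (List.mem_cons_of_mem _ (List.mem_cons_of_mem _ (List.mem_cons_of_mem _ (List.mem_cons_of_mem _ (List.mem_cons_of_mem _ (List.mem_cons_of_mem _ (List.mem_cons_of_mem _ (List.mem_cons_of_mem _ (List.mem_cons_of_mem _ (List.mem_cons_of_mem _ (List.mem_cons_of_mem _ (List.mem_cons_of_mem _ (List.mem_cons_of_mem _ (List.mem_cons_of_mem _ (List.mem_cons_of_mem _ (List.mem_cons_of_mem _ (List.mem_cons_of_mem _ (List.mem_cons_of_mem _ (List.mem_cons_of_mem _ (List.mem_cons_of_mem _ (List.mem_cons_of_mem _ (List.mem_cons_of_mem _ (List.mem_cons_of_mem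 _ (List.mem_cons_of_mem _ (List.mem_cons_of_mem _ (List.mem_cons_of_mem _ (List.mem_cons_of_mem _ (List.mem_cons_of_mem _ (List.mem_cons_of_mem _ (List.mem_cons_of_mem _ (List.mem_cons_of_mem _ (List.mem_cons_of_mem _ (List.mem_cons_of_mem _ (List.mem_cons_of_mem _ (List.mem_cons_of_mem _ (List.mem_cons_of_mem _ (List.mem_cons_of_mem _ (List.mem_cons_of_mem _ (List.mem_cons_of_mem _ (List.mem_cons_of_mem _ (List.mem_cons_of_mem _ (List.mem_cons_of_mem _ (List.mem_cons_of_mem _ (List.mem_cons_of_mem _ (List.mem_cons_of_mem _ (List.mem_cons_of_mem _ (List.mem_cons_self)))))))))))))))))))))))))))))))))))))))))))))))))))))))))))))))))))))))))))))))))))))))))))))))))))))))))))))))))))))))), ?_⟩, by norm_num⟩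
  constructor <;> norm_num [Q120, coCell, P14C0]

lemma lP14C0 : ∀ x1 x2 xc : ℝ, 0 ≤ x1 → x1 ≤ 1 → 0 ≤ x2 → x2 ≤ 1 → P14C0.l ≤ xc → xc ≤ P14C0.u →
    (17187 / 4096 : ℝ) * (1 - (1 - x1) ^ 5) + (46589 / 4096 : ℝ) * (1 - (1 - x2) ^ 5) - (12 : ℝ) * (1 - (1 - xc) ^ 5) + (1 / 1073741824 : ℝ)
      ≤ - P14C0.a1 * x1 - P14C0.a2 * x2 + P14C0.e * xc + P14C0.f := by
  have h := cell_lines_delta 5 (α1 := (17187 / 4096 : ℝ)) (α2 := (46589 / 4096 : ℝ)) (c := (12 : ℝ)) (y1 := (12379 / 131072 : ℝ)) (y2 := (31497 / 262144 : ℝ))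
    (A1 := (59173977 / 4194304 : ℝ)) (B1 := (82801799 / 268435456 : ℝ)) (A2 := (142950245 / 4194304 : ℝ)) (B2 := (344098291 / 268435456 : ℝ)) (l := (35389 / 262144 : ℝ)) (u := (2245 / 16384 : ℝ))
    (E := (-70115649 / 2097152 : ℝ)) (F := (-112427343 / 67108864 : ℝ)) (δ := (1 / 1073741824 : ℝ)) (by norm_num) (by norm_num) (by norm_num) (by norm_num) (by norm_num)
    (by norm_num) (by norm_num) (by norm_num) (by norm_num) (by norm_num) (by norm_num) (by norm_num) (by norm_num) (by norm_num) (by norm_num)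
  have e1 : P14C0.l = (35389 / 262144 : ℝ) := rfl
  have e2 : P14C0.u = (2245 / 16384 : ℝ) := rfl
  have e3 : P14C0.a1 = -(59173977 / 4194304 : ℝ) := by norm_num [P14C0]
  have e4 : P14C0.a2 = -(142950245 / 4194304 : ℝ) := by norm_num [P14C0]
  have e5 : P14C0.e = (-70115649 / 2097152 : ℝ) := rfl
  have e6 : P14C0.f = (82801799 / 268435456 : ℝ) + (344098291 / 268435456 : ℝ) + (-112427343 / 67108864 : ℝ) + (1 / 1073741824 : ℝ) := by norm_num [P14C0]
  rw [e1, e2, e3, e4, e5, e6]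
  exact h

lemma rP14C1 : ∃ N : ℝ, Rw4 P.r2 N (coCell (17187 / 4096 : ℝ) (46589 / 4096 : ℝ) (12 : ℝ) 0 P14C1) := by
  refine ⟨(3221225472 : ℝ), ⟨Q121, List.mem_cons_of_mem _ (List.mem_cons_of_mem _ (List.mem_cons_of_mem _ (List.mem_cons_of_mem _ (List.mem_cons_of_mem _ (List.mem_cons_of_mem _ (List.mem_cons_of_mem _ (List.mem_cons_of_mem _ (List.mem_cons_of_mem _ (List.mem_cons_of_mem _ (List.mem_cons_of_mem _ (List.mem_cons_of_mem _ (List.mem_cons_of_mem _ (List.mem_cons_of_mem _ (List.mem_cons_of_mem _ (List.mem_cons_of_mem _ (List.mem_cons_of_mem _ (List.mem_cons_of_mem _ (List.mem_cons_of_mem _ (List.mem_cons_of_mem _ (List.mem_cons_of_mem _ (List.mem_cons_of_mem _ (List.mem_cons_of_mem _ (List.mem_cons_of_mem _ (List.mem_cons_of_mem _ (List.mem_cons_of_mem _ (List.mem_cons_of_mem _ (List.mem_cons_of_mem _ (List.mem_cons_of_mem _ (List.mem_cons_of_mem _ (List.mem_cons_of_mem _ (List.mem_cons_of_mem _ (List.mem_cons_of_mem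 _ (List.mem_cons_of_mem _ (List.mem_cons_of_mem _ (List.mem_cons_of_mem _ (List.mem_cons_of_mem _ (List.mem_cons_of_mem _ (List.mem_cons_of_mem _ (List.mem_cons_of_mem _ (List.mem_cons_of_mem _ (List.mem_cons_of_mem _ (List.mem_cons_of_mem _ (List.mem_cons_of_mem _ (List.mem_cons_of_mem _ (List.mem_cons_of_mem _ (List.mem_cons_of_mem _ (List.mem_cons_of_mem _ (List.mem_cons_of_mem _ (List.mem_cons_of_mem _ (List.mem_cons_of_mem _ (List.mem_cons_of_mem _ (List.mem_cons_of_mem _ (List.mem_cons_of_mem _ (List.mem_cons_of_mem _ (List.mem_cons_of_mem _ (List.mem_cons_of_mem _ (List.mem_cons_of_mem _ (List.mem_cons_of_mem _ (List.mem_cons_of_mem _ (List.mem_cons_of_mem _ (List.mem_cons_of_mem _ (List.mem_cons_of_mem _ (List.mem_cons_of_mem _ (List.mem_cons_of_mem _ (List.mem_cons_of_mem _ (List.mem_cons_of_mem _ (List.mem_cons_of_mem _ (List.mem_cons_of_mem _ (List.mem_cons_of_mem _ (List.mem_cons_of_mem _ (List.mem_cons_of_mem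 _ (List.mem_cons_of_mem _ (List.mem_cons_of_mem _ (List.mem_cons_of_mem _ (List.mem_cons_of_mem _ (List.mem_cons_of_mem _ (List.mem_cons_of_mem _ (List.mem_cons_of_mem _ (List.mem_cons_of_mem _ (List.mem_cons_of_mem _ (List.mem_cons_of_mem _ (List.mem_cons_of_mem _ (List.mem_cons_of_mem _ (List.mem_cons_of_mem _ (List.mem_cons_of_mem _ (List.mem_cons_of_mem _ (List.mem_cons_of_mem _ (List.mem_cons_of_mem _ (List.mem_cons_of_mem _ (List.mem_cons_of_mem _ (List.mem_cons_of_mem _ (List.mem_cons_of_mem _ (List.mem_cons_of_mem _ (List.mem_cons_of_mem _ (List.mem_cons_of_mem _ (List.mem_cons_of_mem _ (List.mem_cons_of_mem _ (List.mem_cons_of_mem _ (List.mem_cons_of_mem _ (List.mem_cons_of_mem _ (List.mem_cons_of_mem _ (List.mem_cons_of_mem _ (List.mem_cons_of_mem _ (List.mem_cons_of_mem _ (List.mem_cons_of_mem _ (List.mem_cons_of_mem _ (List.mem_cons_of_mem _ (List.mem_cons_of_mem _ (List.mem_cons_of_mem _ (List.mem_cons_of_mem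 _ (List.mem_cons_of_mem _ (List.mem_cons_of_mem _ (List.mem_cons_of_mem _ (List.mem_cons_of_mem _ (List.mem_cons_of_mem _ (List.mem_cons_of_mem _ (List.mem_cons_of_mem _ (List.mem_cons_of_mem _ (List.mem_cons_of_mem _ (List.mem_cons_of_mem _ (List.mem_cons_self))))))))))))))))))))))))))))))))))))))))))))))))))))))))))))))))))))))))))))))))))))))))))))))))))))))))))))))))))))))))), ?_⟩, by norm_num⟩
  constructor <;> norm_num [Q121, coCell, P14C1]

lemma lP14C1 : ∀ x1 x2 xc : ℝ, 0 ≤ x1 → x1 ≤ 1 → 0 ≤ x2 → x2 ≤ 1 → P14C1.l ≤ xc → xc ≤ P14C1.u →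
    (17187 / 4096 : ℝ) * (1 - (1 - x1) ^ 5) + (46589 / 4096 : ℝ) * (1 - (1 - x2) ^ 5) - (12 : ℝ) * (1 - (1 - xc) ^ 5) + (1 / 1073741824 : ℝ)
      ≤ - P14C1.a1 * x1 - P14C1.a2 * x2 + P14C1.e * xc + P14C1.f := by
  have h := cell_lines_delta 5 (α1 := (17187 / 4096 : ℝ)) (α2 := (46589 / 4096 : ℝ)) (c := (12 : ℝ)) (y1 := (25219 / 262144 : ℝ)) (y2 := (31969 / 262144 : ℝ))
    (A1 := (58715655 / 4194304 : ℝ)) (B1 := (42798925 / 134217728 : ℝ)) (A2 := (17722961 / 524288 : ℝ)) (B2 := (176567955 / 134217728 : ℝ)) (l := (2245 / 16384 : ℝ)) (u := (36459 / 262144 : ℝ))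
    (E := (-69455507 / 2097152 : ℝ)) (F := (-115321911 / 67108864 : ℝ)) (δ := (1 / 1073741824 : ℝ)) (by norm_num) (by norm_num) (by norm_num) (by norm_num) (by norm_num)
    (by norm_num) (by norm_num) (by norm_num) (by norm_num) (by norm_num) (by norm_num) (by norm_num) (by norm_num) (by norm_num) (by norm_num)
  have e1 : P14C1.l = (2245 / 16384 : ℝ) := rfl
  have e2 : P14C1.u = (36459 / 262144 : ℝ) := rfl
  have e3 : P14C1.a1 = -(58715655 / 4194304 : ℝ) := by norm_num [P14C1]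
  have e4 : P14C1.a2 = -(17722961 / 524288 : ℝ) := by norm_num [P14C1]
  have e5 : P14C1.e = (-69455507 / 2097152 : ℝ) := rfl
  have e6 : P14C1.f = (42798925 / 134217728 : ℝ) + (176567955 / 134217728 : ℝ) + (-115321911 / 67108864 : ℝ) + (1 / 1073741824 : ℝ) := by norm_num [P14C1]
  rw [e1, e2, e3, e4, e5, e6]
  exact h

lemma rP14C2 : ∃ N : ℝ, Rw4 P.r2 N (coCell (17187 / 4096 : ℝ) (46589 / 4096 : ℝ) (12 : ℝ) 0 P14C2) := by
  refine ⟨(3221225472 : ℝ), ⟨Q122, List.mem_cons_of_mem _ (List.mem_cons_of_mem _ (List.mem_cons_of_mem _ (List.mem_cons_of_mem _ (List.mem_cons_of_mem _ (List.mem_cons_of_mem _ (List.mem_cons_of_mem _ (List.mem_cons_of_mem _ (List.mem_cons_of_mem _ (List.mem_cons_of_mem _ (List.mem_cons_of_mem _ (List.mem_cons_of_mem _ (List.mem_cons_of_mem _ (List.mem_cons_of_mem _ (List.mem_cons_of_mem _ (List.mem_cons_of_mem _ (List.mem_cons_of_mem _ (List.mem_cons_of_mem _ (List.mem_cons_of_mem _ (List.mem_cons_of_mem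 _ (List.mem_cons_of_mem _ (List.mem_cons_of_mem _ (List.mem_cons_of_mem _ (List.mem_cons_of_mem _ (List.mem_cons_of_mem _ (List.mem_cons_of_mem _ (List.mem_cons_of_mem _ (List.mem_cons_of_mem _ (List.mem_cons_of_mem _ (List.mem_cons_of_mem _ (List.mem_cons_of_mem _ (List.mem_cons_of_mem _ (List.mem_cons_of_mem _ (List.mem_cons_of_mem _ (List.mem_cons_of_mem _ (List.mem_cons_of_mem _ (List.mem_cons_of_mem _ (List.mem_cons_of_mem _ (List.mem_cons_of_mem _ (List.mem_cons_of_mem _ (List.mem_cons_of_mem _ (List.mem_cons_of_mem _ (List.mem_cons_of_mem _ (List.mem_cons_of_mem _ (List.mem_cons_of_mem _ (List.mem_cons_of_mem _ (List.mem_cons_of_mem _ (List.mem_cons_of_mem _ (List.mem_cons_of_mem _ (List.mem_cons_of_mem _ (List.mem_cons_of_mem _ (List.mem_cons_of_mem _ (List.mem_cons_of_mem _ (List.mem_cons_of_mem _ (List.mem_cons_of_mem _ (List.mem_cons_of_mem _ (List.mem_cons_of_mem _ (List.mem_cons_of_mem _ (List.mem_cons_of_mem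 _ (List.mem_cons_of_mem _ (List.mem_cons_of_mem _ (List.mem_cons_of_mem _ (List.mem_cons_of_mem _ (List.mem_cons_of_mem _ (List.mem_cons_of_mem _ (List.mem_cons_of_mem _ (List.mem_cons_of_mem _ (List.mem_cons_of_mem _ (List.mem_cons_of_mem _ (List.mem_cons_of_mem _ (List.mem_cons_of_mem _ (List.mem_cons_of_mem _ (List.mem_cons_of_mem _ (List.mem_cons_of_mem _ (List.mem_cons_of_mem _ (List.mem_cons_of_mem _ (List.mem_cons_of_mem _ (List.mem_cons_of_mem _ (List.mem_cons_of_mem _ (List.mem_cons_of_mem _ (List.mem_cons_of_mem _ (List.mem_cons_of_mem _ (List.mem_cons_of_mem _ (List.mem_cons_of_mem _ (List.mem_cons_of_mem _ (List.mem_cons_of_mem _ (List.mem_cons_of_mem _ (List.mem_cons_of_mem _ (List.mem_cons_of_mem _ (List.mem_cons_of_mem _ (List.mem_cons_of_mem _ (List.mem_cons_of_mem _ (List.mem_cons_of_mem _ (List.mem_cons_of_mem _ (List.mem_cons_of_mem _ (List.mem_cons_of_mem _ (List.mem_cons_of_mem _ (List.mem_cons_of_mem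 _ (List.mem_cons_of_mem _ (List.mem_cons_of_mem _ (List.mem_cons_of_mem _ (List.mem_cons_of_mem _ (List.mem_cons_of_mem _ (List.mem_cons_of_mem _ (List.mem_cons_of_mem _ (List.mem_cons_of_mem _ (List.mem_cons_of_mem _ (List.mem_cons_of_mem _ (List.mem_cons_of_mem _ (List.mem_cons_of_mem _ (List.mem_cons_of_mem _ (List.mem_cons_of_mem _ (List.mem_cons_of_mem _ (List.mem_cons_of_mem _ (List.mem_cons_of_mem _ (List.mem_cons_of_mem _ (List.mem_cons_of_mem _ (List.mem_cons_of_mem _ (List.mem_cons_of_mem _ (List.mem_cons_of_mem _ (List.mem_cons_of_mem _ (List.mem_cons_of_mem _ (List.mem_cons_self)))))))))))))))))))))))))))))))))))))))))))))))))))))))))))))))))))))))))))))))))))))))))))))))))))))))))))))))))))))))))), ?_⟩, by norm_num⟩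
  constructor <;> norm_num [Q122, coCell, P14C2]

lemma lP14C2 : ∀ x1 x2 xc : ℝ, 0 ≤ x1 → x1 ≤ 1 → 0 ≤ x2 → x2 ≤ 1 → P14C2.l ≤ xc → xc ≤ P14C2.u →
    (17187 / 4096 : ℝ) * (1 - (1 - x1) ^ 5) + (46589 / 4096 : ℝ) * (1 - (1 - x2) ^ 5) - (12 : ℝ) * (1 - (1 - xc) ^ 5) + (1 / 1073741824 : ℝ)
      ≤ - P14C2.a1 * x1 - P14C2.a2 * x2 + P14C2.e * xc + P14C2.f := by
  have h := cell_lines_delta 5 (α1 := (17187 / 4096 : ℝ)) (α2 := (46589 / 4096 : ℝ)) (c := (12 : ℝ)) (y1 := (12841 / 131072 : ℝ)) (y2 := (32449 / 262144 : ℝ))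
    (A1 := (58258029 / 4194304 : ℝ)) (B1 := (88441285 / 268435456 : ℝ)) (A2 := (140604697 / 4194304 : ℝ)) (B2 := (181203429 / 134217728 : ℝ)) (l := (36459 / 262144 : ℝ)) (u := (18503 / 131072 : ℝ))
    (E := (-33589 / 1024 : ℝ)) (F := (-473130321 / 268435456 : ℝ)) (δ := (1 / 1073741824 : ℝ)) (by norm_num) (by norm_num) (by norm_num) (by norm_num) (by norm_num)
    (by norm_num) (by norm_num) (by norm_num) (by norm_num) (by norm_num) (by norm_num) (by norm_num) (by norm_num) (by norm_num) (by norm_num)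
  have e1 : P14C2.l = (36459 / 262144 : ℝ) := rfl
  have e2 : P14C2.u = (18503 / 131072 : ℝ) := rfl
  have e3 : P14C2.a1 = -(58258029 / 4194304 : ℝ) := by norm_num [P14C2]
  have e4 : P14C2.a2 = -(140604697 / 4194304 : ℝ) := by norm_num [P14C2]
  have e5 : P14C2.e = (-33589 / 1024 : ℝ) := rfl
  have e6 : P14C2.f = (88441285 / 268435456 : ℝ) + (181203429 / 134217728 : ℝ) + (-473130321 / 268435456 : ℝ) + (1 / 1073741824 : ℝ) := by norm_num [P14C2]
  rw [e1, e2, e3, e4, e5, e6]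
  exact h

lemma rP14C3 : ∃ N : ℝ, Rw4 P.r2 N (coCell (17187 / 4096 : ℝ) (46589 / 4096 : ℝ) (12 : ℝ) 0 P14C3) := by
  refine ⟨(3221225472 : ℝ), ⟨Q123, List.mem_cons_of_mem _ (List.mem_cons_of_mem _ (List.mem_cons_of_mem _ (List.mem_cons_of_mem _ (List.mem_cons_of_mem _ (List.mem_cons_of_mem _ (List.mem_cons_of_mem _ (List.mem_cons_of_mem _ (List.mem_cons_of_mem _ (List.mem_cons_of_mem _ (List.mem_cons_of_mem _ (List.mem_cons_of_mem _ (List.mem_cons_of_mem _ (List.mem_cons_of_mem _ (List.mem_cons_of_mem _ (List.mem_cons_of_mem _ (List.mem_cons_of_mem _ (List.mem_cons_of_mem _ (List.mem_cons_of_mem _ (List.mem_cons_of_mem _ (List.mem_cons_of_mem _ (List.mem_cons_of_mem _ (List.mem_cons_of_mem _ (List.mem_cons_of_mem _ (List.mem_cons_of_mem _ (List.mem_cons_of_mem _ (List.mem_cons_of_mem _ (List.mem_cons_of_mem _ (List.mem_cons_of_mem _ (List.mem_cons_of_mem _ (List.mem_cons_of_mem _ (List.mem_cons_of_mem _ (List.mem_cons_of_mem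 _ (List.mem_cons_of_mem _ (List.mem_cons_of_mem _ (List.mem_cons_of_mem _ (List.mem_cons_of_mem _ (List.mem_cons_of_mem _ (List.mem_cons_of_mem _ (List.mem_cons_of_mem _ (List.mem_cons_of_mem _ (List.mem_cons_of_mem _ (List.mem_cons_of_mem _ (List.mem_cons_of_mem _ (List.mem_cons_of_mem _ (List.mem_cons_of_mem _ (List.mem_cons_of_mem _ (List.mem_cons_of_mem _ (List.mem_cons_of_mem _ (List.mem_cons_of_mem _ (List.mem_cons_of_mem _ (List.mem_cons_of_mem _ (List.mem_cons_of_mem _ (List.mem_cons_of_mem _ (List.mem_cons_of_mem _ (List.mem_cons_of_mem _ (List.mem_cons_of_mem _ (List.mem_cons_of_mem _ (List.mem_cons_of_mem _ (List.mem_cons_of_mem _ (List.mem_cons_of_mem _ (List.mem_cons_of_mem _ (List.mem_cons_of_mem _ (List.mem_cons_of_mem _ (List.mem_cons_of_mem _ (List.mem_cons_of_mem _ (List.mem_cons_of_mem _ (List.mem_cons_of_mem _ (List.mem_cons_of_mem _ (List.mem_cons_of_mem _ (List.mem_cons_of_mem _ (List.mem_cons_of_mem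 _ (List.mem_cons_of_mem _ (List.mem_cons_of_mem _ (List.mem_cons_of_mem _ (List.mem_cons_of_mem _ (List.mem_cons_of_mem _ (List.mem_cons_of_mem _ (List.mem_cons_of_mem _ (List.mem_cons_of_mem _ (List.mem_cons_of_mem _ (List.mem_cons_of_mem _ (List.mem_cons_of_mem _ (List.mem_cons_of_mem _ (List.mem_cons_of_mem _ (List.mem_cons_of_mem _ (List.mem_cons_of_mem _ (List.mem_cons_of_mem _ (List.mem_cons_of_mem _ (List.mem_cons_of_mem _ (List.mem_cons_of_mem _ (List.mem_cons_of_mem _ (List.mem_cons_of_mem _ (List.mem_cons_of_mem _ (List.mem_cons_of_mem _ (List.mem_cons_of_mem _ (List.mem_cons_of_mem _ (List.mem_cons_of_mem _ (List.mem_cons_of_mem _ (List.mem_cons_of_mem _ (List.mem_cons_of_mem _ (List.mem_cons_of_mem _ (List.mem_cons_of_mem _ (List.mem_cons_of_mem _ (List.mem_cons_of_mem _ (List.mem_cons_of_mem _ (List.mem_cons_of_mem _ (List.mem_cons_of_mem _ (List.mem_cons_of_mem _ (List.mem_cons_of_mem _ (List.mem_cons_of_mem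 _ (List.mem_cons_of_mem _ (List.mem_cons_of_mem _ (List.mem_cons_of_mem _ (List.mem_cons_of_mem _ (List.mem_cons_of_mem _ (List.mem_cons_of_mem _ (List.mem_cons_of_mem _ (List.mem_cons_of_mem _ (List.mem_cons_of_mem _ (List.mem_cons_of_mem _ (List.mem_cons_of_mem _ (List.mem_cons_of_mem _ (List.mem_cons_self))))))))))))))))))))))))))))))))))))))))))))))))))))))))))))))))))))))))))))))))))))))))))))))))))))))))))))))))))))))))))), ?_⟩, by norm_num⟩
  constructor <;> norm_num [Q123, coCell, P14C3]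

lemma lP14C3 : ∀ x1 x2 xc : ℝ, 0 ≤ x1 → x1 ≤ 1 → 0 ≤ x2 → x2 ≤ 1 → P14C3.l ≤ xc → xc ≤ P14C3.u →
    (17187 / 4096 : ℝ) * (1 - (1 - x1) ^ 5) + (46589 / 4096 : ℝ) * (1 - (1 - x2) ^ 5) - (12 : ℝ) * (1 - (1 - xc) ^ 5) + (1 / 1073741824 : ℝ)
      ≤ - P14C3.a1 * x1 - P14C3.a2 * x2 + P14C3.e * xc + P14C3.f := by
  have h := cell_lines_delta 5 (α1 := (17187 / 4096 : ℝ)) (α2 := (46589 / 4096 : ℝ)) (c := (12 : ℝ)) (y1 := (26147 / 262144 : ℝ)) (y2 := (32935 / 262144 : ℝ))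
    (A1 := (57801123 / 4194304 : ℝ)) (B1 := (91332023 / 268435456 : ℝ)) (A2 := (139418475 / 4194304 : ℝ)) (B2 := (371874549 / 268435456 : ℝ)) (l := (18503 / 131072 : ℝ)) (u := (37561 / 262144 : ℝ))
    (E := (-136240265 / 4194304 : ℝ)) (F := (-485239297 / 268435456 : ℝ)) (δ := (1 / 1073741824 : ℝ)) (by norm_num) (by norm_num) (by norm_num) (by norm_num) (by norm_num)
    (by norm_num) (by norm_num) (by norm_num) (by norm_num) (by norm_num) (by norm_num) (by norm_num) (by norm_num) (by norm_num) (by norm_num)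
  have e1 : P14C3.l = (18503 / 131072 : ℝ) := rfl
  have e2 : P14C3.u = (37561 / 262144 : ℝ) := rfl
  have e3 : P14C3.a1 = -(57801123 / 4194304 : ℝ) := by norm_num [P14C3]
  have e4 : P14C3.a2 = -(139418475 / 4194304 : ℝ) := by norm_num [P14C3]
  have e5 : P14C3.e = (-136240265 / 4194304 : ℝ) := rfl
  have e6 : P14C3.f = (91332023 / 268435456 : ℝ) + (371874549 / 268435456 : ℝ) + (-485239297 / 268435456 : ℝ) + (1 / 1073741824 : ℝ) := by norm_num [P14C3]
  rw [e1, e2, e3, e4, e5, e6]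
  exact h

lemma rP14C4 : ∃ N : ℝ, Rw4 P.r2 N (coCell (17187 / 4096 : ℝ) (46589 / 4096 : ℝ) (12 : ℝ) 0 P14C4) := by
  refine ⟨(3221225472 : ℝ), ⟨Q124, List.mem_cons_of_mem _ (List.mem_cons_of_mem _ (List.mem_cons_of_mem _ (List.mem_cons_of_mem _ (List.mem_cons_of_mem _ (List.mem_cons_of_mem _ (List.mem_cons_of_mem _ (List.mem_cons_of_mem _ (List.mem_cons_of_mem _ (List.mem_cons_of_mem _ (List.mem_cons_of_mem _ (List.mem_cons_of_mem _ (List.mem_cons_of_mem _ (List.mem_cons_of_mem _ (List.mem_cons_of_mem _ (List.mem_cons_of_mem _ (List.mem_cons_of_mem _ (List.mem_cons_of_mem _ (List.mem_cons_of_mem _ (List.mem_cons_of_mem _ (List.mem_cons_of_mem _ (List.mem_cons_of_mem _ (List.mem_cons_of_mem _ (List.mem_cons_of_mem _ (List.mem_cons_of_mem _ (List.mem_cons_of_mem _ (List.mem_cons_of_mem _ (List.mem_cons_of_mem _ (List.mem_cons_of_mem _ (List.mem_cons_of_mem _ (List.mem_cons_of_mem _ (List.mem_cons_of_mem _ (List.mem_cons_of_mem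 _ (List.mem_cons_of_mem _ (List.mem_cons_of_mem _ (List.mem_cons_of_mem _ (List.mem_cons_of_mem _ (List.mem_cons_of_mem _ (List.mem_cons_of_mem _ (List.mem_cons_of_mem _ (List.mem_cons_of_mem _ (List.mem_cons_of_mem _ (List.mem_cons_of_mem _ (List.mem_cons_of_mem _ (List.mem_cons_of_mem _ (List.mem_cons_of_mem _ (List.mem_cons_of_mem _ (List.mem_cons_of_mem _ (List.mem_cons_of_mem _ (List.mem_cons_of_mem _ (List.mem_cons_of_mem _ (List.mem_cons_of_mem _ (List.mem_cons_of_mem _ (List.mem_cons_of_mem _ (List.mem_cons_of_mem _ (List.mem_cons_of_mem _ (List.mem_cons_of_mem _ (List.mem_cons_of_mem _ (List.mem_cons_of_mem _ (List.mem_cons_of_mem _ (List.mem_cons_of_mem _ (List.mem_cons_of_mem _ (List.mem_cons_of_mem _ (List.mem_cons_of_mem _ (List.mem_cons_of_mem _ (List.mem_cons_of_mem _ (List.mem_cons_of_mem _ (List.mem_cons_of_mem _ (List.mem_cons_of_mem _ (List.mem_cons_of_mem _ (List.mem_cons_of_mem _ (List.mem_cons_of_mem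 _ (List.mem_cons_of_mem _ (List.mem_cons_of_mem _ (List.mem_cons_of_mem _ (List.mem_cons_of_mem _ (List.mem_cons_of_mem _ (List.mem_cons_of_mem _ (List.mem_cons_of_mem _ (List.mem_cons_of_mem _ (List.mem_cons_of_mem _ (List.mem_cons_of_mem _ (List.mem_cons_of_mem _ (List.mem_cons_of_mem _ (List.mem_cons_of_mem _ (List.mem_cons_of_mem _ (List.mem_cons_of_mem _ (List.mem_cons_of_mem _ (List.mem_cons_of_mem _ (List.mem_cons_of_mem _ (List.mem_cons_of_mem _ (List.mem_cons_of_mem _ (List.mem_cons_of_mem _ (List.mem_cons_of_mem _ (List.mem_cons_of_mem _ (List.mem_cons_of_mem _ (List.mem_cons_of_mem _ (List.mem_cons_of_mem _ (List.mem_cons_of_mem _ (List.mem_cons_of_mem _ (List.mem_cons_of_mem _ (List.mem_cons_of_mem _ (List.mem_cons_of_mem _ (List.mem_cons_of_mem _ (List.mem_cons_of_mem _ (List.mem_cons_of_mem _ (List.mem_cons_of_mem _ (List.mem_cons_of_mem _ (List.mem_cons_of_mem _ (List.mem_cons_of_mem _ (List.mem_cons_of_mem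 _ (List.mem_cons_of_mem _ (List.mem_cons_of_mem _ (List.mem_cons_of_mem _ (List.mem_cons_of_mem _ (List.mem_cons_of_mem _ (List.mem_cons_of_mem _ (List.mem_cons_of_mem _ (List.mem_cons_of_mem _ (List.mem_cons_of_mem _ (List.mem_cons_of_mem _ (List.mem_cons_of_mem _ (List.mem_cons_of_mem _ (List.mem_cons_of_mem _ (List.mem_cons_self)))))))))))))))))))))))))))))))))))))))))))))))))))))))))))))))))))))))))))))))))))))))))))))))))))))))))))))))))))))))))))), ?_⟩, by norm_num⟩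
  constructor <;> norm_num [Q124, coCell, P14C4]

lemma lP14C4 : ∀ x1 x2 xc : ℝ, 0 ≤ x1 → x1 ≤ 1 → 0 ≤ x2 → x2 ≤ 1 → P14C4.l ≤ xc → xc ≤ P14C4.u →
    (17187 / 4096 : ℝ) * (1 - (1 - x1) ^ 5) + (46589 / 4096 : ℝ) * (1 - (1 - x2) ^ 5) - (12 : ℝ) * (1 - (1 - xc) ^ 5) + (1 / 1073741824 : ℝ)
      ≤ - P14C4.a1 * x1 - P14C4.a2 * x2 + P14C4.e * xc + P14C4.f := by
  have h := cell_lines_delta 5 (α1 := (17187 / 4096 : ℝ)) (α2 := (46589 / 4096 : ℝ)) (c := (12 : ℝ)) (y1 := (13307 / 131072 : ℝ)) (y2 := (33429 / 262144 : ℝ))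
    (A1 := (57344963 / 4194304 : ℝ)) (B1 := (47134955 / 134217728 : ℝ)) (A2 := (138220435 / 4194304 : ℝ)) (B2 := (190789941 / 134217728 : ℝ)) (l := (37561 / 262144 : ℝ)) (u := (9531 / 65536 : ℝ))
    (E := (-134890557 / 4194304 : ℝ)) (F := (-497616343 / 268435456 : ℝ)) (δ := (1 / 1073741824 : ℝ)) (by norm_num) (by norm_num) (by norm_num) (by norm_num) (by norm_num)
    (by norm_num) (by norm_num) (by norm_num) (by norm_num) (by norm_num) (by norm_num) (by norm_num) (by norm_num) (by norm_num) (by norm_num)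
  have e1 : P14C4.l = (37561 / 262144 : ℝ) := rfl
  have e2 : P14C4.u = (9531 / 65536 : ℝ) := rfl
  have e3 : P14C4.a1 = -(57344963 / 4194304 : ℝ) := by norm_num [P14C4]
  have e4 : P14C4.a2 = -(138220435 / 4194304 : ℝ) := by norm_num [P14C4]
  have e5 : P14C4.e = (-134890557 / 4194304 : ℝ) := rfl
  have e6 : P14C4.f = (47134955 / 134217728 : ℝ) + (190789941 / 134217728 : ℝ) + (-497616343 / 268435456 : ℝ) + (1 / 1073741824 : ℝ) := by norm_num [P14C4]
  rw [e1, e2, e3, e4, e5, e6]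
  exact h

lemma rP14C5 : ∃ N : ℝ, Rw4 P.r2 N (coCell (17187 / 4096 : ℝ) (46589 / 4096 : ℝ) (12 : ℝ) 0 P14C5) := by
  refine ⟨(3221225472 : ℝ), ⟨Q125, List.mem_cons_of_mem _ (List.mem_cons_of_mem _ (List.mem_cons_of_mem _ (List.mem_cons_of_mem _ (List.mem_cons_of_mem _ (List.mem_cons_of_mem _ (List.mem_cons_of_mem _ (List.mem_cons_of_mem _ (List.mem_cons_of_mem _ (List.mem_cons_of_mem _ (List.mem_cons_of_mem _ (List.mem_cons_of_mem _ (List.mem_cons_of_mem _ (List.mem_cons_of_mem _ (List.mem_cons_of_mem _ (List.mem_cons_of_mem _ (List.mem_cons_of_mem _ (List.mem_cons_of_mem _ (List.mem_cons_of_mem _ (List.mem_cons_of_mem _ (List.mem_cons_of_mem _ (List.mem_cons_of_mem _ (List.mem_cons_of_mem _ (List.mem_cons_of_mem _ (List.mem_cons_of_mem _ (List.mem_cons_of_mem _ (List.mem_cons_of_mem _ (List.mem_cons_of_mem _ (List.mem_cons_of_mem _ (List.mem_cons_of_mem _ (List.mem_cons_of_mem _ (List.mem_cons_of_mem _ (List.mem_cons_of_mem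 _ (List.mem_cons_of_mem _ (List.mem_cons_of_mem _ (List.mem_cons_of_mem _ (List.mem_cons_of_mem _ (List.mem_cons_of_mem _ (List.mem_cons_of_mem _ (List.mem_cons_of_mem _ (List.mem_cons_of_mem _ (List.mem_cons_of_mem _ (List.mem_cons_of_mem _ (List.mem_cons_of_mem _ (List.mem_cons_of_mem _ (List.mem_cons_of_mem _ (List.mem_cons_of_mem _ (List.mem_cons_of_mem _ (List.mem_cons_of_mem _ (List.mem_cons_of_mem _ (List.mem_cons_of_mem _ (List.mem_cons_of_mem _ (List.mem_cons_of_mem _ (List.mem_cons_of_mem _ (List.mem_cons_of_mem _ (List.mem_cons_of_mem _ (List.mem_cons_of_mem _ (List.mem_cons_of_mem _ (List.mem_cons_of_mem _ (List.mem_cons_of_mem _ (List.mem_cons_of_mem _ (List.mem_cons_of_mem _ (List.mem_cons_of_mem _ (List.mem_cons_of_mem _ (List.mem_cons_of_mem _ (List.mem_cons_of_mem _ (List.mem_cons_of_mem _ (List.mem_cons_of_mem _ (List.mem_cons_of_mem _ (List.mem_cons_of_mem _ (List.mem_cons_of_mem _ (List.mem_cons_of_mem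 _ (List.mem_cons_of_mem _ (List.mem_cons_of_mem _ (List.mem_cons_of_mem _ (List.mem_cons_of_mem _ (List.mem_cons_of_mem _ (List.mem_cons_of_mem _ (List.mem_cons_of_mem _ (List.mem_cons_of_mem _ (List.mem_cons_of_mem _ (List.mem_cons_of_mem _ (List.mem_cons_of_mem _ (List.mem_cons_of_mem _ (List.mem_cons_of_mem _ (List.mem_cons_of_mem _ (List.mem_cons_of_mem _ (List.mem_cons_of_mem _ (List.mem_cons_of_mem _ (List.mem_cons_of_mem _ (List.mem_cons_of_mem _ (List.mem_cons_of_mem _ (List.mem_cons_of_mem _ (List.mem_cons_of_mem _ (List.mem_cons_of_mem _ (List.mem_cons_of_mem _ (List.mem_cons_of_mem _ (List.mem_cons_of_mem _ (List.mem_cons_of_mem _ (List.mem_cons_of_mem _ (List.mem_cons_of_mem _ (List.mem_cons_of_mem _ (List.mem_cons_of_mem _ (List.mem_cons_of_mem _ (List.mem_cons_of_mem _ (List.mem_cons_of_mem _ (List.mem_cons_of_mem _ (List.mem_cons_of_mem _ (List.mem_cons_of_mem _ (List.mem_cons_of_mem _ (List.mem_cons_of_mem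 _ (List.mem_cons_of_mem _ (List.mem_cons_of_mem _ (List.mem_cons_of_mem _ (List.mem_cons_of_mem _ (List.mem_cons_of_mem _ (List.mem_cons_of_mem _ (List.mem_cons_of_mem _ (List.mem_cons_of_mem _ (List.mem_cons_of_mem _ (List.mem_cons_of_mem _ (List.mem_cons_of_mem _ (List.mem_cons_of_mem _ (List.mem_cons_of_mem _ (List.mem_cons_of_mem _ (List.mem_cons_self))))))))))))))))))))))))))))))))))))))))))))))))))))))))))))))))))))))))))))))))))))))))))))))))))))))))))))))))))))))))))))), ?_⟩, by norm_num⟩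
  constructor <;> norm_num [Q125, coCell, P14C5]

lemma lP14C5 : ∀ x1 x2 xc : ℝ, 0 ≤ x1 → x1 ≤ 1 → 0 ≤ x2 → x2 ≤ 1 → P14C5.l ≤ xc → xc ≤ P14C5.u →
    (17187 / 4096 : ℝ) * (1 - (1 - x1) ^ 5) + (46589 / 4096 : ℝ) * (1 - (1 - x2) ^ 5) - (12 : ℝ) * (1 - (1 - xc) ^ 5) + (1 / 1073741824 : ℝ)
      ≤ - P14C5.a1 * x1 - P14C5.a2 * x2 + P14C5.e * xc + P14C5.f := by
  have h := cell_lines_delta 5 (α1 := (17187 / 4096 : ℝ)) (α2 := (46589 / 4096 : ℝ)) (c := (12 : ℝ)) (y1 := (6771 / 65536 : ℝ)) (y2 := (33931 / 262144 : ℝ))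
    (A1 := (14222151 / 1048576 : ℝ)) (B1 := (97261279 / 268435456 : ℝ)) (A2 := (17126365 / 524288 : ℝ)) (B2 := (195762613 / 134217728 : ℝ)) (l := (9531 / 65536 : ℝ)) (u := (4837 / 32768 : ℝ))
    (E := (-133530611 / 4194304 : ℝ)) (F := (-63784275 / 33554432 : ℝ)) (δ := (1 / 1073741824 : ℝ)) (by norm_num) (by norm_num) (by norm_num) (by norm_num) (by norm_num)
    (by norm_num) (by norm_num) (by norm_num) (by norm_num) (by norm_num) (by norm_num) (by norm_num) (by norm_num) (by norm_num) (by norm_num)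
  have e1 : P14C5.l = (9531 / 65536 : ℝ) := rfl
  have e2 : P14C5.u = (4837 / 32768 : ℝ) := rfl
  have e3 : P14C5.a1 = -(14222151 / 1048576 : ℝ) := by norm_num [P14C5]
  have e4 : P14C5.a2 = -(17126365 / 524288 : ℝ) := by norm_num [P14C5]
  have e5 : P14C5.e = (-133530611 / 4194304 : ℝ) := rfl
  have e6 : P14C5.f = (97261279 / 268435456 : ℝ) + (195762613 / 134217728 : ℝ) + (-63784275 / 33554432 : ℝ) + (1 / 1073741824 : ℝ) := by norm_num [P14C5]
  rw [e1, e2, e3, e4, e5, e6]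
  exact h

lemma rP14C6 : ∃ N : ℝ, Rw4 P.r2 N (coCell (17187 / 4096 : ℝ) (46589 / 4096 : ℝ) (12 : ℝ) 0 P14C6) := by
  refine ⟨(3221225472 : ℝ), ⟨Q126, List.mem_cons_of_mem _ (List.mem_cons_of_mem _ (List.mem_cons_of_mem _ (List.mem_cons_of_mem _ (List.mem_cons_of_mem _ (List.mem_cons_of_mem _ (List.mem_cons_of_mem _ (List.mem_cons_of_mem _ (List.mem_cons_of_mem _ (List.mem_cons_of_mem _ (List.mem_cons_of_mem _ (List.mem_cons_of_mem _ (List.mem_cons_of_mem _ (List.mem_cons_of_mem _ (List.mem_cons_of_mem _ (List.mem_cons_of_mem _ (List.mem_cons_of_mem _ (List.mem_cons_of_mem _ (List.mem_cons_of_mem _ (List.mem_cons_of_mem _ (List.mem_cons_of_mem _ (List.mem_cons_of_mem _ (List.mem_cons_of_mem _ (List.mem_cons_of_mem _ (List.mem_cons_of_mem _ (List.mem_cons_of_mem _ (List.mem_cons_of_mem _ (List.mem_cons_of_mem _ (List.mem_cons_of_mem _ (List.mem_cons_of_mem _ (List.mem_cons_of_mem _ (List.mem_cons_of_mem _ (List.mem_cons_of_mem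 _ (List.mem_cons_of_mem _ (List.mem_cons_of_mem _ (List.mem_cons_of_mem _ (List.mem_cons_of_mem _ (List.mem_cons_of_mem _ (List.mem_cons_of_mem _ (List.mem_cons_of_mem _ (List.mem_cons_of_mem _ (List.mem_cons_of_mem _ (List.mem_cons_of_mem _ (List.mem_cons_of_mem _ (List.mem_cons_of_mem _ (List.mem_cons_of_mem _ (List.mem_cons_of_mem _ (List.mem_cons_of_mem _ (List.mem_cons_of_mem _ (List.mem_cons_of_mem _ (List.mem_cons_of_mem _ (List.mem_cons_of_mem _ (List.mem_cons_of_mem _ (List.mem_cons_of_mem _ (List.mem_cons_of_mem _ (List.mem_cons_of_mem _ (List.mem_cons_of_mem _ (List.mem_cons_of_mem _ (List.mem_cons_of_mem _ (List.mem_cons_of_mem _ (List.mem_cons_of_mem _ (List.mem_cons_of_mem _ (List.mem_cons_of_mem _ (List.mem_cons_of_mem _ (List.mem_cons_of_mem _ (List.mem_cons_of_mem _ (List.mem_cons_of_mem _ (List.mem_cons_of_mem _ (List.mem_cons_of_mem _ (List.mem_cons_of_mem _ (List.mem_cons_of_mem _ (List.mem_cons_of_mem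 _ (List.mem_cons_of_mem _ (List.mem_cons_of_mem _ (List.mem_cons_of_mem _ (List.mem_cons_of_mem _ (List.mem_cons_of_mem _ (List.mem_cons_of_mem _ (List.mem_cons_of_mem _ (List.mem_cons_of_mem _ (List.mem_cons_of_mem _ (List.mem_cons_of_mem _ (List.mem_cons_of_mem _ (List.mem_cons_of_mem _ (List.mem_cons_of_mem _ (List.mem_cons_of_mem _ (List.mem_cons_of_mem _ (List.mem_cons_of_mem _ (List.mem_cons_of_mem _ (List.mem_cons_of_mem _ (List.mem_cons_of_mem _ (List.mem_cons_of_mem _ (List.mem_cons_of_mem _ (List.mem_cons_of_mem _ (List.mem_cons_of_mem _ (List.mem_cons_of_mem _ (List.mem_cons_of_mem _ (List.mem_cons_of_mem _ (List.mem_cons_of_mem _ (List.mem_cons_of_mem _ (List.mem_cons_of_mem _ (List.mem_cons_of_mem _ (List.mem_cons_of_mem _ (List.mem_cons_of_mem _ (List.mem_cons_of_mem _ (List.mem_cons_of_mem _ (List.mem_cons_of_mem _ (List.mem_cons_of_mem _ (List.mem_cons_of_mem _ (List.mem_cons_of_mem _ (List.mem_cons_of_mem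 _ (List.mem_cons_of_mem _ (List.mem_cons_of_mem _ (List.mem_cons_of_mem _ (List.mem_cons_of_mem _ (List.mem_cons_of_mem _ (List.mem_cons_of_mem _ (List.mem_cons_of_mem _ (List.mem_cons_of_mem _ (List.mem_cons_of_mem _ (List.mem_cons_of_mem _ (List.mem_cons_of_mem _ (List.mem_cons_of_mem _ (List.mem_cons_of_mem _ (List.mem_cons_of_mem _ (List.mem_cons_of_mem _ (List.mem_cons_self)))))))))))))))))))))))))))))))))))))))))))))))))))))))))))))))))))))))))))))))))))))))))))))))))))))))))))))))))))))))))))))), ?_⟩, by norm_num⟩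
  constructor <;> norm_num [Q126, coCell, P14C6]

lemma lP14C6 : ∀ x1 x2 xc : ℝ, 0 ≤ x1 → x1 ≤ 1 → 0 ≤ x2 → x2 ≤ 1 → P14C6.l ≤ xc → xc ≤ P14C6.u →
    (17187 / 4096 : ℝ) * (1 - (1 - x1) ^ 5) + (46589 / 4096 : ℝ) * (1 - (1 - x2) ^ 5) - (12 : ℝ) * (1 - (1 - xc) ^ 5) + (1 / 1073741824 : ℝ)
      ≤ - P14C6.a1 * x1 - P14C6.a2 * x2 + P14C6.e * xc + P14C6.f := by
  have h := cell_lines_delta 5 (α1 := (17187 / 4096 : ℝ)) (α2 := (46589 / 4096 : ℝ)) (c := (12 : ℝ)) (y1 := (13819 / 131072 : ℝ)) (y2 := (4305 / 32768 : ℝ))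
    (A1 := (56354187 / 4194304 : ℝ)) (B1 := (100831103 / 268435456 : ℝ)) (A2 := (67896331 / 2097152 : ℝ)) (B2 := (401692809 / 268435456 : ℝ)) (l := (4837 / 32768 : ℝ)) (u := (19661 / 131072 : ℝ))
    (E := (-132106433 / 4194304 : ℝ)) (F := (-130932197 / 67108864 : ℝ)) (δ := (1 / 1073741824 : ℝ)) (by norm_num) (by norm_num) (by norm_num) (by norm_num) (by norm_num)
    (by norm_num) (by norm_num) (by norm_num) (by norm_num) (by norm_num) (by norm_num) (by norm_num) (by norm_num) (by norm_num) (by norm_num)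
  have e1 : P14C6.l = (4837 / 32768 : ℝ) := rfl
  have e2 : P14C6.u = (19661 / 131072 : ℝ) := rfl
  have e3 : P14C6.a1 = -(56354187 / 4194304 : ℝ) := by norm_num [P14C6]
  have e4 : P14C6.a2 = -(67896331 / 2097152 : ℝ) := by norm_num [P14C6]
  have e5 : P14C6.e = (-132106433 / 4194304 : ℝ) := rfl
  have e6 : P14C6.f = (100831103 / 268435456 : ℝ) + (401692809 / 268435456 : ℝ) + (-130932197 / 67108864 : ℝ) + (1 / 1073741824 : ℝ) := by norm_num [P14C6]
  rw [e1, e2, e3, e4, e5, e6]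
  exact h

/-- A link of the chain. -/
lemma link14 {lam : ℝ} (h0 : -(1 / 2) < lam) (h1 : lam < 1) (hB : BoxS lam P 0 HH 0 HH)
    (h : ∃ n, 1 - En 5 lam n mc ≤ (19661 / 131072 : ℝ)) : ∃ n, 1 - En 5 lam n mc ≤ (35389 / 262144 : ℝ) :=
  phase_of_box (by norm_num) h0 h1 hB (17187 / 4096 : ℝ) (46589 / 4096 : ℝ) (12 : ℝ) (1 / 1073741824 : ℝ) (35389 / 262144 : ℝ) (19661 / 131072 : ℝ) (by norm_num) cellsP14 hcoverP14
    (forall_cons lP14C0 (forall_cons lP14C1 (forall_cons lP14C2 (forall_cons lP14C3 (forall_cons lP14C4 (forall_cons lP14C5 (forall_cons lP14C6 (forall_nil)))))))) (forall_cons rP14C0 (forall_cons rP14C1 (forall_cons rP14C2 (forall_cons rP14C3 (forall_cons rP14C4 (forall_cons rP14C5 (forall_cons rP14C6 (forall_nil)))))))) h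

/-- A chord cell of a link. -/
noncomputable def P15C0 : Cell := ⟨(19661 / 131072 : ℝ), (40501 / 262144 : ℝ), (-64205297 / 4194304 : ℝ), (-32520277 / 1048576 : ℝ), (-4061981 / 131072 : ℝ), (-137774283 / 1073741824 : ℝ)⟩

/-- A chord cell of a link. -/
noncomputable def P15C1 : Cell := ⟨(40501 / 262144 : ℝ), (10429 / 65536 : ℝ), (-63097853 / 4194304 : ℝ), (-127692515 / 4194304 : ℝ), (-15900697 / 524288 : ℝ), (-134889231 / 1073741824 : ℝ)⟩

/-- A chord cell of a link. -/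
noncomputable def P15C2 : Cell := ⟨(10429 / 65536 : ℝ), (5371 / 32768 : ℝ), (-61998411 / 4194304 : ℝ), (-31316981 / 1048576 : ℝ), (-124389887 / 4194304 : ℝ), (-132189531 / 1073741824 : ℝ)⟩

/-- A chord cell of a link. -/
noncomputable def P15C3 : Cell := ⟨(5371 / 32768 : ℝ), (44257 / 262144 : ℝ), (-60906045 / 4194304 : ℝ), (-122805611 / 4194304 : ℝ), (-60769437 / 2097152 : ℝ), (-129527851 / 1073741824 : ℝ)⟩

/-- A chord cell of a link. -/
noncomputable def P15C4 : Cell := ⟨(44257 / 262144 : ℝ), (45585 / 262144 : ℝ), (-59819887 / 4194304 : ℝ), (-120306309 / 4194304 : ℝ), (-118654117 / 4194304 : ℝ), (-126872055 / 1073741824 : ℝ)⟩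

/-- A chord cell of a link. -/
noncomputable def P15C5 : Cell := ⟨(45585 / 262144 : ℝ), (5869 / 32768 : ℝ), (-58739121 / 4194304 : ℝ), (-117775173 / 4194304 : ℝ), (-14467171 / 524288 : ℝ), (-124355323 / 1073741824 : ℝ)⟩

/-- A chord cell of a link. -/
noncomputable def P15C6 : Cell := ⟨(5869 / 32768 : ℝ), (48361 / 262144 : ℝ), (-7208125 / 524288 : ℝ), (-57604441 / 2097152 : ℝ), (-56394765 / 2097152 : ℝ), (-121881307 / 1073741824 : ℝ)⟩

/-- A chord cell of a link. -/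
noncomputable def P15C7 : Cell := ⟨(48361 / 262144 : ℝ), (49811 / 262144 : ℝ), (-28443795 / 2097152 : ℝ), (-28095677 / 1048576 : ℝ), (-54906393 / 2097152 : ℝ), (-119635767 / 1073741824 : ℝ)⟩

/-- A chord cell of a link. -/
noncomputable def P15C8 : Cell := ⟨(49811 / 262144 : ℝ), (25653 / 131072 : ℝ), (-28305325 / 2097152 : ℝ), (-27712257 / 1048576 : ℝ), (-106808525 / 4194304 : ℝ), (-191312783 / 1073741824 : ℝ)⟩

/-- A chord cell of a link. -/
noncomputable def P15C9 : Cell := ⟨(25653 / 131072 : ℝ), (52429 / 262144 : ℝ), (-28260605 / 2097152 : ℝ), (-107844737 / 4194304 : ℝ), (-26047175 / 1048576 : ℝ), (-188577967 / 1073741824 : ℝ)⟩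

/-- The chord cells of a link. -/
noncomputable def cellsP15 : List Cell := [P15C0, P15C1, P15C2, P15C3, P15C4, P15C5, P15C6, P15C7, P15C8, P15C9]

lemma hcoverP15 : ∀ x : ℝ, (19661 / 131072 : ℝ) ≤ x → x ≤ (52429 / 262144 : ℝ) → ∃ D ∈ cellsP15, D.l ≤ x ∧ x ≤ D.u := by
  refine cover_of_chain ?_ (by norm_num [P15C0])
  simp only [ChainP, P15C0, P15C1, P15C2, P15C3, P15C4, P15C5, P15C6, P15C7, P15C8, P15C9]
  norm_num

lemma rP15C0 : ∃ N : ℝ, Rw4 P.r2 N (coCell (19415 / 4096 : ℝ) (11267 / 1024 : ℝ) (12 : ℝ) 0 P15C0) := by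
  refine ⟨(3221225472 : ℝ), ⟨Q127, List.mem_cons_of_mem _ (List.mem_cons_of_mem _ (List.mem_cons_of_mem _ (List.mem_cons_of_mem _ (List.mem_cons_of_mem _ (List.mem_cons_of_mem _ (List.mem_cons_of_mem _ (List.mem_cons_of_mem _ (List.mem_cons_of_mem _ (List.mem_cons_of_mem _ (List.mem_cons_of_mem _ (List.mem_cons_of_mem _ (List.mem_cons_of_mem _ (List.mem_cons_of_mem _ (List.mem_cons_of_mem _ (List.mem_cons_of_mem _ (List.mem_cons_of_mem _ (List.mem_cons_of_mem _ (List.mem_cons_of_mem _ (List.mem_cons_of_mem _ (List.mem_cons_of_mem _ (List.mem_cons_of_mem _ (List.mem_cons_of_mem _ (List.mem_cons_of_mem _ (List.mem_cons_of_mem _ (List.mem_cons_of_mem _ (List.mem_cons_of_mem _ (List.mem_cons_of_mem _ (List.mem_cons_of_mem _ (List.mem_cons_of_mem _ (List.mem_cons_of_mem _ (List.mem_cons_of_mem _ (List.mem_cons_of_mem _ (List.mem_cons_of_mem _ (List.mem_cons_of_mem _ (List.mem_cons_of_mem _ (List.mem_cons_of_mem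 _ (List.mem_cons_of_mem _ (List.mem_cons_of_mem _ (List.mem_cons_of_mem _ (List.mem_cons_of_mem _ (List.mem_cons_of_mem _ (List.mem_cons_of_mem _ (List.mem_cons_of_mem _ (List.mem_cons_of_mem _ (List.mem_cons_of_mem _ (List.mem_cons_of_mem _ (List.mem_cons_of_mem _ (List.mem_cons_of_mem _ (List.mem_cons_of_mem _ (List.mem_cons_of_mem _ (List.mem_cons_of_mem _ (List.mem_cons_of_mem _ (List.mem_cons_of_mem _ (List.mem_cons_of_mem _ (List.mem_cons_of_mem _ (List.mem_cons_of_mem _ (List.mem_cons_of_mem _ (List.mem_cons_of_mem _ (List.mem_cons_of_mem _ (List.mem_cons_of_mem _ (List.mem_cons_of_mem _ (List.mem_cons_of_mem _ (List.mem_cons_of_mem _ (List.mem_cons_of_mem _ (List.mem_cons_of_mem _ (List.mem_cons_of_mem _ (List.mem_cons_of_mem _ (List.mem_cons_of_mem _ (List.mem_cons_of_mem _ (List.mem_cons_of_mem _ (List.mem_cons_of_mem _ (List.mem_cons_of_mem _ (List.mem_cons_of_mem _ (List.mem_cons_of_mem _ (List.mem_cons_of_mem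 _ (List.mem_cons_of_mem _ (List.mem_cons_of_mem _ (List.mem_cons_of_mem _ (List.mem_cons_of_mem _ (List.mem_cons_of_mem _ (List.mem_cons_of_mem _ (List.mem_cons_of_mem _ (List.mem_cons_of_mem _ (List.mem_cons_of_mem _ (List.mem_cons_of_mem _ (List.mem_cons_of_mem _ (List.mem_cons_of_mem _ (List.mem_cons_of_mem _ (List.mem_cons_of_mem _ (List.mem_cons_of_mem _ (List.mem_cons_of_mem _ (List.mem_cons_of_mem _ (List.mem_cons_of_mem _ (List.mem_cons_of_mem _ (List.mem_cons_of_mem _ (List.mem_cons_of_mem _ (List.mem_cons_of_mem _ (List.mem_cons_of_mem _ (List.mem_cons_of_mem _ (List.mem_cons_of_mem _ (List.mem_cons_of_mem _ (List.mem_cons_of_mem _ (List.mem_cons_of_mem _ (List.mem_cons_of_mem _ (List.mem_cons_of_mem _ (List.mem_cons_of_mem _ (List.mem_cons_of_mem _ (List.mem_cons_of_mem _ (List.mem_cons_of_mem _ (List.mem_cons_of_mem _ (List.mem_cons_of_mem _ (List.mem_cons_of_mem _ (List.mem_cons_of_mem _ (List.mem_cons_of_mem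 _ (List.mem_cons_of_mem _ (List.mem_cons_of_mem _ (List.mem_cons_of_mem _ (List.mem_cons_of_mem _ (List.mem_cons_of_mem _ (List.mem_cons_of_mem _ (List.mem_cons_of_mem _ (List.mem_cons_of_mem _ (List.mem_cons_of_mem _ (List.mem_cons_of_mem _ (List.mem_cons_of_mem _ (List.mem_cons_of_mem _ (List.mem_cons_self))))))))))))))))))))))))))))))))))))))))))))))))))))))))))))))))))))))))))))))))))))))))))))))))))))))))))))))))))))))))))))))), ?_⟩, by norm_num⟩
  constructor <;> norm_num [Q127, coCell, P15C0]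

lemma lP15C0 : ∀ x1 x2 xc : ℝ, 0 ≤ x1 → x1 ≤ 1 → 0 ≤ x2 → x2 ≤ 1 → P15C0.l ≤ xc → xc ≤ P15C0.u →
    (19415 / 4096 : ℝ) * (1 - (1 - x1) ^ 5) + (11267 / 1024 : ℝ) * (1 - (1 - x2) ^ 5) - (12 : ℝ) * (1 - (1 - xc) ^ 5) + (1 / 1073741824 : ℝ)
      ≤ - P15C0.a1 * x1 - P15C0.a2 * x2 + P15C0.e * xc + P15C0.f := by
  have h := cell_lines_delta 5 (α1 := (19415 / 4096 : ℝ)) (α2 := (11267 / 1024 : ℝ)) (c := (12 : ℝ)) (y1 := (27137 / 262144 : ℝ)) (y2 := (8749 / 65536 : ℝ))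
    (A1 := (64205297 / 4194304 : ℝ)) (B1 := (27563261 / 67108864 : ℝ)) (A2 := (32520277 / 1048576 : ℝ)) (B2 := (199706787 / 134217728 : ℝ)) (l := (19661 / 131072 : ℝ)) (u := (40501 / 262144 : ℝ))
    (E := (-4061981 / 131072 : ℝ)) (F := (-544110189 / 268435456 : ℝ)) (δ := (1 / 1073741824 : ℝ)) (by norm_num) (by norm_num) (by norm_num) (by norm_num) (by norm_num)
    (by norm_num) (by norm_num) (by norm_num) (by norm_num) (by norm_num) (by norm_num) (by norm_num) (by norm_num) (by norm_num) (by norm_num)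
  have e1 : P15C0.l = (19661 / 131072 : ℝ) := rfl
  have e2 : P15C0.u = (40501 / 262144 : ℝ) := rfl
  have e3 : P15C0.a1 = -(64205297 / 4194304 : ℝ) := by norm_num [P15C0]
  have e4 : P15C0.a2 = -(32520277 / 1048576 : ℝ) := by norm_num [P15C0]
  have e5 : P15C0.e = (-4061981 / 131072 : ℝ) := rfl
  have e6 : P15C0.f = (27563261 / 67108864 : ℝ) + (199706787 / 134217728 : ℝ) + (-544110189 / 268435456 : ℝ) + (1 / 1073741824 : ℝ) := by norm_num [P15C0]
  rw [e1, e2, e3, e4, e5, e6]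
  exact h

lemma rP15C1 : ∃ N : ℝ, Rw4 P.r2 N (coCell (19415 / 4096 : ℝ) (11267 / 1024 : ℝ) (12 : ℝ) 0 P15C1) := by
  refine ⟨(3221225472 : ℝ), ⟨Q128, List.mem_cons_of_mem _ (List.mem_cons_of_mem _ (List.mem_cons_of_mem _ (List.mem_cons_of_mem _ (List.mem_cons_of_mem _ (List.mem_cons_of_mem _ (List.mem_cons_of_mem _ (List.mem_cons_of_mem _ (List.mem_cons_of_mem _ (List.mem_cons_of_mem _ (List.mem_cons_of_mem _ (List.mem_cons_of_mem _ (List.mem_cons_of_mem _ (List.mem_cons_of_mem _ (List.mem_cons_of_mem _ (List.mem_cons_of_mem _ (List.mem_cons_of_mem _ (List.mem_cons_of_mem _ (List.mem_cons_of_mem _ (List.mem_cons_of_mem _ (List.mem_cons_of_mem _ (List.mem_cons_of_mem _ (List.mem_cons_of_mem _ (List.mem_cons_of_mem _ (List.mem_cons_of_mem _ (List.mem_cons_of_mem _ (List.mem_cons_of_mem _ (List.mem_cons_of_mem _ (List.mem_cons_of_mem _ (List.mem_cons_of_mem _ (List.mem_cons_of_mem _ (List.mem_cons_of_mem _ (List.mem_cons_of_mem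 _ (List.mem_cons_of_mem _ (List.mem_cons_of_mem _ (List.mem_cons_of_mem _ (List.mem_cons_of_mem _ (List.mem_cons_of_mem _ (List.mem_cons_of_mem _ (List.mem_cons_of_mem _ (List.mem_cons_of_mem _ (List.mem_cons_of_mem _ (List.mem_cons_of_mem _ (List.mem_cons_of_mem _ (List.mem_cons_of_mem _ (List.mem_cons_of_mem _ (List.mem_cons_of_mem _ (List.mem_cons_of_mem _ (List.mem_cons_of_mem _ (List.mem_cons_of_mem _ (List.mem_cons_of_mem _ (List.mem_cons_of_mem _ (List.mem_cons_of_mem _ (List.mem_cons_of_mem _ (List.mem_cons_of_mem _ (List.mem_cons_of_mem _ (List.mem_cons_of_mem _ (List.mem_cons_of_mem _ (List.mem_cons_of_mem _ (List.mem_cons_of_mem _ (List.mem_cons_of_mem _ (List.mem_cons_of_mem _ (List.mem_cons_of_mem _ (List.mem_cons_of_mem _ (List.mem_cons_of_mem _ (List.mem_cons_of_mem _ (List.mem_cons_of_mem _ (List.mem_cons_of_mem _ (List.mem_cons_of_mem _ (List.mem_cons_of_mem _ (List.mem_cons_of_mem _ (List.mem_cons_of_mem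 _ (List.mem_cons_of_mem _ (List.mem_cons_of_mem _ (List.mem_cons_of_mem _ (List.mem_cons_of_mem _ (List.mem_cons_of_mem _ (List.mem_cons_of_mem _ (List.mem_cons_of_mem _ (List.mem_cons_of_mem _ (List.mem_cons_of_mem _ (List.mem_cons_of_mem _ (List.mem_cons_of_mem _ (List.mem_cons_of_mem _ (List.mem_cons_of_mem _ (List.mem_cons_of_mem _ (List.mem_cons_of_mem _ (List.mem_cons_of_mem _ (List.mem_cons_of_mem _ (List.mem_cons_of_mem _ (List.mem_cons_of_mem _ (List.mem_cons_of_mem _ (List.mem_cons_of_mem _ (List.mem_cons_of_mem _ (List.mem_cons_of_mem _ (List.mem_cons_of_mem _ (List.mem_cons_of_mem _ (List.mem_cons_of_mem _ (List.mem_cons_of_mem _ (List.mem_cons_of_mem _ (List.mem_cons_of_mem _ (List.mem_cons_of_mem _ (List.mem_cons_of_mem _ (List.mem_cons_of_mem _ (List.mem_cons_of_mem _ (List.mem_cons_of_mem _ (List.mem_cons_of_mem _ (List.mem_cons_of_mem _ (List.mem_cons_of_mem _ (List.mem_cons_of_mem _ (List.mem_cons_of_mem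 _ (List.mem_cons_of_mem _ (List.mem_cons_of_mem _ (List.mem_cons_of_mem _ (List.mem_cons_of_mem _ (List.mem_cons_of_mem _ (List.mem_cons_of_mem _ (List.mem_cons_of_mem _ (List.mem_cons_of_mem _ (List.mem_cons_of_mem _ (List.mem_cons_of_mem _ (List.mem_cons_of_mem _ (List.mem_cons_of_mem _ (List.mem_cons_of_mem _ (List.mem_cons_of_mem _ (List.mem_cons_of_mem _ (List.mem_cons_of_mem _ (List.mem_cons_of_mem _ (List.mem_cons_self)))))))))))))))))))))))))))))))))))))))))))))))))))))))))))))))))))))))))))))))))))))))))))))))))))))))))))))))))))))))))))))))), ?_⟩, by norm_num⟩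
  constructor <;> norm_num [Q128, coCell, P15C1]

lemma lP15C1 : ∀ x1 x2 xc : ℝ, 0 ≤ x1 → x1 ≤ 1 → 0 ≤ x2 → x2 ≤ 1 → P15C1.l ≤ xc → xc ≤ P15C1.u →
    (19415 / 4096 : ℝ) * (1 - (1 - x1) ^ 5) + (11267 / 1024 : ℝ) * (1 - (1 - x2) ^ 5) - (12 : ℝ) * (1 - (1 - xc) ^ 5) + (1 / 1073741824 : ℝ)
      ≤ - P15C1.a1 * x1 - P15C1.a2 * x2 + P15C1.e * xc + P15C1.f := by
  have h := cell_lines_delta 5 (α1 := (19415 / 4096 : ℝ)) (α2 := (11267 / 1024 : ℝ)) (c := (12 : ℝ)) (y1 := (28157 / 262144 : ℝ)) (y2 := (18023 / 131072 : ℝ))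
    (A1 := (63097853 / 4194304 : ℝ)) (B1 := (117727723 / 268435456 : ℝ)) (A2 := (127692515 / 4194304 : ℝ)) (B2 := (210063517 / 134217728 : ℝ)) (l := (40501 / 262144 : ℝ)) (u := (10429 / 65536 : ℝ))
    (E := (-15900697 / 524288 : ℝ)) (F := (-571577065 / 268435456 : ℝ)) (δ := (1 / 1073741824 : ℝ)) (by norm_num) (by norm_num) (by norm_num) (by norm_num) (by norm_num)
    (by norm_num) (by norm_num) (by norm_num) (by norm_num) (by norm_num) (by norm_num) (by norm_num) (by norm_num) (by norm_num) (by norm_num)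
  have e1 : P15C1.l = (40501 / 262144 : ℝ) := rfl
  have e2 : P15C1.u = (10429 / 65536 : ℝ) := rfl
  have e3 : P15C1.a1 = -(63097853 / 4194304 : ℝ) := by norm_num [P15C1]
  have e4 : P15C1.a2 = -(127692515 / 4194304 : ℝ) := by norm_num [P15C1]
  have e5 : P15C1.e = (-15900697 / 524288 : ℝ) := rfl
  have e6 : P15C1.f = (117727723 / 268435456 : ℝ) + (210063517 / 134217728 : ℝ) + (-571577065 / 268435456 : ℝ) + (1 / 1073741824 : ℝ) := by norm_num [P15C1]
  rw [e1, e2, e3, e4, e5, e6]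
  exact h

lemma rP15C2 : ∃ N : ℝ, Rw4 P.r2 N (coCell (19415 / 4096 : ℝ) (11267 / 1024 : ℝ) (12 : ℝ) 0 P15C2) := by
  refine ⟨(3221225472 : ℝ), ⟨Q129, List.mem_cons_of_mem _ (List.mem_cons_of_mem _ (List.mem_cons_of_mem _ (List.mem_cons_of_mem _ (List.mem_cons_of_mem _ (List.mem_cons_of_mem _ (List.mem_cons_of_mem _ (List.mem_cons_of_mem _ (List.mem_cons_of_mem _ (List.mem_cons_of_mem _ (List.mem_cons_of_mem _ (List.mem_cons_of_mem _ (List.mem_cons_of_mem _ (List.mem_cons_of_mem _ (List.mem_cons_of_mem _ (List.mem_cons_of_mem _ (List.mem_cons_of_mem _ (List.mem_cons_of_mem _ (List.mem_cons_of_mem _ (List.mem_cons_of_mem _ (List.mem_cons_of_mem _ (List.mem_cons_of_mem _ (List.mem_cons_of_mem _ (List.mem_cons_of_mem _ (List.mem_cons_of_mem _ (List.mem_cons_of_mem _ (List.mem_cons_of_mem _ (List.mem_cons_of_mem _ (List.mem_cons_of_mem _ (List.mem_cons_of_mem _ (List.mem_cons_of_mem _ (List.mem_cons_of_mem _ (List.mem_cons_of_mem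 _ (List.mem_cons_of_mem _ (List.mem_cons_of_mem _ (List.mem_cons_of_mem _ (List.mem_cons_of_mem _ (List.mem_cons_of_mem _ (List.mem_cons_of_mem _ (List.mem_cons_of_mem _ (List.mem_cons_of_mem _ (List.mem_cons_of_mem _ (List.mem_cons_of_mem _ (List.mem_cons_of_mem _ (List.mem_cons_of_mem _ (List.mem_cons_of_mem _ (List.mem_cons_of_mem _ (List.mem_cons_of_mem _ (List.mem_cons_of_mem _ (List.mem_cons_of_mem _ (List.mem_cons_of_mem _ (List.mem_cons_of_mem _ (List.mem_cons_of_mem _ (List.mem_cons_of_mem _ (List.mem_cons_of_mem _ (List.mem_cons_of_mem _ (List.mem_cons_of_mem _ (List.mem_cons_of_mem _ (List.mem_cons_of_mem _ (List.mem_cons_of_mem _ (List.mem_cons_of_mem _ (List.mem_cons_of_mem _ (List.mem_cons_of_mem _ (List.mem_cons_of_mem _ (List.mem_cons_of_mem _ (List.mem_cons_of_mem _ (List.mem_cons_of_mem _ (List.mem_cons_of_mem _ (List.mem_cons_of_mem _ (List.mem_cons_of_mem _ (List.mem_cons_of_mem _ (List.mem_cons_of_mem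 _ (List.mem_cons_of_mem _ (List.mem_cons_of_mem _ (List.mem_cons_of_mem _ (List.mem_cons_of_mem _ (List.mem_cons_of_mem _ (List.mem_cons_of_mem _ (List.mem_cons_of_mem _ (List.mem_cons_of_mem _ (List.mem_cons_of_mem _ (List.mem_cons_of_mem _ (List.mem_cons_of_mem _ (List.mem_cons_of_mem _ (List.mem_cons_of_mem _ (List.mem_cons_of_mem _ (List.mem_cons_of_mem _ (List.mem_cons_of_mem _ (List.mem_cons_of_mem _ (List.mem_cons_of_mem _ (List.mem_cons_of_mem _ (List.mem_cons_of_mem _ (List.mem_cons_of_mem _ (List.mem_cons_of_mem _ (List.mem_cons_of_mem _ (List.mem_cons_of_mem _ (List.mem_cons_of_mem _ (List.mem_cons_of_mem _ (List.mem_cons_of_mem _ (List.mem_cons_of_mem _ (List.mem_cons_of_mem _ (List.mem_cons_of_mem _ (List.mem_cons_of_mem _ (List.mem_cons_of_mem _ (List.mem_cons_of_mem _ (List.mem_cons_of_mem _ (List.mem_cons_of_mem _ (List.mem_cons_of_mem _ (List.mem_cons_of_mem _ (List.mem_cons_of_mem _ (List.mem_cons_of_mem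 _ (List.mem_cons_of_mem _ (List.mem_cons_of_mem _ (List.mem_cons_of_mem _ (List.mem_cons_of_mem _ (List.mem_cons_of_mem _ (List.mem_cons_of_mem _ (List.mem_cons_of_mem _ (List.mem_cons_of_mem _ (List.mem_cons_of_mem _ (List.mem_cons_of_mem _ (List.mem_cons_of_mem _ (List.mem_cons_of_mem _ (List.mem_cons_of_mem _ (List.mem_cons_of_mem _ (List.mem_cons_of_mem _ (List.mem_cons_of_mem _ (List.mem_cons_of_mem _ (List.mem_cons_of_mem _ (List.mem_cons_self))))))))))))))))))))))))))))))))))))))))))))))))))))))))))))))))))))))))))))))))))))))))))))))))))))))))))))))))))))))))))))))))), ?_⟩, by norm_num⟩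
  constructor <;> norm_num [Q129, coCell, P15C2]

lemma lP15C2 : ∀ x1 x2 xc : ℝ, 0 ≤ x1 → x1 ≤ 1 → 0 ≤ x2 → x2 ≤ 1 → P15C2.l ≤ xc → xc ≤ P15C2.u →
    (19415 / 4096 : ℝ) * (1 - (1 - x1) ^ 5) + (11267 / 1024 : ℝ) * (1 - (1 - x2) ^ 5) - (12 : ℝ) * (1 - (1 - xc) ^ 5) + (1 / 1073741824 : ℝ)
      ≤ - P15C2.a1 * x1 - P15C2.a2 * x2 + P15C2.e * xc + P15C2.f := by
  have h := cell_lines_delta 5 (α1 := (19415 / 4096 : ℝ)) (α2 := (11267 / 1024 : ℝ)) (c := (12 : ℝ)) (y1 := (29183 / 262144 : ℝ)) (y2 := (37127 / 262144 : ℝ))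
    (A1 := (61998411 / 4194304 : ℝ)) (B1 := (125422955 / 268435456 : ℝ)) (A2 := (31316981 / 1048576 : ℝ)) (B2 := (220891655 / 134217728 : ℝ)) (l := (10429 / 65536 : ℝ)) (u := (5371 / 32768 : ℝ))
    (E := (-124389887 / 4194304 : ℝ)) (F := (-37515853 / 16777216 : ℝ)) (δ := (1 / 1073741824 : ℝ)) (by norm_num) (by norm_num) (by norm_num) (by norm_num) (by norm_num)
    (by norm_num) (by norm_num) (by norm_num) (by norm_num) (by norm_num) (by norm_num) (by norm_num) (by norm_num) (by norm_num) (by norm_num)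
  have e1 : P15C2.l = (10429 / 65536 : ℝ) := rfl
  have e2 : P15C2.u = (5371 / 32768 : ℝ) := rfl
  have e3 : P15C2.a1 = -(61998411 / 4194304 : ℝ) := by norm_num [P15C2]
  have e4 : P15C2.a2 = -(31316981 / 1048576 : ℝ) := by norm_num [P15C2]
  have e5 : P15C2.e = (-124389887 / 4194304 : ℝ) := rfl
  have e6 : P15C2.f = (125422955 / 268435456 : ℝ) + (220891655 / 134217728 : ℝ) + (-37515853 / 16777216 : ℝ) + (1 / 1073741824 : ℝ) := by norm_num [P15C2]
  rw [e1, e2, e3, e4, e5, e6]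
  exact h

lemma rP15C3 : ∃ N : ℝ, Rw4 P.r2 N (coCell (19415 / 4096 : ℝ) (11267 / 1024 : ℝ) (12 : ℝ) 0 P15C3) := by
  refine ⟨(3221225472 : ℝ), ⟨Q130, List.mem_cons_of_mem _ (List.mem_cons_of_mem _ (List.mem_cons_of_mem _ (List.mem_cons_of_mem _ (List.mem_cons_of_mem _ (List.mem_cons_of_mem _ (List.mem_cons_of_mem _ (List.mem_cons_of_mem _ (List.mem_cons_of_mem _ (List.mem_cons_of_mem _ (List.mem_cons_of_mem _ (List.mem_cons_of_mem _ (List.mem_cons_of_mem _ (List.mem_cons_of_mem _ (List.mem_cons_of_mem _ (List.mem_cons_of_mem _ (List.mem_cons_of_mem _ (List.mem_cons_of_mem _ (List.mem_cons_of_mem _ (List.mem_cons_of_mem _ (List.mem_cons_of_mem _ (List.mem_cons_of_mem _ (List.mem_cons_of_mem _ (List.mem_cons_of_mem _ (List.mem_cons_of_mem _ (List.mem_cons_of_mem _ (List.mem_cons_of_mem _ (List.mem_cons_of_mem _ (List.mem_cons_of_mem _ (List.mem_cons_of_mem _ (List.mem_cons_of_mem _ (List.mem_cons_of_mem _ (List.mem_cons_of_mem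 _ (List.mem_cons_of_mem _ (List.mem_cons_of_mem _ (List.mem_cons_of_mem _ (List.mem_cons_of_mem _ (List.mem_cons_of_mem _ (List.mem_cons_of_mem _ (List.mem_cons_of_mem _ (List.mem_cons_of_mem _ (List.mem_cons_of_mem _ (List.mem_cons_of_mem _ (List.mem_cons_of_mem _ (List.mem_cons_of_mem _ (List.mem_cons_of_mem _ (List.mem_cons_of_mem _ (List.mem_cons_of_mem _ (List.mem_cons_of_mem _ (List.mem_cons_of_mem _ (List.mem_cons_of_mem _ (List.mem_cons_of_mem _ (List.mem_cons_of_mem _ (List.mem_cons_of_mem _ (List.mem_cons_of_mem _ (List.mem_cons_of_mem _ (List.mem_cons_of_mem _ (List.mem_cons_of_mem _ (List.mem_cons_of_mem _ (List.mem_cons_of_mem _ (List.mem_cons_of_mem _ (List.mem_cons_of_mem _ (List.mem_cons_of_mem _ (List.mem_cons_of_mem _ (List.mem_cons_of_mem _ (List.mem_cons_of_mem _ (List.mem_cons_of_mem _ (List.mem_cons_of_mem _ (List.mem_cons_of_mem _ (List.mem_cons_of_mem _ (List.mem_cons_of_mem _ (List.mem_cons_of_mem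 _ (List.mem_cons_of_mem _ (List.mem_cons_of_mem _ (List.mem_cons_of_mem _ (List.mem_cons_of_mem _ (List.mem_cons_of_mem _ (List.mem_cons_of_mem _ (List.mem_cons_of_mem _ (List.mem_cons_of_mem _ (List.mem_cons_of_mem _ (List.mem_cons_of_mem _ (List.mem_cons_of_mem _ (List.mem_cons_of_mem _ (List.mem_cons_of_mem _ (List.mem_cons_of_mem _ (List.mem_cons_of_mem _ (List.mem_cons_of_mem _ (List.mem_cons_of_mem _ (List.mem_cons_of_mem _ (List.mem_cons_of_mem _ (List.mem_cons_of_mem _ (List.mem_cons_of_mem _ (List.mem_cons_of_mem _ (List.mem_cons_of_mem _ (List.mem_cons_of_mem _ (List.mem_cons_of_mem _ (List.mem_cons_of_mem _ (List.mem_cons_of_mem _ (List.mem_cons_of_mem _ (List.mem_cons_of_mem _ (List.mem_cons_of_mem _ (List.mem_cons_of_mem _ (List.mem_cons_of_mem _ (List.mem_cons_of_mem _ (List.mem_cons_of_mem _ (List.mem_cons_of_mem _ (List.mem_cons_of_mem _ (List.mem_cons_of_mem _ (List.mem_cons_of_mem _ (List.mem_cons_of_mem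 _ (List.mem_cons_of_mem _ (List.mem_cons_of_mem _ (List.mem_cons_of_mem _ (List.mem_cons_of_mem _ (List.mem_cons_of_mem _ (List.mem_cons_of_mem _ (List.mem_cons_of_mem _ (List.mem_cons_of_mem _ (List.mem_cons_of_mem _ (List.mem_cons_of_mem _ (List.mem_cons_of_mem _ (List.mem_cons_of_mem _ (List.mem_cons_of_mem _ (List.mem_cons_of_mem _ (List.mem_cons_of_mem _ (List.mem_cons_of_mem _ (List.mem_cons_of_mem _ (List.mem_cons_of_mem _ (List.mem_cons_of_mem _ (List.mem_cons_self)))))))))))))))))))))))))))))))))))))))))))))))))))))))))))))))))))))))))))))))))))))))))))))))))))))))))))))))))))))))))))))))))), ?_⟩, by norm_num⟩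
  constructor <;> norm_num [Q130, coCell, P15C3]

lemma lP15C3 : ∀ x1 x2 xc : ℝ, 0 ≤ x1 → x1 ≤ 1 → 0 ≤ x2 → x2 ≤ 1 → P15C3.l ≤ xc → xc ≤ P15C3.u →
    (19415 / 4096 : ℝ) * (1 - (1 - x1) ^ 5) + (11267 / 1024 : ℝ) * (1 - (1 - x2) ^ 5) - (12 : ℝ) * (1 - (1 - xc) ^ 5) + (1 / 1073741824 : ℝ)
      ≤ - P15C3.a1 * x1 - P15C3.a2 * x2 + P15C3.e * xc + P15C3.f := by
  have h := cell_lines_delta 5 (α1 := (19415 / 4096 : ℝ)) (α2 := (11267 / 1024 : ℝ)) (c := (12 : ℝ)) (y1 := (3777 / 32768 : ℝ)) (y2 := (38241 / 262144 : ℝ))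
    (A1 := (60906045 / 4194304 : ℝ)) (B1 := (66671619 / 134217728 : ℝ)) (A2 := (122805611 / 4194304 : ℝ)) (B2 := (464436241 / 268435456 : ℝ)) (l := (5371 / 32768 : ℝ)) (u := (44257 / 262144 : ℝ))
    (E := (-60769437 / 2097152 : ℝ)) (F := (-315080721 / 134217728 : ℝ)) (δ := (1 / 1073741824 : ℝ)) (by norm_num) (by norm_num) (by norm_num) (by norm_num) (by norm_num)
    (by norm_num) (by norm_num) (by norm_num) (by norm_num) (by norm_num) (by norm_num) (by norm_num) (by norm_num) (by norm_num) (by norm_num)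
  have e1 : P15C3.l = (5371 / 32768 : ℝ) := rfl
  have e2 : P15C3.u = (44257 / 262144 : ℝ) := rfl
  have e3 : P15C3.a1 = -(60906045 / 4194304 : ℝ) := by norm_num [P15C3]
  have e4 : P15C3.a2 = -(122805611 / 4194304 : ℝ) := by norm_num [P15C3]
  have e5 : P15C3.e = (-60769437 / 2097152 : ℝ) := rfl
  have e6 : P15C3.f = (66671619 / 134217728 : ℝ) + (464436241 / 268435456 : ℝ) + (-315080721 / 134217728 : ℝ) + (1 / 1073741824 : ℝ) := by norm_num [P15C3]
  rw [e1, e2, e3, e4, e5, e6]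
  exact h

lemma rP15C4 : ∃ N : ℝ, Rw4 P.r2 N (coCell (19415 / 4096 : ℝ) (11267 / 1024 : ℝ) (12 : ℝ) 0 P15C4) := by
  refine ⟨(3221225472 : ℝ), ⟨Q131, List.mem_cons_of_mem _ (List.mem_cons_of_mem _ (List.mem_cons_of_mem _ (List.mem_cons_of_mem _ (List.mem_cons_of_mem _ (List.mem_cons_of_mem _ (List.mem_cons_of_mem _ (List.mem_cons_of_mem _ (List.mem_cons_of_mem _ (List.mem_cons_of_mem _ (List.mem_cons_of_mem _ (List.mem_cons_of_mem _ (List.mem_cons_of_mem _ (List.mem_cons_of_mem _ (List.mem_cons_of_mem _ (List.mem_cons_of_mem _ (List.mem_cons_of_mem _ (List.mem_cons_of_mem _ (List.mem_cons_of_mem _ (List.mem_cons_of_mem _ (List.mem_cons_of_mem _ (List.mem_cons_of_mem _ (List.mem_cons_of_mem _ (List.mem_cons_of_mem _ (List.mem_cons_of_mem _ (List.mem_cons_of_mem _ (List.mem_cons_of_mem _ (List.mem_cons_of_mem _ (List.mem_cons_of_mem _ (List.mem_cons_of_mem _ (List.mem_cons_of_mem _ (List.mem_cons_of_mem _ (List.mem_cons_of_mem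 _ (List.mem_cons_of_mem _ (List.mem_cons_of_mem _ (List.mem_cons_of_mem _ (List.mem_cons_of_mem _ (List.mem_cons_of_mem _ (List.mem_cons_of_mem _ (List.mem_cons_of_mem _ (List.mem_cons_of_mem _ (List.mem_cons_of_mem _ (List.mem_cons_of_mem _ (List.mem_cons_of_mem _ (List.mem_cons_of_mem _ (List.mem_cons_of_mem _ (List.mem_cons_of_mem _ (List.mem_cons_of_mem _ (List.mem_cons_of_mem _ (List.mem_cons_of_mem _ (List.mem_cons_of_mem _ (List.mem_cons_of_mem _ (List.mem_cons_of_mem _ (List.mem_cons_of_mem _ (List.mem_cons_of_mem _ (List.mem_cons_of_mem _ (List.mem_cons_of_mem _ (List.mem_cons_of_mem _ (List.mem_cons_of_mem _ (List.mem_cons_of_mem _ (List.mem_cons_of_mem _ (List.mem_cons_of_mem _ (List.mem_cons_of_mem _ (List.mem_cons_of_mem _ (List.mem_cons_of_mem _ (List.mem_cons_of_mem _ (List.mem_cons_of_mem _ (List.mem_cons_of_mem _ (List.mem_cons_of_mem _ (List.mem_cons_of_mem _ (List.mem_cons_of_mem _ (List.mem_cons_of_mem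 _ (List.mem_cons_of_mem _ (List.mem_cons_of_mem _ (List.mem_cons_of_mem _ (List.mem_cons_of_mem _ (List.mem_cons_of_mem _ (List.mem_cons_of_mem _ (List.mem_cons_of_mem _ (List.mem_cons_of_mem _ (List.mem_cons_of_mem _ (List.mem_cons_of_mem _ (List.mem_cons_of_mem _ (List.mem_cons_of_mem _ (List.mem_cons_of_mem _ (List.mem_cons_of_mem _ (List.mem_cons_of_mem _ (List.mem_cons_of_mem _ (List.mem_cons_of_mem _ (List.mem_cons_of_mem _ (List.mem_cons_of_mem _ (List.mem_cons_of_mem _ (List.mem_cons_of_mem _ (List.mem_cons_of_mem _ (List.mem_cons_of_mem _ (List.mem_cons_of_mem _ (List.mem_cons_of_mem _ (List.mem_cons_of_mem _ (List.mem_cons_of_mem _ (List.mem_cons_of_mem _ (List.mem_cons_of_mem _ (List.mem_cons_of_mem _ (List.mem_cons_of_mem _ (List.mem_cons_of_mem _ (List.mem_cons_of_mem _ (List.mem_cons_of_mem _ (List.mem_cons_of_mem _ (List.mem_cons_of_mem _ (List.mem_cons_of_mem _ (List.mem_cons_of_mem _ (List.mem_cons_of_mem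 _ (List.mem_cons_of_mem _ (List.mem_cons_of_mem _ (List.mem_cons_of_mem _ (List.mem_cons_of_mem _ (List.mem_cons_of_mem _ (List.mem_cons_of_mem _ (List.mem_cons_of_mem _ (List.mem_cons_of_mem _ (List.mem_cons_of_mem _ (List.mem_cons_of_mem _ (List.mem_cons_of_mem _ (List.mem_cons_of_mem _ (List.mem_cons_of_mem _ (List.mem_cons_of_mem _ (List.mem_cons_of_mem _ (List.mem_cons_of_mem _ (List.mem_cons_of_mem _ (List.mem_cons_of_mem _ (List.mem_cons_of_mem _ (List.mem_cons_of_mem _ (List.mem_cons_self))))))))))))))))))))))))))))))))))))))))))))))))))))))))))))))))))))))))))))))))))))))))))))))))))))))))))))))))))))))))))))))))))), ?_⟩, by norm_num⟩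
  constructor <;> norm_num [Q131, coCell, P15C4]

lemma lP15C4 : ∀ x1 x2 xc : ℝ, 0 ≤ x1 → x1 ≤ 1 → 0 ≤ x2 → x2 ≤ 1 → P15C4.l ≤ xc → xc ≤ P15C4.u →
    (19415 / 4096 : ℝ) * (1 - (1 - x1) ^ 5) + (11267 / 1024 : ℝ) * (1 - (1 - x2) ^ 5) - (12 : ℝ) * (1 - (1 - xc) ^ 5) + (1 / 1073741824 : ℝ)
      ≤ - P15C4.a1 * x1 - P15C4.a2 * x2 + P15C4.e * xc + P15C4.f := by
  have h := cell_lines_delta 5 (α1 := (19415 / 4096 : ℝ)) (α2 := (11267 / 1024 : ℝ)) (c := (12 : ℝ)) (y1 := (31257 / 262144 : ℝ)) (y2 := (39389 / 262144 : ℝ))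
    (A1 := (59819887 / 4194304 : ℝ)) (B1 := (70746753 / 134217728 : ℝ)) (A2 := (120306309 / 4194304 : ℝ)) (B2 := (122029881 / 67108864 : ℝ)) (l := (44257 / 262144 : ℝ)) (u := (45585 / 262144 : ℝ))
    (E := (-118654117 / 4194304 : ℝ)) (F := (-165332761 / 67108864 : ℝ)) (δ := (1 / 1073741824 : ℝ)) (by norm_num) (by norm_num) (by norm_num) (by norm_num) (by norm_num)
    (by norm_num) (by norm_num) (by norm_num) (by norm_num) (by norm_num) (by norm_num) (by norm_num) (by norm_num) (by norm_num) (by norm_num)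
  have e1 : P15C4.l = (44257 / 262144 : ℝ) := rfl
  have e2 : P15C4.u = (45585 / 262144 : ℝ) := rfl
  have e3 : P15C4.a1 = -(59819887 / 4194304 : ℝ) := by norm_num [P15C4]
  have e4 : P15C4.a2 = -(120306309 / 4194304 : ℝ) := by norm_num [P15C4]
  have e5 : P15C4.e = (-118654117 / 4194304 : ℝ) := rfl
  have e6 : P15C4.f = (70746753 / 134217728 : ℝ) + (122029881 / 67108864 : ℝ) + (-165332761 / 67108864 : ℝ) + (1 / 1073741824 : ℝ) := by norm_num [P15C4]
  rw [e1, e2, e3, e4, e5, e6]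
  exact h

lemma rP15C5 : ∃ N : ℝ, Rw4 P.r2 N (coCell (19415 / 4096 : ℝ) (11267 / 1024 : ℝ) (12 : ℝ) 0 P15C5) := by
  refine ⟨(3221225472 : ℝ), ⟨Q132, List.mem_cons_of_mem _ (List.mem_cons_of_mem _ (List.mem_cons_of_mem _ (List.mem_cons_of_mem _ (List.mem_cons_of_mem _ (List.mem_cons_of_mem _ (List.mem_cons_of_mem _ (List.mem_cons_of_mem _ (List.mem_cons_of_mem _ (List.mem_cons_of_mem _ (List.mem_cons_of_mem _ (List.mem_cons_of_mem _ (List.mem_cons_of_mem _ (List.mem_cons_of_mem _ (List.mem_cons_of_mem _ (List.mem_cons_of_mem _ (List.mem_cons_of_mem _ (List.mem_cons_of_mem _ (List.mem_cons_of_mem _ (List.mem_cons_of_mem _ (List.mem_cons_of_mem _ (List.mem_cons_of_mem _ (List.mem_cons_of_mem _ (List.mem_cons_of_mem _ (List.mem_cons_of_mem _ (List.mem_cons_of_mem _ (List.mem_cons_of_mem _ (List.mem_cons_of_mem _ (List.mem_cons_of_mem _ (List.mem_cons_of_mem _ (List.mem_cons_of_mem _ (List.mem_cons_of_mem _ (List.mem_cons_of_mem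 _ (List.mem_cons_of_mem _ (List.mem_cons_of_mem _ (List.mem_cons_of_mem _ (List.mem_cons_of_mem _ (List.mem_cons_of_mem _ (List.mem_cons_of_mem _ (List.mem_cons_of_mem _ (List.mem_cons_of_mem _ (List.mem_cons_of_mem _ (List.mem_cons_of_mem _ (List.mem_cons_of_mem _ (List.mem_cons_of_mem _ (List.mem_cons_of_mem _ (List.mem_cons_of_mem _ (List.mem_cons_of_mem _ (List.mem_cons_of_mem _ (List.mem_cons_of_mem _ (List.mem_cons_of_mem _ (List.mem_cons_of_mem _ (List.mem_cons_of_mem _ (List.mem_cons_of_mem _ (List.mem_cons_of_mem _ (List.mem_cons_of_mem _ (List.mem_cons_of_mem _ (List.mem_cons_of_mem _ (List.mem_cons_of_mem _ (List.mem_cons_of_mem _ (List.mem_cons_of_mem _ (List.mem_cons_of_mem _ (List.mem_cons_of_mem _ (List.mem_cons_of_mem _ (List.mem_cons_of_mem _ (List.mem_cons_of_mem _ (List.mem_cons_of_mem _ (List.mem_cons_of_mem _ (List.mem_cons_of_mem _ (List.mem_cons_of_mem _ (List.mem_cons_of_mem _ (List.mem_cons_of_mem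 _ (List.mem_cons_of_mem _ (List.mem_cons_of_mem _ (List.mem_cons_of_mem _ (List.mem_cons_of_mem _ (List.mem_cons_of_mem _ (List.mem_cons_of_mem _ (List.mem_cons_of_mem _ (List.mem_cons_of_mem _ (List.mem_cons_of_mem _ (List.mem_cons_of_mem _ (List.mem_cons_of_mem _ (List.mem_cons_of_mem _ (List.mem_cons_of_mem _ (List.mem_cons_of_mem _ (List.mem_cons_of_mem _ (List.mem_cons_of_mem _ (List.mem_cons_of_mem _ (List.mem_cons_of_mem _ (List.mem_cons_of_mem _ (List.mem_cons_of_mem _ (List.mem_cons_of_mem _ (List.mem_cons_of_mem _ (List.mem_cons_of_mem _ (List.mem_cons_of_mem _ (List.mem_cons_of_mem _ (List.mem_cons_of_mem _ (List.mem_cons_of_mem _ (List.mem_cons_of_mem _ (List.mem_cons_of_mem _ (List.mem_cons_of_mem _ (List.mem_cons_of_mem _ (List.mem_cons_of_mem _ (List.mem_cons_of_mem _ (List.mem_cons_of_mem _ (List.mem_cons_of_mem _ (List.mem_cons_of_mem _ (List.mem_cons_of_mem _ (List.mem_cons_of_mem _ (List.mem_cons_of_mem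 _ (List.mem_cons_of_mem _ (List.mem_cons_of_mem _ (List.mem_cons_of_mem _ (List.mem_cons_of_mem _ (List.mem_cons_of_mem _ (List.mem_cons_of_mem _ (List.mem_cons_of_mem _ (List.mem_cons_of_mem _ (List.mem_cons_of_mem _ (List.mem_cons_of_mem _ (List.mem_cons_of_mem _ (List.mem_cons_of_mem _ (List.mem_cons_of_mem _ (List.mem_cons_of_mem _ (List.mem_cons_of_mem _ (List.mem_cons_of_mem _ (List.mem_cons_of_mem _ (List.mem_cons_of_mem _ (List.mem_cons_of_mem _ (List.mem_cons_of_mem _ (List.mem_cons_of_mem _ (List.mem_cons_self)))))))))))))))))))))))))))))))))))))))))))))))))))))))))))))))))))))))))))))))))))))))))))))))))))))))))))))))))))))))))))))))))))), ?_⟩, by norm_num⟩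
  constructor <;> norm_num [Q132, coCell, P15C5]

lemma lP15C5 : ∀ x1 x2 xc : ℝ, 0 ≤ x1 → x1 ≤ 1 → 0 ≤ x2 → x2 ≤ 1 → P15C5.l ≤ xc → xc ≤ P15C5.u →
    (19415 / 4096 : ℝ) * (1 - (1 - x1) ^ 5) + (11267 / 1024 : ℝ) * (1 - (1 - x2) ^ 5) - (12 : ℝ) * (1 - (1 - xc) ^ 5) + (1 / 1073741824 : ℝ)
      ≤ - P15C5.a1 * x1 - P15C5.a2 * x2 + P15C5.e * xc + P15C5.f := by
  have h := cell_lines_delta 5 (α1 := (19415 / 4096 : ℝ)) (α2 := (11267 / 1024 : ℝ)) (c := (12 : ℝ)) (y1 := (32307 / 262144 : ℝ)) (y2 := (20285 / 131072 : ℝ))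
    (A1 := (58739121 / 4194304 : ℝ)) (B1 := (149879145 / 268435456 : ℝ)) (A2 := (117775173 / 4194304 : ℝ)) (B2 := (512824007 / 268435456 : ℝ)) (l := (45585 / 262144 : ℝ)) (u := (5869 / 32768 : ℝ))
    (E := (-14467171 / 524288 : ℝ)) (F := (-693791983 / 268435456 : ℝ)) (δ := (1 / 1073741824 : ℝ)) (by norm_num) (by norm_num) (by norm_num) (by norm_num) (by norm_num)
    (by norm_num) (by norm_num) (by norm_num) (by norm_num) (by norm_num) (by norm_num) (by norm_num) (by norm_num) (by norm_num) (by norm_num)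
  have e1 : P15C5.l = (45585 / 262144 : ℝ) := rfl
  have e2 : P15C5.u = (5869 / 32768 : ℝ) := rfl
  have e3 : P15C5.a1 = -(58739121 / 4194304 : ℝ) := by norm_num [P15C5]
  have e4 : P15C5.a2 = -(117775173 / 4194304 : ℝ) := by norm_num [P15C5]
  have e5 : P15C5.e = (-14467171 / 524288 : ℝ) := rfl
  have e6 : P15C5.f = (149879145 / 268435456 : ℝ) + (512824007 / 268435456 : ℝ) + (-693791983 / 268435456 : ℝ) + (1 / 1073741824 : ℝ) := by norm_num [P15C5]
  rw [e1, e2, e3, e4, e5, e6]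
  exact h

lemma rP15C6 : ∃ N : ℝ, Rw4 P.r2 N (coCell (19415 / 4096 : ℝ) (11267 / 1024 : ℝ) (12 : ℝ) 0 P15C6) := by
  refine ⟨(3221225472 : ℝ), ⟨Q133, List.mem_cons_of_mem _ (List.mem_cons_of_mem _ (List.mem_cons_of_mem _ (List.mem_cons_of_mem _ (List.mem_cons_of_mem _ (List.mem_cons_of_mem _ (List.mem_cons_of_mem _ (List.mem_cons_of_mem _ (List.mem_cons_of_mem _ (List.mem_cons_of_mem _ (List.mem_cons_of_mem _ (List.mem_cons_of_mem _ (List.mem_cons_of_mem _ (List.mem_cons_of_mem _ (List.mem_cons_of_mem _ (List.mem_cons_of_mem _ (List.mem_cons_of_mem _ (List.mem_cons_of_mem _ (List.mem_cons_of_mem _ (List.mem_cons_of_mem _ (List.mem_cons_of_mem _ (List.mem_cons_of_mem _ (List.mem_cons_of_mem _ (List.mem_cons_of_mem _ (List.mem_cons_of_mem _ (List.mem_cons_of_mem _ (List.mem_cons_of_mem _ (List.mem_cons_of_mem _ (List.mem_cons_of_mem _ (List.mem_cons_of_mem _ (List.mem_cons_of_mem _ (List.mem_cons_of_mem _ (List.mem_cons_of_mem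 _ (List.mem_cons_of_mem _ (List.mem_cons_of_mem _ (List.mem_cons_of_mem _ (List.mem_cons_of_mem _ (List.mem_cons_of_mem _ (List.mem_cons_of_mem _ (List.mem_cons_of_mem _ (List.mem_cons_of_mem _ (List.mem_cons_of_mem _ (List.mem_cons_of_mem _ (List.mem_cons_of_mem _ (List.mem_cons_of_mem _ (List.mem_cons_of_mem _ (List.mem_cons_of_mem _ (List.mem_cons_of_mem _ (List.mem_cons_of_mem _ (List.mem_cons_of_mem _ (List.mem_cons_of_mem _ (List.mem_cons_of_mem _ (List.mem_cons_of_mem _ (List.mem_cons_of_mem _ (List.mem_cons_of_mem _ (List.mem_cons_of_mem _ (List.mem_cons_of_mem _ (List.mem_cons_of_mem _ (List.mem_cons_of_mem _ (List.mem_cons_of_mem _ (List.mem_cons_of_mem _ (List.mem_cons_of_mem _ (List.mem_cons_of_mem _ (List.mem_cons_of_mem _ (List.mem_cons_of_mem _ (List.mem_cons_of_mem _ (List.mem_cons_of_mem _ (List.mem_cons_of_mem _ (List.mem_cons_of_mem _ (List.mem_cons_of_mem _ (List.mem_cons_of_mem _ (List.mem_cons_of_mem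 _ (List.mem_cons_of_mem _ (List.mem_cons_of_mem _ (List.mem_cons_of_mem _ (List.mem_cons_of_mem _ (List.mem_cons_of_mem _ (List.mem_cons_of_mem _ (List.mem_cons_of_mem _ (List.mem_cons_of_mem _ (List.mem_cons_of_mem _ (List.mem_cons_of_mem _ (List.mem_cons_of_mem _ (List.mem_cons_of_mem _ (List.mem_cons_of_mem _ (List.mem_cons_of_mem _ (List.mem_cons_of_mem _ (List.mem_cons_of_mem _ (List.mem_cons_of_mem _ (List.mem_cons_of_mem _ (List.mem_cons_of_mem _ (List.mem_cons_of_mem _ (List.mem_cons_of_mem _ (List.mem_cons_of_mem _ (List.mem_cons_of_mem _ (List.mem_cons_of_mem _ (List.mem_cons_of_mem _ (List.mem_cons_of_mem _ (List.mem_cons_of_mem _ (List.mem_cons_of_mem _ (List.mem_cons_of_mem _ (List.mem_cons_of_mem _ (List.mem_cons_of_mem _ (List.mem_cons_of_mem _ (List.mem_cons_of_mem _ (List.mem_cons_of_mem _ (List.mem_cons_of_mem _ (List.mem_cons_of_mem _ (List.mem_cons_of_mem _ (List.mem_cons_of_mem _ (List.mem_cons_of_mem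 _ (List.mem_cons_of_mem _ (List.mem_cons_of_mem _ (List.mem_cons_of_mem _ (List.mem_cons_of_mem _ (List.mem_cons_of_mem _ (List.mem_cons_of_mem _ (List.mem_cons_of_mem _ (List.mem_cons_of_mem _ (List.mem_cons_of_mem _ (List.mem_cons_of_mem _ (List.mem_cons_of_mem _ (List.mem_cons_of_mem _ (List.mem_cons_of_mem _ (List.mem_cons_of_mem _ (List.mem_cons_of_mem _ (List.mem_cons_of_mem _ (List.mem_cons_of_mem _ (List.mem_cons_of_mem _ (List.mem_cons_of_mem _ (List.mem_cons_of_mem _ (List.mem_cons_of_mem _ (List.mem_cons_of_mem _ (List.mem_cons_self))))))))))))))))))))))))))))))))))))))))))))))))))))))))))))))))))))))))))))))))))))))))))))))))))))))))))))))))))))))))))))))))))))), ?_⟩, by norm_num⟩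
  constructor <;> norm_num [Q133, coCell, P15C6]

lemma lP15C6 : ∀ x1 x2 xc : ℝ, 0 ≤ x1 → x1 ≤ 1 → 0 ≤ x2 → x2 ≤ 1 → P15C6.l ≤ xc → xc ≤ P15C6.u →
    (19415 / 4096 : ℝ) * (1 - (1 - x1) ^ 5) + (11267 / 1024 : ℝ) * (1 - (1 - x2) ^ 5) - (12 : ℝ) * (1 - (1 - xc) ^ 5) + (1 / 1073741824 : ℝ)
      ≤ - P15C6.a1 * x1 - P15C6.a2 * x2 + P15C6.e * xc + P15C6.f := by
  have h := cell_lines_delta 5 (α1 := (19415 / 4096 : ℝ)) (α2 := (11267 / 1024 : ℝ)) (c := (12 : ℝ)) (y1 := (33365 / 262144 : ℝ)) (y2 := (41787 / 262144 : ℝ))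
    (A1 := (7208125 / 524288 : ℝ)) (B1 := (79244809 / 134217728 : ℝ)) (A2 := (57604441 / 2097152 : ℝ)) (B2 := (269311391 / 134217728 : ℝ)) (l := (5869 / 32768 : ℝ)) (u := (48361 / 262144 : ℝ))
    (E := (-56394765 / 2097152 : ℝ)) (F := (-727582727 / 268435456 : ℝ)) (δ := (1 / 1073741824 : ℝ)) (by norm_num) (by norm_num) (by norm_num) (by norm_num) (by norm_num)
    (by norm_num) (by norm_num) (by norm_num) (by norm_num) (by norm_num) (by norm_num) (by norm_num) (by norm_num) (by norm_num) (by norm_num)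
  have e1 : P15C6.l = (5869 / 32768 : ℝ) := rfl
  have e2 : P15C6.u = (48361 / 262144 : ℝ) := rfl
  have e3 : P15C6.a1 = -(7208125 / 524288 : ℝ) := by norm_num [P15C6]
  have e4 : P15C6.a2 = -(57604441 / 2097152 : ℝ) := by norm_num [P15C6]
  have e5 : P15C6.e = (-56394765 / 2097152 : ℝ) := rfl
  have e6 : P15C6.f = (79244809 / 134217728 : ℝ) + (269311391 / 134217728 : ℝ) + (-727582727 / 268435456 : ℝ) + (1 / 1073741824 : ℝ) := by norm_num [P15C6]
  rw [e1, e2, e3, e4, e5, e6]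
  exact h

lemma rP15C7 : ∃ N : ℝ, Rw4 P.r2 N (coCell (19415 / 4096 : ℝ) (11267 / 1024 : ℝ) (12 : ℝ) 0 P15C7) := by
  refine ⟨(3221225472 : ℝ), ⟨Q134, List.mem_cons_of_mem _ (List.mem_cons_of_mem _ (List.mem_cons_of_mem _ (List.mem_cons_of_mem _ (List.mem_cons_of_mem _ (List.mem_cons_of_mem _ (List.mem_cons_of_mem _ (List.mem_cons_of_mem _ (List.mem_cons_of_mem _ (List.mem_cons_of_mem _ (List.mem_cons_of_mem _ (List.mem_cons_of_mem _ (List.mem_cons_of_mem _ (List.mem_cons_of_mem _ (List.mem_cons_of_mem _ (List.mem_cons_of_mem _ (List.mem_cons_of_mem _ (List.mem_cons_of_mem _ (List.mem_cons_of_mem _ (List.mem_cons_of_mem _ (List.mem_cons_of_mem _ (List.mem_cons_of_mem _ (List.mem_cons_of_mem _ (List.mem_cons_of_mem _ (List.mem_cons_of_mem _ (List.mem_cons_of_mem _ (List.mem_cons_of_mem _ (List.mem_cons_of_mem _ (List.mem_cons_of_mem _ (List.mem_cons_of_mem _ (List.mem_cons_of_mem _ (List.mem_cons_of_mem _ (List.mem_cons_of_mem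 _ (List.mem_cons_of_mem _ (List.mem_cons_of_mem _ (List.mem_cons_of_mem _ (List.mem_cons_of_mem _ (List.mem_cons_of_mem _ (List.mem_cons_of_mem _ (List.mem_cons_of_mem _ (List.mem_cons_of_mem _ (List.mem_cons_of_mem _ (List.mem_cons_of_mem _ (List.mem_cons_of_mem _ (List.mem_cons_of_mem _ (List.mem_cons_of_mem _ (List.mem_cons_of_mem _ (List.mem_cons_of_mem _ (List.mem_cons_of_mem _ (List.mem_cons_of_mem _ (List.mem_cons_of_mem _ (List.mem_cons_of_mem _ (List.mem_cons_of_mem _ (List.mem_cons_of_mem _ (List.mem_cons_of_mem _ (List.mem_cons_of_mem _ (List.mem_cons_of_mem _ (List.mem_cons_of_mem _ (List.mem_cons_of_mem _ (List.mem_cons_of_mem _ (List.mem_cons_of_mem _ (List.mem_cons_of_mem _ (List.mem_cons_of_mem _ (List.mem_cons_of_mem _ (List.mem_cons_of_mem _ (List.mem_cons_of_mem _ (List.mem_cons_of_mem _ (List.mem_cons_of_mem _ (List.mem_cons_of_mem _ (List.mem_cons_of_mem _ (List.mem_cons_of_mem _ (List.mem_cons_of_mem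 _ (List.mem_cons_of_mem _ (List.mem_cons_of_mem _ (List.mem_cons_of_mem _ (List.mem_cons_of_mem _ (List.mem_cons_of_mem _ (List.mem_cons_of_mem _ (List.mem_cons_of_mem _ (List.mem_cons_of_mem _ (List.mem_cons_of_mem _ (List.mem_cons_of_mem _ (List.mem_cons_of_mem _ (List.mem_cons_of_mem _ (List.mem_cons_of_mem _ (List.mem_cons_of_mem _ (List.mem_cons_of_mem _ (List.mem_cons_of_mem _ (List.mem_cons_of_mem _ (List.mem_cons_of_mem _ (List.mem_cons_of_mem _ (List.mem_cons_of_mem _ (List.mem_cons_of_mem _ (List.mem_cons_of_mem _ (List.mem_cons_of_mem _ (List.mem_cons_of_mem _ (List.mem_cons_of_mem _ (List.mem_cons_of_mem _ (List.mem_cons_of_mem _ (List.mem_cons_of_mem _ (List.mem_cons_of_mem _ (List.mem_cons_of_mem _ (List.mem_cons_of_mem _ (List.mem_cons_of_mem _ (List.mem_cons_of_mem _ (List.mem_cons_of_mem _ (List.mem_cons_of_mem _ (List.mem_cons_of_mem _ (List.mem_cons_of_mem _ (List.mem_cons_of_mem _ (List.mem_cons_of_mem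 _ (List.mem_cons_of_mem _ (List.mem_cons_of_mem _ (List.mem_cons_of_mem _ (List.mem_cons_of_mem _ (List.mem_cons_of_mem _ (List.mem_cons_of_mem _ (List.mem_cons_of_mem _ (List.mem_cons_of_mem _ (List.mem_cons_of_mem _ (List.mem_cons_of_mem _ (List.mem_cons_of_mem _ (List.mem_cons_of_mem _ (List.mem_cons_of_mem _ (List.mem_cons_of_mem _ (List.mem_cons_of_mem _ (List.mem_cons_of_mem _ (List.mem_cons_of_mem _ (List.mem_cons_of_mem _ (List.mem_cons_of_mem _ (List.mem_cons_of_mem _ (List.mem_cons_of_mem _ (List.mem_cons_of_mem _ (List.mem_cons_of_mem _ (List.mem_cons_self)))))))))))))))))))))))))))))))))))))))))))))))))))))))))))))))))))))))))))))))))))))))))))))))))))))))))))))))))))))))))))))))))))))), ?_⟩, by norm_num⟩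
  constructor <;> norm_num [Q134, coCell, P15C7]

lemma lP15C7 : ∀ x1 x2 xc : ℝ, 0 ≤ x1 → x1 ≤ 1 → 0 ≤ x2 → x2 ≤ 1 → P15C7.l ≤ xc → xc ≤ P15C7.u →
    (19415 / 4096 : ℝ) * (1 - (1 - x1) ^ 5) + (11267 / 1024 : ℝ) * (1 - (1 - x2) ^ 5) - (12 : ℝ) * (1 - (1 - xc) ^ 5) + (1 / 1073741824 : ℝ)
      ≤ - P15C7.a1 * x1 - P15C7.a2 * x2 + P15C7.e * xc + P15C7.f := by
  have h := cell_lines_delta 5 (α1 := (19415 / 4096 : ℝ)) (α2 := (11267 / 1024 : ℝ)) (c := (12 : ℝ)) (y1 := (8535 / 65536 : ℝ)) (y2 := (43151 / 262144 : ℝ))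
    (A1 := (28443795 / 2097152 : ℝ)) (B1 := (20611953 / 33554432 : ℝ)) (A2 := (28095677 / 1048576 : ℝ)) (B2 := (283962117 / 134217728 : ℝ)) (l := (48361 / 262144 : ℝ)) (u := (49811 / 262144 : ℝ))
    (E := (-54906393 / 2097152 : ℝ)) (F := (-23835275 / 8388608 : ℝ)) (δ := (1 / 1073741824 : ℝ)) (by norm_num) (by norm_num) (by norm_num) (by norm_num) (by norm_num)
    (by norm_num) (by norm_num) (by norm_num) (by norm_num) (by norm_num) (by norm_num) (by norm_num) (by norm_num) (by norm_num) (by norm_num)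
  have e1 : P15C7.l = (48361 / 262144 : ℝ) := rfl
  have e2 : P15C7.u = (49811 / 262144 : ℝ) := rfl
  have e3 : P15C7.a1 = -(28443795 / 2097152 : ℝ) := by norm_num [P15C7]
  have e4 : P15C7.a2 = -(28095677 / 1048576 : ℝ) := by norm_num [P15C7]
  have e5 : P15C7.e = (-54906393 / 2097152 : ℝ) := rfl
  have e6 : P15C7.f = (20611953 / 33554432 : ℝ) + (283962117 / 134217728 : ℝ) + (-23835275 / 8388608 : ℝ) + (1 / 1073741824 : ℝ) := by norm_num [P15C7]
  rw [e1, e2, e3, e4, e5, e6]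
  exact h

lemma rP15C8 : ∃ N : ℝ, Rw4 P.r2 N (coCell (19415 / 4096 : ℝ) (11267 / 1024 : ℝ) (12 : ℝ) 0 P15C8) := by
  refine ⟨(3221225472 : ℝ), ⟨Q135, List.mem_cons_of_mem _ (List.mem_cons_of_mem _ (List.mem_cons_of_mem _ (List.mem_cons_of_mem _ (List.mem_cons_of_mem _ (List.mem_cons_of_mem _ (List.mem_cons_of_mem _ (List.mem_cons_of_mem _ (List.mem_cons_of_mem _ (List.mem_cons_of_mem _ (List.mem_cons_of_mem _ (List.mem_cons_of_mem _ (List.mem_cons_of_mem _ (List.mem_cons_of_mem _ (List.mem_cons_of_mem _ (List.mem_cons_of_mem _ (List.mem_cons_of_mem _ (List.mem_cons_of_mem _ (List.mem_cons_of_mem _ (List.mem_cons_of_mem _ (List.mem_cons_of_mem _ (List.mem_cons_of_mem _ (List.mem_cons_of_mem _ (List.mem_cons_of_mem _ (List.mem_cons_of_mem _ (List.mem_cons_of_mem _ (List.mem_cons_of_mem _ (List.mem_cons_of_mem _ (List.mem_cons_of_mem _ (List.mem_cons_of_mem _ (List.mem_cons_of_mem _ (List.mem_cons_of_mem _ (List.mem_cons_of_mem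 _ (List.mem_cons_of_mem _ (List.mem_cons_of_mem _ (List.mem_cons_of_mem _ (List.mem_cons_of_mem _ (List.mem_cons_of_mem _ (List.mem_cons_of_mem _ (List.mem_cons_of_mem _ (List.mem_cons_of_mem _ (List.mem_cons_of_mem _ (List.mem_cons_of_mem _ (List.mem_cons_of_mem _ (List.mem_cons_of_mem _ (List.mem_cons_of_mem _ (List.mem_cons_of_mem _ (List.mem_cons_of_mem _ (List.mem_cons_of_mem _ (List.mem_cons_of_mem _ (List.mem_cons_of_mem _ (List.mem_cons_of_mem _ (List.mem_cons_of_mem _ (List.mem_cons_of_mem _ (List.mem_cons_of_mem _ (List.mem_cons_of_mem _ (List.mem_cons_of_mem _ (List.mem_cons_of_mem _ (List.mem_cons_of_mem _ (List.mem_cons_of_mem _ (List.mem_cons_of_mem _ (List.mem_cons_of_mem _ (List.mem_cons_of_mem _ (List.mem_cons_of_mem _ (List.mem_cons_of_mem _ (List.mem_cons_of_mem _ (List.mem_cons_of_mem _ (List.mem_cons_of_mem _ (List.mem_cons_of_mem _ (List.mem_cons_of_mem _ (List.mem_cons_of_mem _ (List.mem_cons_of_mem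 _ (List.mem_cons_of_mem _ (List.mem_cons_of_mem _ (List.mem_cons_of_mem _ (List.mem_cons_of_mem _ (List.mem_cons_of_mem _ (List.mem_cons_of_mem _ (List.mem_cons_of_mem _ (List.mem_cons_of_mem _ (List.mem_cons_of_mem _ (List.mem_cons_of_mem _ (List.mem_cons_of_mem _ (List.mem_cons_of_mem _ (List.mem_cons_of_mem _ (List.mem_cons_of_mem _ (List.mem_cons_of_mem _ (List.mem_cons_of_mem _ (List.mem_cons_of_mem _ (List.mem_cons_of_mem _ (List.mem_cons_of_mem _ (List.mem_cons_of_mem _ (List.mem_cons_of_mem _ (List.mem_cons_of_mem _ (List.mem_cons_of_mem _ (List.mem_cons_of_mem _ (List.mem_cons_of_mem _ (List.mem_cons_of_mem _ (List.mem_cons_of_mem _ (List.mem_cons_of_mem _ (List.mem_cons_of_mem _ (List.mem_cons_of_mem _ (List.mem_cons_of_mem _ (List.mem_cons_of_mem _ (List.mem_cons_of_mem _ (List.mem_cons_of_mem _ (List.mem_cons_of_mem _ (List.mem_cons_of_mem _ (List.mem_cons_of_mem _ (List.mem_cons_of_mem _ (List.mem_cons_of_mem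 _ (List.mem_cons_of_mem _ (List.mem_cons_of_mem _ (List.mem_cons_of_mem _ (List.mem_cons_of_mem _ (List.mem_cons_of_mem _ (List.mem_cons_of_mem _ (List.mem_cons_of_mem _ (List.mem_cons_of_mem _ (List.mem_cons_of_mem _ (List.mem_cons_of_mem _ (List.mem_cons_of_mem _ (List.mem_cons_of_mem _ (List.mem_cons_of_mem _ (List.mem_cons_of_mem _ (List.mem_cons_of_mem _ (List.mem_cons_of_mem _ (List.mem_cons_of_mem _ (List.mem_cons_of_mem _ (List.mem_cons_of_mem _ (List.mem_cons_of_mem _ (List.mem_cons_of_mem _ (List.mem_cons_of_mem _ (List.mem_cons_of_mem _ (List.mem_cons_of_mem _ (List.mem_cons_self))))))))))))))))))))))))))))))))))))))))))))))))))))))))))))))))))))))))))))))))))))))))))))))))))))))))))))))))))))))))))))))))))))))), ?_⟩, by norm_num⟩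
  constructor <;> norm_num [Q135, coCell, P15C8]

lemma lP15C8 : ∀ x1 x2 xc : ℝ, 0 ≤ x1 → x1 ≤ 1 → 0 ≤ x2 → x2 ≤ 1 → P15C8.l ≤ xc → xc ≤ P15C8.u →
    (19415 / 4096 : ℝ) * (1 - (1 - x1) ^ 5) + (11267 / 1024 : ℝ) * (1 - (1 - x2) ^ 5) - (12 : ℝ) * (1 - (1 - xc) ^ 5) + (1 / 1073741824 : ℝ)
      ≤ - P15C8.a1 * x1 - P15C8.a2 * x2 + P15C8.e * xc + P15C8.f := by
  have h := cell_lines_delta 5 (α1 := (19415 / 4096 : ℝ)) (α2 := (11267 / 1024 : ℝ)) (c := (12 : ℝ)) (y1 := (17209 / 131072 : ℝ)) (y2 := (21951 / 131072 : ℝ))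
    (A1 := (28305325 / 2097152 : ℝ)) (B1 := (167213299 / 268435456 : ℝ)) (A2 := (27712257 / 1048576 : ℝ)) (B2 := (584221789 / 268435456 : ℝ)) (l := (49811 / 262144 : ℝ)) (u := (25653 / 131072 : ℝ))
    (E := (-106808525 / 4194304 : ℝ)) (F := (-199815821 / 67108864 : ℝ)) (δ := (1 / 1073741824 : ℝ)) (by norm_num) (by norm_num) (by norm_num) (by norm_num) (by norm_num)
    (by norm_num) (by norm_num) (by norm_num) (by norm_num) (by norm_num) (by norm_num) (by norm_num) (by norm_num) (by norm_num) (by norm_num)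
  have e1 : P15C8.l = (49811 / 262144 : ℝ) := rfl
  have e2 : P15C8.u = (25653 / 131072 : ℝ) := rfl
  have e3 : P15C8.a1 = -(28305325 / 2097152 : ℝ) := by norm_num [P15C8]
  have e4 : P15C8.a2 = -(27712257 / 1048576 : ℝ) := by norm_num [P15C8]
  have e5 : P15C8.e = (-106808525 / 4194304 : ℝ) := rfl
  have e6 : P15C8.f = (167213299 / 268435456 : ℝ) + (584221789 / 268435456 : ℝ) + (-199815821 / 67108864 : ℝ) + (1 / 1073741824 : ℝ) := by norm_num [P15C8]
  rw [e1, e2, e3, e4, e5, e6]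
  exact h

lemma rP15C9 : ∃ N : ℝ, Rw4 P.r2 N (coCell (19415 / 4096 : ℝ) (11267 / 1024 : ℝ) (12 : ℝ) 0 P15C9) := by
  refine ⟨(3221225472 : ℝ), ⟨Q136, List.mem_cons_of_mem _ (List.mem_cons_of_mem _ (List.mem_cons_of_mem _ (List.mem_cons_of_mem _ (List.mem_cons_of_mem _ (List.mem_cons_of_mem _ (List.mem_cons_of_mem _ (List.mem_cons_of_mem _ (List.mem_cons_of_mem _ (List.mem_cons_of_mem _ (List.mem_cons_of_mem _ (List.mem_cons_of_mem _ (List.mem_cons_of_mem _ (List.mem_cons_of_mem _ (List.mem_cons_of_mem _ (List.mem_cons_of_mem _ (List.mem_cons_of_mem _ (List.mem_cons_of_mem _ (List.mem_cons_of_mem _ (List.mem_cons_of_mem _ (List.mem_cons_of_mem _ (List.mem_cons_of_mem _ (List.mem_cons_of_mem _ (List.mem_cons_of_mem _ (List.mem_cons_of_mem _ (List.mem_cons_of_mem _ (List.mem_cons_of_mem _ (List.mem_cons_of_mem _ (List.mem_cons_of_mem _ (List.mem_cons_of_mem _ (List.mem_cons_of_mem _ (List.mem_cons_of_mem _ (List.mem_cons_of_mem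 _ (List.mem_cons_of_mem _ (List.mem_cons_of_mem _ (List.mem_cons_of_mem _ (List.mem_cons_of_mem _ (List.mem_cons_of_mem _ (List.mem_cons_of_mem _ (List.mem_cons_of_mem _ (List.mem_cons_of_mem _ (List.mem_cons_of_mem _ (List.mem_cons_of_mem _ (List.mem_cons_of_mem _ (List.mem_cons_of_mem _ (List.mem_cons_of_mem _ (List.mem_cons_of_mem _ (List.mem_cons_of_mem _ (List.mem_cons_of_mem _ (List.mem_cons_of_mem _ (List.mem_cons_of_mem _ (List.mem_cons_of_mem _ (List.mem_cons_of_mem _ (List.mem_cons_of_mem _ (List.mem_cons_of_mem _ (List.mem_cons_of_mem _ (List.mem_cons_of_mem _ (List.mem_cons_of_mem _ (List.mem_cons_of_mem _ (List.mem_cons_of_mem _ (List.mem_cons_of_mem _ (List.mem_cons_of_mem _ (List.mem_cons_of_mem _ (List.mem_cons_of_mem _ (List.mem_cons_of_mem _ (List.mem_cons_of_mem _ (List.mem_cons_of_mem _ (List.mem_cons_of_mem _ (List.mem_cons_of_mem _ (List.mem_cons_of_mem _ (List.mem_cons_of_mem _ (List.mem_cons_of_mem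 _ (List.mem_cons_of_mem _ (List.mem_cons_of_mem _ (List.mem_cons_of_mem _ (List.mem_cons_of_mem _ (List.mem_cons_of_mem _ (List.mem_cons_of_mem _ (List.mem_cons_of_mem _ (List.mem_cons_of_mem _ (List.mem_cons_of_mem _ (List.mem_cons_of_mem _ (List.mem_cons_of_mem _ (List.mem_cons_of_mem _ (List.mem_cons_of_mem _ (List.mem_cons_of_mem _ (List.mem_cons_of_mem _ (List.mem_cons_of_mem _ (List.mem_cons_of_mem _ (List.mem_cons_of_mem _ (List.mem_cons_of_mem _ (List.mem_cons_of_mem _ (List.mem_cons_of_mem _ (List.mem_cons_of_mem _ (List.mem_cons_of_mem _ (List.mem_cons_of_mem _ (List.mem_cons_of_mem _ (List.mem_cons_of_mem _ (List.mem_cons_of_mem _ (List.mem_cons_of_mem _ (List.mem_cons_of_mem _ (List.mem_cons_of_mem _ (List.mem_cons_of_mem _ (List.mem_cons_of_mem _ (List.mem_cons_of_mem _ (List.mem_cons_of_mem _ (List.mem_cons_of_mem _ (List.mem_cons_of_mem _ (List.mem_cons_of_mem _ (List.mem_cons_of_mem _ (List.mem_cons_of_mem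 _ (List.mem_cons_of_mem _ (List.mem_cons_of_mem _ (List.mem_cons_of_mem _ (List.mem_cons_of_mem _ (List.mem_cons_of_mem _ (List.mem_cons_of_mem _ (List.mem_cons_of_mem _ (List.mem_cons_of_mem _ (List.mem_cons_of_mem _ (List.mem_cons_of_mem _ (List.mem_cons_of_mem _ (List.mem_cons_of_mem _ (List.mem_cons_of_mem _ (List.mem_cons_of_mem _ (List.mem_cons_of_mem _ (List.mem_cons_of_mem _ (List.mem_cons_of_mem _ (List.mem_cons_of_mem _ (List.mem_cons_of_mem _ (List.mem_cons_of_mem _ (List.mem_cons_of_mem _ (List.mem_cons_of_mem _ (List.mem_cons_of_mem _ (List.mem_cons_of_mem _ (List.mem_cons_of_mem _ (List.mem_cons_self)))))))))))))))))))))))))))))))))))))))))))))))))))))))))))))))))))))))))))))))))))))))))))))))))))))))))))))))))))))))))))))))))))))))), ?_⟩, by norm_num⟩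
  constructor <;> norm_num [Q136, coCell, P15C9]

lemma lP15C9 : ∀ x1 x2 xc : ℝ, 0 ≤ x1 → x1 ≤ 1 → 0 ≤ x2 → x2 ≤ 1 → P15C9.l ≤ xc → xc ≤ P15C9.u →
    (19415 / 4096 : ℝ) * (1 - (1 - x1) ^ 5) + (11267 / 1024 : ℝ) * (1 - (1 - x2) ^ 5) - (12 : ℝ) * (1 - (1 - xc) ^ 5) + (1 / 1073741824 : ℝ)
      ≤ - P15C9.a1 * x1 - P15C9.a2 * x2 + P15C9.e * xc + P15C9.f := by
  have h := cell_lines_delta 5 (α1 := (19415 / 4096 : ℝ)) (α2 := (11267 / 1024 : ℝ)) (c := (12 : ℝ)) (y1 := (8627 / 65536 : ℝ)) (y2 := (11349 / 65536 : ℝ))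
    (A1 := (28260605 / 2097152 : ℝ)) (B1 := (167965829 / 268435456 : ℝ)) (A2 := (107844737 / 4194304 : ℝ)) (B2 := (308484287 / 134217728 : ℝ)) (l := (25653 / 131072 : ℝ)) (u := (52429 / 262144 : ℝ))
    (E := (-26047175 / 1048576 : ℝ)) (F := (-832078895 / 268435456 : ℝ)) (δ := (1 / 1073741824 : ℝ)) (by norm_num) (by norm_num) (by norm_num) (by norm_num) (by norm_num)
    (by norm_num) (by norm_num) (by norm_num) (by norm_num) (by norm_num) (by norm_num) (by norm_num) (by norm_num) (by norm_num) (by norm_num)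
  have e1 : P15C9.l = (25653 / 131072 : ℝ) := rfl
  have e2 : P15C9.u = (52429 / 262144 : ℝ) := rfl
  have e3 : P15C9.a1 = -(28260605 / 2097152 : ℝ) := by norm_num [P15C9]
  have e4 : P15C9.a2 = -(107844737 / 4194304 : ℝ) := by norm_num [P15C9]
  have e5 : P15C9.e = (-26047175 / 1048576 : ℝ) := rfl
  have e6 : P15C9.f = (167965829 / 268435456 : ℝ) + (308484287 / 134217728 : ℝ) + (-832078895 / 268435456 : ℝ) + (1 / 1073741824 : ℝ) := by norm_num [P15C9]
  rw [e1, e2, e3, e4, e5, e6]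
  exact h

/-- A link of the chain. -/
lemma link15 {lam : ℝ} (h0 : -(1 / 2) < lam) (h1 : lam < 1) (hB : BoxS lam P 0 HH 0 HH)
    (h : ∃ n, 1 - En 5 lam n mc ≤ (52429 / 262144 : ℝ)) : ∃ n, 1 - En 5 lam n mc ≤ (19661 / 131072 : ℝ) :=
  phase_of_box (by norm_num) h0 h1 hB (19415 / 4096 : ℝ) (11267 / 1024 : ℝ) (12 : ℝ) (1 / 1073741824 : ℝ) (19661 / 131072 : ℝ) (52429 / 262144 : ℝ) (by norm_num) cellsP15 hcoverP15
    (forall_cons lP15C0 (forall_cons lP15C1 (forall_cons lP15C2 (forall_cons lP15C3 (forall_cons lP15C4 (forall_cons lP15C5 (forall_cons lP15C6 (forall_cons lP15C7 (forall_cons lP15C8 (forall_cons lP15C9 (forall_nil))))))))))) (forall_cons rP15C0 (forall_cons rP15C1 (forall_cons rP15C2 (forall_cons rP15C3 (forall_cons rP15C4 (forall_cons rP15C5 (forall_cons rP15C6 (forall_cons rP15C7 (forall_cons rP15C8 (forall_cons rP15C9 (forall_nil))))))))))) h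

/-- A chord cell of a link. -/
noncomputable def P16C0 : Cell := ⟨(52429 / 262144 : ℝ), (27263 / 131072 : ℝ), (-42901103 / 2097152 : ℝ), (-92048611 / 4194304 : ℝ), (-101037903 / 4194304 : ℝ), (-249242287 / 1073741824 : ℝ)⟩

/-- A chord cell of a link. -/
noncomputable def P16C1 : Cell := ⟨(27263 / 131072 : ℝ), (56707 / 262144 : ℝ), (-41227897 / 2097152 : ℝ), (-22427309 / 1048576 : ℝ), (-96958801 / 4194304 : ℝ), (-239707427 / 1073741824 : ℝ)⟩

/-- A chord cell of a link. -/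
noncomputable def P16C2 : Cell := ⟨(56707 / 262144 : ℝ), (58975 / 262144 : ℝ), (-81670539 / 4194304 : ℝ), (-85376337 / 4194304 : ℝ), (-46424497 / 2097152 : ℝ), (-233932983 / 1073741824 : ℝ)⟩

/-- A chord cell of a link. -/
noncomputable def P16C3 : Cell := ⟨(58975 / 262144 : ℝ), (30667 / 131072 : ℝ), (-80093807 / 4194304 : ℝ), (-650163 / 32768 : ℝ), (-88714837 / 4194304 : ℝ), (-305866835 / 1073741824 : ℝ)⟩

/-- A chord cell of a link. -/
noncomputable def P16C4 : Cell := ⟨(30667 / 131072 : ℝ), (15947 / 65536 : ℝ), (-78845815 / 4194304 : ℝ), (-80408655 / 4194304 : ℝ), (-42281315 / 2097152 : ℝ), (-363311583 / 1073741824 : ℝ)⟩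

/-- A chord cell of a link. -/
noncomputable def P16C5 : Cell := ⟨(15947 / 65536 : ℝ), (66339 / 262144 : ℝ), (-77214865 / 4194304 : ℝ), (-19129587 / 1048576 : ℝ), (-80401189 / 4194304 : ℝ), (-351784759 / 1073741824 : ℝ)⟩

/-- A chord cell of a link. -/
noncomputable def P16C6 : Cell := ⟨(66339 / 262144 : ℝ), (68993 / 262144 : ℝ), (-36975117 / 2097152 : ℝ), (-73823759 / 4194304 : ℝ), (-76238409 / 4194304 : ℝ), (-336383383 / 1073741824 : ℝ)⟩

/-- A chord cell of a link. -/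
noncomputable def P16C7 : Cell := ⟨(68993 / 262144 : ℝ), (8969 / 32768 : ℝ), (-35845915 / 2097152 : ℝ), (-70430445 / 4194304 : ℝ), (-36041485 / 2097152 : ℝ), (-323767767 / 1073741824 : ℝ)⟩

/-- A chord cell of a link. -/
noncomputable def P16C8 : Cell := ⟨(8969 / 32768 : ℝ), (74623 / 262144 : ℝ), (-4401443 / 262144 : ℝ), (-34580763 / 2097152 : ℝ), (-16985915 / 1048576 : ℝ), (-482013527 / 1073741824 : ℝ)⟩

/-- A chord cell of a link. -/
noncomputable def P16C9 : Cell := ⟨(74623 / 262144 : ℝ), (77607 / 262144 : ℝ), (-34760271 / 2097152 : ℝ), (-67680163 / 4194304 : ℝ), (-63830749 / 4194304 : ℝ), (-651918451 / 1073741824 : ℝ)⟩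

/-- A chord cell of a link. -/
noncomputable def P16C10 : Cell := ⟨(77607 / 262144 : ℝ), (78643 / 262144 : ℝ), (-34075229 / 2097152 : ℝ), (-65157977 / 4194304 : ℝ), (-15277385 / 1048576 : ℝ), (-639963743 / 1073741824 : ℝ)⟩

/-- The chord cells of a link. -/
noncomputable def cellsP16 : List Cell := [P16C0, P16C1, P16C2, P16C3, P16C4, P16C5, P16C6, P16C7, P16C8, P16C9, P16C10]

lemma hcoverP16 : ∀ x : ℝ, (52429 / 262144 : ℝ) ≤ x → x ≤ (78643 / 262144 : ℝ) → ∃ D ∈ cellsP16, D.l ≤ x ∧ x ≤ D.u := by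
  refine cover_of_chain ?_ (by norm_num [P16C0])
  simp only [ChainP, P16C0, P16C1, P16C2, P16C3, P16C4, P16C5, P16C6, P16C7, P16C8, P16C9, P16C10]
  norm_num

lemma rP16C0 : ∃ N : ℝ, Rw4 P.r2 N (coCell (15129 / 2048 : ℝ) (19259 / 2048 : ℝ) (12 : ℝ) 0 P16C0) := by
  refine ⟨(3221225472 : ℝ), ⟨Q137, List.mem_cons_of_mem _ (List.mem_cons_of_mem _ (List.mem_cons_of_mem _ (List.mem_cons_of_mem _ (List.mem_cons_of_mem _ (List.mem_cons_of_mem _ (List.mem_cons_of_mem _ (List.mem_cons_of_mem _ (List.mem_cons_of_mem _ (List.mem_cons_of_mem _ (List.mem_cons_of_mem _ (List.mem_cons_of_mem _ (List.mem_cons_of_mem _ (List.mem_cons_of_mem _ (List.mem_cons_of_mem _ (List.mem_cons_of_mem _ (List.mem_cons_of_mem _ (List.mem_cons_of_mem _ (List.mem_cons_of_mem _ (List.mem_cons_of_mem _ (List.mem_cons_of_mem _ (List.mem_cons_of_mem _ (List.mem_cons_of_mem _ (List.mem_cons_of_mem _ (List.mem_cons_of_mem _ (List.mem_cons_of_mem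 _ (List.mem_cons_of_mem _ (List.mem_cons_of_mem _ (List.mem_cons_of_mem _ (List.mem_cons_of_mem _ (List.mem_cons_of_mem _ (List.mem_cons_of_mem _ (List.mem_cons_of_mem _ (List.mem_cons_of_mem _ (List.mem_cons_of_mem _ (List.mem_cons_of_mem _ (List.mem_cons_of_mem _ (List.mem_cons_of_mem _ (List.mem_cons_of_mem _ (List.mem_cons_of_mem _ (List.mem_cons_of_mem _ (List.mem_cons_of_mem _ (List.mem_cons_of_mem _ (List.mem_cons_of_mem _ (List.mem_cons_of_mem _ (List.mem_cons_of_mem _ (List.mem_cons_of_mem _ (List.mem_cons_of_mem _ (List.mem_cons_of_mem _ (List.mem_cons_of_mem _ (List.mem_cons_of_mem _ (List.mem_cons_of_mem _ (List.mem_cons_of_mem _ (List.mem_cons_of_mem _ (List.mem_cons_of_mem _ (List.mem_cons_of_mem _ (List.mem_cons_of_mem _ (List.mem_cons_of_mem _ (List.mem_cons_of_mem _ (List.mem_cons_of_mem _ (List.mem_cons_of_mem _ (List.mem_cons_of_mem _ (List.mem_cons_of_mem _ (List.mem_cons_of_mem _ (List.mem_cons_of_mem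 _ (List.mem_cons_of_mem _ (List.mem_cons_of_mem _ (List.mem_cons_of_mem _ (List.mem_cons_of_mem _ (List.mem_cons_of_mem _ (List.mem_cons_of_mem _ (List.mem_cons_of_mem _ (List.mem_cons_of_mem _ (List.mem_cons_of_mem _ (List.mem_cons_of_mem _ (List.mem_cons_of_mem _ (List.mem_cons_of_mem _ (List.mem_cons_of_mem _ (List.mem_cons_of_mem _ (List.mem_cons_of_mem _ (List.mem_cons_of_mem _ (List.mem_cons_of_mem _ (List.mem_cons_of_mem _ (List.mem_cons_of_mem _ (List.mem_cons_of_mem _ (List.mem_cons_of_mem _ (List.mem_cons_of_mem _ (List.mem_cons_of_mem _ (List.mem_cons_of_mem _ (List.mem_cons_of_mem _ (List.mem_cons_of_mem _ (List.mem_cons_of_mem _ (List.mem_cons_of_mem _ (List.mem_cons_of_mem _ (List.mem_cons_of_mem _ (List.mem_cons_of_mem _ (List.mem_cons_of_mem _ (List.mem_cons_of_mem _ (List.mem_cons_of_mem _ (List.mem_cons_of_mem _ (List.mem_cons_of_mem _ (List.mem_cons_of_mem _ (List.mem_cons_of_mem _ (List.mem_cons_of_mem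 _ (List.mem_cons_of_mem _ (List.mem_cons_of_mem _ (List.mem_cons_of_mem _ (List.mem_cons_of_mem _ (List.mem_cons_of_mem _ (List.mem_cons_of_mem _ (List.mem_cons_of_mem _ (List.mem_cons_of_mem _ (List.mem_cons_of_mem _ (List.mem_cons_of_mem _ (List.mem_cons_of_mem _ (List.mem_cons_of_mem _ (List.mem_cons_of_mem _ (List.mem_cons_of_mem _ (List.mem_cons_of_mem _ (List.mem_cons_of_mem _ (List.mem_cons_of_mem _ (List.mem_cons_of_mem _ (List.mem_cons_of_mem _ (List.mem_cons_of_mem _ (List.mem_cons_of_mem _ (List.mem_cons_of_mem _ (List.mem_cons_of_mem _ (List.mem_cons_of_mem _ (List.mem_cons_of_mem _ (List.mem_cons_of_mem _ (List.mem_cons_of_mem _ (List.mem_cons_of_mem _ (List.mem_cons_of_mem _ (List.mem_cons_of_mem _ (List.mem_cons_of_mem _ (List.mem_cons_of_mem _ (List.mem_cons_of_mem _ (List.mem_cons_self))))))))))))))))))))))))))))))))))))))))))))))))))))))))))))))))))))))))))))))))))))))))))))))))))))))))))))))))))))))))))))))))))))))))),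 ?_⟩, by norm_num⟩
  constructor <;> norm_num [Q137, coCell, P16C0]

lemma lP16C0 : ∀ x1 x2 xc : ℝ, 0 ≤ x1 → x1 ≤ 1 → 0 ≤ x2 → x2 ≤ 1 → P16C0.l ≤ xc → xc ≤ P16C0.u →
    (15129 / 2048 : ℝ) * (1 - (1 - x1) ^ 5) + (19259 / 2048 : ℝ) * (1 - (1 - x2) ^ 5) - (12 : ℝ) * (1 - (1 - xc) ^ 5) + (1 / 1073741824 : ℝ)
      ≤ - P16C0.a1 * x1 - P16C0.a2 * x2 + P16C0.e * xc + P16C0.f := by
  have h := cell_lines_delta 5 (α1 := (15129 / 2048 : ℝ)) (α2 := (19259 / 2048 : ℝ)) (c := (12 : ℝ)) (y1 := (35999 / 262144 : ℝ)) (y2 := (11367 / 65536 : ℝ))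
    (A1 := (42901103 / 2097152 : ℝ)) (B1 := (35180007 / 33554432 : ℝ)) (A2 := (92048611 / 4194304 : ℝ)) (B2 := (264329311 / 134217728 : ℝ)) (l := (52429 / 262144 : ℝ)) (u := (27263 / 131072 : ℝ))
    (E := (-101037903 / 4194304 : ℝ)) (F := (-436204625 / 134217728 : ℝ)) (δ := (1 / 1073741824 : ℝ)) (by norm_num) (by norm_num) (by norm_num) (by norm_num) (by norm_num)
    (by norm_num) (by norm_num) (by norm_num) (by norm_num) (by norm_num) (by norm_num) (by norm_num) (by norm_num) (by norm_num) (by norm_num)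
  have e1 : P16C0.l = (52429 / 262144 : ℝ) := rfl
  have e2 : P16C0.u = (27263 / 131072 : ℝ) := rfl
  have e3 : P16C0.a1 = -(42901103 / 2097152 : ℝ) := by norm_num [P16C0]
  have e4 : P16C0.a2 = -(92048611 / 4194304 : ℝ) := by norm_num [P16C0]
  have e5 : P16C0.e = (-101037903 / 4194304 : ℝ) := rfl
  have e6 : P16C0.f = (35180007 / 33554432 : ℝ) + (264329311 / 134217728 : ℝ) + (-436204625 / 134217728 : ℝ) + (1 / 1073741824 : ℝ) := by norm_num [P16C0]
  rw [e1, e2, e3, e4, e5, e6]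
  exact h

lemma rP16C1 : ∃ N : ℝ, Rw4 P.r2 N (coCell (15129 / 2048 : ℝ) (19259 / 2048 : ℝ) (12 : ℝ) 0 P16C1) := by
  refine ⟨(3221225472 : ℝ), ⟨Q138, List.mem_cons_of_mem _ (List.mem_cons_of_mem _ (List.mem_cons_of_mem _ (List.mem_cons_of_mem _ (List.mem_cons_of_mem _ (List.mem_cons_of_mem _ (List.mem_cons_of_mem _ (List.mem_cons_of_mem _ (List.mem_cons_of_mem _ (List.mem_cons_of_mem _ (List.mem_cons_of_mem _ (List.mem_cons_of_mem _ (List.mem_cons_of_mem _ (List.mem_cons_of_mem _ (List.mem_cons_of_mem _ (List.mem_cons_of_mem _ (List.mem_cons_of_mem _ (List.mem_cons_of_mem _ (List.mem_cons_of_mem _ (List.mem_cons_of_mem _ (List.mem_cons_of_mem _ (List.mem_cons_of_mem _ (List.mem_cons_of_mem _ (List.mem_cons_of_mem _ (List.mem_cons_of_mem _ (List.mem_cons_of_mem _ (List.mem_cons_of_mem _ (List.mem_cons_of_mem _ (List.mem_cons_of_mem _ (List.mem_cons_of_mem _ (List.mem_cons_of_mem _ (List.mem_cons_of_mem _ (List.mem_cons_of_mem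 _ (List.mem_cons_of_mem _ (List.mem_cons_of_mem _ (List.mem_cons_of_mem _ (List.mem_cons_of_mem _ (List.mem_cons_of_mem _ (List.mem_cons_of_mem _ (List.mem_cons_of_mem _ (List.mem_cons_of_mem _ (List.mem_cons_of_mem _ (List.mem_cons_of_mem _ (List.mem_cons_of_mem _ (List.mem_cons_of_mem _ (List.mem_cons_of_mem _ (List.mem_cons_of_mem _ (List.mem_cons_of_mem _ (List.mem_cons_of_mem _ (List.mem_cons_of_mem _ (List.mem_cons_of_mem _ (List.mem_cons_of_mem _ (List.mem_cons_of_mem _ (List.mem_cons_of_mem _ (List.mem_cons_of_mem _ (List.mem_cons_of_mem _ (List.mem_cons_of_mem _ (List.mem_cons_of_mem _ (List.mem_cons_of_mem _ (List.mem_cons_of_mem _ (List.mem_cons_of_mem _ (List.mem_cons_of_mem _ (List.mem_cons_of_mem _ (List.mem_cons_of_mem _ (List.mem_cons_of_mem _ (List.mem_cons_of_mem _ (List.mem_cons_of_mem _ (List.mem_cons_of_mem _ (List.mem_cons_of_mem _ (List.mem_cons_of_mem _ (List.mem_cons_of_mem _ (List.mem_cons_of_mem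 _ (List.mem_cons_of_mem _ (List.mem_cons_of_mem _ (List.mem_cons_of_mem _ (List.mem_cons_of_mem _ (List.mem_cons_of_mem _ (List.mem_cons_of_mem _ (List.mem_cons_of_mem _ (List.mem_cons_of_mem _ (List.mem_cons_of_mem _ (List.mem_cons_of_mem _ (List.mem_cons_of_mem _ (List.mem_cons_of_mem _ (List.mem_cons_of_mem _ (List.mem_cons_of_mem _ (List.mem_cons_of_mem _ (List.mem_cons_of_mem _ (List.mem_cons_of_mem _ (List.mem_cons_of_mem _ (List.mem_cons_of_mem _ (List.mem_cons_of_mem _ (List.mem_cons_of_mem _ (List.mem_cons_of_mem _ (List.mem_cons_of_mem _ (List.mem_cons_of_mem _ (List.mem_cons_of_mem _ (List.mem_cons_of_mem _ (List.mem_cons_of_mem _ (List.mem_cons_of_mem _ (List.mem_cons_of_mem _ (List.mem_cons_of_mem _ (List.mem_cons_of_mem _ (List.mem_cons_of_mem _ (List.mem_cons_of_mem _ (List.mem_cons_of_mem _ (List.mem_cons_of_mem _ (List.mem_cons_of_mem _ (List.mem_cons_of_mem _ (List.mem_cons_of_mem _ (List.mem_cons_of_mem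 _ (List.mem_cons_of_mem _ (List.mem_cons_of_mem _ (List.mem_cons_of_mem _ (List.mem_cons_of_mem _ (List.mem_cons_of_mem _ (List.mem_cons_of_mem _ (List.mem_cons_of_mem _ (List.mem_cons_of_mem _ (List.mem_cons_of_mem _ (List.mem_cons_of_mem _ (List.mem_cons_of_mem _ (List.mem_cons_of_mem _ (List.mem_cons_of_mem _ (List.mem_cons_of_mem _ (List.mem_cons_of_mem _ (List.mem_cons_of_mem _ (List.mem_cons_of_mem _ (List.mem_cons_of_mem _ (List.mem_cons_of_mem _ (List.mem_cons_of_mem _ (List.mem_cons_of_mem _ (List.mem_cons_of_mem _ (List.mem_cons_of_mem _ (List.mem_cons_of_mem _ (List.mem_cons_of_mem _ (List.mem_cons_of_mem _ (List.mem_cons_of_mem _ (List.mem_cons_self)))))))))))))))))))))))))))))))))))))))))))))))))))))))))))))))))))))))))))))))))))))))))))))))))))))))))))))))))))))))))))))))))))))))))), ?_⟩, by norm_num⟩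
  constructor <;> norm_num [Q138, coCell, P16C1]

lemma lP16C1 : ∀ x1 x2 xc : ℝ, 0 ≤ x1 → x1 ≤ 1 → 0 ≤ x2 → x2 ≤ 1 → P16C1.l ≤ xc → xc ≤ P16C1.u →
    (15129 / 2048 : ℝ) * (1 - (1 - x1) ^ 5) + (19259 / 2048 : ℝ) * (1 - (1 - x2) ^ 5) - (12 : ℝ) * (1 - (1 - xc) ^ 5) + (1 / 1073741824 : ℝ)
      ≤ - P16C1.a1 * x1 - P16C1.a2 * x2 + P16C1.e * xc + P16C1.f := by
  have h := cell_lines_delta 5 (α1 := (15129 / 2048 : ℝ)) (α2 := (19259 / 2048 : ℝ)) (c := (12 : ℝ)) (y1 := (38237 / 262144 : ℝ)) (y2 := (23429 / 131072 : ℝ))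
    (A1 := (41227897 / 2097152 : ℝ)) (B1 := (311760735 / 268435456 : ℝ)) (A2 := (22427309 / 1048576 : ℝ)) (B2 := (555022711 / 268435456 : ℝ)) (l := (27263 / 131072 : ℝ)) (u := (56707 / 262144 : ℝ))
    (E := (-96958801 / 4194304 : ℝ)) (F := (-926710303 / 268435456 : ℝ)) (δ := (1 / 1073741824 : ℝ)) (by norm_num) (by norm_num) (by norm_num) (by norm_num) (by norm_num)
    (by norm_num) (by norm_num) (by norm_num) (by norm_num) (by norm_num) (by norm_num) (by norm_num) (by norm_num) (by norm_num) (by norm_num)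
  have e1 : P16C1.l = (27263 / 131072 : ℝ) := rfl
  have e2 : P16C1.u = (56707 / 262144 : ℝ) := rfl
  have e3 : P16C1.a1 = -(41227897 / 2097152 : ℝ) := by norm_num [P16C1]
  have e4 : P16C1.a2 = -(22427309 / 1048576 : ℝ) := by norm_num [P16C1]
  have e5 : P16C1.e = (-96958801 / 4194304 : ℝ) := rfl
  have e6 : P16C1.f = (311760735 / 268435456 : ℝ) + (555022711 / 268435456 : ℝ) + (-926710303 / 268435456 : ℝ) + (1 / 1073741824 : ℝ) := by norm_num [P16C1]
  rw [e1, e2, e3, e4, e5, e6]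
  exact h

lemma rP16C2 : ∃ N : ℝ, Rw4 P.r2 N (coCell (15129 / 2048 : ℝ) (19259 / 2048 : ℝ) (12 : ℝ) 0 P16C2) := by
  refine ⟨(3221225472 : ℝ), ⟨Q139, List.mem_cons_of_mem _ (List.mem_cons_of_mem _ (List.mem_cons_of_mem _ (List.mem_cons_of_mem _ (List.mem_cons_of_mem _ (List.mem_cons_of_mem _ (List.mem_cons_of_mem _ (List.mem_cons_of_mem _ (List.mem_cons_of_mem _ (List.mem_cons_of_mem _ (List.mem_cons_of_mem _ (List.mem_cons_of_mem _ (List.mem_cons_of_mem _ (List.mem_cons_of_mem _ (List.mem_cons_of_mem _ (List.mem_cons_of_mem _ (List.mem_cons_of_mem _ (List.mem_cons_of_mem _ (List.mem_cons_of_mem _ (List.mem_cons_of_mem _ (List.mem_cons_of_mem _ (List.mem_cons_of_mem _ (List.mem_cons_of_mem _ (List.mem_cons_of_mem _ (List.mem_cons_of_mem _ (List.mem_cons_of_mem _ (List.mem_cons_of_mem _ (List.mem_cons_of_mem _ (List.mem_cons_of_mem _ (List.mem_cons_of_mem _ (List.mem_cons_of_mem _ (List.mem_cons_of_mem _ (List.mem_cons_of_mem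 _ (List.mem_cons_of_mem _ (List.mem_cons_of_mem _ (List.mem_cons_of_mem _ (List.mem_cons_of_mem _ (List.mem_cons_of_mem _ (List.mem_cons_of_mem _ (List.mem_cons_of_mem _ (List.mem_cons_of_mem _ (List.mem_cons_of_mem _ (List.mem_cons_of_mem _ (List.mem_cons_of_mem _ (List.mem_cons_of_mem _ (List.mem_cons_of_mem _ (List.mem_cons_of_mem _ (List.mem_cons_of_mem _ (List.mem_cons_of_mem _ (List.mem_cons_of_mem _ (List.mem_cons_of_mem _ (List.mem_cons_of_mem _ (List.mem_cons_of_mem _ (List.mem_cons_of_mem _ (List.mem_cons_of_mem _ (List.mem_cons_of_mem _ (List.mem_cons_of_mem _ (List.mem_cons_of_mem _ (List.mem_cons_of_mem _ (List.mem_cons_of_mem _ (List.mem_cons_of_mem _ (List.mem_cons_of_mem _ (List.mem_cons_of_mem _ (List.mem_cons_of_mem _ (List.mem_cons_of_mem _ (List.mem_cons_of_mem _ (List.mem_cons_of_mem _ (List.mem_cons_of_mem _ (List.mem_cons_of_mem _ (List.mem_cons_of_mem _ (List.mem_cons_of_mem _ (List.mem_cons_of_mem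 _ (List.mem_cons_of_mem _ (List.mem_cons_of_mem _ (List.mem_cons_of_mem _ (List.mem_cons_of_mem _ (List.mem_cons_of_mem _ (List.mem_cons_of_mem _ (List.mem_cons_of_mem _ (List.mem_cons_of_mem _ (List.mem_cons_of_mem _ (List.mem_cons_of_mem _ (List.mem_cons_of_mem _ (List.mem_cons_of_mem _ (List.mem_cons_of_mem _ (List.mem_cons_of_mem _ (List.mem_cons_of_mem _ (List.mem_cons_of_mem _ (List.mem_cons_of_mem _ (List.mem_cons_of_mem _ (List.mem_cons_of_mem _ (List.mem_cons_of_mem _ (List.mem_cons_of_mem _ (List.mem_cons_of_mem _ (List.mem_cons_of_mem _ (List.mem_cons_of_mem _ (List.mem_cons_of_mem _ (List.mem_cons_of_mem _ (List.mem_cons_of_mem _ (List.mem_cons_of_mem _ (List.mem_cons_of_mem _ (List.mem_cons_of_mem _ (List.mem_cons_of_mem _ (List.mem_cons_of_mem _ (List.mem_cons_of_mem _ (List.mem_cons_of_mem _ (List.mem_cons_of_mem _ (List.mem_cons_of_mem _ (List.mem_cons_of_mem _ (List.mem_cons_of_mem _ (List.mem_cons_of_mem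 _ (List.mem_cons_of_mem _ (List.mem_cons_of_mem _ (List.mem_cons_of_mem _ (List.mem_cons_of_mem _ (List.mem_cons_of_mem _ (List.mem_cons_of_mem _ (List.mem_cons_of_mem _ (List.mem_cons_of_mem _ (List.mem_cons_of_mem _ (List.mem_cons_of_mem _ (List.mem_cons_of_mem _ (List.mem_cons_of_mem _ (List.mem_cons_of_mem _ (List.mem_cons_of_mem _ (List.mem_cons_of_mem _ (List.mem_cons_of_mem _ (List.mem_cons_of_mem _ (List.mem_cons_of_mem _ (List.mem_cons_of_mem _ (List.mem_cons_of_mem _ (List.mem_cons_of_mem _ (List.mem_cons_of_mem _ (List.mem_cons_of_mem _ (List.mem_cons_of_mem _ (List.mem_cons_of_mem _ (List.mem_cons_of_mem _ (List.mem_cons_of_mem _ (List.mem_cons_of_mem _ (List.mem_cons_self))))))))))))))))))))))))))))))))))))))))))))))))))))))))))))))))))))))))))))))))))))))))))))))))))))))))))))))))))))))))))))))))))))))))))), ?_⟩, by norm_num⟩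
  constructor <;> norm_num [Q139, coCell, P16C2]

lemma lP16C2 : ∀ x1 x2 xc : ℝ, 0 ≤ x1 → x1 ≤ 1 → 0 ≤ x2 → x2 ≤ 1 → P16C2.l ≤ xc → xc ≤ P16C2.u →
    (15129 / 2048 : ℝ) * (1 - (1 - x1) ^ 5) + (19259 / 2048 : ℝ) * (1 - (1 - x2) ^ 5) - (12 : ℝ) * (1 - (1 - xc) ^ 5) + (1 / 1073741824 : ℝ)
      ≤ - P16C2.a1 * x1 - P16C2.a2 * x2 + P16C2.e * xc + P16C2.f := by
  have h := cell_lines_delta 5 (α1 := (15129 / 2048 : ℝ)) (α2 := (19259 / 2048 : ℝ)) (c := (12 : ℝ)) (y1 := (9693 / 65536 : ℝ)) (y2 := (24753 / 131072 : ℝ))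
    (A1 := (81670539 / 4194304 : ℝ)) (B1 := (319142479 / 268435456 : ℝ)) (A2 := (85376337 / 4194304 : ℝ)) (B2 := (605982729 / 268435456 : ℝ)) (l := (56707 / 262144 : ℝ)) (u := (58975 / 262144 : ℝ))
    (E := (-46424497 / 2097152 : ℝ)) (F := (-491804227 / 134217728 : ℝ)) (δ := (1 / 1073741824 : ℝ)) (by norm_num) (by norm_num) (by norm_num) (by norm_num) (by norm_num)
    (by norm_num) (by norm_num) (by norm_num) (by norm_num) (by norm_num) (by norm_num) (by norm_num) (by norm_num) (by norm_num) (by norm_num)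
  have e1 : P16C2.l = (56707 / 262144 : ℝ) := rfl
  have e2 : P16C2.u = (58975 / 262144 : ℝ) := rfl
  have e3 : P16C2.a1 = -(81670539 / 4194304 : ℝ) := by norm_num [P16C2]
  have e4 : P16C2.a2 = -(85376337 / 4194304 : ℝ) := by norm_num [P16C2]
  have e5 : P16C2.e = (-46424497 / 2097152 : ℝ) := rfl
  have e6 : P16C2.f = (319142479 / 268435456 : ℝ) + (605982729 / 268435456 : ℝ) + (-491804227 / 134217728 : ℝ) + (1 / 1073741824 : ℝ) := by norm_num [P16C2]
  rw [e1, e2, e3, e4, e5, e6]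
  exact h

lemma rP16C3 : ∃ N : ℝ, Rw4 P.r2 N (coCell (15129 / 2048 : ℝ) (19259 / 2048 : ℝ) (12 : ℝ) 0 P16C3) := by
  refine ⟨(3221225472 : ℝ), ⟨Q140, List.mem_cons_of_mem _ (List.mem_cons_of_mem _ (List.mem_cons_of_mem _ (List.mem_cons_of_mem _ (List.mem_cons_of_mem _ (List.mem_cons_of_mem _ (List.mem_cons_of_mem _ (List.mem_cons_of_mem _ (List.mem_cons_of_mem _ (List.mem_cons_of_mem _ (List.mem_cons_of_mem _ (List.mem_cons_of_mem _ (List.mem_cons_of_mem _ (List.mem_cons_of_mem _ (List.mem_cons_of_mem _ (List.mem_cons_of_mem _ (List.mem_cons_of_mem _ (List.mem_cons_of_mem _ (List.mem_cons_of_mem _ (List.mem_cons_of_mem _ (List.mem_cons_of_mem _ (List.mem_cons_of_mem _ (List.mem_cons_of_mem _ (List.mem_cons_of_mem _ (List.mem_cons_of_mem _ (List.mem_cons_of_mem _ (List.mem_cons_of_mem _ (List.mem_cons_of_mem _ (List.mem_cons_of_mem _ (List.mem_cons_of_mem _ (List.mem_cons_of_mem _ (List.mem_cons_of_mem _ (List.mem_cons_of_mem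 _ (List.mem_cons_of_mem _ (List.mem_cons_of_mem _ (List.mem_cons_of_mem _ (List.mem_cons_of_mem _ (List.mem_cons_of_mem _ (List.mem_cons_of_mem _ (List.mem_cons_of_mem _ (List.mem_cons_of_mem _ (List.mem_cons_of_mem _ (List.mem_cons_of_mem _ (List.mem_cons_of_mem _ (List.mem_cons_of_mem _ (List.mem_cons_of_mem _ (List.mem_cons_of_mem _ (List.mem_cons_of_mem _ (List.mem_cons_of_mem _ (List.mem_cons_of_mem _ (List.mem_cons_of_mem _ (List.mem_cons_of_mem _ (List.mem_cons_of_mem _ (List.mem_cons_of_mem _ (List.mem_cons_of_mem _ (List.mem_cons_of_mem _ (List.mem_cons_of_mem _ (List.mem_cons_of_mem _ (List.mem_cons_of_mem _ (List.mem_cons_of_mem _ (List.mem_cons_of_mem _ (List.mem_cons_of_mem _ (List.mem_cons_of_mem _ (List.mem_cons_of_mem _ (List.mem_cons_of_mem _ (List.mem_cons_of_mem _ (List.mem_cons_of_mem _ (List.mem_cons_of_mem _ (List.mem_cons_of_mem _ (List.mem_cons_of_mem _ (List.mem_cons_of_mem _ (List.mem_cons_of_mem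 _ (List.mem_cons_of_mem _ (List.mem_cons_of_mem _ (List.mem_cons_of_mem _ (List.mem_cons_of_mem _ (List.mem_cons_of_mem _ (List.mem_cons_of_mem _ (List.mem_cons_of_mem _ (List.mem_cons_of_mem _ (List.mem_cons_of_mem _ (List.mem_cons_of_mem _ (List.mem_cons_of_mem _ (List.mem_cons_of_mem _ (List.mem_cons_of_mem _ (List.mem_cons_of_mem _ (List.mem_cons_of_mem _ (List.mem_cons_of_mem _ (List.mem_cons_of_mem _ (List.mem_cons_of_mem _ (List.mem_cons_of_mem _ (List.mem_cons_of_mem _ (List.mem_cons_of_mem _ (List.mem_cons_of_mem _ (List.mem_cons_of_mem _ (List.mem_cons_of_mem _ (List.mem_cons_of_mem _ (List.mem_cons_of_mem _ (List.mem_cons_of_mem _ (List.mem_cons_of_mem _ (List.mem_cons_of_mem _ (List.mem_cons_of_mem _ (List.mem_cons_of_mem _ (List.mem_cons_of_mem _ (List.mem_cons_of_mem _ (List.mem_cons_of_mem _ (List.mem_cons_of_mem _ (List.mem_cons_of_mem _ (List.mem_cons_of_mem _ (List.mem_cons_of_mem _ (List.mem_cons_of_mem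 _ (List.mem_cons_of_mem _ (List.mem_cons_of_mem _ (List.mem_cons_of_mem _ (List.mem_cons_of_mem _ (List.mem_cons_of_mem _ (List.mem_cons_of_mem _ (List.mem_cons_of_mem _ (List.mem_cons_of_mem _ (List.mem_cons_of_mem _ (List.mem_cons_of_mem _ (List.mem_cons_of_mem _ (List.mem_cons_of_mem _ (List.mem_cons_of_mem _ (List.mem_cons_of_mem _ (List.mem_cons_of_mem _ (List.mem_cons_of_mem _ (List.mem_cons_of_mem _ (List.mem_cons_of_mem _ (List.mem_cons_of_mem _ (List.mem_cons_of_mem _ (List.mem_cons_of_mem _ (List.mem_cons_of_mem _ (List.mem_cons_of_mem _ (List.mem_cons_of_mem _ (List.mem_cons_of_mem _ (List.mem_cons_of_mem _ (List.mem_cons_of_mem _ (List.mem_cons_of_mem _ (List.mem_cons_of_mem _ (List.mem_cons_self)))))))))))))))))))))))))))))))))))))))))))))))))))))))))))))))))))))))))))))))))))))))))))))))))))))))))))))))))))))))))))))))))))))))))))), ?_⟩, by norm_num⟩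
  constructor <;> norm_num [Q140, coCell, P16C3]

lemma lP16C3 : ∀ x1 x2 xc : ℝ, 0 ≤ x1 → x1 ≤ 1 → 0 ≤ x2 → x2 ≤ 1 → P16C3.l ≤ xc → xc ≤ P16C3.u →
    (15129 / 2048 : ℝ) * (1 - (1 - x1) ^ 5) + (19259 / 2048 : ℝ) * (1 - (1 - x2) ^ 5) - (12 : ℝ) * (1 - (1 - xc) ^ 5) + (1 / 1073741824 : ℝ)
      ≤ - P16C3.a1 * x1 - P16C3.a2 * x2 + P16C3.e * xc + P16C3.f := by
  have h := cell_lines_delta 5 (α1 := (15129 / 2048 : ℝ)) (α2 := (19259 / 2048 : ℝ)) (c := (12 : ℝ)) (y1 := (19929 / 131072 : ℝ)) (y2 := (50861 / 262144 : ℝ))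
    (A1 := (80093807 / 4194304 : ℝ)) (B1 := (167138025 / 134217728 : ℝ)) (A2 := (650163 / 32768 : ℝ)) (B2 := (632390087 / 268435456 : ℝ)) (l := (58975 / 262144 : ℝ)) (u := (30667 / 131072 : ℝ))
    (E := (-88714837 / 4194304 : ℝ)) (F := (-521566423 / 134217728 : ℝ)) (δ := (1 / 1073741824 : ℝ)) (by norm_num) (by norm_num) (by norm_num) (by norm_num) (by norm_num)
    (by norm_num) (by norm_num) (by norm_num) (by norm_num) (by norm_num) (by norm_num) (by norm_num) (by norm_num) (by norm_num) (by norm_num)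
  have e1 : P16C3.l = (58975 / 262144 : ℝ) := rfl
  have e2 : P16C3.u = (30667 / 131072 : ℝ) := rfl
  have e3 : P16C3.a1 = -(80093807 / 4194304 : ℝ) := by norm_num [P16C3]
  have e4 : P16C3.a2 = -(650163 / 32768 : ℝ) := by norm_num [P16C3]
  have e5 : P16C3.e = (-88714837 / 4194304 : ℝ) := rfl
  have e6 : P16C3.f = (167138025 / 134217728 : ℝ) + (632390087 / 268435456 : ℝ) + (-521566423 / 134217728 : ℝ) + (1 / 1073741824 : ℝ) := by norm_num [P16C3]
  rw [e1, e2, e3, e4, e5, e6]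
  exact h

lemma rP16C4 : ∃ N : ℝ, Rw4 P.r2 N (coCell (15129 / 2048 : ℝ) (19259 / 2048 : ℝ) (12 : ℝ) 0 P16C4) := by
  refine ⟨(3221225472 : ℝ), ⟨Q141, List.mem_cons_of_mem _ (List.mem_cons_of_mem _ (List.mem_cons_of_mem _ (List.mem_cons_of_mem _ (List.mem_cons_of_mem _ (List.mem_cons_of_mem _ (List.mem_cons_of_mem _ (List.mem_cons_of_mem _ (List.mem_cons_of_mem _ (List.mem_cons_of_mem _ (List.mem_cons_of_mem _ (List.mem_cons_of_mem _ (List.mem_cons_of_mem _ (List.mem_cons_of_mem _ (List.mem_cons_of_mem _ (List.mem_cons_of_mem _ (List.mem_cons_of_mem _ (List.mem_cons_of_mem _ (List.mem_cons_of_mem _ (List.mem_cons_of_mem _ (List.mem_cons_of_mem _ (List.mem_cons_of_mem _ (List.mem_cons_of_mem _ (List.mem_cons_of_mem _ (List.mem_cons_of_mem _ (List.mem_cons_of_mem _ (List.mem_cons_of_mem _ (List.mem_cons_of_mem _ (List.mem_cons_of_mem _ (List.mem_cons_of_mem _ (List.mem_cons_of_mem _ (List.mem_cons_of_mem _ (List.mem_cons_of_mem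 _ (List.mem_cons_of_mem _ (List.mem_cons_of_mem _ (List.mem_cons_of_mem _ (List.mem_cons_of_mem _ (List.mem_cons_of_mem _ (List.mem_cons_of_mem _ (List.mem_cons_of_mem _ (List.mem_cons_of_mem _ (List.mem_cons_of_mem _ (List.mem_cons_of_mem _ (List.mem_cons_of_mem _ (List.mem_cons_of_mem _ (List.mem_cons_of_mem _ (List.mem_cons_of_mem _ (List.mem_cons_of_mem _ (List.mem_cons_of_mem _ (List.mem_cons_of_mem _ (List.mem_cons_of_mem _ (List.mem_cons_of_mem _ (List.mem_cons_of_mem _ (List.mem_cons_of_mem _ (List.mem_cons_of_mem _ (List.mem_cons_of_mem _ (List.mem_cons_of_mem _ (List.mem_cons_of_mem _ (List.mem_cons_of_mem _ (List.mem_cons_of_mem _ (List.mem_cons_of_mem _ (List.mem_cons_of_mem _ (List.mem_cons_of_mem _ (List.mem_cons_of_mem _ (List.mem_cons_of_mem _ (List.mem_cons_of_mem _ (List.mem_cons_of_mem _ (List.mem_cons_of_mem _ (List.mem_cons_of_mem _ (List.mem_cons_of_mem _ (List.mem_cons_of_mem _ (List.mem_cons_of_mem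 _ (List.mem_cons_of_mem _ (List.mem_cons_of_mem _ (List.mem_cons_of_mem _ (List.mem_cons_of_mem _ (List.mem_cons_of_mem _ (List.mem_cons_of_mem _ (List.mem_cons_of_mem _ (List.mem_cons_of_mem _ (List.mem_cons_of_mem _ (List.mem_cons_of_mem _ (List.mem_cons_of_mem _ (List.mem_cons_of_mem _ (List.mem_cons_of_mem _ (List.mem_cons_of_mem _ (List.mem_cons_of_mem _ (List.mem_cons_of_mem _ (List.mem_cons_of_mem _ (List.mem_cons_of_mem _ (List.mem_cons_of_mem _ (List.mem_cons_of_mem _ (List.mem_cons_of_mem _ (List.mem_cons_of_mem _ (List.mem_cons_of_mem _ (List.mem_cons_of_mem _ (List.mem_cons_of_mem _ (List.mem_cons_of_mem _ (List.mem_cons_of_mem _ (List.mem_cons_of_mem _ (List.mem_cons_of_mem _ (List.mem_cons_of_mem _ (List.mem_cons_of_mem _ (List.mem_cons_of_mem _ (List.mem_cons_of_mem _ (List.mem_cons_of_mem _ (List.mem_cons_of_mem _ (List.mem_cons_of_mem _ (List.mem_cons_of_mem _ (List.mem_cons_of_mem _ (List.mem_cons_of_mem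 _ (List.mem_cons_of_mem _ (List.mem_cons_of_mem _ (List.mem_cons_of_mem _ (List.mem_cons_of_mem _ (List.mem_cons_of_mem _ (List.mem_cons_of_mem _ (List.mem_cons_of_mem _ (List.mem_cons_of_mem _ (List.mem_cons_of_mem _ (List.mem_cons_of_mem _ (List.mem_cons_of_mem _ (List.mem_cons_of_mem _ (List.mem_cons_of_mem _ (List.mem_cons_of_mem _ (List.mem_cons_of_mem _ (List.mem_cons_of_mem _ (List.mem_cons_of_mem _ (List.mem_cons_of_mem _ (List.mem_cons_of_mem _ (List.mem_cons_of_mem _ (List.mem_cons_of_mem _ (List.mem_cons_of_mem _ (List.mem_cons_of_mem _ (List.mem_cons_of_mem _ (List.mem_cons_of_mem _ (List.mem_cons_of_mem _ (List.mem_cons_of_mem _ (List.mem_cons_of_mem _ (List.mem_cons_of_mem _ (List.mem_cons_of_mem _ (List.mem_cons_self))))))))))))))))))))))))))))))))))))))))))))))))))))))))))))))))))))))))))))))))))))))))))))))))))))))))))))))))))))))))))))))))))))))))))))), ?_⟩, by norm_num⟩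
  constructor <;> norm_num [Q141, coCell, P16C4]

lemma lP16C4 : ∀ x1 x2 xc : ℝ, 0 ≤ x1 → x1 ≤ 1 → 0 ≤ x2 → x2 ≤ 1 → P16C4.l ≤ xc → xc ≤ P16C4.u →
    (15129 / 2048 : ℝ) * (1 - (1 - x1) ^ 5) + (19259 / 2048 : ℝ) * (1 - (1 - x2) ^ 5) - (12 : ℝ) * (1 - (1 - xc) ^ 5) + (1 / 1073741824 : ℝ)
      ≤ - P16C4.a1 * x1 - P16C4.a2 * x2 + P16C4.e * xc + P16C4.f := by
  have h := cell_lines_delta 5 (α1 := (15129 / 2048 : ℝ)) (α2 := (19259 / 2048 : ℝ)) (c := (12 : ℝ)) (y1 := (40729 / 262144 : ℝ)) (y2 := (52669 / 262144 : ℝ))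
    (A1 := (78845815 / 4194304 : ℝ)) (B1 := (346552655 / 268435456 : ℝ)) (A2 := (80408655 / 4194304 : ℝ)) (B2 := (333963973 / 134217728 : ℝ)) (l := (30667 / 131072 : ℝ)) (u := (15947 / 65536 : ℝ))
    (E := (-42281315 / 2097152 : ℝ)) (F := (-1105308497 / 268435456 : ℝ)) (δ := (1 / 1073741824 : ℝ)) (by norm_num) (by norm_num) (by norm_num) (by norm_num) (by norm_num)
    (by norm_num) (by norm_num) (by norm_num) (by norm_num) (by norm_num) (by norm_num) (by norm_num) (by norm_num) (by norm_num) (by norm_num)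
  have e1 : P16C4.l = (30667 / 131072 : ℝ) := rfl
  have e2 : P16C4.u = (15947 / 65536 : ℝ) := rfl
  have e3 : P16C4.a1 = -(78845815 / 4194304 : ℝ) := by norm_num [P16C4]
  have e4 : P16C4.a2 = -(80408655 / 4194304 : ℝ) := by norm_num [P16C4]
  have e5 : P16C4.e = (-42281315 / 2097152 : ℝ) := rfl
  have e6 : P16C4.f = (346552655 / 268435456 : ℝ) + (333963973 / 134217728 : ℝ) + (-1105308497 / 268435456 : ℝ) + (1 / 1073741824 : ℝ) := by norm_num [P16C4]
  rw [e1, e2, e3, e4, e5, e6]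
  exact h

lemma rP16C5 : ∃ N : ℝ, Rw4 P.r2 N (coCell (15129 / 2048 : ℝ) (19259 / 2048 : ℝ) (12 : ℝ) 0 P16C5) := by
  refine ⟨(3221225472 : ℝ), ⟨Q142, List.mem_cons_of_mem _ (List.mem_cons_of_mem _ (List.mem_cons_of_mem _ (List.mem_cons_of_mem _ (List.mem_cons_of_mem _ (List.mem_cons_of_mem _ (List.mem_cons_of_mem _ (List.mem_cons_of_mem _ (List.mem_cons_of_mem _ (List.mem_cons_of_mem _ (List.mem_cons_of_mem _ (List.mem_cons_of_mem _ (List.mem_cons_of_mem _ (List.mem_cons_of_mem _ (List.mem_cons_of_mem _ (List.mem_cons_of_mem _ (List.mem_cons_of_mem _ (List.mem_cons_of_mem _ (List.mem_cons_of_mem _ (List.mem_cons_of_mem _ (List.mem_cons_of_mem _ (List.mem_cons_of_mem _ (List.mem_cons_of_mem _ (List.mem_cons_of_mem _ (List.mem_cons_of_mem _ (List.mem_cons_of_mem _ (List.mem_cons_of_mem _ (List.mem_cons_of_mem _ (List.mem_cons_of_mem _ (List.mem_cons_of_mem _ (List.mem_cons_of_mem _ (List.mem_cons_of_mem _ (List.mem_cons_of_mem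 _ (List.mem_cons_of_mem _ (List.mem_cons_of_mem _ (List.mem_cons_of_mem _ (List.mem_cons_of_mem _ (List.mem_cons_of_mem _ (List.mem_cons_of_mem _ (List.mem_cons_of_mem _ (List.mem_cons_of_mem _ (List.mem_cons_of_mem _ (List.mem_cons_of_mem _ (List.mem_cons_of_mem _ (List.mem_cons_of_mem _ (List.mem_cons_of_mem _ (List.mem_cons_of_mem _ (List.mem_cons_of_mem _ (List.mem_cons_of_mem _ (List.mem_cons_of_mem _ (List.mem_cons_of_mem _ (List.mem_cons_of_mem _ (List.mem_cons_of_mem _ (List.mem_cons_of_mem _ (List.mem_cons_of_mem _ (List.mem_cons_of_mem _ (List.mem_cons_of_mem _ (List.mem_cons_of_mem _ (List.mem_cons_of_mem _ (List.mem_cons_of_mem _ (List.mem_cons_of_mem _ (List.mem_cons_of_mem _ (List.mem_cons_of_mem _ (List.mem_cons_of_mem _ (List.mem_cons_of_mem _ (List.mem_cons_of_mem _ (List.mem_cons_of_mem _ (List.mem_cons_of_mem _ (List.mem_cons_of_mem _ (List.mem_cons_of_mem _ (List.mem_cons_of_mem _ (List.mem_cons_of_mem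 _ (List.mem_cons_of_mem _ (List.mem_cons_of_mem _ (List.mem_cons_of_mem _ (List.mem_cons_of_mem _ (List.mem_cons_of_mem _ (List.mem_cons_of_mem _ (List.mem_cons_of_mem _ (List.mem_cons_of_mem _ (List.mem_cons_of_mem _ (List.mem_cons_of_mem _ (List.mem_cons_of_mem _ (List.mem_cons_of_mem _ (List.mem_cons_of_mem _ (List.mem_cons_of_mem _ (List.mem_cons_of_mem _ (List.mem_cons_of_mem _ (List.mem_cons_of_mem _ (List.mem_cons_of_mem _ (List.mem_cons_of_mem _ (List.mem_cons_of_mem _ (List.mem_cons_of_mem _ (List.mem_cons_of_mem _ (List.mem_cons_of_mem _ (List.mem_cons_of_mem _ (List.mem_cons_of_mem _ (List.mem_cons_of_mem _ (List.mem_cons_of_mem _ (List.mem_cons_of_mem _ (List.mem_cons_of_mem _ (List.mem_cons_of_mem _ (List.mem_cons_of_mem _ (List.mem_cons_of_mem _ (List.mem_cons_of_mem _ (List.mem_cons_of_mem _ (List.mem_cons_of_mem _ (List.mem_cons_of_mem _ (List.mem_cons_of_mem _ (List.mem_cons_of_mem _ (List.mem_cons_of_mem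 _ (List.mem_cons_of_mem _ (List.mem_cons_of_mem _ (List.mem_cons_of_mem _ (List.mem_cons_of_mem _ (List.mem_cons_of_mem _ (List.mem_cons_of_mem _ (List.mem_cons_of_mem _ (List.mem_cons_of_mem _ (List.mem_cons_of_mem _ (List.mem_cons_of_mem _ (List.mem_cons_of_mem _ (List.mem_cons_of_mem _ (List.mem_cons_of_mem _ (List.mem_cons_of_mem _ (List.mem_cons_of_mem _ (List.mem_cons_of_mem _ (List.mem_cons_of_mem _ (List.mem_cons_of_mem _ (List.mem_cons_of_mem _ (List.mem_cons_of_mem _ (List.mem_cons_of_mem _ (List.mem_cons_of_mem _ (List.mem_cons_of_mem _ (List.mem_cons_of_mem _ (List.mem_cons_of_mem _ (List.mem_cons_of_mem _ (List.mem_cons_of_mem _ (List.mem_cons_of_mem _ (List.mem_cons_of_mem _ (List.mem_cons_of_mem _ (List.mem_cons_of_mem _ (List.mem_cons_self)))))))))))))))))))))))))))))))))))))))))))))))))))))))))))))))))))))))))))))))))))))))))))))))))))))))))))))))))))))))))))))))))))))))))))))), ?_⟩, by norm_num⟩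
  constructor <;> norm_num [Q142, coCell, P16C5]

lemma lP16C5 : ∀ x1 x2 xc : ℝ, 0 ≤ x1 → x1 ≤ 1 → 0 ≤ x2 → x2 ≤ 1 → P16C5.l ≤ xc → xc ≤ P16C5.u →
    (15129 / 2048 : ℝ) * (1 - (1 - x1) ^ 5) + (19259 / 2048 : ℝ) * (1 - (1 - x2) ^ 5) - (12 : ℝ) * (1 - (1 - xc) ^ 5) + (1 / 1073741824 : ℝ)
      ≤ - P16C5.a1 * x1 - P16C5.a2 * x2 + P16C5.e * xc + P16C5.f := by
  have h := cell_lines_delta 5 (α1 := (15129 / 2048 : ℝ)) (α2 := (19259 / 2048 : ℝ)) (c := (12 : ℝ)) (y1 := (41883 / 262144 : ℝ)) (y2 := (27625 / 131072 : ℝ))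
    (A1 := (77214865 / 4194304 : ℝ)) (B1 := (45374915 / 33554432 : ℝ)) (A2 := (19129587 / 1048576 : ℝ)) (B2 := (719170115 / 268435456 : ℝ)) (l := (15947 / 65536 : ℝ)) (u := (66339 / 262144 : ℝ))
    (E := (-80401189 / 4194304 : ℝ)) (F := (-1170115625 / 268435456 : ℝ)) (δ := (1 / 1073741824 : ℝ)) (by norm_num) (by norm_num) (by norm_num) (by norm_num) (by norm_num)
    (by norm_num) (by norm_num) (by norm_num) (by norm_num) (by norm_num) (by norm_num) (by norm_num) (by norm_num) (by norm_num) (by norm_num)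
  have e1 : P16C5.l = (15947 / 65536 : ℝ) := rfl
  have e2 : P16C5.u = (66339 / 262144 : ℝ) := rfl
  have e3 : P16C5.a1 = -(77214865 / 4194304 : ℝ) := by norm_num [P16C5]
  have e4 : P16C5.a2 = -(19129587 / 1048576 : ℝ) := by norm_num [P16C5]
  have e5 : P16C5.e = (-80401189 / 4194304 : ℝ) := rfl
  have e6 : P16C5.f = (45374915 / 33554432 : ℝ) + (719170115 / 268435456 : ℝ) + (-1170115625 / 268435456 : ℝ) + (1 / 1073741824 : ℝ) := by norm_num [P16C5]
  rw [e1, e2, e3, e4, e5, e6]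
  exact h

lemma rP16C6 : ∃ N : ℝ, Rw4 P.r2 N (coCell (15129 / 2048 : ℝ) (19259 / 2048 : ℝ) (12 : ℝ) 0 P16C6) := by
  refine ⟨(3221225472 : ℝ), ⟨Q143, List.mem_cons_of_mem _ (List.mem_cons_of_mem _ (List.mem_cons_of_mem _ (List.mem_cons_of_mem _ (List.mem_cons_of_mem _ (List.mem_cons_of_mem _ (List.mem_cons_of_mem _ (List.mem_cons_of_mem _ (List.mem_cons_of_mem _ (List.mem_cons_of_mem _ (List.mem_cons_of_mem _ (List.mem_cons_of_mem _ (List.mem_cons_of_mem _ (List.mem_cons_of_mem _ (List.mem_cons_of_mem _ (List.mem_cons_of_mem _ (List.mem_cons_of_mem _ (List.mem_cons_of_mem _ (List.mem_cons_of_mem _ (List.mem_cons_of_mem _ (List.mem_cons_of_mem _ (List.mem_cons_of_mem _ (List.mem_cons_of_mem _ (List.mem_cons_of_mem _ (List.mem_cons_of_mem _ (List.mem_cons_of_mem _ (List.mem_cons_of_mem _ (List.mem_cons_of_mem _ (List.mem_cons_of_mem _ (List.mem_cons_of_mem _ (List.mem_cons_of_mem _ (List.mem_cons_of_mem _ (List.mem_cons_of_mem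 _ (List.mem_cons_of_mem _ (List.mem_cons_of_mem _ (List.mem_cons_of_mem _ (List.mem_cons_of_mem _ (List.mem_cons_of_mem _ (List.mem_cons_of_mem _ (List.mem_cons_of_mem _ (List.mem_cons_of_mem _ (List.mem_cons_of_mem _ (List.mem_cons_of_mem _ (List.mem_cons_of_mem _ (List.mem_cons_of_mem _ (List.mem_cons_of_mem _ (List.mem_cons_of_mem _ (List.mem_cons_of_mem _ (List.mem_cons_of_mem _ (List.mem_cons_of_mem _ (List.mem_cons_of_mem _ (List.mem_cons_of_mem _ (List.mem_cons_of_mem _ (List.mem_cons_of_mem _ (List.mem_cons_of_mem _ (List.mem_cons_of_mem _ (List.mem_cons_of_mem _ (List.mem_cons_of_mem _ (List.mem_cons_of_mem _ (List.mem_cons_of_mem _ (List.mem_cons_of_mem _ (List.mem_cons_of_mem _ (List.mem_cons_of_mem _ (List.mem_cons_of_mem _ (List.mem_cons_of_mem _ (List.mem_cons_of_mem _ (List.mem_cons_of_mem _ (List.mem_cons_of_mem _ (List.mem_cons_of_mem _ (List.mem_cons_of_mem _ (List.mem_cons_of_mem _ (List.mem_cons_of_mem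 _ (List.mem_cons_of_mem _ (List.mem_cons_of_mem _ (List.mem_cons_of_mem _ (List.mem_cons_of_mem _ (List.mem_cons_of_mem _ (List.mem_cons_of_mem _ (List.mem_cons_of_mem _ (List.mem_cons_of_mem _ (List.mem_cons_of_mem _ (List.mem_cons_of_mem _ (List.mem_cons_of_mem _ (List.mem_cons_of_mem _ (List.mem_cons_of_mem _ (List.mem_cons_of_mem _ (List.mem_cons_of_mem _ (List.mem_cons_of_mem _ (List.mem_cons_of_mem _ (List.mem_cons_of_mem _ (List.mem_cons_of_mem _ (List.mem_cons_of_mem _ (List.mem_cons_of_mem _ (List.mem_cons_of_mem _ (List.mem_cons_of_mem _ (List.mem_cons_of_mem _ (List.mem_cons_of_mem _ (List.mem_cons_of_mem _ (List.mem_cons_of_mem _ (List.mem_cons_of_mem _ (List.mem_cons_of_mem _ (List.mem_cons_of_mem _ (List.mem_cons_of_mem _ (List.mem_cons_of_mem _ (List.mem_cons_of_mem _ (List.mem_cons_of_mem _ (List.mem_cons_of_mem _ (List.mem_cons_of_mem _ (List.mem_cons_of_mem _ (List.mem_cons_of_mem _ (List.mem_cons_of_mem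 _ (List.mem_cons_of_mem _ (List.mem_cons_of_mem _ (List.mem_cons_of_mem _ (List.mem_cons_of_mem _ (List.mem_cons_of_mem _ (List.mem_cons_of_mem _ (List.mem_cons_of_mem _ (List.mem_cons_of_mem _ (List.mem_cons_of_mem _ (List.mem_cons_of_mem _ (List.mem_cons_of_mem _ (List.mem_cons_of_mem _ (List.mem_cons_of_mem _ (List.mem_cons_of_mem _ (List.mem_cons_of_mem _ (List.mem_cons_of_mem _ (List.mem_cons_of_mem _ (List.mem_cons_of_mem _ (List.mem_cons_of_mem _ (List.mem_cons_of_mem _ (List.mem_cons_of_mem _ (List.mem_cons_of_mem _ (List.mem_cons_of_mem _ (List.mem_cons_of_mem _ (List.mem_cons_of_mem _ (List.mem_cons_of_mem _ (List.mem_cons_of_mem _ (List.mem_cons_of_mem _ (List.mem_cons_of_mem _ (List.mem_cons_of_mem _ (List.mem_cons_of_mem _ (List.mem_cons_of_mem _ (List.mem_cons_self))))))))))))))))))))))))))))))))))))))))))))))))))))))))))))))))))))))))))))))))))))))))))))))))))))))))))))))))))))))))))))))))))))))))))))))),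 ?_⟩, by norm_num⟩
  constructor <;> norm_num [Q143, coCell, P16C6]

lemma lP16C6 : ∀ x1 x2 xc : ℝ, 0 ≤ x1 → x1 ≤ 1 → 0 ≤ x2 → x2 ≤ 1 → P16C6.l ≤ xc → xc ≤ P16C6.u →
    (15129 / 2048 : ℝ) * (1 - (1 - x1) ^ 5) + (19259 / 2048 : ℝ) * (1 - (1 - x2) ^ 5) - (12 : ℝ) * (1 - (1 - xc) ^ 5) + (1 / 1073741824 : ℝ)
      ≤ - P16C6.a1 * x1 - P16C6.a2 * x2 + P16C6.e * xc + P16C6.f := by
  have h := cell_lines_delta 5 (α1 := (15129 / 2048 : ℝ)) (α2 := (19259 / 2048 : ℝ)) (c := (12 : ℝ)) (y1 := (44249 / 262144 : ℝ)) (y2 := (7137 / 32768 : ℝ))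
    (A1 := (36975117 / 2097152 : ℝ)) (B1 := (198659535 / 134217728 : ℝ)) (A2 := (73823759 / 4194304 : ℝ)) (B2 := (756121281 / 268435456 : ℝ)) (l := (66339 / 262144 : ℝ)) (u := (68993 / 262144 : ℝ))
    (E := (-76238409 / 4194304 : ℝ)) (F := (-1237536197 / 268435456 : ℝ)) (δ := (1 / 1073741824 : ℝ)) (by norm_num) (by norm_num) (by norm_num) (by norm_num) (by norm_num)
    (by norm_num) (by norm_num) (by norm_num) (by norm_num) (by norm_num) (by norm_num) (by norm_num) (by norm_num) (by norm_num) (by norm_num)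
  have e1 : P16C6.l = (66339 / 262144 : ℝ) := rfl
  have e2 : P16C6.u = (68993 / 262144 : ℝ) := rfl
  have e3 : P16C6.a1 = -(36975117 / 2097152 : ℝ) := by norm_num [P16C6]
  have e4 : P16C6.a2 = -(73823759 / 4194304 : ℝ) := by norm_num [P16C6]
  have e5 : P16C6.e = (-76238409 / 4194304 : ℝ) := rfl
  have e6 : P16C6.f = (198659535 / 134217728 : ℝ) + (756121281 / 268435456 : ℝ) + (-1237536197 / 268435456 : ℝ) + (1 / 1073741824 : ℝ) := by norm_num [P16C6]
  rw [e1, e2, e3, e4, e5, e6]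
  exact h

lemma rP16C7 : ∃ N : ℝ, Rw4 P.r2 N (coCell (15129 / 2048 : ℝ) (19259 / 2048 : ℝ) (12 : ℝ) 0 P16C7) := by
  refine ⟨(3221225472 : ℝ), ⟨Q144, List.mem_cons_of_mem _ (List.mem_cons_of_mem _ (List.mem_cons_of_mem _ (List.mem_cons_of_mem _ (List.mem_cons_of_mem _ (List.mem_cons_of_mem _ (List.mem_cons_of_mem _ (List.mem_cons_of_mem _ (List.mem_cons_of_mem _ (List.mem_cons_of_mem _ (List.mem_cons_of_mem _ (List.mem_cons_of_mem _ (List.mem_cons_of_mem _ (List.mem_cons_of_mem _ (List.mem_cons_of_mem _ (List.mem_cons_of_mem _ (List.mem_cons_of_mem _ (List.mem_cons_of_mem _ (List.mem_cons_of_mem _ (List.mem_cons_of_mem _ (List.mem_cons_of_mem _ (List.mem_cons_of_mem _ (List.mem_cons_of_mem _ (List.mem_cons_of_mem _ (List.mem_cons_of_mem _ (List.mem_cons_of_mem _ (List.mem_cons_of_mem _ (List.mem_cons_of_mem _ (List.mem_cons_of_mem _ (List.mem_cons_of_mem _ (List.mem_cons_of_mem _ (List.mem_cons_of_mem _ (List.mem_cons_of_mem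 _ (List.mem_cons_of_mem _ (List.mem_cons_of_mem _ (List.mem_cons_of_mem _ (List.mem_cons_of_mem _ (List.mem_cons_of_mem _ (List.mem_cons_of_mem _ (List.mem_cons_of_mem _ (List.mem_cons_of_mem _ (List.mem_cons_of_mem _ (List.mem_cons_of_mem _ (List.mem_cons_of_mem _ (List.mem_cons_of_mem _ (List.mem_cons_of_mem _ (List.mem_cons_of_mem _ (List.mem_cons_of_mem _ (List.mem_cons_of_mem _ (List.mem_cons_of_mem _ (List.mem_cons_of_mem _ (List.mem_cons_of_mem _ (List.mem_cons_of_mem _ (List.mem_cons_of_mem _ (List.mem_cons_of_mem _ (List.mem_cons_of_mem _ (List.mem_cons_of_mem _ (List.mem_cons_of_mem _ (List.mem_cons_of_mem _ (List.mem_cons_of_mem _ (List.mem_cons_of_mem _ (List.mem_cons_of_mem _ (List.mem_cons_of_mem _ (List.mem_cons_of_mem _ (List.mem_cons_of_mem _ (List.mem_cons_of_mem _ (List.mem_cons_of_mem _ (List.mem_cons_of_mem _ (List.mem_cons_of_mem _ (List.mem_cons_of_mem _ (List.mem_cons_of_mem _ (List.mem_cons_of_mem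 _ (List.mem_cons_of_mem _ (List.mem_cons_of_mem _ (List.mem_cons_of_mem _ (List.mem_cons_of_mem _ (List.mem_cons_of_mem _ (List.mem_cons_of_mem _ (List.mem_cons_of_mem _ (List.mem_cons_of_mem _ (List.mem_cons_of_mem _ (List.mem_cons_of_mem _ (List.mem_cons_of_mem _ (List.mem_cons_of_mem _ (List.mem_cons_of_mem _ (List.mem_cons_of_mem _ (List.mem_cons_of_mem _ (List.mem_cons_of_mem _ (List.mem_cons_of_mem _ (List.mem_cons_of_mem _ (List.mem_cons_of_mem _ (List.mem_cons_of_mem _ (List.mem_cons_of_mem _ (List.mem_cons_of_mem _ (List.mem_cons_of_mem _ (List.mem_cons_of_mem _ (List.mem_cons_of_mem _ (List.mem_cons_of_mem _ (List.mem_cons_of_mem _ (List.mem_cons_of_mem _ (List.mem_cons_of_mem _ (List.mem_cons_of_mem _ (List.mem_cons_of_mem _ (List.mem_cons_of_mem _ (List.mem_cons_of_mem _ (List.mem_cons_of_mem _ (List.mem_cons_of_mem _ (List.mem_cons_of_mem _ (List.mem_cons_of_mem _ (List.mem_cons_of_mem _ (List.mem_cons_of_mem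 _ (List.mem_cons_of_mem _ (List.mem_cons_of_mem _ (List.mem_cons_of_mem _ (List.mem_cons_of_mem _ (List.mem_cons_of_mem _ (List.mem_cons_of_mem _ (List.mem_cons_of_mem _ (List.mem_cons_of_mem _ (List.mem_cons_of_mem _ (List.mem_cons_of_mem _ (List.mem_cons_of_mem _ (List.mem_cons_of_mem _ (List.mem_cons_of_mem _ (List.mem_cons_of_mem _ (List.mem_cons_of_mem _ (List.mem_cons_of_mem _ (List.mem_cons_of_mem _ (List.mem_cons_of_mem _ (List.mem_cons_of_mem _ (List.mem_cons_of_mem _ (List.mem_cons_of_mem _ (List.mem_cons_of_mem _ (List.mem_cons_of_mem _ (List.mem_cons_of_mem _ (List.mem_cons_of_mem _ (List.mem_cons_of_mem _ (List.mem_cons_of_mem _ (List.mem_cons_of_mem _ (List.mem_cons_of_mem _ (List.mem_cons_of_mem _ (List.mem_cons_of_mem _ (List.mem_cons_of_mem _ (List.mem_cons_of_mem _ (List.mem_cons_self)))))))))))))))))))))))))))))))))))))))))))))))))))))))))))))))))))))))))))))))))))))))))))))))))))))))))))))))))))))))))))))))))))))))))))))))),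 ?_⟩, by norm_num⟩
  constructor <;> norm_num [Q144, coCell, P16C7]

lemma lP16C7 : ∀ x1 x2 xc : ℝ, 0 ≤ x1 → x1 ≤ 1 → 0 ≤ x2 → x2 ≤ 1 → P16C7.l ≤ xc → xc ≤ P16C7.u →
    (15129 / 2048 : ℝ) * (1 - (1 - x1) ^ 5) + (19259 / 2048 : ℝ) * (1 - (1 - x2) ^ 5) - (12 : ℝ) * (1 - (1 - xc) ^ 5) + (1 / 1073741824 : ℝ)
      ≤ - P16C7.a1 * x1 - P16C7.a2 * x2 + P16C7.e * xc + P16C7.f := by
  have h := cell_lines_delta 5 (α1 := (15129 / 2048 : ℝ)) (α2 := (19259 / 2048 : ℝ)) (c := (12 : ℝ)) (y1 := (11483 / 65536 : ℝ)) (y2 := (29747 / 131072 : ℝ))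
    (A1 := (35845915 / 2097152 : ℝ)) (B1 := (422178749 / 268435456 : ℝ)) (A2 := (70430445 / 4194304 : ℝ)) (B2 := (25137803 / 8388608 : ℝ)) (l := (68993 / 262144 : ℝ)) (u := (8969 / 32768 : ℝ))
    (E := (-36041485 / 2097152 : ℝ)) (F := (-1307530387 / 268435456 : ℝ)) (δ := (1 / 1073741824 : ℝ)) (by norm_num) (by norm_num) (by norm_num) (by norm_num) (by norm_num)
    (by norm_num) (by norm_num) (by norm_num) (by norm_num) (by norm_num) (by norm_num) (by norm_num) (by norm_num) (by norm_num) (by norm_num)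
  have e1 : P16C7.l = (68993 / 262144 : ℝ) := rfl
  have e2 : P16C7.u = (8969 / 32768 : ℝ) := rfl
  have e3 : P16C7.a1 = -(35845915 / 2097152 : ℝ) := by norm_num [P16C7]
  have e4 : P16C7.a2 = -(70430445 / 4194304 : ℝ) := by norm_num [P16C7]
  have e5 : P16C7.e = (-36041485 / 2097152 : ℝ) := rfl
  have e6 : P16C7.f = (422178749 / 268435456 : ℝ) + (25137803 / 8388608 : ℝ) + (-1307530387 / 268435456 : ℝ) + (1 / 1073741824 : ℝ) := by norm_num [P16C7]
  rw [e1, e2, e3, e4, e5, e6]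
  exact h

lemma rP16C8 : ∃ N : ℝ, Rw4 P.r2 N (coCell (15129 / 2048 : ℝ) (19259 / 2048 : ℝ) (12 : ℝ) 0 P16C8) := by
  refine ⟨(3221225472 : ℝ), ⟨Q145, List.mem_cons_of_mem _ (List.mem_cons_of_mem _ (List.mem_cons_of_mem _ (List.mem_cons_of_mem _ (List.mem_cons_of_mem _ (List.mem_cons_of_mem _ (List.mem_cons_of_mem _ (List.mem_cons_of_mem _ (List.mem_cons_of_mem _ (List.mem_cons_of_mem _ (List.mem_cons_of_mem _ (List.mem_cons_of_mem _ (List.mem_cons_of_mem _ (List.mem_cons_of_mem _ (List.mem_cons_of_mem _ (List.mem_cons_of_mem _ (List.mem_cons_of_mem _ (List.mem_cons_of_mem _ (List.mem_cons_of_mem _ (List.mem_cons_of_mem _ (List.mem_cons_of_mem _ (List.mem_cons_of_mem _ (List.mem_cons_of_mem _ (List.mem_cons_of_mem _ (List.mem_cons_of_mem _ (List.mem_cons_of_mem _ (List.mem_cons_of_mem _ (List.mem_cons_of_mem _ (List.mem_cons_of_mem _ (List.mem_cons_of_mem _ (List.mem_cons_of_mem _ (List.mem_cons_of_mem _ (List.mem_cons_of_mem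 _ (List.mem_cons_of_mem _ (List.mem_cons_of_mem _ (List.mem_cons_of_mem _ (List.mem_cons_of_mem _ (List.mem_cons_of_mem _ (List.mem_cons_of_mem _ (List.mem_cons_of_mem _ (List.mem_cons_of_mem _ (List.mem_cons_of_mem _ (List.mem_cons_of_mem _ (List.mem_cons_of_mem _ (List.mem_cons_of_mem _ (List.mem_cons_of_mem _ (List.mem_cons_of_mem _ (List.mem_cons_of_mem _ (List.mem_cons_of_mem _ (List.mem_cons_of_mem _ (List.mem_cons_of_mem _ (List.mem_cons_of_mem _ (List.mem_cons_of_mem _ (List.mem_cons_of_mem _ (List.mem_cons_of_mem _ (List.mem_cons_of_mem _ (List.mem_cons_of_mem _ (List.mem_cons_of_mem _ (List.mem_cons_of_mem _ (List.mem_cons_of_mem _ (List.mem_cons_of_mem _ (List.mem_cons_of_mem _ (List.mem_cons_of_mem _ (List.mem_cons_of_mem _ (List.mem_cons_of_mem _ (List.mem_cons_of_mem _ (List.mem_cons_of_mem _ (List.mem_cons_of_mem _ (List.mem_cons_of_mem _ (List.mem_cons_of_mem _ (List.mem_cons_of_mem _ (List.mem_cons_of_mem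 _ (List.mem_cons_of_mem _ (List.mem_cons_of_mem _ (List.mem_cons_of_mem _ (List.mem_cons_of_mem _ (List.mem_cons_of_mem _ (List.mem_cons_of_mem _ (List.mem_cons_of_mem _ (List.mem_cons_of_mem _ (List.mem_cons_of_mem _ (List.mem_cons_of_mem _ (List.mem_cons_of_mem _ (List.mem_cons_of_mem _ (List.mem_cons_of_mem _ (List.mem_cons_of_mem _ (List.mem_cons_of_mem _ (List.mem_cons_of_mem _ (List.mem_cons_of_mem _ (List.mem_cons_of_mem _ (List.mem_cons_of_mem _ (List.mem_cons_of_mem _ (List.mem_cons_of_mem _ (List.mem_cons_of_mem _ (List.mem_cons_of_mem _ (List.mem_cons_of_mem _ (List.mem_cons_of_mem _ (List.mem_cons_of_mem _ (List.mem_cons_of_mem _ (List.mem_cons_of_mem _ (List.mem_cons_of_mem _ (List.mem_cons_of_mem _ (List.mem_cons_of_mem _ (List.mem_cons_of_mem _ (List.mem_cons_of_mem _ (List.mem_cons_of_mem _ (List.mem_cons_of_mem _ (List.mem_cons_of_mem _ (List.mem_cons_of_mem _ (List.mem_cons_of_mem _ (List.mem_cons_of_mem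 _ (List.mem_cons_of_mem _ (List.mem_cons_of_mem _ (List.mem_cons_of_mem _ (List.mem_cons_of_mem _ (List.mem_cons_of_mem _ (List.mem_cons_of_mem _ (List.mem_cons_of_mem _ (List.mem_cons_of_mem _ (List.mem_cons_of_mem _ (List.mem_cons_of_mem _ (List.mem_cons_of_mem _ (List.mem_cons_of_mem _ (List.mem_cons_of_mem _ (List.mem_cons_of_mem _ (List.mem_cons_of_mem _ (List.mem_cons_of_mem _ (List.mem_cons_of_mem _ (List.mem_cons_of_mem _ (List.mem_cons_of_mem _ (List.mem_cons_of_mem _ (List.mem_cons_of_mem _ (List.mem_cons_of_mem _ (List.mem_cons_of_mem _ (List.mem_cons_of_mem _ (List.mem_cons_of_mem _ (List.mem_cons_of_mem _ (List.mem_cons_of_mem _ (List.mem_cons_of_mem _ (List.mem_cons_of_mem _ (List.mem_cons_of_mem _ (List.mem_cons_of_mem _ (List.mem_cons_of_mem _ (List.mem_cons_of_mem _ (List.mem_cons_of_mem _ (List.mem_cons_self))))))))))))))))))))))))))))))))))))))))))))))))))))))))))))))))))))))))))))))))))))))))))))))))))))))))))))))))))))))))))))))))))))))))))))))))),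 ?_⟩, by norm_num⟩
  constructor <;> norm_num [Q145, coCell, P16C8]

lemma lP16C8 : ∀ x1 x2 xc : ℝ, 0 ≤ x1 → x1 ≤ 1 → 0 ≤ x2 → x2 ≤ 1 → P16C8.l ≤ xc → xc ≤ P16C8.u →
    (15129 / 2048 : ℝ) * (1 - (1 - x1) ^ 5) + (19259 / 2048 : ℝ) * (1 - (1 - x2) ^ 5) - (12 : ℝ) * (1 - (1 - xc) ^ 5) + (1 / 1073741824 : ℝ)
      ≤ - P16C8.a1 * x1 - P16C8.a2 * x2 + P16C8.e * xc + P16C8.f := by
  have h := cell_lines_delta 5 (α1 := (15129 / 2048 : ℝ)) (α2 := (19259 / 2048 : ℝ)) (c := (12 : ℝ)) (y1 := (46895 / 262144 : ℝ)) (y2 := (60413 / 262144 : ℝ))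
    (A1 := (4401443 / 262144 : ℝ)) (B1 := (436555055 / 268435456 : ℝ)) (A2 := (34580763 / 2097152 : ℝ)) (B2 := (205745659 / 67108864 : ℝ)) (l := (8969 / 32768 : ℝ)) (u := (74623 / 262144 : ℝ))
    (E := (-16985915 / 1048576 : ℝ)) (F := (-1380041073 / 268435456 : ℝ)) (δ := (1 / 1073741824 : ℝ)) (by norm_num) (by norm_num) (by norm_num) (by norm_num) (by norm_num)
    (by norm_num) (by norm_num) (by norm_num) (by norm_num) (by norm_num) (by norm_num) (by norm_num) (by norm_num) (by norm_num) (by norm_num)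
  have e1 : P16C8.l = (8969 / 32768 : ℝ) := rfl
  have e2 : P16C8.u = (74623 / 262144 : ℝ) := rfl
  have e3 : P16C8.a1 = -(4401443 / 262144 : ℝ) := by norm_num [P16C8]
  have e4 : P16C8.a2 = -(34580763 / 2097152 : ℝ) := by norm_num [P16C8]
  have e5 : P16C8.e = (-16985915 / 1048576 : ℝ) := rfl
  have e6 : P16C8.f = (436555055 / 268435456 : ℝ) + (205745659 / 67108864 : ℝ) + (-1380041073 / 268435456 : ℝ) + (1 / 1073741824 : ℝ) := by norm_num [P16C8]
  rw [e1, e2, e3, e4, e5, e6]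
  exact h

lemma rP16C9 : ∃ N : ℝ, Rw4 P.r2 N (coCell (15129 / 2048 : ℝ) (19259 / 2048 : ℝ) (12 : ℝ) 0 P16C9) := by
  refine ⟨(3221225472 : ℝ), ⟨Q146, List.mem_cons_of_mem _ (List.mem_cons_of_mem _ (List.mem_cons_of_mem _ (List.mem_cons_of_mem _ (List.mem_cons_of_mem _ (List.mem_cons_of_mem _ (List.mem_cons_of_mem _ (List.mem_cons_of_mem _ (List.mem_cons_of_mem _ (List.mem_cons_of_mem _ (List.mem_cons_of_mem _ (List.mem_cons_of_mem _ (List.mem_cons_of_mem _ (List.mem_cons_of_mem _ (List.mem_cons_of_mem _ (List.mem_cons_of_mem _ (List.mem_cons_of_mem _ (List.mem_cons_of_mem _ (List.mem_cons_of_mem _ (List.mem_cons_of_mem _ (List.mem_cons_of_mem _ (List.mem_cons_of_mem _ (List.mem_cons_of_mem _ (List.mem_cons_of_mem _ (List.mem_cons_of_mem _ (List.mem_cons_of_mem _ (List.mem_cons_of_mem _ (List.mem_cons_of_mem _ (List.mem_cons_of_mem _ (List.mem_cons_of_mem _ (List.mem_cons_of_mem _ (List.mem_cons_of_mem _ (List.mem_cons_of_mem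 _ (List.mem_cons_of_mem _ (List.mem_cons_of_mem _ (List.mem_cons_of_mem _ (List.mem_cons_of_mem _ (List.mem_cons_of_mem _ (List.mem_cons_of_mem _ (List.mem_cons_of_mem _ (List.mem_cons_of_mem _ (List.mem_cons_of_mem _ (List.mem_cons_of_mem _ (List.mem_cons_of_mem _ (List.mem_cons_of_mem _ (List.mem_cons_of_mem _ (List.mem_cons_of_mem _ (List.mem_cons_of_mem _ (List.mem_cons_of_mem _ (List.mem_cons_of_mem _ (List.mem_cons_of_mem _ (List.mem_cons_of_mem _ (List.mem_cons_of_mem _ (List.mem_cons_of_mem _ (List.mem_cons_of_mem _ (List.mem_cons_of_mem _ (List.mem_cons_of_mem _ (List.mem_cons_of_mem _ (List.mem_cons_of_mem _ (List.mem_cons_of_mem _ (List.mem_cons_of_mem _ (List.mem_cons_of_mem _ (List.mem_cons_of_mem _ (List.mem_cons_of_mem _ (List.mem_cons_of_mem _ (List.mem_cons_of_mem _ (List.mem_cons_of_mem _ (List.mem_cons_of_mem _ (List.mem_cons_of_mem _ (List.mem_cons_of_mem _ (List.mem_cons_of_mem _ (List.mem_cons_of_mem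 _ (List.mem_cons_of_mem _ (List.mem_cons_of_mem _ (List.mem_cons_of_mem _ (List.mem_cons_of_mem _ (List.mem_cons_of_mem _ (List.mem_cons_of_mem _ (List.mem_cons_of_mem _ (List.mem_cons_of_mem _ (List.mem_cons_of_mem _ (List.mem_cons_of_mem _ (List.mem_cons_of_mem _ (List.mem_cons_of_mem _ (List.mem_cons_of_mem _ (List.mem_cons_of_mem _ (List.mem_cons_of_mem _ (List.mem_cons_of_mem _ (List.mem_cons_of_mem _ (List.mem_cons_of_mem _ (List.mem_cons_of_mem _ (List.mem_cons_of_mem _ (List.mem_cons_of_mem _ (List.mem_cons_of_mem _ (List.mem_cons_of_mem _ (List.mem_cons_of_mem _ (List.mem_cons_of_mem _ (List.mem_cons_of_mem _ (List.mem_cons_of_mem _ (List.mem_cons_of_mem _ (List.mem_cons_of_mem _ (List.mem_cons_of_mem _ (List.mem_cons_of_mem _ (List.mem_cons_of_mem _ (List.mem_cons_of_mem _ (List.mem_cons_of_mem _ (List.mem_cons_of_mem _ (List.mem_cons_of_mem _ (List.mem_cons_of_mem _ (List.mem_cons_of_mem _ (List.mem_cons_of_mem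 _ (List.mem_cons_of_mem _ (List.mem_cons_of_mem _ (List.mem_cons_of_mem _ (List.mem_cons_of_mem _ (List.mem_cons_of_mem _ (List.mem_cons_of_mem _ (List.mem_cons_of_mem _ (List.mem_cons_of_mem _ (List.mem_cons_of_mem _ (List.mem_cons_of_mem _ (List.mem_cons_of_mem _ (List.mem_cons_of_mem _ (List.mem_cons_of_mem _ (List.mem_cons_of_mem _ (List.mem_cons_of_mem _ (List.mem_cons_of_mem _ (List.mem_cons_of_mem _ (List.mem_cons_of_mem _ (List.mem_cons_of_mem _ (List.mem_cons_of_mem _ (List.mem_cons_of_mem _ (List.mem_cons_of_mem _ (List.mem_cons_of_mem _ (List.mem_cons_of_mem _ (List.mem_cons_of_mem _ (List.mem_cons_of_mem _ (List.mem_cons_of_mem _ (List.mem_cons_of_mem _ (List.mem_cons_of_mem _ (List.mem_cons_of_mem _ (List.mem_cons_of_mem _ (List.mem_cons_of_mem _ (List.mem_cons_of_mem _ (List.mem_cons_of_mem _ (List.mem_cons_of_mem _ (List.mem_cons_self)))))))))))))))))))))))))))))))))))))))))))))))))))))))))))))))))))))))))))))))))))))))))))))))))))))))))))))))))))))))))))))))))))))))))))))))))),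 ?_⟩, by norm_num⟩
  constructor <;> norm_num [Q146, coCell, P16C9]

lemma lP16C9 : ∀ x1 x2 xc : ℝ, 0 ≤ x1 → x1 ≤ 1 → 0 ≤ x2 → x2 ≤ 1 → P16C9.l ≤ xc → xc ≤ P16C9.u →
    (15129 / 2048 : ℝ) * (1 - (1 - x1) ^ 5) + (19259 / 2048 : ℝ) * (1 - (1 - x2) ^ 5) - (12 : ℝ) * (1 - (1 - xc) ^ 5) + (1 / 1073741824 : ℝ)
      ≤ - P16C9.a1 * x1 - P16C9.a2 * x2 + P16C9.e * xc + P16C9.f := by
  have h := cell_lines_delta 5 (α1 := (15129 / 2048 : ℝ)) (α2 := (19259 / 2048 : ℝ)) (c := (12 : ℝ)) (y1 := (11897 / 65536 : ℝ)) (y2 := (30751 / 131072 : ℝ))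
    (A1 := (34760271 / 2097152 : ℝ)) (B1 := (446964507 / 268435456 : ℝ)) (A2 := (67680163 / 4194304 : ℝ)) (B2 := (422514023 / 134217728 : ℝ)) (l := (74623 / 262144 : ℝ)) (u := (77607 / 262144 : ℝ))
    (E := (-63830749 / 4194304 : ℝ)) (F := (-727486083 / 134217728 : ℝ)) (δ := (1 / 1073741824 : ℝ)) (by norm_num) (by norm_num) (by norm_num) (by norm_num) (by norm_num)
    (by norm_num) (by norm_num) (by norm_num) (by norm_num) (by norm_num) (by norm_num) (by norm_num) (by norm_num) (by norm_num) (by norm_num)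
  have e1 : P16C9.l = (74623 / 262144 : ℝ) := rfl
  have e2 : P16C9.u = (77607 / 262144 : ℝ) := rfl
  have e3 : P16C9.a1 = -(34760271 / 2097152 : ℝ) := by norm_num [P16C9]
  have e4 : P16C9.a2 = -(67680163 / 4194304 : ℝ) := by norm_num [P16C9]
  have e5 : P16C9.e = (-63830749 / 4194304 : ℝ) := rfl
  have e6 : P16C9.f = (446964507 / 268435456 : ℝ) + (422514023 / 134217728 : ℝ) + (-727486083 / 134217728 : ℝ) + (1 / 1073741824 : ℝ) := by norm_num [P16C9]
  rw [e1, e2, e3, e4, e5, e6]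
  exact h

lemma rP16C10 : ∃ N : ℝ, Rw4 P.r2 N (coCell (15129 / 2048 : ℝ) (19259 / 2048 : ℝ) (12 : ℝ) 0 P16C10) := by
  refine ⟨(3221225472 : ℝ), ⟨Q147, List.mem_cons_of_mem _ (List.mem_cons_of_mem _ (List.mem_cons_of_mem _ (List.mem_cons_of_mem _ (List.mem_cons_of_mem _ (List.mem_cons_of_mem _ (List.mem_cons_of_mem _ (List.mem_cons_of_mem _ (List.mem_cons_of_mem _ (List.mem_cons_of_mem _ (List.mem_cons_of_mem _ (List.mem_cons_of_mem _ (List.mem_cons_of_mem _ (List.mem_cons_of_mem _ (List.mem_cons_of_mem _ (List.mem_cons_of_mem _ (List.mem_cons_of_mem _ (List.mem_cons_of_mem _ (List.mem_cons_of_mem _ (List.mem_cons_of_mem _ (List.mem_cons_of_mem _ (List.mem_cons_of_mem _ (List.mem_cons_of_mem _ (List.mem_cons_of_mem _ (List.mem_cons_of_mem _ (List.mem_cons_of_mem _ (List.mem_cons_of_mem _ (List.mem_cons_of_mem _ (List.mem_cons_of_mem _ (List.mem_cons_of_mem _ (List.mem_cons_of_mem _ (List.mem_cons_of_mem _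 (List.mem_cons_of_mem _ (List.mem_cons_of_mem _ (List.mem_cons_of_mem _ (List.mem_cons_of_mem _ (List.mem_cons_of_mem _ (List.mem_cons_of_mem _ (List.mem_cons_of_mem _ (List.mem_cons_of_mem _ (List.mem_cons_of_mem _ (List.mem_cons_of_mem _ (List.mem_cons_of_mem _ (List.mem_cons_of_mem _ (List.mem_cons_of_mem _ (List.mem_cons_of_mem _ (List.mem_cons_of_mem _ (List.mem_cons_of_mem _ (List.mem_cons_of_mem _ (List.mem_cons_of_mem _ (List.mem_cons_of_mem _ (List.mem_cons_of_mem _ (List.mem_cons_of_mem _ (List.mem_cons_of_mem _ (List.mem_cons_of_mem _ (List.mem_cons_of_mem _ (List.mem_cons_of_mem _ (List.mem_cons_of_mem _ (List.mem_cons_of_mem _ (List.mem_cons_of_mem _ (List.mem_cons_of_mem _ (List.mem_cons_of_mem _ (List.mem_cons_of_mem _ (List.mem_cons_of_mem _ (List.mem_cons_of_mem _ (List.mem_cons_of_mem _ (List.mem_cons_of_mem _ (List.mem_cons_of_mem _ (List.mem_cons_of_mem _ (List.mem_cons_of_mem _ (List.mem_cons_of_mem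 _ (List.mem_cons_of_mem _ (List.mem_cons_of_mem _ (List.mem_cons_of_mem _ (List.mem_cons_of_mem _ (List.mem_cons_of_mem _ (List.mem_cons_of_mem _ (List.mem_cons_of_mem _ (List.mem_cons_of_mem _ (List.mem_cons_of_mem _ (List.mem_cons_of_mem _ (List.mem_cons_of_mem _ (List.mem_cons_of_mem _ (List.mem_cons_of_mem _ (List.mem_cons_of_mem _ (List.mem_cons_of_mem _ (List.mem_cons_of_mem _ (List.mem_cons_of_mem _ (List.mem_cons_of_mem _ (List.mem_cons_of_mem _ (List.mem_cons_of_mem _ (List.mem_cons_of_mem _ (List.mem_cons_of_mem _ (List.mem_cons_of_mem _ (List.mem_cons_of_mem _ (List.mem_cons_of_mem _ (List.mem_cons_of_mem _ (List.mem_cons_of_mem _ (List.mem_cons_of_mem _ (List.mem_cons_of_mem _ (List.mem_cons_of_mem _ (List.mem_cons_of_mem _ (List.mem_cons_of_mem _ (List.mem_cons_of_mem _ (List.mem_cons_of_mem _ (List.mem_cons_of_mem _ (List.mem_cons_of_mem _ (List.mem_cons_of_mem _ (List.mem_cons_of_mem _ (List.mem_cons_of_mem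 _ (List.mem_cons_of_mem _ (List.mem_cons_of_mem _ (List.mem_cons_of_mem _ (List.mem_cons_of_mem _ (List.mem_cons_of_mem _ (List.mem_cons_of_mem _ (List.mem_cons_of_mem _ (List.mem_cons_of_mem _ (List.mem_cons_of_mem _ (List.mem_cons_of_mem _ (List.mem_cons_of_mem _ (List.mem_cons_of_mem _ (List.mem_cons_of_mem _ (List.mem_cons_of_mem _ (List.mem_cons_of_mem _ (List.mem_cons_of_mem _ (List.mem_cons_of_mem _ (List.mem_cons_of_mem _ (List.mem_cons_of_mem _ (List.mem_cons_of_mem _ (List.mem_cons_of_mem _ (List.mem_cons_of_mem _ (List.mem_cons_of_mem _ (List.mem_cons_of_mem _ (List.mem_cons_of_mem _ (List.mem_cons_of_mem _ (List.mem_cons_of_mem _ (List.mem_cons_of_mem _ (List.mem_cons_of_mem _ (List.mem_cons_of_mem _ (List.mem_cons_of_mem _ (List.mem_cons_of_mem _ (List.mem_cons_of_mem _ (List.mem_cons_of_mem _ (List.mem_cons_of_mem _ (List.mem_cons_of_mem _ (List.mem_cons_of_mem _ (List.mem_cons_self))))))))))))))))))))))))))))))))))))))))))))))))))))))))))))))))))))))))))))))))))))))))))))))))))))))))))))))))))))))))))))))))))))))))))))))))))),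 ?_⟩, by norm_num⟩
  constructor <;> norm_num [Q147, coCell, P16C10]

lemma lP16C10 : ∀ x1 x2 xc : ℝ, 0 ≤ x1 → x1 ≤ 1 → 0 ≤ x2 → x2 ≤ 1 → P16C10.l ≤ xc → xc ≤ P16C10.u →
    (15129 / 2048 : ℝ) * (1 - (1 - x1) ^ 5) + (19259 / 2048 : ℝ) * (1 - (1 - x2) ^ 5) - (12 : ℝ) * (1 - (1 - xc) ^ 5) + (1 / 1073741824 : ℝ)
      ≤ - P16C10.a1 * x1 - P16C10.a2 * x2 + P16C10.e * xc + P16C10.f := by
  have h := cell_lines_delta 5 (α1 := (15129 / 2048 : ℝ)) (α2 := (19259 / 2048 : ℝ)) (c := (12 : ℝ)) (y1 := (48653 / 262144 : ℝ)) (y2 := (31699 / 131072 : ℝ))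
    (A1 := (34075229 / 2097152 : ℝ)) (B1 := (463060041 / 268435456 : ℝ)) (A2 := (65157977 / 4194304 : ℝ)) (B2 := (883479995 / 268435456 : ℝ)) (l := (77607 / 262144 : ℝ)) (u := (78643 / 262144 : ℝ))
    (E := (-15277385 / 1048576 : ℝ)) (F := (-376632743 / 67108864 : ℝ)) (δ := (1 / 1073741824 : ℝ)) (by norm_num) (by norm_num) (by norm_num) (by norm_num) (by norm_num)
    (by norm_num) (by norm_num) (by norm_num) (by norm_num) (by norm_num) (by norm_num) (by norm_num) (by norm_num) (by norm_num) (by norm_num)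
  have e1 : P16C10.l = (77607 / 262144 : ℝ) := rfl
  have e2 : P16C10.u = (78643 / 262144 : ℝ) := rfl
  have e3 : P16C10.a1 = -(34075229 / 2097152 : ℝ) := by norm_num [P16C10]
  have e4 : P16C10.a2 = -(65157977 / 4194304 : ℝ) := by norm_num [P16C10]
  have e5 : P16C10.e = (-15277385 / 1048576 : ℝ) := rfl
  have e6 : P16C10.f = (463060041 / 268435456 : ℝ) + (883479995 / 268435456 : ℝ) + (-376632743 / 67108864 : ℝ) + (1 / 1073741824 : ℝ) := by norm_num [P16C10]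
  rw [e1, e2, e3, e4, e5, e6]
  exact h

/-- A link of the chain. -/
lemma link16 {lam : ℝ} (h0 : -(1 / 2) < lam) (h1 : lam < 1) (hB : BoxS lam P 0 HH 0 HH)
    (h : ∃ n, 1 - En 5 lam n mc ≤ (78643 / 262144 : ℝ)) : ∃ n, 1 - En 5 lam n mc ≤ (52429 / 262144 : ℝ) :=
  phase_of_box (by norm_num) h0 h1 hB (15129 / 2048 : ℝ) (19259 / 2048 : ℝ) (12 : ℝ) (1 / 1073741824 : ℝ) (52429 / 262144 : ℝ) (78643 / 262144 : ℝ) (by norm_num) cellsP16 hcoverP16
    (forall_cons lP16C0 (forall_cons lP16C1 (forall_cons lP16C2 (forall_cons lP16C3 (forall_cons lP16C4 (forall_cons lP16C5 (forall_cons lP16C6 (forall_cons lP16C7 (forall_cons lP16C8 (forall_cons lP16C9 (forall_cons lP16C10 (forall_nil)))))))))))) (forall_cons rP16C0 (forall_cons rP16C1 (forall_cons rP16C2 (forall_cons rP16C3 (forall_cons rP16C4 (forall_cons rP16C5 (forall_cons rP16C6 (forall_cons rP16C7 (forall_cons rP16C8 (forall_cons rP16C9 (forall_cons rP16C10 (forall_nil))))))))))))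 h

/-- A chord cell of a link. -/
noncomputable def P17C0 : Cell := ⟨(78643 / 262144 : ℝ), (41681 / 131072 : ℝ), (-17139369 / 262144 : ℝ), (0 : ℝ), (-28697275 / 2097152 : ℝ), (-439386595 / 1073741824 : ℝ)⟩

/-- A chord cell of a link. -/
noncomputable def P17C1 : Cell := ⟨(41681 / 131072 : ℝ), (88363 / 262144 : ℝ), (-16370395 / 262144 : ℝ), (0 : ℝ), (-12870433 / 1048576 : ℝ), (-375014931 / 1073741824 : ℝ)⟩

/-- A chord cell of a link. -/
noncomputable def P17C2 : Cell := ⟨(88363 / 262144 : ℝ), (93665 / 262144 : ℝ), (-32604251 / 524288 : ℝ), (0 : ℝ), (-11431533 / 1048576 : ℝ), (-821773767 / 1073741824 : ℝ)⟩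

/-- A chord cell of a link. -/
noncomputable def P17C3 : Cell := ⟨(93665 / 262144 : ℝ), (99285 / 262144 : ℝ), (-130044177 / 2097152 : ℝ), (0 : ℝ), (-40166713 / 4194304 : ℝ), (-1296088367 / 1073741824 : ℝ)⟩

/-- A chord cell of a link. -/
noncomputable def P17C4 : Cell := ⟨(99285 / 262144 : ℝ), (401 / 1024 : ℝ), (-125058303 / 2097152 : ℝ), (0 : ℝ), (-17984195 / 2097152 : ℝ), (-1234848375 / 1073741824 : ℝ)⟩

/-- The chord cells of a link. -/
noncomputable def cellsP17 : List Cell := [P17C0, P17C1, P17C2, P17C3, P17C4]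

lemma hcoverP17 : ∀ x : ℝ, (78643 / 262144 : ℝ) ≤ x → x ≤ (401 / 1024 : ℝ) → ∃ D ∈ cellsP17, D.l ≤ x ∧ x ≤ D.u := by
  refine cover_of_chain ?_ (by norm_num [P17C0])
  simp only [ChainP, P17C0, P17C1, P17C2, P17C3, P17C4]
  norm_num

lemma rP17C0 : ∃ N : ℝ, Rw4 P.r2 N (coCell (56035 / 2048 : ℝ) (0 : ℝ) (12 : ℝ) 0 P17C0) := by
  refine ⟨(3221225472 : ℝ), ⟨Q148, List.mem_cons_of_mem _ (List.mem_cons_of_mem _ (List.mem_cons_of_mem _ (List.mem_cons_of_mem _ (List.mem_cons_of_mem _ (List.mem_cons_of_mem _ (List.mem_cons_of_mem _ (List.mem_cons_of_mem _ (List.mem_cons_of_mem _ (List.mem_cons_of_mem _ (List.mem_cons_of_mem _ (List.mem_cons_of_mem _ (List.mem_cons_of_mem _ (List.mem_cons_of_mem _ (List.mem_cons_of_mem _ (List.mem_cons_of_mem _ (List.mem_cons_of_mem _ (List.mem_cons_of_mem _ (List.mem_cons_of_mem _ (List.mem_cons_of_mem _ (List.mem_cons_of_mem _ (List.mem_cons_of_mem _ (List.mem_cons_of_mem _ (List.mem_cons_of_mem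 _ (List.mem_cons_of_mem _ (List.mem_cons_of_mem _ (List.mem_cons_of_mem _ (List.mem_cons_of_mem _ (List.mem_cons_of_mem _ (List.mem_cons_of_mem _ (List.mem_cons_of_mem _ (List.mem_cons_of_mem _ (List.mem_cons_of_mem _ (List.mem_cons_of_mem _ (List.mem_cons_of_mem _ (List.mem_cons_of_mem _ (List.mem_cons_of_mem _ (List.mem_cons_of_mem _ (List.mem_cons_of_mem _ (List.mem_cons_of_mem _ (List.mem_cons_of_mem _ (List.mem_cons_of_mem _ (List.mem_cons_of_mem _ (List.mem_cons_of_mem _ (List.mem_cons_of_mem _ (List.mem_cons_of_mem _ (List.mem_cons_of_mem _ (List.mem_cons_of_mem _ (List.mem_cons_of_mem _ (List.mem_cons_of_mem _ (List.mem_cons_of_mem _ (List.mem_cons_of_mem _ (List.mem_cons_of_mem _ (List.mem_cons_of_mem _ (List.mem_cons_of_mem _ (List.mem_cons_of_mem _ (List.mem_cons_of_mem _ (List.mem_cons_of_mem _ (List.mem_cons_of_mem _ (List.mem_cons_of_mem _ (List.mem_cons_of_mem _ (List.mem_cons_of_mem _ (List.mem_cons_of_mem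 _ (List.mem_cons_of_mem _ (List.mem_cons_of_mem _ (List.mem_cons_of_mem _ (List.mem_cons_of_mem _ (List.mem_cons_of_mem _ (List.mem_cons_of_mem _ (List.mem_cons_of_mem _ (List.mem_cons_of_mem _ (List.mem_cons_of_mem _ (List.mem_cons_of_mem _ (List.mem_cons_of_mem _ (List.mem_cons_of_mem _ (List.mem_cons_of_mem _ (List.mem_cons_of_mem _ (List.mem_cons_of_mem _ (List.mem_cons_of_mem _ (List.mem_cons_of_mem _ (List.mem_cons_of_mem _ (List.mem_cons_of_mem _ (List.mem_cons_of_mem _ (List.mem_cons_of_mem _ (List.mem_cons_of_mem _ (List.mem_cons_of_mem _ (List.mem_cons_of_mem _ (List.mem_cons_of_mem _ (List.mem_cons_of_mem _ (List.mem_cons_of_mem _ (List.mem_cons_of_mem _ (List.mem_cons_of_mem _ (List.mem_cons_of_mem _ (List.mem_cons_of_mem _ (List.mem_cons_of_mem _ (List.mem_cons_of_mem _ (List.mem_cons_of_mem _ (List.mem_cons_of_mem _ (List.mem_cons_of_mem _ (List.mem_cons_of_mem _ (List.mem_cons_of_mem _ (List.mem_cons_of_mem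 _ (List.mem_cons_of_mem _ (List.mem_cons_of_mem _ (List.mem_cons_of_mem _ (List.mem_cons_of_mem _ (List.mem_cons_of_mem _ (List.mem_cons_of_mem _ (List.mem_cons_of_mem _ (List.mem_cons_of_mem _ (List.mem_cons_of_mem _ (List.mem_cons_of_mem _ (List.mem_cons_of_mem _ (List.mem_cons_of_mem _ (List.mem_cons_of_mem _ (List.mem_cons_of_mem _ (List.mem_cons_of_mem _ (List.mem_cons_of_mem _ (List.mem_cons_of_mem _ (List.mem_cons_of_mem _ (List.mem_cons_of_mem _ (List.mem_cons_of_mem _ (List.mem_cons_of_mem _ (List.mem_cons_of_mem _ (List.mem_cons_of_mem _ (List.mem_cons_of_mem _ (List.mem_cons_of_mem _ (List.mem_cons_of_mem _ (List.mem_cons_of_mem _ (List.mem_cons_of_mem _ (List.mem_cons_of_mem _ (List.mem_cons_of_mem _ (List.mem_cons_of_mem _ (List.mem_cons_of_mem _ (List.mem_cons_of_mem _ (List.mem_cons_of_mem _ (List.mem_cons_of_mem _ (List.mem_cons_of_mem _ (List.mem_cons_of_mem _ (List.mem_cons_of_mem _ (List.mem_cons_of_mem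 _ (List.mem_cons_of_mem _ (List.mem_cons_of_mem _ (List.mem_cons_of_mem _ (List.mem_cons_of_mem _ (List.mem_cons_of_mem _ (List.mem_cons_of_mem _ (List.mem_cons_of_mem _ (List.mem_cons_self)))))))))))))))))))))))))))))))))))))))))))))))))))))))))))))))))))))))))))))))))))))))))))))))))))))))))))))))))))))))))))))))))))))))))))))))))))), ?_⟩, by norm_num⟩
  constructor <;> norm_num [Q148, coCell, P17C0]

lemma lP17C0 : ∀ x1 x2 xc : ℝ, 0 ≤ x1 → x1 ≤ 1 → 0 ≤ x2 → x2 ≤ 1 → P17C0.l ≤ xc → xc ≤ P17C0.u →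
    (56035 / 2048 : ℝ) * (1 - (1 - x1) ^ 5) + (0 : ℝ) * (1 - (1 - x2) ^ 5) - (12 : ℝ) * (1 - (1 - xc) ^ 5) + (1 / 1073741824 : ℝ)
      ≤ - P17C0.a1 * x1 - P17C0.a2 * x2 + P17C0.e * xc + P17C0.f := by
  have h := cell_lines_delta 5 (α1 := (56035 / 2048 : ℝ)) (α2 := (0 : ℝ)) (c := (12 : ℝ)) (y1 := (44183 / 262144 : ℝ)) (y2 := (19443 / 262144 : ℝ))
    (A1 := (17139369 / 262144 : ℝ)) (B1 := (734005975 / 134217728 : ℝ)) (A2 := (0 : ℝ)) (B2 := (0 : ℝ)) (l := (78643 / 262144 : ℝ)) (u := (41681 / 131072 : ℝ))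
    (E := (-28697275 / 2097152 : ℝ)) (F := (-1577858599 / 268435456 : ℝ)) (δ := (1 / 1073741824 : ℝ)) (by norm_num) (by norm_num) (by norm_num) (by norm_num) (by norm_num)
    (by norm_num) (by norm_num) (by norm_num) (by norm_num) (by norm_num) (by norm_num) (by norm_num) (by norm_num) (by norm_num) (by norm_num)
  have e1 : P17C0.l = (78643 / 262144 : ℝ) := rfl
  have e2 : P17C0.u = (41681 / 131072 : ℝ) := rfl
  have e3 : P17C0.a1 = -(17139369 / 262144 : ℝ) := by norm_num [P17C0]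
  have e4 : P17C0.a2 = -(0 : ℝ) := by norm_num [P17C0]
  have e5 : P17C0.e = (-28697275 / 2097152 : ℝ) := rfl
  have e6 : P17C0.f = (734005975 / 134217728 : ℝ) + (0 : ℝ) + (-1577858599 / 268435456 : ℝ) + (1 / 1073741824 : ℝ) := by norm_num [P17C0]
  rw [e1, e2, e3, e4, e5, e6]
  exact h

lemma rP17C1 : ∃ N : ℝ, Rw4 P.r2 N (coCell (56035 / 2048 : ℝ) (0 : ℝ) (12 : ℝ) 0 P17C1) := by
  refine ⟨(3221225472 : ℝ), ⟨Q149, List.mem_cons_of_mem _ (List.mem_cons_of_mem _ (List.mem_cons_of_mem _ (List.mem_cons_of_mem _ (List.mem_cons_of_mem _ (List.mem_cons_of_mem _ (List.mem_cons_of_mem _ (List.mem_cons_of_mem _ (List.mem_cons_of_mem _ (List.mem_cons_of_mem _ (List.mem_cons_of_mem _ (List.mem_cons_of_mem _ (List.mem_cons_of_mem _ (List.mem_cons_of_mem _ (List.mem_cons_of_mem _ (List.mem_cons_of_mem _ (List.mem_cons_of_mem _ (List.mem_cons_of_mem _ (List.mem_cons_of_mem _ (List.mem_cons_of_mem _ (List.mem_cons_of_mem _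 (List.mem_cons_of_mem _ (List.mem_cons_of_mem _ (List.mem_cons_of_mem _ (List.mem_cons_of_mem _ (List.mem_cons_of_mem _ (List.mem_cons_of_mem _ (List.mem_cons_of_mem _ (List.mem_cons_of_mem _ (List.mem_cons_of_mem _ (List.mem_cons_of_mem _ (List.mem_cons_of_mem _ (List.mem_cons_of_mem _ (List.mem_cons_of_mem _ (List.mem_cons_of_mem _ (List.mem_cons_of_mem _ (List.mem_cons_of_mem _ (List.mem_cons_of_mem _ (List.mem_cons_of_mem _ (List.mem_cons_of_mem _ (List.mem_cons_of_mem _ (List.mem_cons_of_mem _ (List.mem_cons_of_mem _ (List.mem_cons_of_mem _ (List.mem_cons_of_mem _ (List.mem_cons_of_mem _ (List.mem_cons_of_mem _ (List.mem_cons_of_mem _ (List.mem_cons_of_mem _ (List.mem_cons_of_mem _ (List.mem_cons_of_mem _ (List.mem_cons_of_mem _ (List.mem_cons_of_mem _ (List.mem_cons_of_mem _ (List.mem_cons_of_mem _ (List.mem_cons_of_mem _ (List.mem_cons_of_mem _ (List.mem_cons_of_mem _ (List.mem_cons_of_mem _ (List.mem_cons_of_mem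 _ (List.mem_cons_of_mem _ (List.mem_cons_of_mem _ (List.mem_cons_of_mem _ (List.mem_cons_of_mem _ (List.mem_cons_of_mem _ (List.mem_cons_of_mem _ (List.mem_cons_of_mem _ (List.mem_cons_of_mem _ (List.mem_cons_of_mem _ (List.mem_cons_of_mem _ (List.mem_cons_of_mem _ (List.mem_cons_of_mem _ (List.mem_cons_of_mem _ (List.mem_cons_of_mem _ (List.mem_cons_of_mem _ (List.mem_cons_of_mem _ (List.mem_cons_of_mem _ (List.mem_cons_of_mem _ (List.mem_cons_of_mem _ (List.mem_cons_of_mem _ (List.mem_cons_of_mem _ (List.mem_cons_of_mem _ (List.mem_cons_of_mem _ (List.mem_cons_of_mem _ (List.mem_cons_of_mem _ (List.mem_cons_of_mem _ (List.mem_cons_of_mem _ (List.mem_cons_of_mem _ (List.mem_cons_of_mem _ (List.mem_cons_of_mem _ (List.mem_cons_of_mem _ (List.mem_cons_of_mem _ (List.mem_cons_of_mem _ (List.mem_cons_of_mem _ (List.mem_cons_of_mem _ (List.mem_cons_of_mem _ (List.mem_cons_of_mem _ (List.mem_cons_of_mem _ (List.mem_cons_of_mem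 _ (List.mem_cons_of_mem _ (List.mem_cons_of_mem _ (List.mem_cons_of_mem _ (List.mem_cons_of_mem _ (List.mem_cons_of_mem _ (List.mem_cons_of_mem _ (List.mem_cons_of_mem _ (List.mem_cons_of_mem _ (List.mem_cons_of_mem _ (List.mem_cons_of_mem _ (List.mem_cons_of_mem _ (List.mem_cons_of_mem _ (List.mem_cons_of_mem _ (List.mem_cons_of_mem _ (List.mem_cons_of_mem _ (List.mem_cons_of_mem _ (List.mem_cons_of_mem _ (List.mem_cons_of_mem _ (List.mem_cons_of_mem _ (List.mem_cons_of_mem _ (List.mem_cons_of_mem _ (List.mem_cons_of_mem _ (List.mem_cons_of_mem _ (List.mem_cons_of_mem _ (List.mem_cons_of_mem _ (List.mem_cons_of_mem _ (List.mem_cons_of_mem _ (List.mem_cons_of_mem _ (List.mem_cons_of_mem _ (List.mem_cons_of_mem _ (List.mem_cons_of_mem _ (List.mem_cons_of_mem _ (List.mem_cons_of_mem _ (List.mem_cons_of_mem _ (List.mem_cons_of_mem _ (List.mem_cons_of_mem _ (List.mem_cons_of_mem _ (List.mem_cons_of_mem _ (List.mem_cons_of_mem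 _ (List.mem_cons_of_mem _ (List.mem_cons_of_mem _ (List.mem_cons_of_mem _ (List.mem_cons_of_mem _ (List.mem_cons_of_mem _ (List.mem_cons_of_mem _ (List.mem_cons_of_mem _ (List.mem_cons_of_mem _ (List.mem_cons_of_mem _ (List.mem_cons_of_mem _ (List.mem_cons_of_mem _ (List.mem_cons_self))))))))))))))))))))))))))))))))))))))))))))))))))))))))))))))))))))))))))))))))))))))))))))))))))))))))))))))))))))))))))))))))))))))))))))))))))))), ?_⟩, by norm_num⟩
  constructor <;> norm_num [Q149, coCell, P17C1]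

lemma lP17C1 : ∀ x1 x2 xc : ℝ, 0 ≤ x1 → x1 ≤ 1 → 0 ≤ x2 → x2 ≤ 1 → P17C1.l ≤ xc → xc ≤ P17C1.u →
    (56035 / 2048 : ℝ) * (1 - (1 - x1) ^ 5) + (0 : ℝ) * (1 - (1 - x2) ^ 5) - (12 : ℝ) * (1 - (1 - xc) ^ 5) + (1 / 1073741824 : ℝ)
      ≤ - P17C1.a1 * x1 - P17C1.a2 * x2 + P17C1.e * xc + P17C1.f := by
  have h := cell_lines_delta 5 (α1 := (56035 / 2048 : ℝ)) (α2 := (0 : ℝ)) (c := (12 : ℝ)) (y1 := (23335 / 131072 : ℝ)) (y2 := (9801 / 131072 : ℝ))
    (A1 := (16370395 / 262144 : ℝ)) (B1 := (802221419 / 134217728 : ℝ)) (A2 := (0 : ℝ)) (B2 := (0 : ℝ)) (l := (41681 / 131072 : ℝ)) (u := (88363 / 262144 : ℝ))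
    (E := (-12870433 / 1048576 : ℝ)) (F := (-1698196571 / 268435456 : ℝ)) (δ := (1 / 1073741824 : ℝ)) (by norm_num) (by norm_num) (by norm_num) (by norm_num) (by norm_num)
    (by norm_num) (by norm_num) (by norm_num) (by norm_num) (by norm_num) (by norm_num) (by norm_num) (by norm_num) (by norm_num) (by norm_num)
  have e1 : P17C1.l = (41681 / 131072 : ℝ) := rfl
  have e2 : P17C1.u = (88363 / 262144 : ℝ) := rfl
  have e3 : P17C1.a1 = -(16370395 / 262144 : ℝ) := by norm_num [P17C1]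
  have e4 : P17C1.a2 = -(0 : ℝ) := by norm_num [P17C1]
  have e5 : P17C1.e = (-12870433 / 1048576 : ℝ) := rfl
  have e6 : P17C1.f = (802221419 / 134217728 : ℝ) + (0 : ℝ) + (-1698196571 / 268435456 : ℝ) + (1 / 1073741824 : ℝ) := by norm_num [P17C1]
  rw [e1, e2, e3, e4, e5, e6]
  exact h

lemma rP17C2 : ∃ N : ℝ, Rw4 P.r2 N (coCell (56035 / 2048 : ℝ) (0 : ℝ) (12 : ℝ) 0 P17C2) := by
  refine ⟨(3221225472 : ℝ), ⟨Q150, List.mem_cons_of_mem _ (List.mem_cons_of_mem _ (List.mem_cons_of_mem _ (List.mem_cons_of_mem _ (List.mem_cons_of_mem _ (List.mem_cons_of_mem _ (List.mem_cons_of_mem _ (List.mem_cons_of_mem _ (List.mem_cons_of_mem _ (List.mem_cons_of_mem _ (List.mem_cons_of_mem _ (List.mem_cons_of_mem _ (List.mem_cons_of_mem _ (List.mem_cons_of_mem _ (List.mem_cons_of_mem _ (List.mem_cons_of_mem _ (List.mem_cons_of_mem _ (List.mem_cons_of_mem _ (List.mem_cons_of_mem _ (List.mem_cons_of_mem _ (List.mem_cons_of_mem _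 (List.mem_cons_of_mem _ (List.mem_cons_of_mem _ (List.mem_cons_of_mem _ (List.mem_cons_of_mem _ (List.mem_cons_of_mem _ (List.mem_cons_of_mem _ (List.mem_cons_of_mem _ (List.mem_cons_of_mem _ (List.mem_cons_of_mem _ (List.mem_cons_of_mem _ (List.mem_cons_of_mem _ (List.mem_cons_of_mem _ (List.mem_cons_of_mem _ (List.mem_cons_of_mem _ (List.mem_cons_of_mem _ (List.mem_cons_of_mem _ (List.mem_cons_of_mem _ (List.mem_cons_of_mem _ (List.mem_cons_of_mem _ (List.mem_cons_of_mem _ (List.mem_cons_of_mem _ (List.mem_cons_of_mem _ (List.mem_cons_of_mem _ (List.mem_cons_of_mem _ (List.mem_cons_of_mem _ (List.mem_cons_of_mem _ (List.mem_cons_of_mem _ (List.mem_cons_of_mem _ (List.mem_cons_of_mem _ (List.mem_cons_of_mem _ (List.mem_cons_of_mem _ (List.mem_cons_of_mem _ (List.mem_cons_of_mem _ (List.mem_cons_of_mem _ (List.mem_cons_of_mem _ (List.mem_cons_of_mem _ (List.mem_cons_of_mem _ (List.mem_cons_of_mem _ (List.mem_cons_of_mem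 _ (List.mem_cons_of_mem _ (List.mem_cons_of_mem _ (List.mem_cons_of_mem _ (List.mem_cons_of_mem _ (List.mem_cons_of_mem _ (List.mem_cons_of_mem _ (List.mem_cons_of_mem _ (List.mem_cons_of_mem _ (List.mem_cons_of_mem _ (List.mem_cons_of_mem _ (List.mem_cons_of_mem _ (List.mem_cons_of_mem _ (List.mem_cons_of_mem _ (List.mem_cons_of_mem _ (List.mem_cons_of_mem _ (List.mem_cons_of_mem _ (List.mem_cons_of_mem _ (List.mem_cons_of_mem _ (List.mem_cons_of_mem _ (List.mem_cons_of_mem _ (List.mem_cons_of_mem _ (List.mem_cons_of_mem _ (List.mem_cons_of_mem _ (List.mem_cons_of_mem _ (List.mem_cons_of_mem _ (List.mem_cons_of_mem _ (List.mem_cons_of_mem _ (List.mem_cons_of_mem _ (List.mem_cons_of_mem _ (List.mem_cons_of_mem _ (List.mem_cons_of_mem _ (List.mem_cons_of_mem _ (List.mem_cons_of_mem _ (List.mem_cons_of_mem _ (List.mem_cons_of_mem _ (List.mem_cons_of_mem _ (List.mem_cons_of_mem _ (List.mem_cons_of_mem _ (List.mem_cons_of_mem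 _ (List.mem_cons_of_mem _ (List.mem_cons_of_mem _ (List.mem_cons_of_mem _ (List.mem_cons_of_mem _ (List.mem_cons_of_mem _ (List.mem_cons_of_mem _ (List.mem_cons_of_mem _ (List.mem_cons_of_mem _ (List.mem_cons_of_mem _ (List.mem_cons_of_mem _ (List.mem_cons_of_mem _ (List.mem_cons_of_mem _ (List.mem_cons_of_mem _ (List.mem_cons_of_mem _ (List.mem_cons_of_mem _ (List.mem_cons_of_mem _ (List.mem_cons_of_mem _ (List.mem_cons_of_mem _ (List.mem_cons_of_mem _ (List.mem_cons_of_mem _ (List.mem_cons_of_mem _ (List.mem_cons_of_mem _ (List.mem_cons_of_mem _ (List.mem_cons_of_mem _ (List.mem_cons_of_mem _ (List.mem_cons_of_mem _ (List.mem_cons_of_mem _ (List.mem_cons_of_mem _ (List.mem_cons_of_mem _ (List.mem_cons_of_mem _ (List.mem_cons_of_mem _ (List.mem_cons_of_mem _ (List.mem_cons_of_mem _ (List.mem_cons_of_mem _ (List.mem_cons_of_mem _ (List.mem_cons_of_mem _ (List.mem_cons_of_mem _ (List.mem_cons_of_mem _ (List.mem_cons_of_mem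 _ (List.mem_cons_of_mem _ (List.mem_cons_of_mem _ (List.mem_cons_of_mem _ (List.mem_cons_of_mem _ (List.mem_cons_of_mem _ (List.mem_cons_of_mem _ (List.mem_cons_of_mem _ (List.mem_cons_of_mem _ (List.mem_cons_of_mem _ (List.mem_cons_of_mem _ (List.mem_cons_of_mem _ (List.mem_cons_of_mem _ (List.mem_cons_self)))))))))))))))))))))))))))))))))))))))))))))))))))))))))))))))))))))))))))))))))))))))))))))))))))))))))))))))))))))))))))))))))))))))))))))))))))))), ?_⟩, by norm_num⟩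
  constructor <;> norm_num [Q150, coCell, P17C2]

lemma lP17C2 : ∀ x1 x2 xc : ℝ, 0 ≤ x1 → x1 ≤ 1 → 0 ≤ x2 → x2 ≤ 1 → P17C2.l ≤ xc → xc ≤ P17C2.u →
    (56035 / 2048 : ℝ) * (1 - (1 - x1) ^ 5) + (0 : ℝ) * (1 - (1 - x2) ^ 5) - (12 : ℝ) * (1 - (1 - xc) ^ 5) + (1 / 1073741824 : ℝ)
      ≤ - P17C2.a1 * x1 - P17C2.a2 * x2 + P17C2.e * xc + P17C2.f := by
  have h := cell_lines_delta 5 (α1 := (56035 / 2048 : ℝ)) (α2 := (0 : ℝ)) (c := (12 : ℝ)) (y1 := (46895 / 262144 : ℝ)) (y2 := (9311 / 131072 : ℝ))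
    (A1 := (32604251 / 524288 : ℝ)) (B1 := (404229669 / 67108864 : ℝ)) (A2 := (0 : ℝ)) (B2 := (0 : ℝ)) (l := (88363 / 262144 : ℝ)) (u := (93665 / 262144 : ℝ))
    (E := (-11431533 / 1048576 : ℝ)) (F := (-911181059 / 134217728 : ℝ)) (δ := (1 / 1073741824 : ℝ)) (by norm_num) (by norm_num) (by norm_num) (by norm_num) (by norm_num)
    (by norm_num) (by norm_num) (by norm_num) (by norm_num) (by norm_num) (by norm_num) (by norm_num) (by norm_num) (by norm_num) (by norm_num)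
  have e1 : P17C2.l = (88363 / 262144 : ℝ) := rfl
  have e2 : P17C2.u = (93665 / 262144 : ℝ) := rfl
  have e3 : P17C2.a1 = -(32604251 / 524288 : ℝ) := by norm_num [P17C2]
  have e4 : P17C2.a2 = -(0 : ℝ) := by norm_num [P17C2]
  have e5 : P17C2.e = (-11431533 / 1048576 : ℝ) := rfl
  have e6 : P17C2.f = (404229669 / 67108864 : ℝ) + (0 : ℝ) + (-911181059 / 134217728 : ℝ) + (1 / 1073741824 : ℝ) := by norm_num [P17C2]
  rw [e1, e2, e3, e4, e5, e6]
  exact h

lemma rP17C3 : ∃ N : ℝ, Rw4 P.r2 N (coCell (56035 / 2048 : ℝ) (0 : ℝ) (12 : ℝ) 0 P17C3) := by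
  refine ⟨(3221225472 : ℝ), ⟨Q151, List.mem_cons_of_mem _ (List.mem_cons_of_mem _ (List.mem_cons_of_mem _ (List.mem_cons_of_mem _ (List.mem_cons_of_mem _ (List.mem_cons_of_mem _ (List.mem_cons_of_mem _ (List.mem_cons_of_mem _ (List.mem_cons_of_mem _ (List.mem_cons_of_mem _ (List.mem_cons_of_mem _ (List.mem_cons_of_mem _ (List.mem_cons_of_mem _ (List.mem_cons_of_mem _ (List.mem_cons_of_mem _ (List.mem_cons_of_mem _ (List.mem_cons_of_mem _ (List.mem_cons_of_mem _ (List.mem_cons_of_mem _ (List.mem_cons_of_mem _ (List.mem_cons_of_mem _ (List.mem_cons_of_mem _ (List.mem_cons_of_mem _ (List.mem_cons_of_mem _ (List.mem_cons_of_mem _ (List.mem_cons_of_mem _ (List.mem_cons_of_mem _ (List.mem_cons_of_mem _ (List.mem_cons_of_mem _ (List.mem_cons_of_mem _ (List.mem_cons_of_mem _ (List.mem_cons_of_mem _ (List.mem_cons_of_mem _ (List.mem_cons_of_mem _ (List.mem_cons_of_mem _ (List.mem_cons_of_mem _ (List.mem_cons_of_mem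 _ (List.mem_cons_of_mem _ (List.mem_cons_of_mem _ (List.mem_cons_of_mem _ (List.mem_cons_of_mem _ (List.mem_cons_of_mem _ (List.mem_cons_of_mem _ (List.mem_cons_of_mem _ (List.mem_cons_of_mem _ (List.mem_cons_of_mem _ (List.mem_cons_of_mem _ (List.mem_cons_of_mem _ (List.mem_cons_of_mem _ (List.mem_cons_of_mem _ (List.mem_cons_of_mem _ (List.mem_cons_of_mem _ (List.mem_cons_of_mem _ (List.mem_cons_of_mem _ (List.mem_cons_of_mem _ (List.mem_cons_of_mem _ (List.mem_cons_of_mem _ (List.mem_cons_of_mem _ (List.mem_cons_of_mem _ (List.mem_cons_of_mem _ (List.mem_cons_of_mem _ (List.mem_cons_of_mem _ (List.mem_cons_of_mem _ (List.mem_cons_of_mem _ (List.mem_cons_of_mem _ (List.mem_cons_of_mem _ (List.mem_cons_of_mem _ (List.mem_cons_of_mem _ (List.mem_cons_of_mem _ (List.mem_cons_of_mem _ (List.mem_cons_of_mem _ (List.mem_cons_of_mem _ (List.mem_cons_of_mem _ (List.mem_cons_of_mem _ (List.mem_cons_of_mem _ (List.mem_cons_of_mem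 _ (List.mem_cons_of_mem _ (List.mem_cons_of_mem _ (List.mem_cons_of_mem _ (List.mem_cons_of_mem _ (List.mem_cons_of_mem _ (List.mem_cons_of_mem _ (List.mem_cons_of_mem _ (List.mem_cons_of_mem _ (List.mem_cons_of_mem _ (List.mem_cons_of_mem _ (List.mem_cons_of_mem _ (List.mem_cons_of_mem _ (List.mem_cons_of_mem _ (List.mem_cons_of_mem _ (List.mem_cons_of_mem _ (List.mem_cons_of_mem _ (List.mem_cons_of_mem _ (List.mem_cons_of_mem _ (List.mem_cons_of_mem _ (List.mem_cons_of_mem _ (List.mem_cons_of_mem _ (List.mem_cons_of_mem _ (List.mem_cons_of_mem _ (List.mem_cons_of_mem _ (List.mem_cons_of_mem _ (List.mem_cons_of_mem _ (List.mem_cons_of_mem _ (List.mem_cons_of_mem _ (List.mem_cons_of_mem _ (List.mem_cons_of_mem _ (List.mem_cons_of_mem _ (List.mem_cons_of_mem _ (List.mem_cons_of_mem _ (List.mem_cons_of_mem _ (List.mem_cons_of_mem _ (List.mem_cons_of_mem _ (List.mem_cons_of_mem _ (List.mem_cons_of_mem _ (List.mem_cons_of_mem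 _ (List.mem_cons_of_mem _ (List.mem_cons_of_mem _ (List.mem_cons_of_mem _ (List.mem_cons_of_mem _ (List.mem_cons_of_mem _ (List.mem_cons_of_mem _ (List.mem_cons_of_mem _ (List.mem_cons_of_mem _ (List.mem_cons_of_mem _ (List.mem_cons_of_mem _ (List.mem_cons_of_mem _ (List.mem_cons_of_mem _ (List.mem_cons_of_mem _ (List.mem_cons_of_mem _ (List.mem_cons_of_mem _ (List.mem_cons_of_mem _ (List.mem_cons_of_mem _ (List.mem_cons_of_mem _ (List.mem_cons_of_mem _ (List.mem_cons_of_mem _ (List.mem_cons_of_mem _ (List.mem_cons_of_mem _ (List.mem_cons_of_mem _ (List.mem_cons_of_mem _ (List.mem_cons_of_mem _ (List.mem_cons_of_mem _ (List.mem_cons_of_mem _ (List.mem_cons_of_mem _ (List.mem_cons_of_mem _ (List.mem_cons_of_mem _ (List.mem_cons_of_mem _ (List.mem_cons_of_mem _ (List.mem_cons_of_mem _ (List.mem_cons_of_mem _ (List.mem_cons_of_mem _ (List.mem_cons_of_mem _ (List.mem_cons_self))))))))))))))))))))))))))))))))))))))))))))))))))))))))))))))))))))))))))))))))))))))))))))))))))))))))))))))))))))))))))))))))))))))))))))))))))))))),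 ?_⟩, by norm_num⟩
  constructor <;> norm_num [Q151, coCell, P17C3]

lemma lP17C3 : ∀ x1 x2 xc : ℝ, 0 ≤ x1 → x1 ≤ 1 → 0 ≤ x2 → x2 ≤ 1 → P17C3.l ≤ xc → xc ≤ P17C3.u →
    (56035 / 2048 : ℝ) * (1 - (1 - x1) ^ 5) + (0 : ℝ) * (1 - (1 - x2) ^ 5) - (12 : ℝ) * (1 - (1 - xc) ^ 5) + (1 / 1073741824 : ℝ)
      ≤ - P17C3.a1 * x1 - P17C3.a2 * x2 + P17C3.e * xc + P17C3.f := by
  have h := cell_lines_delta 5 (α1 := (56035 / 2048 : ℝ)) (α2 := (0 : ℝ)) (c := (12 : ℝ)) (y1 := (47049 / 262144 : ℝ)) (y2 := (22931 / 262144 : ℝ))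
    (A1 := (130044177 / 2097152 : ℝ)) (B1 := (406367415 / 67108864 : ℝ)) (A2 := (0 : ℝ)) (B2 := (0 : ℝ)) (l := (93665 / 262144 : ℝ)) (u := (99285 / 262144 : ℝ))
    (E := (-40166713 / 4194304 : ℝ)) (F := (-243686469 / 33554432 : ℝ)) (δ := (1 / 1073741824 : ℝ)) (by norm_num) (by norm_num) (by norm_num) (by norm_num) (by norm_num)
    (by norm_num) (by norm_num) (by norm_num) (by norm_num) (by norm_num) (by norm_num) (by norm_num) (by norm_num) (by norm_num) (by norm_num)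
  have e1 : P17C3.l = (93665 / 262144 : ℝ) := rfl
  have e2 : P17C3.u = (99285 / 262144 : ℝ) := rfl
  have e3 : P17C3.a1 = -(130044177 / 2097152 : ℝ) := by norm_num [P17C3]
  have e4 : P17C3.a2 = -(0 : ℝ) := by norm_num [P17C3]
  have e5 : P17C3.e = (-40166713 / 4194304 : ℝ) := rfl
  have e6 : P17C3.f = (406367415 / 67108864 : ℝ) + (0 : ℝ) + (-243686469 / 33554432 : ℝ) + (1 / 1073741824 : ℝ) := by norm_num [P17C3]
  rw [e1, e2, e3, e4, e5, e6]
  exact h

lemma rP17C4 : ∃ N : ℝ, Rw4 P.r2 N (coCell (56035 / 2048 : ℝ) (0 : ℝ) (12 : ℝ) 0 P17C4) := by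
  refine ⟨(3221225472 : ℝ), ⟨Q152, List.mem_cons_of_mem _ (List.mem_cons_of_mem _ (List.mem_cons_of_mem _ (List.mem_cons_of_mem _ (List.mem_cons_of_mem _ (List.mem_cons_of_mem _ (List.mem_cons_of_mem _ (List.mem_cons_of_mem _ (List.mem_cons_of_mem _ (List.mem_cons_of_mem _ (List.mem_cons_of_mem _ (List.mem_cons_of_mem _ (List.mem_cons_of_mem _ (List.mem_cons_of_mem _ (List.mem_cons_of_mem _ (List.mem_cons_of_mem _ (List.mem_cons_of_mem _ (List.mem_cons_of_mem _ (List.mem_cons_of_mem _ (List.mem_cons_of_mem _ (List.mem_cons_of_mem _ (List.mem_cons_of_mem _ (List.mem_cons_of_mem _ (List.mem_cons_of_mem _ (List.mem_cons_of_mem _ (List.mem_cons_of_mem _ (List.mem_cons_of_mem _ (List.mem_cons_of_mem _ (List.mem_cons_of_mem _ (List.mem_cons_of_mem _ (List.mem_cons_of_mem _ (List.mem_cons_of_mem _ (List.mem_cons_of_mem _ (List.mem_cons_of_mem _ (List.mem_cons_of_mem _ (List.mem_cons_of_mem _ (List.mem_cons_of_mem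 _ (List.mem_cons_of_mem _ (List.mem_cons_of_mem _ (List.mem_cons_of_mem _ (List.mem_cons_of_mem _ (List.mem_cons_of_mem _ (List.mem_cons_of_mem _ (List.mem_cons_of_mem _ (List.mem_cons_of_mem _ (List.mem_cons_of_mem _ (List.mem_cons_of_mem _ (List.mem_cons_of_mem _ (List.mem_cons_of_mem _ (List.mem_cons_of_mem _ (List.mem_cons_of_mem _ (List.mem_cons_of_mem _ (List.mem_cons_of_mem _ (List.mem_cons_of_mem _ (List.mem_cons_of_mem _ (List.mem_cons_of_mem _ (List.mem_cons_of_mem _ (List.mem_cons_of_mem _ (List.mem_cons_of_mem _ (List.mem_cons_of_mem _ (List.mem_cons_of_mem _ (List.mem_cons_of_mem _ (List.mem_cons_of_mem _ (List.mem_cons_of_mem _ (List.mem_cons_of_mem _ (List.mem_cons_of_mem _ (List.mem_cons_of_mem _ (List.mem_cons_of_mem _ (List.mem_cons_of_mem _ (List.mem_cons_of_mem _ (List.mem_cons_of_mem _ (List.mem_cons_of_mem _ (List.mem_cons_of_mem _ (List.mem_cons_of_mem _ (List.mem_cons_of_mem _ (List.mem_cons_of_mem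 _ (List.mem_cons_of_mem _ (List.mem_cons_of_mem _ (List.mem_cons_of_mem _ (List.mem_cons_of_mem _ (List.mem_cons_of_mem _ (List.mem_cons_of_mem _ (List.mem_cons_of_mem _ (List.mem_cons_of_mem _ (List.mem_cons_of_mem _ (List.mem_cons_of_mem _ (List.mem_cons_of_mem _ (List.mem_cons_of_mem _ (List.mem_cons_of_mem _ (List.mem_cons_of_mem _ (List.mem_cons_of_mem _ (List.mem_cons_of_mem _ (List.mem_cons_of_mem _ (List.mem_cons_of_mem _ (List.mem_cons_of_mem _ (List.mem_cons_of_mem _ (List.mem_cons_of_mem _ (List.mem_cons_of_mem _ (List.mem_cons_of_mem _ (List.mem_cons_of_mem _ (List.mem_cons_of_mem _ (List.mem_cons_of_mem _ (List.mem_cons_of_mem _ (List.mem_cons_of_mem _ (List.mem_cons_of_mem _ (List.mem_cons_of_mem _ (List.mem_cons_of_mem _ (List.mem_cons_of_mem _ (List.mem_cons_of_mem _ (List.mem_cons_of_mem _ (List.mem_cons_of_mem _ (List.mem_cons_of_mem _ (List.mem_cons_of_mem _ (List.mem_cons_of_mem _ (List.mem_cons_of_mem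 _ (List.mem_cons_of_mem _ (List.mem_cons_of_mem _ (List.mem_cons_of_mem _ (List.mem_cons_of_mem _ (List.mem_cons_of_mem _ (List.mem_cons_of_mem _ (List.mem_cons_of_mem _ (List.mem_cons_of_mem _ (List.mem_cons_of_mem _ (List.mem_cons_of_mem _ (List.mem_cons_of_mem _ (List.mem_cons_of_mem _ (List.mem_cons_of_mem _ (List.mem_cons_of_mem _ (List.mem_cons_of_mem _ (List.mem_cons_of_mem _ (List.mem_cons_of_mem _ (List.mem_cons_of_mem _ (List.mem_cons_of_mem _ (List.mem_cons_of_mem _ (List.mem_cons_of_mem _ (List.mem_cons_of_mem _ (List.mem_cons_of_mem _ (List.mem_cons_of_mem _ (List.mem_cons_of_mem _ (List.mem_cons_of_mem _ (List.mem_cons_of_mem _ (List.mem_cons_of_mem _ (List.mem_cons_of_mem _ (List.mem_cons_of_mem _ (List.mem_cons_of_mem _ (List.mem_cons_of_mem _ (List.mem_cons_of_mem _ (List.mem_cons_of_mem _ (List.mem_cons_of_mem _ (List.mem_cons_of_mem _ (List.mem_cons_of_mem _ (List.mem_cons_self)))))))))))))))))))))))))))))))))))))))))))))))))))))))))))))))))))))))))))))))))))))))))))))))))))))))))))))))))))))))))))))))))))))))))))))))))))))))),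 ?_⟩, by norm_num⟩
  constructor <;> norm_num [Q152, coCell, P17C4]

lemma lP17C4 : ∀ x1 x2 xc : ℝ, 0 ≤ x1 → x1 ≤ 1 → 0 ≤ x2 → x2 ≤ 1 → P17C4.l ≤ xc → xc ≤ P17C4.u →
    (56035 / 2048 : ℝ) * (1 - (1 - x1) ^ 5) + (0 : ℝ) * (1 - (1 - x2) ^ 5) - (12 : ℝ) * (1 - (1 - xc) ^ 5) + (1 / 1073741824 : ℝ)
      ≤ - P17C4.a1 * x1 - P17C4.a2 * x2 + P17C4.e * xc + P17C4.f := by
  have h := cell_lines_delta 5 (α1 := (56035 / 2048 : ℝ)) (α2 := (0 : ℝ)) (c := (12 : ℝ)) (y1 := (49141 / 262144 : ℝ)) (y2 := (2857 / 32768 : ℝ))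
    (A1 := (125058303 / 2097152 : ℝ)) (B1 := (1742544917 / 268435456 : ℝ)) (A2 := (0 : ℝ)) (B2 := (0 : ℝ)) (l := (99285 / 262144 : ℝ)) (u := (401 / 1024 : ℝ))
    (E := (-17984195 / 2097152 : ℝ)) (F := (-2051257011 / 268435456 : ℝ)) (δ := (1 / 1073741824 : ℝ)) (by norm_num) (by norm_num) (by norm_num) (by norm_num) (by norm_num)
    (by norm_num) (by norm_num) (by norm_num) (by norm_num) (by norm_num) (by norm_num) (by norm_num) (by norm_num) (by norm_num) (by norm_num)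
  have e1 : P17C4.l = (99285 / 262144 : ℝ) := rfl
  have e2 : P17C4.u = (401 / 1024 : ℝ) := rfl
  have e3 : P17C4.a1 = -(125058303 / 2097152 : ℝ) := by norm_num [P17C4]
  have e4 : P17C4.a2 = -(0 : ℝ) := by norm_num [P17C4]
  have e5 : P17C4.e = (-17984195 / 2097152 : ℝ) := rfl
  have e6 : P17C4.f = (1742544917 / 268435456 : ℝ) + (0 : ℝ) + (-2051257011 / 268435456 : ℝ) + (1 / 1073741824 : ℝ) := by norm_num [P17C4]
  rw [e1, e2, e3, e4, e5, e6]
  exact h

/-- A link of the chain. -/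
lemma link17 {lam : ℝ} (h0 : -(1 / 2) < lam) (h1 : lam < 1) (hB : BoxS lam P 0 HH 0 HH)
    (h : ∃ n, 1 - En 5 lam n mc ≤ (401 / 1024 : ℝ)) : ∃ n, 1 - En 5 lam n mc ≤ (78643 / 262144 : ℝ) :=
  phase_of_box (by norm_num) h0 h1 hB (56035 / 2048 : ℝ) (0 : ℝ) (12 : ℝ) (1 / 1073741824 : ℝ) (78643 / 262144 : ℝ) (401 / 1024 : ℝ) (by norm_num) cellsP17 hcoverP17
    (forall_cons lP17C0 (forall_cons lP17C1 (forall_cons lP17C2 (forall_cons lP17C3 (forall_cons lP17C4 (forall_nil)))))) (forall_cons rP17C0 (forall_cons rP17C1 (forall_cons rP17C2 (forall_cons rP17C3 (forall_cons rP17C4 (forall_nil)))))) h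

/-- The whole chain. -/
lemma chain {lam : ℝ} (h0 : -(1 / 2) < lam) (h1 : lam < 1) (hB : BoxS lam P 0 HH 0 HH) :
    ∃ n, 1 - En 5 lam n mc ≤ (1 / 32 : ℝ) := (link0 h0 h1 hB (link1 h0 h1 hB (link2 h0 h1 hB (link3 h0 h1 hB (link4 h0 h1 hB (link5 h0 h1 hB (link6 h0 h1 hB (link7 h0 h1 hB (link8 h0 h1 hB (link9 h0 h1 hB (link10 h0 h1 hB (link11 h0 h1 hB (link12 h0 h1 hB (link13 h0 h1 hB (link14 h0 h1 hB (link15 h0 h1 hB (link16 h0 h1 hB (link17 h0 h1 hB (start_of_box h0 h1 hB _ rc3)))))))))))))))))))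

/-- The hypotheses at the origin. -/
lemma horig (lam : ℝ) (hd : (5 : ℝ) * lam ^ 2 = 1) (hb : |lam| ≤ (1920767767 / 4294967296 : ℝ)) :
    OriginH 5 lam (102897 / 65536 : ℝ) (409923 / 32768 : ℝ) (181939 / 16384 : ℝ) (101 / 256 : ℝ) (23 / 2048 : ℝ) (441 / 4096 : ℝ) (4165 / 4096 : ℝ) (1 / 256 : ℝ) 3298534883328 := by
  refine originH_of_num (d := 5) (by push_cast; exact hd) hb (by norm_num) (by norm_num) (by norm_num) (by norm_num)
    (by norm_num) (by norm_num) (by norm_num) (by norm_num) (by norm_num) (by norm_num) (by norm_num [S]) (by norm_num) ?_ ?_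
  · rw [hch]
    norm_num [abs_of_pos, abs_of_neg]
  · norm_num [abs_of_pos, abs_of_neg]

/-- Nonreconstruction at the bound. -/
theorem main : Tendsto (reconError 3 5 (-(1 / Real.sqrt 5))) atTop (𝓝 0) := by
  have hsq : Real.sqrt ((5 : ℕ) : ℝ) ^ 2 = 5 := by
    rw [Real.sq_sqrt (by positivity)]; norm_num
  have hsq' : Real.sqrt (5 : ℝ) ^ 2 = 5 := by
    rw [Real.sq_sqrt (by positivity)]
  have hs0 : 0 < Real.sqrt (5 : ℝ) := Real.sqrt_pos.2 (by norm_num)
  have hl2 : ((5 : ℝ)) * (-(1 / Real.sqrt 5)) ^ 2 = 1 := by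
    have : (-(1 / Real.sqrt (5 : ℝ))) ^ 2 = 1 / 5 := by
      rw [neg_sq, div_pow, hsq']; norm_num
    rw [this]; norm_num
  have hb : |(-(1 / Real.sqrt (5 : ℝ)))| ≤ (1920767767 / 4294967296 : ℝ) := by
    rw [abs_neg, abs_of_pos (by positivity)]
    rw [div_le_iff₀ hs0]
    have h1 : (1 : ℝ) ^ 2 ≤ ((1920767767 / 4294967296 : ℝ) * Real.sqrt 5) ^ 2 := by
      rw [mul_pow, hsq']; norm_num
    exact le_of_sq_le_sq h1 (by positivity)
  have hb2 : (-(1 / 2) : ℝ) < -(1 / Real.sqrt (5 : ℝ)) := by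
    have h2 := (abs_le.1 hb).1
    have h3 : ((1920767767 / 4294967296 : ℝ) : ℝ) < 1 / 2 := by norm_num
    linarith
  have h1 : (-(1 / Real.sqrt (5 : ℝ))) < 1 := by
    have : 0 < 1 / Real.sqrt (5 : ℝ) := by positivity
    linarith
  have hlam : |(S : ℝ) * (-(1 / Real.sqrt (5 : ℝ))) - ((P.lp : ℝ) - P.ln)| ≤ ((1 : ℕ) : ℝ) := by
    have h := lam_enc 5 32225135712778084 (by norm_num) (by norm_num [S]) (by norm_num [S])
    have e : ((5 : ℕ) : ℝ) = (5 : ℝ) := by norm_num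
    rw [e] at h
    exact h
  obtain ⟨hOa, hON⟩ := horig _ hl2 hb
  have hB := box hlam
  refine final_of_boxB (d := 5) (by norm_num) hb2 h1 hB (102897 / 65536 : ℝ) (409923 / 32768 : ℝ) (181939 / 16384 : ℝ) (101 / 256 : ℝ) (441 / 4096 : ℝ) (4165 / 4096 : ℝ) (5243 / 1048576 : ℝ) (1627 / 16384 : ℝ) (23 / 2048 : ℝ) (1 / 32 : ℝ) cellsL
    (by norm_num) (by norm_num) (by norm_num) (by norm_num) (by norm_num) (by norm_num) (by norm_num) (by norm_num)
    (by norm_num) (by norm_num) (by norm_num) (by norm_num) (by norm_num) hOa hON rTa rTb rc1 rc2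
    (forall_cons rcell0 (forall_cons rcell1 (forall_cons rcell2 (forall_cons rcell3 (forall_cons rcell4 (forall_cons rcell5 (forall_cons rcell6 (forall_cons rcell7 (forall_cons rcell8 (forall_cons rcell9 (forall_cons rcell10 (forall_cons rcell11 (forall_cons rcell12 (forall_cons rcell13 (forall_cons rcell14 (forall_cons rcell15 (forall_cons rcell16 (forall_cons rcell17 (forall_cons rcell18 (forall_cons rcell19 (forall_cons rcell20 (forall_cons rcell21 (forall_cons rcell22 (forall_cons rcell23 (forall_cons rcell24 (forall_nil)))))))))))))))))))))))))) hcover (forall_cons lcell0 (forall_cons lcell1 (forall_cons lcell2 (forall_cons lcell3 (forall_cons lcell4 (forall_cons lcell5 (forall_cons lcell6 (forall_cons lcell7 (forall_cons lcell8 (forall_cons lcell9 (forall_cons lcell10 (forall_cons lcell11 (forall_cons lcell12 (forall_cons lcell13 (forall_cons lcell14 (forall_cons lcell15 (forall_cons lcell16 (forall_cons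 lcell17 (forall_cons lcell18 (forall_cons lcell19 (forall_cons lcell20 (forall_cons lcell21 (forall_cons lcell22 (forall_cons lcell23 (forall_cons lcell24 (forall_nil)))))))))))))))))))))))))) (chain hb2 h1 hB)

end Vale.Agent.P154H.Tm.D5
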