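import Vale.Agent.P154H.D.D6
import Vale.Agent.P154H.FinalD
import Vale.Agent.P154H.OriginW

open Filter Topology

set_option maxRecDepth 100000

/-!
Nonreconstruction at the Kesten-Stigum bound for `d = 6`, negative eigenvalue.
-/

namespace Vale.Agent.P154H.Tm.D6

open Vale.Agent.P154 Vale.Agent.P154H

/-- A chord cell. -/
noncomputable def C0 : Cell := ⟨(15729 / 1048576 : ℝ), (4335 / 262144 : ℝ), (-15853951 / 2097152 : ℝ), (-310633121 / 4194304 : ℝ), (-278849691 / 4194304 : ℝ), (-446281 / 268435456 : ℝ)⟩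

/-- A chord cell. -/
noncomputable def C1 : Cell := ⟨(4335 / 262144 : ℝ), (1195 / 65536 : ℝ), (-15743803 / 2097152 : ℝ), (-308290291 / 4194304 : ℝ), (-276566775 / 4194304 : ℝ), (-450531 / 268435456 : ℝ)⟩

/-- A chord cell. -/
noncomputable def C2 : Cell := ⟨(1195 / 65536 : ℝ), (5271 / 262144 : ℝ), (-1957349 / 262144 : ℝ), (-76444399 / 1048576 : ℝ), (-1070561 / 16384 : ℝ), (-574819 / 268435456 : ℝ)⟩

/-- A chord cell. -/
noncomputable def C3 : Cell := ⟨(5271 / 262144 : ℝ), (5811 / 262144 : ℝ), (-7769745 / 1048576 : ℝ), (-151546343 / 2097152 : ℝ), (-67831855 / 1048576 : ℝ), (-375491 / 134217728 : ℝ)⟩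

/-- A chord cell. -/
noncomputable def C4 : Cell := ⟨(5811 / 262144 : ℝ), (6407 / 262144 : ℝ), (-15409249 / 2097152 : ℝ), (-300122513 / 4194304 : ℝ), (-268337941 / 4194304 : ℝ), (-460415 / 134217728 : ℝ)⟩

/-- A chord cell. -/
noncomputable def C5 : Cell := ⟨(6407 / 262144 : ℝ), (883 / 32768 : ℝ), (-954807 / 131072 : ℝ), (-296879945 / 4194304 : ℝ), (-265071211 / 4194304 : ℝ), (-578805 / 134217728 : ℝ)⟩

/-- A chord cell. -/
noncomputable def C6 : Cell := ⟨(883 / 32768 : ℝ), (7789 / 262144 : ℝ), (-15121607 / 2097152 : ℝ), (-146600169 / 2097152 : ℝ), (-261505173 / 4194304 : ℝ), (-298125 / 67108864 : ℝ)⟩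

/-- A chord cell. -/
noncomputable def C7 : Cell := ⟨(7789 / 262144 : ℝ), (2147 / 65536 : ℝ), (-29873239 / 4194304 : ℝ), (-9043873 / 131072 : ℝ), (-64404341 / 1048576 : ℝ), (-1556961 / 268435456 : ℝ)⟩

/-- A chord cell. -/
noncomputable def C8 : Cell := ⟨(2147 / 65536 : ℝ), (9469 / 262144 : ℝ), (-14760959 / 2097152 : ℝ), (-8912777 / 131072 : ℝ), (-253385363 / 4194304 : ℝ), (-985635 / 134217728 : ℝ)⟩

/-- A chord cell. -/
noncomputable def C9 : Cell := ⟨(9469 / 262144 : ℝ), (1305 / 32768 : ℝ), (-29193379 / 4194304 : ℝ), (-280602413 / 4194304 : ℝ), (-248784777 / 4194304 : ℝ), (-1239561 / 134217728 : ℝ)⟩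

/-- A chord cell. -/
noncomputable def C10 : Cell := ⟨(1305 / 32768 : ℝ), (11511 / 262144 : ℝ), (-28791783 / 4194304 : ℝ), (-275383691 / 4194304 : ℝ), (-243789993 / 4194304 : ℝ), (-1246443 / 134217728 : ℝ)⟩

/-- A chord cell. -/
noncomputable def C11 : Cell := ⟨(11511 / 262144 : ℝ), (3173 / 65536 : ℝ), (-3548767 / 524288 : ℝ), (-16877081 / 262144 : ℝ), (-238374981 / 4194304 : ℝ), (-3357101 / 268435456 : ℝ)⟩

/-- A chord cell. -/
noncomputable def C12 : Cell := ⟨(3173 / 65536 : ℝ), (6997 / 131072 : ℝ), (-27768831 / 4194304 : ℝ), (-264296005 / 4194304 : ℝ), (-232516595 / 4194304 : ℝ), (-1036043 / 67108864 : ℝ)⟩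

/-- A chord cell. -/
noncomputable def C13 : Cell := ⟨(6997 / 131072 : ℝ), (15429 / 262144 : ℝ), (-13655083 / 2097152 : ℝ), (-32249109 / 524288 : ℝ), (-226193085 / 4194304 : ℝ), (-5312777 / 268435456 : ℝ)⟩

/-- A chord cell. -/
noncomputable def C14 : Cell := ⟨(15429 / 262144 : ℝ), (4253 / 65536 : ℝ), (-26680689 / 4194304 : ℝ), (-250907475 / 4194304 : ℝ), (-219380785 / 4194304 : ℝ), (-5324605 / 268435456 : ℝ)⟩

/-- A chord cell. -/
noncomputable def C15 : Cell := ⟨(4253 / 65536 : ℝ), (4689 / 65536 : ℝ), (-12959667 / 2097152 : ℝ), (-243800319 / 4194304 : ℝ), (-53015597 / 1048576 : ℝ), (-3480655 / 134217728 : ℝ)⟩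

/-- A chord cell. -/
noncomputable def C16 : Cell := ⟨(4689 / 65536 : ℝ), (2585 / 32768 : ℝ), (-25361213 / 4194304 : ℝ), (-235975927 / 4194304 : ℝ), (-204221851 / 4194304 : ℝ), (-4503753 / 134217728 : ℝ)⟩

/-- A chord cell. -/
noncomputable def C17 : Cell := ⟨(2585 / 32768 : ℝ), (11401 / 131072 : ℝ), (-12362179 / 2097152 : ℝ), (-113677341 / 2097152 : ℝ), (-97922175 / 2097152 : ℝ), (-10152227 / 268435456 : ℝ)⟩

/-- A chord cell. -/
noncomputable def C18 : Cell := ⟨(11401 / 131072 : ℝ), (6285 / 65536 : ℝ), (-23936695 / 4194304 : ℝ), (-27284921 / 524288 : ℝ), (-93465417 / 2097152 : ℝ), (-2890015 / 67108864 : ℝ)⟩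

/-- A chord cell. -/
noncomputable def C19 : Cell := ⟨(6285 / 65536 : ℝ), (27719 / 262144 : ℝ), (-5819737 / 1048576 : ℝ), (-208957339 / 4194304 : ℝ), (-88741805 / 2097152 : ℝ), (-15769037 / 268435456 : ℝ)⟩

/-- A chord cell. -/
noncomputable def C20 : Cell := ⟨(27719 / 262144 : ℝ), (15281 / 131072 : ℝ), (-22355347 / 4194304 : ℝ), (-199407909 / 4194304 : ℝ), (-167513393 / 4194304 : ℝ), (-21657939 / 268435456 : ℝ)⟩

/-- A chord cell. -/
noncomputable def C21 : Cell := ⟨(15281 / 131072 : ℝ), (33697 / 262144 : ℝ), (-21333973 / 4194304 : ℝ), (-188358867 / 4194304 : ℝ), (-39261487 / 1048576 : ℝ), (-21601845 / 268435456 : ℝ)⟩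

/-- A chord cell. -/
noncomputable def C22 : Cell := ⟨(33697 / 262144 : ℝ), (18577 / 131072 : ℝ), (-20332257 / 4194304 : ℝ), (-177801273 / 4194304 : ℝ), (-73058773 / 2097152 : ℝ), (-14611541 / 134217728 : ℝ)⟩

/-- A chord cell. -/
noncomputable def C23 : Cell := ⟨(18577 / 131072 : ℝ), (40965 / 262144 : ℝ), (-4838111 / 1048576 : ℝ), (-41595823 / 1048576 : ℝ), (-134783281 / 4194304 : ℝ), (-17559327 / 134217728 : ℝ)⟩

/-- A chord cell. -/
noncomputable def C24 : Cell := ⟨(40965 / 262144 : ℝ), (45167 / 262144 : ℝ), (-9240895 / 2097152 : ℝ), (-154752515 / 4194304 : ℝ), (-61557419 / 2097152 : ℝ), (-22227867 / 134217728 : ℝ)⟩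

/-- A chord cell. -/
noncomputable def C25 : Cell := ⟨(45167 / 262144 : ℝ), (6225 / 32768 : ℝ), (-17435469 / 4194304 : ℝ), (-35877265 / 1048576 : ℝ), (-27800505 / 1048576 : ℝ), (-30434989 / 134217728 : ℝ)⟩

/-- A chord cell. -/
noncomputable def C26 : Cell := ⟨(6225 / 32768 : ℝ), (13727 / 65536 : ℝ), (-8247705 / 2097152 : ℝ), (-65740703 / 2097152 : ℝ), (-99156653 / 4194304 : ℝ), (-37268695 / 134217728 : ℝ)⟩

/-- A chord cell. -/
noncomputable def C27 : Cell := ⟨(13727 / 65536 : ℝ), (15135 / 65536 : ℝ), (-15600507 / 4194304 : ℝ), (-61205157 / 2097152 : ℝ), (-87111401 / 4194304 : ℝ), (-126097115 / 268435456 : ℝ)⟩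

/-- A chord cell. -/
noncomputable def C28 : Cell := ⟨(15135 / 65536 : ℝ), (33375 / 131072 : ℝ), (-7287429 / 2097152 : ℝ), (-55600519 / 2097152 : ℝ), (-18804819 / 1048576 : ℝ), (-39069977 / 67108864 : ℝ)⟩

/-- A chord cell. -/
noncomputable def C29 : Cell := ⟨(33375 / 131072 : ℝ), (145 / 512 : ℝ), (-13807207 / 4194304 : ℝ), (-103532155 / 4194304 : ℝ), (-31567393 / 2097152 : ℝ), (-61459365 / 67108864 : ℝ)⟩

/-- The chord cells. -/
noncomputable def cellsL : List Cell := [C0, C1, C2, C3, C4, C5, C6, C7, C8, C9, C10, C11, C12, C13, C14, C15, C16, C17, C18, C19, C20, C21, C22, C23, C24, C25, C26, C27, C28, C29]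

lemma hcover : ∀ x : ℝ, (15729 / 1048576 : ℝ) ≤ x → x ≤ (145 / 512 : ℝ) → ∃ D ∈ cellsL, D.l ≤ x ∧ x ≤ D.u := by
  refine cover_of_chain ?_ (by norm_num [C0])
  simp only [ChainP, C0, C1, C2, C3, C4, C5, C6, C7, C8, C9, C10, C11, C12, C13, C14, C15, C16, C17, C18, C19, C20, C21, C22, C23, C24, C25, C26, C27, C28, C29]
  norm_num

lemma hch : ((Nat.choose 6 2 : ℕ) : ℝ) = 15 := by norm_num [Nat.choose]

lemma rTa : Rw4 P.r1 (393216 : ℝ) (coTa 6 (87579 / 65536 : ℝ) (868797 / 65536 : ℝ) (379421 / 32768 : ℝ) (107 / 256 : ℝ) (15 / 4096 : ℝ)) := by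
  refine ⟨⟨Ra, List.mem_cons_self, ?_⟩, by norm_num⟩
  constructor <;> norm_num [Ra, coTa, hch]

lemma rTb : Rw4 P.r1 (3298534883328 : ℝ) (coTb 6 (87579 / 65536 : ℝ) (868797 / 65536 : ℝ) (379421 / 32768 : ℝ) (107 / 256 : ℝ) (15 / 4096 : ℝ) (45 / 512 : ℝ) (4233 / 4096 : ℝ) (1789 / 4096 : ℝ)) := by
  refine ⟨⟨Rb, List.mem_cons_of_mem _ (List.mem_cons_self), ?_⟩, by norm_num⟩
  constructor <;> norm_num [Rb, coTb, hch]

lemma rc1 : Rw4 P.r2 (16777216 : ℝ) ⟨0, 0, 0, -(87579 / 65536 : ℝ), 0, 0, 0, 0, (379421 / 32768 : ℝ) * (45 / 512 : ℝ)⟩ := by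
  refine ⟨⟨Q0, List.mem_cons_self, ?_⟩, by norm_num⟩
  constructor <;> norm_num [Q0]

lemma rc2 : Rw4 P.r2 (134217728 : ℝ) ⟨0, 0, 0, 0, -(868797 / 65536 : ℝ), 0, 0, 0, (379421 / 32768 : ℝ) * (4233 / 4096 : ℝ)⟩ := by
  refine ⟨⟨Q1, List.mem_cons_of_mem _ (List.mem_cons_self), ?_⟩, by norm_num⟩
  constructor <;> norm_num [Q1]

lemma rc3 : Rw4 P.r2 (1536 : ℝ) ⟨0, 0, 0, 0, 0, -1, 0, 0, (145 / 512 : ℝ)⟩ := by
  refine ⟨⟨Q2, List.mem_cons_of_mem _ (List.mem_cons_of_mem _ (List.mem_cons_self)), ?_⟩, by norm_num⟩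
  constructor <;> norm_num [Q2]

lemma rcell0 : ∃ N : ℝ, Rw4 P.r2 N (coCell (87579 / 65536 : ℝ) (868797 / 65536 : ℝ) ((379421 / 32768 : ℝ) + (107 / 256 : ℝ)) (15 / 4096 : ℝ) C0) := by
  refine ⟨(805306368 : ℝ), ⟨Q3, List.mem_cons_of_mem _ (List.mem_cons_of_mem _ (List.mem_cons_of_mem _ (List.mem_cons_self))), ?_⟩, by norm_num⟩
  constructor <;> norm_num [Q3, coCell, C0]

lemma lcell0 : ∀ x1 x2 xc : ℝ, 0 ≤ x1 → x1 ≤ 1 → 0 ≤ x2 → x2 ≤ 1 → C0.l ≤ xc → xc ≤ C0.u →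
    (87579 / 65536 : ℝ) * (1 - (1 - x1) ^ 6) + (868797 / 65536 : ℝ) * (1 - (1 - x2) ^ 6) - ((379421 / 32768 : ℝ) + (107 / 256 : ℝ)) * (1 - (1 - xc) ^ 6)
      ≤ - C0.a1 * x1 - C0.a2 * x2 + C0.e * xc + C0.f := by
  have h := cell_lines 6 (α1 := (87579 / 65536 : ℝ)) (α2 := (868797 / 65536 : ℝ)) (c := (379421 / 32768 : ℝ) + (107 / 256 : ℝ)) (y1 := (767 / 65536 : ℝ)) (y2 := (929 / 65536 : ℝ))
    (A1 := (15853951 / 2097152 : ℝ)) (B1 := (178587 / 67108864 : ℝ)) (A2 := (310633121 / 4194304 : ℝ)) (B2 := (10327041 / 268435456 : ℝ)) (l := (15729 / 1048576 : ℝ)) (u := (4335 / 262144 : ℝ))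
    (E := (-278849691 / 4194304 : ℝ)) (F := (-5743835 / 134217728 : ℝ)) (by norm_num) (by norm_num) (by norm_num) (by norm_num) (by norm_num)
    (by norm_num) (by norm_num) (by norm_num) (by norm_num) (by norm_num) (by norm_num) (by norm_num) (by norm_num) (by norm_num) (by norm_num)
  have e1 : C0.l = (15729 / 1048576 : ℝ) := rfl
  have e2 : C0.u = (4335 / 262144 : ℝ) := rfl
  have e3 : C0.a1 = -(15853951 / 2097152 : ℝ) := by norm_num [C0]
  have e4 : C0.a2 = -(310633121 / 4194304 : ℝ) := by norm_num [C0]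
  have e5 : C0.e = (-278849691 / 4194304 : ℝ) := rfl
  have e6 : C0.f = (178587 / 67108864 : ℝ) + (10327041 / 268435456 : ℝ) + (-5743835 / 134217728 : ℝ) := by norm_num [C0]
  rw [e1, e2, e3, e4, e5, e6]
  exact h

lemma rcell1 : ∃ N : ℝ, Rw4 P.r2 N (coCell (87579 / 65536 : ℝ) (868797 / 65536 : ℝ) ((379421 / 32768 : ℝ) + (107 / 256 : ℝ)) (15 / 4096 : ℝ) C1) := by
  refine ⟨(805306368 : ℝ), ⟨Q4, List.mem_cons_of_mem _ (List.mem_cons_of_mem _ (List.mem_cons_of_mem _ (List.mem_cons_of_mem _ (List.mem_cons_self)))), ?_⟩, by norm_num⟩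
  constructor <;> norm_num [Q4, coCell, C1]

lemma lcell1 : ∀ x1 x2 xc : ℝ, 0 ≤ x1 → x1 ≤ 1 → 0 ≤ x2 → x2 ≤ 1 → C1.l ≤ xc → xc ≤ C1.u →
    (87579 / 65536 : ℝ) * (1 - (1 - x1) ^ 6) + (868797 / 65536 : ℝ) * (1 - (1 - x2) ^ 6) - ((379421 / 32768 : ℝ) + (107 / 256 : ℝ)) * (1 - (1 - xc) ^ 6)
      ≤ - C1.a1 * x1 - C1.a2 * x2 + C1.e * xc + C1.f := by
  have h := cell_lines 6 (α1 := (87579 / 65536 : ℝ)) (α2 := (868797 / 65536 : ℝ)) (c := (379421 / 32768 : ℝ) + (107 / 256 : ℝ)) (y1 := (3429 / 262144 : ℝ)) (y2 := (4107 / 262144 : ℝ))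
    (A1 := (15743803 / 2097152 : ℝ)) (B1 := (444517 / 134217728 : ℝ)) (A2 := (308290291 / 4194304 : ℝ)) (B2 := (3141057 / 67108864 : ℝ)) (l := (4335 / 262144 : ℝ)) (u := (1195 / 65536 : ℝ))
    (E := (-276566775 / 4194304 : ℝ)) (F := (-13903793 / 268435456 : ℝ)) (by norm_num) (by norm_num) (by norm_num) (by norm_num) (by norm_num)
    (by norm_num) (by norm_num) (by norm_num) (by norm_num) (by norm_num) (by norm_num) (by norm_num) (by norm_num) (by norm_num) (by norm_num)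
  have e1 : C1.l = (4335 / 262144 : ℝ) := rfl
  have e2 : C1.u = (1195 / 65536 : ℝ) := rfl
  have e3 : C1.a1 = -(15743803 / 2097152 : ℝ) := by norm_num [C1]
  have e4 : C1.a2 = -(308290291 / 4194304 : ℝ) := by norm_num [C1]
  have e5 : C1.e = (-276566775 / 4194304 : ℝ) := rfl
  have e6 : C1.f = (444517 / 134217728 : ℝ) + (3141057 / 67108864 : ℝ) + (-13903793 / 268435456 : ℝ) := by norm_num [C1]
  rw [e1, e2, e3, e4, e5, e6]
  exact h

lemma rcell2 : ∃ N : ℝ, Rw4 P.r2 N (coCell (87579 / 65536 : ℝ) (868797 / 65536 : ℝ) ((379421 / 32768 : ℝ) + (107 / 256 : ℝ)) (15 / 4096 : ℝ) C2) := by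
  refine ⟨(805306368 : ℝ), ⟨Q5, List.mem_cons_of_mem _ (List.mem_cons_of_mem _ (List.mem_cons_of_mem _ (List.mem_cons_of_mem _ (List.mem_cons_of_mem _ (List.mem_cons_self))))), ?_⟩, by norm_num⟩
  constructor <;> norm_num [Q5, coCell, C2]

lemma lcell2 : ∀ x1 x2 xc : ℝ, 0 ≤ x1 → x1 ≤ 1 → 0 ≤ x2 → x2 ≤ 1 → C2.l ≤ xc → xc ≤ C2.u →
    (87579 / 65536 : ℝ) * (1 - (1 - x1) ^ 6) + (868797 / 65536 : ℝ) * (1 - (1 - x2) ^ 6) - ((379421 / 32768 : ℝ) + (107 / 256 : ℝ)) * (1 - (1 - xc) ^ 6)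
      ≤ - C2.a1 * x1 - C2.a2 * x2 + C2.e * xc + C2.f := by
  have h := cell_lines 6 (α1 := (87579 / 65536 : ℝ)) (α2 := (868797 / 65536 : ℝ)) (c := (379421 / 32768 : ℝ) + (107 / 256 : ℝ)) (y1 := (3709 / 262144 : ℝ)) (y2 := (4529 / 262144 : ℝ))
    (A1 := (1957349 / 262144 : ℝ)) (B1 := (1037173 / 268435456 : ℝ)) (A2 := (76444399 / 1048576 : ℝ)) (B2 := (1901621 / 33554432 : ℝ)) (l := (1195 / 65536 : ℝ)) (u := (5271 / 262144 : ℝ))
    (E := (-1070561 / 16384 : ℝ)) (F := (-131445 / 2097152 : ℝ)) (by norm_num) (by norm_num) (by norm_num) (by norm_num) (by norm_num)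
    (by norm_num) (by norm_num) (by norm_num) (by norm_num) (by norm_num) (by norm_num) (by norm_num) (by norm_num) (by norm_num) (by norm_num)
  have e1 : C2.l = (1195 / 65536 : ℝ) := rfl
  have e2 : C2.u = (5271 / 262144 : ℝ) := rfl
  have e3 : C2.a1 = -(1957349 / 262144 : ℝ) := by norm_num [C2]
  have e4 : C2.a2 = -(76444399 / 1048576 : ℝ) := by norm_num [C2]
  have e5 : C2.e = (-1070561 / 16384 : ℝ) := rfl
  have e6 : C2.f = (1037173 / 268435456 : ℝ) + (1901621 / 33554432 : ℝ) + (-131445 / 2097152 : ℝ) := by norm_num [C2]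
  rw [e1, e2, e3, e4, e5, e6]
  exact h

lemma rcell3 : ∃ N : ℝ, Rw4 P.r2 N (coCell (87579 / 65536 : ℝ) (868797 / 65536 : ℝ) ((379421 / 32768 : ℝ) + (107 / 256 : ℝ)) (15 / 4096 : ℝ) C3) := by
  refine ⟨(402653184 : ℝ), ⟨Q6, List.mem_cons_of_mem _ (List.mem_cons_of_mem _ (List.mem_cons_of_mem _ (List.mem_cons_of_mem _ (List.mem_cons_of_mem _ (List.mem_cons_of_mem _ (List.mem_cons_self)))))), ?_⟩, by norm_num⟩
  constructor <;> norm_num [Q6, coCell, C3]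

lemma lcell3 : ∀ x1 x2 xc : ℝ, 0 ≤ x1 → x1 ≤ 1 → 0 ≤ x2 → x2 ≤ 1 → C3.l ≤ xc → xc ≤ C3.u →
    (87579 / 65536 : ℝ) * (1 - (1 - x1) ^ 6) + (868797 / 65536 : ℝ) * (1 - (1 - x2) ^ 6) - ((379421 / 32768 : ℝ) + (107 / 256 : ℝ)) * (1 - (1 - xc) ^ 6)
      ≤ - C3.a1 * x1 - C3.a2 * x2 + C3.e * xc + C3.f := by
  have h := cell_lines 6 (α1 := (87579 / 65536 : ℝ)) (α2 := (868797 / 65536 : ℝ)) (c := (379421 / 32768 : ℝ) + (107 / 256 : ℝ)) (y1 := (513 / 32768 : ℝ)) (y2 := (4983 / 262144 : ℝ))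
    (A1 := (7769745 / 1048576 : ℝ)) (B1 := (79047 / 16777216 : ℝ)) (A2 := (151546343 / 2097152 : ℝ)) (B2 := (9165171 / 134217728 : ℝ)) (l := (5271 / 262144 : ℝ)) (u := (5811 / 262144 : ℝ))
    (E := (-67831855 / 1048576 : ℝ)) (F := (-5086519 / 67108864 : ℝ)) (by norm_num) (by norm_num) (by norm_num) (by norm_num) (by norm_num)
    (by norm_num) (by norm_num) (by norm_num) (by norm_num) (by norm_num) (by norm_num) (by norm_num) (by norm_num) (by norm_num) (by norm_num)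
  have e1 : C3.l = (5271 / 262144 : ℝ) := rfl
  have e2 : C3.u = (5811 / 262144 : ℝ) := rfl
  have e3 : C3.a1 = -(7769745 / 1048576 : ℝ) := by norm_num [C3]
  have e4 : C3.a2 = -(151546343 / 2097152 : ℝ) := by norm_num [C3]
  have e5 : C3.e = (-67831855 / 1048576 : ℝ) := rfl
  have e6 : C3.f = (79047 / 16777216 : ℝ) + (9165171 / 134217728 : ℝ) + (-5086519 / 67108864 : ℝ) := by norm_num [C3]
  rw [e1, e2, e3, e4, e5, e6]
  exact h

lemma rcell4 : ∃ N : ℝ, Rw4 P.r2 N (coCell (87579 / 65536 : ℝ) (868797 / 65536 : ℝ) ((379421 / 32768 : ℝ) + (107 / 256 : ℝ)) (15 / 4096 : ℝ) C4) := by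
  refine ⟨(402653184 : ℝ), ⟨Q7, List.mem_cons_of_mem _ (List.mem_cons_of_mem _ (List.mem_cons_of_mem _ (List.mem_cons_of_mem _ (List.mem_cons_of_mem _ (List.mem_cons_of_mem _ (List.mem_cons_of_mem _ (List.mem_cons_self))))))), ?_⟩, by norm_num⟩
  constructor <;> norm_num [Q7, coCell, C4]

lemma lcell4 : ∀ x1 x2 xc : ℝ, 0 ≤ x1 → x1 ≤ 1 → 0 ≤ x2 → x2 ≤ 1 → C4.l ≤ xc → xc ≤ C4.u →
    (87579 / 65536 : ℝ) * (1 - (1 - x1) ^ 6) + (868797 / 65536 : ℝ) * (1 - (1 - x2) ^ 6) - ((379421 / 32768 : ℝ) + (107 / 256 : ℝ)) * (1 - (1 - xc) ^ 6)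
      ≤ - C4.a1 * x1 - C4.a2 * x2 + C4.e * xc + C4.f := by
  have h := cell_lines 6 (α1 := (87579 / 65536 : ℝ)) (α2 := (868797 / 65536 : ℝ)) (c := (379421 / 32768 : ℝ) + (107 / 256 : ℝ)) (y1 := (2269 / 131072 : ℝ)) (y2 := (5489 / 262144 : ℝ))
    (A1 := (15409249 / 2097152 : ℝ)) (B1 := (1539501 / 268435456 : ℝ)) (A2 := (300122513 / 4194304 : ℝ)) (B2 := (11063461 / 134217728 : ℝ)) (l := (5811 / 262144 : ℝ)) (u := (6407 / 262144 : ℝ))
    (E := (-268337941 / 4194304 : ℝ)) (F := (-24587253 / 268435456 : ℝ)) (by norm_num) (by norm_num) (by norm_num) (by norm_num) (by norm_num)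
    (by norm_num) (by norm_num) (by norm_num) (by norm_num) (by norm_num) (by norm_num) (by norm_num) (by norm_num) (by norm_num) (by norm_num)
  have e1 : C4.l = (5811 / 262144 : ℝ) := rfl
  have e2 : C4.u = (6407 / 262144 : ℝ) := rfl
  have e3 : C4.a1 = -(15409249 / 2097152 : ℝ) := by norm_num [C4]
  have e4 : C4.a2 = -(300122513 / 4194304 : ℝ) := by norm_num [C4]
  have e5 : C4.e = (-268337941 / 4194304 : ℝ) := rfl
  have e6 : C4.f = (1539501 / 268435456 : ℝ) + (11063461 / 134217728 : ℝ) + (-24587253 / 268435456 : ℝ) := by norm_num [C4]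
  rw [e1, e2, e3, e4, e5, e6]
  exact h

lemma rcell5 : ∃ N : ℝ, Rw4 P.r2 N (coCell (87579 / 65536 : ℝ) (868797 / 65536 : ℝ) ((379421 / 32768 : ℝ) + (107 / 256 : ℝ)) (15 / 4096 : ℝ) C5) := by
  refine ⟨(402653184 : ℝ), ⟨Q8, List.mem_cons_of_mem _ (List.mem_cons_of_mem _ (List.mem_cons_of_mem _ (List.mem_cons_of_mem _ (List.mem_cons_of_mem _ (List.mem_cons_of_mem _ (List.mem_cons_of_mem _ (List.mem_cons_of_mem _ (List.mem_cons_self)))))))), ?_⟩, by norm_num⟩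
  constructor <;> norm_num [Q8, coCell, C5]

lemma lcell5 : ∀ x1 x2 xc : ℝ, 0 ≤ x1 → x1 ≤ 1 → 0 ≤ x2 → x2 ≤ 1 → C5.l ≤ xc → xc ≤ C5.u →
    (87579 / 65536 : ℝ) * (1 - (1 - x1) ^ 6) + (868797 / 65536 : ℝ) * (1 - (1 - x2) ^ 6) - ((379421 / 32768 : ℝ) + (107 / 256 : ℝ)) * (1 - (1 - xc) ^ 6)
      ≤ - C5.a1 * x1 - C5.a2 * x2 + C5.e * xc + C5.f := by
  have h := cell_lines 6 (α1 := (87579 / 65536 : ℝ)) (α2 := (868797 / 65536 : ℝ)) (c := (379421 / 32768 : ℝ) + (107 / 256 : ℝ)) (y1 := (2491 / 131072 : ℝ)) (y2 := (3023 / 131072 : ℝ))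
    (A1 := (954807 / 131072 : ℝ)) (B1 := (1847065 / 268435456 : ℝ)) (A2 := (296879945 / 4194304 : ℝ)) (B2 := (26692427 / 268435456 : ℝ)) (l := (6407 / 262144 : ℝ)) (u := (883 / 32768 : ℝ))
    (E := (-265071211 / 4194304 : ℝ)) (F := (-14848551 / 134217728 : ℝ)) (by norm_num) (by norm_num) (by norm_num) (by norm_num) (by norm_num)
    (by norm_num) (by norm_num) (by norm_num) (by norm_num) (by norm_num) (by norm_num) (by norm_num) (by norm_num) (by norm_num) (by norm_num)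
  have e1 : C5.l = (6407 / 262144 : ℝ) := rfl
  have e2 : C5.u = (883 / 32768 : ℝ) := rfl
  have e3 : C5.a1 = -(954807 / 131072 : ℝ) := by norm_num [C5]
  have e4 : C5.a2 = -(296879945 / 4194304 : ℝ) := by norm_num [C5]
  have e5 : C5.e = (-265071211 / 4194304 : ℝ) := rfl
  have e6 : C5.f = (1847065 / 268435456 : ℝ) + (26692427 / 268435456 : ℝ) + (-14848551 / 134217728 : ℝ) := by norm_num [C5]
  rw [e1, e2, e3, e4, e5, e6]
  exact h

lemma rcell6 : ∃ N : ℝ, Rw4 P.r2 N (coCell (87579 / 65536 : ℝ) (868797 / 65536 : ℝ) ((379421 / 32768 : ℝ) + (107 / 256 : ℝ)) (15 / 4096 : ℝ) C6) := by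
  refine ⟨(201326592 : ℝ), ⟨Q9, List.mem_cons_of_mem _ (List.mem_cons_of_mem _ (List.mem_cons_of_mem _ (List.mem_cons_of_mem _ (List.mem_cons_of_mem _ (List.mem_cons_of_mem _ (List.mem_cons_of_mem _ (List.mem_cons_of_mem _ (List.mem_cons_of_mem _ (List.mem_cons_self))))))))), ?_⟩, by norm_num⟩
  constructor <;> norm_num [Q9, coCell, C6]

lemma lcell6 : ∀ x1 x2 xc : ℝ, 0 ≤ x1 → x1 ≤ 1 → 0 ≤ x2 → x2 ≤ 1 → C6.l ≤ xc → xc ≤ C6.u →
    (87579 / 65536 : ℝ) * (1 - (1 - x1) ^ 6) + (868797 / 65536 : ℝ) * (1 - (1 - x2) ^ 6) - ((379421 / 32768 : ℝ) + (107 / 256 : ℝ)) * (1 - (1 - xc) ^ 6)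
      ≤ - C6.a1 * x1 - C6.a2 * x2 + C6.e * xc + C6.f := by
  have h := cell_lines 6 (α1 := (87579 / 65536 : ℝ)) (α2 := (868797 / 65536 : ℝ)) (c := (379421 / 32768 : ℝ) + (107 / 256 : ℝ)) (y1 := (5507 / 262144 : ℝ)) (y2 := (1671 / 65536 : ℝ))
    (A1 := (15121607 / 2097152 : ℝ)) (B1 := (561189 / 67108864 : ℝ)) (A2 := (146600169 / 2097152 : ℝ)) (B2 := (8102467 / 67108864 : ℝ)) (l := (883 / 32768 : ℝ)) (u := (7789 / 262144 : ℝ))
    (E := (-261505173 / 4194304 : ℝ)) (F := (-8961781 / 67108864 : ℝ)) (by norm_num) (by norm_num) (by norm_num) (by norm_num) (by norm_num)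
    (by norm_num) (by norm_num) (by norm_num) (by norm_num) (by norm_num) (by norm_num) (by norm_num) (by norm_num) (by norm_num) (by norm_num)
  have e1 : C6.l = (883 / 32768 : ℝ) := rfl
  have e2 : C6.u = (7789 / 262144 : ℝ) := rfl
  have e3 : C6.a1 = -(15121607 / 2097152 : ℝ) := by norm_num [C6]
  have e4 : C6.a2 = -(146600169 / 2097152 : ℝ) := by norm_num [C6]
  have e5 : C6.e = (-261505173 / 4194304 : ℝ) := rfl
  have e6 : C6.f = (561189 / 67108864 : ℝ) + (8102467 / 67108864 : ℝ) + (-8961781 / 67108864 : ℝ) := by norm_num [C6]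
  rw [e1, e2, e3, e4, e5, e6]
  exact h

lemma rcell7 : ∃ N : ℝ, Rw4 P.r2 N (coCell (87579 / 65536 : ℝ) (868797 / 65536 : ℝ) ((379421 / 32768 : ℝ) + (107 / 256 : ℝ)) (15 / 4096 : ℝ) C7) := by
  refine ⟨(805306368 : ℝ), ⟨Q10, List.mem_cons_of_mem _ (List.mem_cons_of_mem _ (List.mem_cons_of_mem _ (List.mem_cons_of_mem _ (List.mem_cons_of_mem _ (List.mem_cons_of_mem _ (List.mem_cons_of_mem _ (List.mem_cons_of_mem _ (List.mem_cons_of_mem _ (List.mem_cons_of_mem _ (List.mem_cons_self)))))))))), ?_⟩, by norm_num⟩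
  constructor <;> norm_num [Q10, coCell, C7]

lemma lcell7 : ∀ x1 x2 xc : ℝ, 0 ≤ x1 → x1 ≤ 1 → 0 ≤ x2 → x2 ≤ 1 → C7.l ≤ xc → xc ≤ C7.u →
    (87579 / 65536 : ℝ) * (1 - (1 - x1) ^ 6) + (868797 / 65536 : ℝ) * (1 - (1 - x2) ^ 6) - ((379421 / 32768 : ℝ) + (107 / 256 : ℝ)) * (1 - (1 - xc) ^ 6)
      ≤ - C7.a1 * x1 - C7.a2 * x2 + C7.e * xc + C7.f := by
  have h := cell_lines 6 (α1 := (87579 / 65536 : ℝ)) (α2 := (868797 / 65536 : ℝ)) (c := (379421 / 32768 : ℝ) + (107 / 256 : ℝ)) (y1 := (3069 / 131072 : ℝ)) (y2 := (7349 / 262144 : ℝ))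
    (A1 := (29873239 / 4194304 : ℝ)) (B1 := (1385315 / 134217728 : ℝ)) (A2 := (9043873 / 131072 : ℝ)) (B2 := (38912635 / 268435456 : ℝ)) (l := (7789 / 262144 : ℝ)) (u := (2147 / 65536 : ℝ))
    (E := (-64404341 / 1048576 : ℝ)) (F := (-21620113 / 134217728 : ℝ)) (by norm_num) (by norm_num) (by norm_num) (by norm_num) (by norm_num)
    (by norm_num) (by norm_num) (by norm_num) (by norm_num) (by norm_num) (by norm_num) (by norm_num) (by norm_num) (by norm_num) (by norm_num)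
  have e1 : C7.l = (7789 / 262144 : ℝ) := rfl
  have e2 : C7.u = (2147 / 65536 : ℝ) := rfl
  have e3 : C7.a1 = -(29873239 / 4194304 : ℝ) := by norm_num [C7]
  have e4 : C7.a2 = -(9043873 / 131072 : ℝ) := by norm_num [C7]
  have e5 : C7.e = (-64404341 / 1048576 : ℝ) := rfl
  have e6 : C7.f = (1385315 / 134217728 : ℝ) + (38912635 / 268435456 : ℝ) + (-21620113 / 134217728 : ℝ) := by norm_num [C7]
  rw [e1, e2, e3, e4, e5, e6]
  exact h

lemma rcell8 : ∃ N : ℝ, Rw4 P.r2 N (coCell (87579 / 65536 : ℝ) (868797 / 65536 : ℝ) ((379421 / 32768 : ℝ) + (107 / 256 : ℝ)) (15 / 4096 : ℝ) C8) := by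
  refine ⟨(402653184 : ℝ), ⟨Q11, List.mem_cons_of_mem _ (List.mem_cons_of_mem _ (List.mem_cons_of_mem _ (List.mem_cons_of_mem _ (List.mem_cons_of_mem _ (List.mem_cons_of_mem _ (List.mem_cons_of_mem _ (List.mem_cons_of_mem _ (List.mem_cons_of_mem _ (List.mem_cons_of_mem _ (List.mem_cons_of_mem _ (List.mem_cons_self))))))))))), ?_⟩, by norm_num⟩
  constructor <;> norm_num [Q11, coCell, C8]

lemma lcell8 : ∀ x1 x2 xc : ℝ, 0 ≤ x1 → x1 ≤ 1 → 0 ≤ x2 → x2 ≤ 1 → C8.l ≤ xc → xc ≤ C8.u →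
    (87579 / 65536 : ℝ) * (1 - (1 - x1) ^ 6) + (868797 / 65536 : ℝ) * (1 - (1 - x2) ^ 6) - ((379421 / 32768 : ℝ) + (107 / 256 : ℝ)) * (1 - (1 - xc) ^ 6)
      ≤ - C8.a1 * x1 - C8.a2 * x2 + C8.e * xc + C8.f := by
  have h := cell_lines 6 (α1 := (87579 / 65536 : ℝ)) (α2 := (868797 / 65536 : ℝ)) (c := (379421 / 32768 : ℝ) + (107 / 256 : ℝ)) (y1 := (6743 / 262144 : ℝ)) (y2 := (2023 / 65536 : ℝ))
    (A1 := (14760959 / 2097152 : ℝ)) (B1 := (1661495 / 134217728 : ℝ)) (A2 := (8912777 / 131072 : ℝ)) (B2 := (46819117 / 268435456 : ℝ)) (l := (2147 / 65536 : ℝ)) (u := (9469 / 262144 : ℝ))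
    (E := (-253385363 / 4194304 : ℝ)) (F := (-52113377 / 268435456 : ℝ)) (by norm_num) (by norm_num) (by norm_num) (by norm_num) (by norm_num)
    (by norm_num) (by norm_num) (by norm_num) (by norm_num) (by norm_num) (by norm_num) (by norm_num) (by norm_num) (by norm_num) (by norm_num)
  have e1 : C8.l = (2147 / 65536 : ℝ) := rfl
  have e2 : C8.u = (9469 / 262144 : ℝ) := rfl
  have e3 : C8.a1 = -(14760959 / 2097152 : ℝ) := by norm_num [C8]
  have e4 : C8.a2 = -(8912777 / 131072 : ℝ) := by norm_num [C8]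
  have e5 : C8.e = (-253385363 / 4194304 : ℝ) := rfl
  have e6 : C8.f = (1661495 / 134217728 : ℝ) + (46819117 / 268435456 : ℝ) + (-52113377 / 268435456 : ℝ) := by norm_num [C8]
  rw [e1, e2, e3, e4, e5, e6]
  exact h

lemma rcell9 : ∃ N : ℝ, Rw4 P.r2 N (coCell (87579 / 65536 : ℝ) (868797 / 65536 : ℝ) ((379421 / 32768 : ℝ) + (107 / 256 : ℝ)) (15 / 4096 : ℝ) C9) := by
  refine ⟨(402653184 : ℝ), ⟨Q12, List.mem_cons_of_mem _ (List.mem_cons_of_mem _ (List.mem_cons_of_mem _ (List.mem_cons_of_mem _ (List.mem_cons_of_mem _ (List.mem_cons_of_mem _ (List.mem_cons_of_mem _ (List.mem_cons_of_mem _ (List.mem_cons_of_mem _ (List.mem_cons_of_mem _ (List.mem_cons_of_mem _ (List.mem_cons_of_mem _ (List.mem_cons_self)))))))))))), ?_⟩, by norm_num⟩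
  constructor <;> norm_num [Q12, coCell, C9]

lemma lcell9 : ∀ x1 x2 xc : ℝ, 0 ≤ x1 → x1 ≤ 1 → 0 ≤ x2 → x2 ≤ 1 → C9.l ≤ xc → xc ≤ C9.u →
    (87579 / 65536 : ℝ) * (1 - (1 - x1) ^ 6) + (868797 / 65536 : ℝ) * (1 - (1 - x2) ^ 6) - ((379421 / 32768 : ℝ) + (107 / 256 : ℝ)) * (1 - (1 - xc) ^ 6)
      ≤ - C9.a1 * x1 - C9.a2 * x2 + C9.e * xc + C9.f := by
  have h := cell_lines 6 (α1 := (87579 / 65536 : ℝ)) (α2 := (868797 / 65536 : ℝ)) (c := (379421 / 32768 : ℝ) + (107 / 256 : ℝ)) (y1 := (3657 / 131072 : ℝ)) (y2 := (4459 / 131072 : ℝ))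
    (A1 := (29193379 / 4194304 : ℝ)) (B1 := (1943359 / 134217728 : ℝ)) (A2 := (280602413 / 4194304 : ℝ)) (B2 := (28191511 / 134217728 : ℝ)) (l := (9469 / 262144 : ℝ)) (u := (1305 / 32768 : ℝ))
    (E := (-248784777 / 4194304 : ℝ)) (F := (-31374431 / 134217728 : ℝ)) (by norm_num) (by norm_num) (by norm_num) (by norm_num) (by norm_num)
    (by norm_num) (by norm_num) (by norm_num) (by norm_num) (by norm_num) (by norm_num) (by norm_num) (by norm_num) (by norm_num) (by norm_num)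
  have e1 : C9.l = (9469 / 262144 : ℝ) := rfl
  have e2 : C9.u = (1305 / 32768 : ℝ) := rfl
  have e3 : C9.a1 = -(29193379 / 4194304 : ℝ) := by norm_num [C9]
  have e4 : C9.a2 = -(280602413 / 4194304 : ℝ) := by norm_num [C9]
  have e5 : C9.e = (-248784777 / 4194304 : ℝ) := rfl
  have e6 : C9.f = (1943359 / 134217728 : ℝ) + (28191511 / 134217728 : ℝ) + (-31374431 / 134217728 : ℝ) := by norm_num [C9]
  rw [e1, e2, e3, e4, e5, e6]
  exact h

lemma rcell10 : ∃ N : ℝ, Rw4 P.r2 N (coCell (87579 / 65536 : ℝ) (868797 / 65536 : ℝ) ((379421 / 32768 : ℝ) + (107 / 256 : ℝ)) (15 / 4096 : ℝ) C10) := by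
  refine ⟨(402653184 : ℝ), ⟨Q13, List.mem_cons_of_mem _ (List.mem_cons_of_mem _ (List.mem_cons_of_mem _ (List.mem_cons_of_mem _ (List.mem_cons_of_mem _ (List.mem_cons_of_mem _ (List.mem_cons_of_mem _ (List.mem_cons_of_mem _ (List.mem_cons_of_mem _ (List.mem_cons_of_mem _ (List.mem_cons_of_mem _ (List.mem_cons_of_mem _ (List.mem_cons_of_mem _ (List.mem_cons_self))))))))))))), ?_⟩, by norm_num⟩
  constructor <;> norm_num [Q13, coCell, C10]

lemma lcell10 : ∀ x1 x2 xc : ℝ, 0 ≤ x1 → x1 ≤ 1 → 0 ≤ x2 → x2 ≤ 1 → C10.l ≤ xc → xc ≤ C10.u →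
    (87579 / 65536 : ℝ) * (1 - (1 - x1) ^ 6) + (868797 / 65536 : ℝ) * (1 - (1 - x2) ^ 6) - ((379421 / 32768 : ℝ) + (107 / 256 : ℝ)) * (1 - (1 - xc) ^ 6)
      ≤ - C10.a1 * x1 - C10.a2 * x2 + C10.e * xc + C10.f := by
  have h := cell_lines 6 (α1 := (87579 / 65536 : ℝ)) (α2 := (868797 / 65536 : ℝ)) (c := (379421 / 32768 : ℝ) + (107 / 256 : ℝ)) (y1 := (8019 / 262144 : ℝ)) (y2 := (9867 / 262144 : ℝ))
    (A1 := (28791783 / 4194304 : ℝ)) (B1 := (4638315 / 268435456 : ℝ)) (A2 := (275383691 / 4194304 : ℝ)) (B2 := (68348507 / 268435456 : ℝ)) (l := (1305 / 32768 : ℝ)) (u := (11511 / 262144 : ℝ))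
    (E := (-243789993 / 4194304 : ℝ)) (F := (-18869927 / 67108864 : ℝ)) (by norm_num) (by norm_num) (by norm_num) (by norm_num) (by norm_num)
    (by norm_num) (by norm_num) (by norm_num) (by norm_num) (by norm_num) (by norm_num) (by norm_num) (by norm_num) (by norm_num) (by norm_num)
  have e1 : C10.l = (1305 / 32768 : ℝ) := rfl
  have e2 : C10.u = (11511 / 262144 : ℝ) := rfl
  have e3 : C10.a1 = -(28791783 / 4194304 : ℝ) := by norm_num [C10]
  have e4 : C10.a2 = -(275383691 / 4194304 : ℝ) := by norm_num [C10]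
  have e5 : C10.e = (-243789993 / 4194304 : ℝ) := rfl
  have e6 : C10.f = (4638315 / 268435456 : ℝ) + (68348507 / 268435456 : ℝ) + (-18869927 / 67108864 : ℝ) := by norm_num [C10]
  rw [e1, e2, e3, e4, e5, e6]
  exact h

lemma rcell11 : ∃ N : ℝ, Rw4 P.r2 N (coCell (87579 / 65536 : ℝ) (868797 / 65536 : ℝ) ((379421 / 32768 : ℝ) + (107 / 256 : ℝ)) (15 / 4096 : ℝ) C11) := by
  refine ⟨(805306368 : ℝ), ⟨Q14, List.mem_cons_of_mem _ (List.mem_cons_of_mem _ (List.mem_cons_of_mem _ (List.mem_cons_of_mem _ (List.mem_cons_of_mem _ (List.mem_cons_of_mem _ (List.mem_cons_of_mem _ (List.mem_cons_of_mem _ (List.mem_cons_of_mem _ (List.mem_cons_of_mem _ (List.mem_cons_of_mem _ (List.mem_cons_of_mem _ (List.mem_cons_of_mem _ (List.mem_cons_of_mem _ (List.mem_cons_self)))))))))))))), ?_⟩, by norm_num⟩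
  constructor <;> norm_num [Q14, coCell, C11]

lemma lcell11 : ∀ x1 x2 xc : ℝ, 0 ≤ x1 → x1 ≤ 1 → 0 ≤ x2 → x2 ≤ 1 → C11.l ≤ xc → xc ≤ C11.u →
    (87579 / 65536 : ℝ) * (1 - (1 - x1) ^ 6) + (868797 / 65536 : ℝ) * (1 - (1 - x2) ^ 6) - ((379421 / 32768 : ℝ) + (107 / 256 : ℝ)) * (1 - (1 - xc) ^ 6)
      ≤ - C11.a1 * x1 - C11.a2 * x2 + C11.e * xc + C11.f := by
  have h := cell_lines 6 (α1 := (87579 / 65536 : ℝ)) (α2 := (868797 / 65536 : ℝ)) (c := (379421 / 32768 : ℝ) + (107 / 256 : ℝ)) (y1 := (2183 / 65536 : ℝ)) (y2 := (10855 / 262144 : ℝ))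
    (A1 := (3548767 / 524288 : ℝ)) (B1 := (5459561 / 268435456 : ℝ)) (A2 := (16877081 / 262144 : ℝ)) (B2 := (81880869 / 268435456 : ℝ)) (l := (11511 / 262144 : ℝ)) (u := (3173 / 65536 : ℝ))
    (E := (-238374981 / 4194304 : ℝ)) (F := (-90697531 / 268435456 : ℝ)) (by norm_num) (by norm_num) (by norm_num) (by norm_num) (by norm_num)
    (by norm_num) (by norm_num) (by norm_num) (by norm_num) (by norm_num) (by norm_num) (by norm_num) (by norm_num) (by norm_num) (by norm_num)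
  have e1 : C11.l = (11511 / 262144 : ℝ) := rfl
  have e2 : C11.u = (3173 / 65536 : ℝ) := rfl
  have e3 : C11.a1 = -(3548767 / 524288 : ℝ) := by norm_num [C11]
  have e4 : C11.a2 = -(16877081 / 262144 : ℝ) := by norm_num [C11]
  have e5 : C11.e = (-238374981 / 4194304 : ℝ) := rfl
  have e6 : C11.f = (5459561 / 268435456 : ℝ) + (81880869 / 268435456 : ℝ) + (-90697531 / 268435456 : ℝ) := by norm_num [C11]
  rw [e1, e2, e3, e4, e5, e6]
  exact h

lemma rcell12 : ∃ N : ℝ, Rw4 P.r2 N (coCell (87579 / 65536 : ℝ) (868797 / 65536 : ℝ) ((379421 / 32768 : ℝ) + (107 / 256 : ℝ)) (15 / 4096 : ℝ) C12) := by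
  refine ⟨(201326592 : ℝ), ⟨Q15, List.mem_cons_of_mem _ (List.mem_cons_of_mem _ (List.mem_cons_of_mem _ (List.mem_cons_of_mem _ (List.mem_cons_of_mem _ (List.mem_cons_of_mem _ (List.mem_cons_of_mem _ (List.mem_cons_of_mem _ (List.mem_cons_of_mem _ (List.mem_cons_of_mem _ (List.mem_cons_of_mem _ (List.mem_cons_of_mem _ (List.mem_cons_of_mem _ (List.mem_cons_of_mem _ (List.mem_cons_of_mem _ (List.mem_cons_self))))))))))))))), ?_⟩, by norm_num⟩
  constructor <;> norm_num [Q15, coCell, C12]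

lemma lcell12 : ∀ x1 x2 xc : ℝ, 0 ≤ x1 → x1 ≤ 1 → 0 ≤ x2 → x2 ≤ 1 → C12.l ≤ xc → xc ≤ C12.u →
    (87579 / 65536 : ℝ) * (1 - (1 - x1) ^ 6) + (868797 / 65536 : ℝ) * (1 - (1 - x2) ^ 6) - ((379421 / 32768 : ℝ) + (107 / 256 : ℝ)) * (1 - (1 - xc) ^ 6)
      ≤ - C12.a1 * x1 - C12.a2 * x2 + C12.e * xc + C12.f := by
  have h := cell_lines 6 (α1 := (87579 / 65536 : ℝ)) (α2 := (868797 / 65536 : ℝ)) (c := (379421 / 32768 : ℝ) + (107 / 256 : ℝ)) (y1 := (9851 / 262144 : ℝ)) (y2 := (2983 / 65536 : ℝ))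
    (A1 := (27768831 / 4194304 : ℝ)) (B1 := (3434345 / 134217728 : ℝ)) (A2 := (264296005 / 4194304 : ℝ)) (B2 := (12229707 / 33554432 : ℝ)) (l := (3173 / 65536 : ℝ)) (u := (6997 / 131072 : ℝ))
    (E := (-232516595 / 4194304 : ℝ)) (F := (-54425259 / 134217728 : ℝ)) (by norm_num) (by norm_num) (by norm_num) (by norm_num) (by norm_num)
    (by norm_num) (by norm_num) (by norm_num) (by norm_num) (by norm_num) (by norm_num) (by norm_num) (by norm_num) (by norm_num) (by norm_num)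
  have e1 : C12.l = (3173 / 65536 : ℝ) := rfl
  have e2 : C12.u = (6997 / 131072 : ℝ) := rfl
  have e3 : C12.a1 = -(27768831 / 4194304 : ℝ) := by norm_num [C12]
  have e4 : C12.a2 = -(264296005 / 4194304 : ℝ) := by norm_num [C12]
  have e5 : C12.e = (-232516595 / 4194304 : ℝ) := rfl
  have e6 : C12.f = (3434345 / 134217728 : ℝ) + (12229707 / 33554432 : ℝ) + (-54425259 / 134217728 : ℝ) := by norm_num [C12]
  rw [e1, e2, e3, e4, e5, e6]
  exact h

lemma rcell13 : ∃ N : ℝ, Rw4 P.r2 N (coCell (87579 / 65536 : ℝ) (868797 / 65536 : ℝ) ((379421 / 32768 : ℝ) + (107 / 256 : ℝ)) (15 / 4096 : ℝ) C13) := by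
  refine ⟨(805306368 : ℝ), ⟨Q16, List.mem_cons_of_mem _ (List.mem_cons_of_mem _ (List.mem_cons_of_mem _ (List.mem_cons_of_mem _ (List.mem_cons_of_mem _ (List.mem_cons_of_mem _ (List.mem_cons_of_mem _ (List.mem_cons_of_mem _ (List.mem_cons_of_mem _ (List.mem_cons_of_mem _ (List.mem_cons_of_mem _ (List.mem_cons_of_mem _ (List.mem_cons_of_mem _ (List.mem_cons_of_mem _ (List.mem_cons_of_mem _ (List.mem_cons_of_mem _ (List.mem_cons_self)))))))))))))))), ?_⟩, by norm_num⟩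
  constructor <;> norm_num [Q16, coCell, C13]

lemma lcell13 : ∀ x1 x2 xc : ℝ, 0 ≤ x1 → x1 ≤ 1 → 0 ≤ x2 → x2 ≤ 1 → C13.l ≤ xc → xc ≤ C13.u →
    (87579 / 65536 : ℝ) * (1 - (1 - x1) ^ 6) + (868797 / 65536 : ℝ) * (1 - (1 - x2) ^ 6) - ((379421 / 32768 : ℝ) + (107 / 256 : ℝ)) * (1 - (1 - xc) ^ 6)
      ≤ - C13.a1 * x1 - C13.a2 * x2 + C13.e * xc + C13.f := by
  have h := cell_lines 6 (α1 := (87579 / 65536 : ℝ)) (α2 := (868797 / 65536 : ℝ)) (c := (379421 / 32768 : ℝ) + (107 / 256 : ℝ)) (y1 := (5345 / 131072 : ℝ)) (y2 := (13137 / 262144 : ℝ))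
    (A1 := (13655083 / 2097152 : ℝ)) (B1 := (1002331 / 33554432 : ℝ)) (A2 := (32249109 / 524288 : ℝ)) (B2 := (58561695 / 134217728 : ℝ)) (l := (6997 / 131072 : ℝ)) (u := (15429 / 262144 : ℝ))
    (E := (-226193085 / 4194304 : ℝ)) (F := (-130454815 / 268435456 : ℝ)) (by norm_num) (by norm_num) (by norm_num) (by norm_num) (by norm_num)
    (by norm_num) (by norm_num) (by norm_num) (by norm_num) (by norm_num) (by norm_num) (by norm_num) (by norm_num) (by norm_num) (by norm_num)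
  have e1 : C13.l = (6997 / 131072 : ℝ) := rfl
  have e2 : C13.u = (15429 / 262144 : ℝ) := rfl
  have e3 : C13.a1 = -(13655083 / 2097152 : ℝ) := by norm_num [C13]
  have e4 : C13.a2 = -(32249109 / 524288 : ℝ) := by norm_num [C13]
  have e5 : C13.e = (-226193085 / 4194304 : ℝ) := rfl
  have e6 : C13.f = (1002331 / 33554432 : ℝ) + (58561695 / 134217728 : ℝ) + (-130454815 / 268435456 : ℝ) := by norm_num [C13]
  rw [e1, e2, e3, e4, e5, e6]
  exact h

lemma rcell14 : ∃ N : ℝ, Rw4 P.r2 N (coCell (87579 / 65536 : ℝ) (868797 / 65536 : ℝ) ((379421 / 32768 : ℝ) + (107 / 256 : ℝ)) (15 / 4096 : ℝ) C14) := by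
  refine ⟨(805306368 : ℝ), ⟨Q17, List.mem_cons_of_mem _ (List.mem_cons_of_mem _ (List.mem_cons_of_mem _ (List.mem_cons_of_mem _ (List.mem_cons_of_mem _ (List.mem_cons_of_mem _ (List.mem_cons_of_mem _ (List.mem_cons_of_mem _ (List.mem_cons_of_mem _ (List.mem_cons_of_mem _ (List.mem_cons_of_mem _ (List.mem_cons_of_mem _ (List.mem_cons_of_mem _ (List.mem_cons_of_mem _ (List.mem_cons_of_mem _ (List.mem_cons_of_mem _ (List.mem_cons_of_mem _ (List.mem_cons_self))))))))))))))))), ?_⟩, by norm_num⟩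
  constructor <;> norm_num [Q17, coCell, C14]

lemma lcell14 : ∀ x1 x2 xc : ℝ, 0 ≤ x1 → x1 ≤ 1 → 0 ≤ x2 → x2 ≤ 1 → C14.l ≤ xc → xc ≤ C14.u →
    (87579 / 65536 : ℝ) * (1 - (1 - x1) ^ 6) + (868797 / 65536 : ℝ) * (1 - (1 - x2) ^ 6) - ((379421 / 32768 : ℝ) + (107 / 256 : ℝ)) * (1 - (1 - xc) ^ 6)
      ≤ - C14.a1 * x1 - C14.a2 * x2 + C14.e * xc + C14.f := by
  have h := cell_lines 6 (α1 := (87579 / 65536 : ℝ)) (α2 := (868797 / 65536 : ℝ)) (c := (379421 / 32768 : ℝ) + (107 / 256 : ℝ)) (y1 := (2965 / 65536 : ℝ)) (y2 := (1815 / 32768 : ℝ))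
    (A1 := (26680689 / 4194304 : ℝ)) (B1 := (4875561 / 134217728 : ℝ)) (A2 := (250907475 / 4194304 : ℝ)) (B2 := (141039971 / 268435456 : ℝ)) (l := (15429 / 262144 : ℝ)) (u := (4253 / 65536 : ℝ))
    (E := (-219380785 / 4194304 : ℝ)) (F := (-78057849 / 134217728 : ℝ)) (by norm_num) (by norm_num) (by norm_num) (by norm_num) (by norm_num)
    (by norm_num) (by norm_num) (by norm_num) (by norm_num) (by norm_num) (by norm_num) (by norm_num) (by norm_num) (by norm_num) (by norm_num)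
  have e1 : C14.l = (15429 / 262144 : ℝ) := rfl
  have e2 : C14.u = (4253 / 65536 : ℝ) := rfl
  have e3 : C14.a1 = -(26680689 / 4194304 : ℝ) := by norm_num [C14]
  have e4 : C14.a2 = -(250907475 / 4194304 : ℝ) := by norm_num [C14]
  have e5 : C14.e = (-219380785 / 4194304 : ℝ) := rfl
  have e6 : C14.f = (4875561 / 134217728 : ℝ) + (141039971 / 268435456 : ℝ) + (-78057849 / 134217728 : ℝ) := by norm_num [C14]
  rw [e1, e2, e3, e4, e5, e6]
  exact h

lemma rcell15 : ∃ N : ℝ, Rw4 P.r2 N (coCell (87579 / 65536 : ℝ) (868797 / 65536 : ℝ) ((379421 / 32768 : ℝ) + (107 / 256 : ℝ)) (15 / 4096 : ℝ) C15) := by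
  refine ⟨(402653184 : ℝ), ⟨Q18, List.mem_cons_of_mem _ (List.mem_cons_of_mem _ (List.mem_cons_of_mem _ (List.mem_cons_of_mem _ (List.mem_cons_of_mem _ (List.mem_cons_of_mem _ (List.mem_cons_of_mem _ (List.mem_cons_of_mem _ (List.mem_cons_of_mem _ (List.mem_cons_of_mem _ (List.mem_cons_of_mem _ (List.mem_cons_of_mem _ (List.mem_cons_of_mem _ (List.mem_cons_of_mem _ (List.mem_cons_of_mem _ (List.mem_cons_of_mem _ (List.mem_cons_of_mem _ (List.mem_cons_of_mem _ (List.mem_cons_self)))))))))))))))))), ?_⟩, by norm_num⟩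
  constructor <;> norm_num [Q18, coCell, C15]

lemma lcell15 : ∀ x1 x2 xc : ℝ, 0 ≤ x1 → x1 ≤ 1 → 0 ≤ x2 → x2 ≤ 1 → C15.l ≤ xc → xc ≤ C15.u →
    (87579 / 65536 : ℝ) * (1 - (1 - x1) ^ 6) + (868797 / 65536 : ℝ) * (1 - (1 - x2) ^ 6) - ((379421 / 32768 : ℝ) + (107 / 256 : ℝ)) * (1 - (1 - xc) ^ 6)
      ≤ - C15.a1 * x1 - C15.a2 * x2 + C15.e * xc + C15.f := by
  have h := cell_lines 6 (α1 := (87579 / 65536 : ℝ)) (α2 := (868797 / 65536 : ℝ)) (c := (379421 / 32768 : ℝ) + (107 / 256 : ℝ)) (y1 := (13305 / 262144 : ℝ)) (y2 := (15939 / 262144 : ℝ))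
    (A1 := (12959667 / 2097152 : ℝ)) (B1 := (12089409 / 268435456 : ℝ)) (A2 := (243800319 / 4194304 : ℝ)) (B2 := (83730313 / 134217728 : ℝ)) (l := (4253 / 65536 : ℝ)) (u := (4689 / 65536 : ℝ))
    (E := (-53015597 / 1048576 : ℝ)) (F := (-186511345 / 268435456 : ℝ)) (by norm_num) (by norm_num) (by norm_num) (by norm_num) (by norm_num)
    (by norm_num) (by norm_num) (by norm_num) (by norm_num) (by norm_num) (by norm_num) (by norm_num) (by norm_num) (by norm_num) (by norm_num)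
  have e1 : C15.l = (4253 / 65536 : ℝ) := rfl
  have e2 : C15.u = (4689 / 65536 : ℝ) := rfl
  have e3 : C15.a1 = -(12959667 / 2097152 : ℝ) := by norm_num [C15]
  have e4 : C15.a2 = -(243800319 / 4194304 : ℝ) := by norm_num [C15]
  have e5 : C15.e = (-53015597 / 1048576 : ℝ) := rfl
  have e6 : C15.f = (12089409 / 268435456 : ℝ) + (83730313 / 134217728 : ℝ) + (-186511345 / 268435456 : ℝ) := by norm_num [C15]
  rw [e1, e2, e3, e4, e5, e6]
  exact h

lemma rcell16 : ∃ N : ℝ, Rw4 P.r2 N (coCell (87579 / 65536 : ℝ) (868797 / 65536 : ℝ) ((379421 / 32768 : ℝ) + (107 / 256 : ℝ)) (15 / 4096 : ℝ) C16) := by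
  refine ⟨(402653184 : ℝ), ⟨Q19, List.mem_cons_of_mem _ (List.mem_cons_of_mem _ (List.mem_cons_of_mem _ (List.mem_cons_of_mem _ (List.mem_cons_of_mem _ (List.mem_cons_of_mem _ (List.mem_cons_of_mem _ (List.mem_cons_of_mem _ (List.mem_cons_of_mem _ (List.mem_cons_of_mem _ (List.mem_cons_of_mem _ (List.mem_cons_of_mem _ (List.mem_cons_of_mem _ (List.mem_cons_of_mem _ (List.mem_cons_of_mem _ (List.mem_cons_of_mem _ (List.mem_cons_of_mem _ (List.mem_cons_of_mem _ (List.mem_cons_of_mem _ (List.mem_cons_self))))))))))))))))))), ?_⟩, by norm_num⟩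
  constructor <;> norm_num [Q19, coCell, C16]

lemma lcell16 : ∀ x1 x2 xc : ℝ, 0 ≤ x1 → x1 ≤ 1 → 0 ≤ x2 → x2 ≤ 1 → C16.l ≤ xc → xc ≤ C16.u →
    (87579 / 65536 : ℝ) * (1 - (1 - x1) ^ 6) + (868797 / 65536 : ℝ) * (1 - (1 - x2) ^ 6) - ((379421 / 32768 : ℝ) + (107 / 256 : ℝ)) * (1 - (1 - xc) ^ 6)
      ≤ - C16.a1 * x1 - C16.a2 * x2 + C16.e * xc + C16.f := by
  have h := cell_lines 6 (α1 := (87579 / 65536 : ℝ)) (α2 := (868797 / 65536 : ℝ)) (c := (379421 / 32768 : ℝ) + (107 / 256 : ℝ)) (y1 := (7193 / 131072 : ℝ)) (y2 := (4385 / 65536 : ℝ))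
    (A1 := (25361213 / 4194304 : ℝ)) (B1 := (6987905 / 134217728 : ℝ)) (A2 := (235975927 / 4194304 : ℝ)) (B2 := (49857661 / 67108864 : ℝ)) (l := (4689 / 65536 : ℝ)) (u := (2585 / 32768 : ℝ))
    (E := (-204221851 / 4194304 : ℝ)) (F := (-27801745 / 33554432 : ℝ)) (by norm_num) (by norm_num) (by norm_num) (by norm_num) (by norm_num)
    (by norm_num) (by norm_num) (by norm_num) (by norm_num) (by norm_num) (by norm_num) (by norm_num) (by norm_num) (by norm_num) (by norm_num)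
  have e1 : C16.l = (4689 / 65536 : ℝ) := rfl
  have e2 : C16.u = (2585 / 32768 : ℝ) := rfl
  have e3 : C16.a1 = -(25361213 / 4194304 : ℝ) := by norm_num [C16]
  have e4 : C16.a2 = -(235975927 / 4194304 : ℝ) := by norm_num [C16]
  have e5 : C16.e = (-204221851 / 4194304 : ℝ) := rfl
  have e6 : C16.f = (6987905 / 134217728 : ℝ) + (49857661 / 67108864 : ℝ) + (-27801745 / 33554432 : ℝ) := by norm_num [C16]
  rw [e1, e2, e3, e4, e5, e6]
  exact h

lemma rcell17 : ∃ N : ℝ, Rw4 P.r2 N (coCell (87579 / 65536 : ℝ) (868797 / 65536 : ℝ) ((379421 / 32768 : ℝ) + (107 / 256 : ℝ)) (15 / 4096 : ℝ) C17) := by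
  refine ⟨(805306368 : ℝ), ⟨Q20, List.mem_cons_of_mem _ (List.mem_cons_of_mem _ (List.mem_cons_of_mem _ (List.mem_cons_of_mem _ (List.mem_cons_of_mem _ (List.mem_cons_of_mem _ (List.mem_cons_of_mem _ (List.mem_cons_of_mem _ (List.mem_cons_of_mem _ (List.mem_cons_of_mem _ (List.mem_cons_of_mem _ (List.mem_cons_of_mem _ (List.mem_cons_of_mem _ (List.mem_cons_of_mem _ (List.mem_cons_of_mem _ (List.mem_cons_of_mem _ (List.mem_cons_of_mem _ (List.mem_cons_of_mem _ (List.mem_cons_of_mem _ (List.mem_cons_of_mem _ (List.mem_cons_self)))))))))))))))))))), ?_⟩, by norm_num⟩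
  constructor <;> norm_num [Q20, coCell, C17]

lemma lcell17 : ∀ x1 x2 xc : ℝ, 0 ≤ x1 → x1 ≤ 1 → 0 ≤ x2 → x2 ≤ 1 → C17.l ≤ xc → xc ≤ C17.u →
    (87579 / 65536 : ℝ) * (1 - (1 - x1) ^ 6) + (868797 / 65536 : ℝ) * (1 - (1 - x2) ^ 6) - ((379421 / 32768 : ℝ) + (107 / 256 : ℝ)) * (1 - (1 - xc) ^ 6)
      ≤ - C17.a1 * x1 - C17.a2 * x2 + C17.e * xc + C17.f := by
  have h := cell_lines 6 (α1 := (87579 / 65536 : ℝ)) (α2 := (868797 / 65536 : ℝ)) (c := (379421 / 32768 : ℝ) + (107 / 256 : ℝ)) (y1 := (15643 / 262144 : ℝ)) (y2 := (9677 / 131072 : ℝ))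
    (A1 := (12362179 / 2097152 : ℝ)) (B1 := (4077485 / 67108864 : ℝ)) (A2 := (113677341 / 2097152 : ℝ)) (B2 := (59562089 / 67108864 : ℝ)) (l := (2585 / 32768 : ℝ)) (u := (11401 / 131072 : ℝ))
    (E := (-97922175 / 2097152 : ℝ)) (F := (-264710523 / 268435456 : ℝ)) (by norm_num) (by norm_num) (by norm_num) (by norm_num) (by norm_num)
    (by norm_num) (by norm_num) (by norm_num) (by norm_num) (by norm_num) (by norm_num) (by norm_num) (by norm_num) (by norm_num) (by norm_num)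
  have e1 : C17.l = (2585 / 32768 : ℝ) := rfl
  have e2 : C17.u = (11401 / 131072 : ℝ) := rfl
  have e3 : C17.a1 = -(12362179 / 2097152 : ℝ) := by norm_num [C17]
  have e4 : C17.a2 = -(113677341 / 2097152 : ℝ) := by norm_num [C17]
  have e5 : C17.e = (-97922175 / 2097152 : ℝ) := rfl
  have e6 : C17.f = (4077485 / 67108864 : ℝ) + (59562089 / 67108864 : ℝ) + (-264710523 / 268435456 : ℝ) := by norm_num [C17]
  rw [e1, e2, e3, e4, e5, e6]
  exact h

lemma rcell18 : ∃ N : ℝ, Rw4 P.r2 N (coCell (87579 / 65536 : ℝ) (868797 / 65536 : ℝ) ((379421 / 32768 : ℝ) + (107 / 256 : ℝ)) (15 / 4096 : ℝ) C18) := by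
  refine ⟨(201326592 : ℝ), ⟨Q21, List.mem_cons_of_mem _ (List.mem_cons_of_mem _ (List.mem_cons_of_mem _ (List.mem_cons_of_mem _ (List.mem_cons_of_mem _ (List.mem_cons_of_mem _ (List.mem_cons_of_mem _ (List.mem_cons_of_mem _ (List.mem_cons_of_mem _ (List.mem_cons_of_mem _ (List.mem_cons_of_mem _ (List.mem_cons_of_mem _ (List.mem_cons_of_mem _ (List.mem_cons_of_mem _ (List.mem_cons_of_mem _ (List.mem_cons_of_mem _ (List.mem_cons_of_mem _ (List.mem_cons_of_mem _ (List.mem_cons_of_mem _ (List.mem_cons_of_mem _ (List.mem_cons_of_mem _ (List.mem_cons_self))))))))))))))))))))), ?_⟩, by norm_num⟩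
  constructor <;> norm_num [Q21, coCell, C18]

lemma lcell18 : ∀ x1 x2 xc : ℝ, 0 ≤ x1 → x1 ≤ 1 → 0 ≤ x2 → x2 ≤ 1 → C18.l ≤ xc → xc ≤ C18.u →
    (87579 / 65536 : ℝ) * (1 - (1 - x1) ^ 6) + (868797 / 65536 : ℝ) * (1 - (1 - x2) ^ 6) - ((379421 / 32768 : ℝ) + (107 / 256 : ℝ)) * (1 - (1 - xc) ^ 6)
      ≤ - C18.a1 * x1 - C18.a2 * x2 + C18.e * xc + C18.f := by
  have h := cell_lines 6 (α1 := (87579 / 65536 : ℝ)) (α2 := (868797 / 65536 : ℝ)) (c := (379421 / 32768 : ℝ) + (107 / 256 : ℝ)) (y1 := (8617 / 131072 : ℝ)) (y2 := (5331 / 65536 : ℝ))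
    (A1 := (23936695 / 4194304 : ℝ)) (B1 := (19470417 / 268435456 : ℝ)) (A2 := (27284921 / 524288 : ℝ)) (B2 := (283300649 / 268435456 : ℝ)) (l := (11401 / 131072 : ℝ)) (u := (6285 / 65536 : ℝ))
    (E := (-93465417 / 2097152 : ℝ)) (F := (-157165563 / 134217728 : ℝ)) (by norm_num) (by norm_num) (by norm_num) (by norm_num) (by norm_num)
    (by norm_num) (by norm_num) (by norm_num) (by norm_num) (by norm_num) (by norm_num) (by norm_num) (by norm_num) (by norm_num) (by norm_num)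
  have e1 : C18.l = (11401 / 131072 : ℝ) := rfl
  have e2 : C18.u = (6285 / 65536 : ℝ) := rfl
  have e3 : C18.a1 = -(23936695 / 4194304 : ℝ) := by norm_num [C18]
  have e4 : C18.a2 = -(27284921 / 524288 : ℝ) := by norm_num [C18]
  have e5 : C18.e = (-93465417 / 2097152 : ℝ) := rfl
  have e6 : C18.f = (19470417 / 268435456 : ℝ) + (283300649 / 268435456 : ℝ) + (-157165563 / 134217728 : ℝ) := by norm_num [C18]
  rw [e1, e2, e3, e4, e5, e6]
  exact h

lemma rcell19 : ∃ N : ℝ, Rw4 P.r2 N (coCell (87579 / 65536 : ℝ) (868797 / 65536 : ℝ) ((379421 / 32768 : ℝ) + (107 / 256 : ℝ)) (15 / 4096 : ℝ) C19) := by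
  refine ⟨(805306368 : ℝ), ⟨Q22, List.mem_cons_of_mem _ (List.mem_cons_of_mem _ (List.mem_cons_of_mem _ (List.mem_cons_of_mem _ (List.mem_cons_of_mem _ (List.mem_cons_of_mem _ (List.mem_cons_of_mem _ (List.mem_cons_of_mem _ (List.mem_cons_of_mem _ (List.mem_cons_of_mem _ (List.mem_cons_of_mem _ (List.mem_cons_of_mem _ (List.mem_cons_of_mem _ (List.mem_cons_of_mem _ (List.mem_cons_of_mem _ (List.mem_cons_of_mem _ (List.mem_cons_of_mem _ (List.mem_cons_of_mem _ (List.mem_cons_of_mem _ (List.mem_cons_of_mem _ (List.mem_cons_of_mem _ (List.mem_cons_of_mem _ (List.mem_cons_self)))))))))))))))))))))), ?_⟩, by norm_num⟩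
  constructor <;> norm_num [Q22, coCell, C19]

lemma lcell19 : ∀ x1 x2 xc : ℝ, 0 ≤ x1 → x1 ≤ 1 → 0 ≤ x2 → x2 ≤ 1 → C19.l ≤ xc → xc ≤ C19.u →
    (87579 / 65536 : ℝ) * (1 - (1 - x1) ^ 6) + (868797 / 65536 : ℝ) * (1 - (1 - x2) ^ 6) - ((379421 / 32768 : ℝ) + (107 / 256 : ℝ)) * (1 - (1 - xc) ^ 6)
      ≤ - C19.a1 * x1 - C19.a2 * x2 + C19.e * xc + C19.f := by
  have h := cell_lines 6 (α1 := (87579 / 65536 : ℝ)) (α2 := (868797 / 65536 : ℝ)) (c := (379421 / 32768 : ℝ) + (107 / 256 : ℝ)) (y1 := (18595 / 262144 : ℝ)) (y2 := (23417 / 262144 : ℝ))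
    (A1 := (5819737 / 1048576 : ℝ)) (B1 := (5586691 / 67108864 : ℝ)) (A2 := (208957339 / 4194304 : ℝ)) (B2 := (83549877 / 67108864 : ℝ)) (l := (6285 / 65536 : ℝ)) (u := (27719 / 262144 : ℝ))
    (E := (-88741805 / 2097152 : ℝ)) (F := (-372315309 / 268435456 : ℝ)) (by norm_num) (by norm_num) (by norm_num) (by norm_num) (by norm_num)
    (by norm_num) (by norm_num) (by norm_num) (by norm_num) (by norm_num) (by norm_num) (by norm_num) (by norm_num) (by norm_num) (by norm_num)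
  have e1 : C19.l = (6285 / 65536 : ℝ) := rfl
  have e2 : C19.u = (27719 / 262144 : ℝ) := rfl
  have e3 : C19.a1 = -(5819737 / 1048576 : ℝ) := by norm_num [C19]
  have e4 : C19.a2 = -(208957339 / 4194304 : ℝ) := by norm_num [C19]
  have e5 : C19.e = (-88741805 / 2097152 : ℝ) := rfl
  have e6 : C19.f = (5586691 / 67108864 : ℝ) + (83549877 / 67108864 : ℝ) + (-372315309 / 268435456 : ℝ) := by norm_num [C19]
  rw [e1, e2, e3, e4, e5, e6]
  exact h

lemma rcell20 : ∃ N : ℝ, Rw4 P.r2 N (coCell (87579 / 65536 : ℝ) (868797 / 65536 : ℝ) ((379421 / 32768 : ℝ) + (107 / 256 : ℝ)) (15 / 4096 : ℝ) C20) := by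
  refine ⟨(805306368 : ℝ), ⟨Q23, List.mem_cons_of_mem _ (List.mem_cons_of_mem _ (List.mem_cons_of_mem _ (List.mem_cons_of_mem _ (List.mem_cons_of_mem _ (List.mem_cons_of_mem _ (List.mem_cons_of_mem _ (List.mem_cons_of_mem _ (List.mem_cons_of_mem _ (List.mem_cons_of_mem _ (List.mem_cons_of_mem _ (List.mem_cons_of_mem _ (List.mem_cons_of_mem _ (List.mem_cons_of_mem _ (List.mem_cons_of_mem _ (List.mem_cons_of_mem _ (List.mem_cons_of_mem _ (List.mem_cons_of_mem _ (List.mem_cons_of_mem _ (List.mem_cons_of_mem _ (List.mem_cons_of_mem _ (List.mem_cons_of_mem _ (List.mem_cons_of_mem _ (List.mem_cons_self))))))))))))))))))))))), ?_⟩, by norm_num⟩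
  constructor <;> norm_num [Q23, coCell, C20]

lemma lcell20 : ∀ x1 x2 xc : ℝ, 0 ≤ x1 → x1 ≤ 1 → 0 ≤ x2 → x2 ≤ 1 → C20.l ≤ xc → xc ≤ C20.u →
    (87579 / 65536 : ℝ) * (1 - (1 - x1) ^ 6) + (868797 / 65536 : ℝ) * (1 - (1 - x2) ^ 6) - ((379421 / 32768 : ℝ) + (107 / 256 : ℝ)) * (1 - (1 - xc) ^ 6)
      ≤ - C20.a1 * x1 - C20.a2 * x2 + C20.e * xc + C20.f := by
  have h := cell_lines 6 (α1 := (87579 / 65536 : ℝ)) (α2 := (868797 / 65536 : ℝ)) (c := (379421 / 32768 : ℝ) + (107 / 256 : ℝ)) (y1 := (20559 / 262144 : ℝ)) (y2 := (3205 / 32768 : ℝ))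
    (A1 := (22355347 / 4194304 : ℝ)) (B1 := (1672499 / 16777216 : ℝ)) (A2 := (199407909 / 4194304 : ℝ)) (B2 := (195684587 / 134217728 : ℝ)) (l := (27719 / 262144 : ℝ)) (u := (15281 / 131072 : ℝ))
    (E := (-167513393 / 4194304 : ℝ)) (F := (-439787097 / 268435456 : ℝ)) (by norm_num) (by norm_num) (by norm_num) (by norm_num) (by norm_num)
    (by norm_num) (by norm_num) (by norm_num) (by norm_num) (by norm_num) (by norm_num) (by norm_num) (by norm_num) (by norm_num) (by norm_num)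
  have e1 : C20.l = (27719 / 262144 : ℝ) := rfl
  have e2 : C20.u = (15281 / 131072 : ℝ) := rfl
  have e3 : C20.a1 = -(22355347 / 4194304 : ℝ) := by norm_num [C20]
  have e4 : C20.a2 = -(199407909 / 4194304 : ℝ) := by norm_num [C20]
  have e5 : C20.e = (-167513393 / 4194304 : ℝ) := rfl
  have e6 : C20.f = (1672499 / 16777216 : ℝ) + (195684587 / 134217728 : ℝ) + (-439787097 / 268435456 : ℝ) := by norm_num [C20]
  rw [e1, e2, e3, e4, e5, e6]
  exact h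

lemma rcell21 : ∃ N : ℝ, Rw4 P.r2 N (coCell (87579 / 65536 : ℝ) (868797 / 65536 : ℝ) ((379421 / 32768 : ℝ) + (107 / 256 : ℝ)) (15 / 4096 : ℝ) C21) := by
  refine ⟨(805306368 : ℝ), ⟨Q24, List.mem_cons_of_mem _ (List.mem_cons_of_mem _ (List.mem_cons_of_mem _ (List.mem_cons_of_mem _ (List.mem_cons_of_mem _ (List.mem_cons_of_mem _ (List.mem_cons_of_mem _ (List.mem_cons_of_mem _ (List.mem_cons_of_mem _ (List.mem_cons_of_mem _ (List.mem_cons_of_mem _ (List.mem_cons_of_mem _ (List.mem_cons_of_mem _ (List.mem_cons_of_mem _ (List.mem_cons_of_mem _ (List.mem_cons_of_mem _ (List.mem_cons_of_mem _ (List.mem_cons_of_mem _ (List.mem_cons_of_mem _ (List.mem_cons_of_mem _ (List.mem_cons_of_mem _ (List.mem_cons_of_mem _ (List.mem_cons_of_mem _ (List.mem_cons_of_mem _ (List.mem_cons_self)))))))))))))))))))))))), ?_⟩, by norm_num⟩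
  constructor <;> norm_num [Q24, coCell, C21]

lemma lcell21 : ∀ x1 x2 xc : ℝ, 0 ≤ x1 → x1 ≤ 1 → 0 ≤ x2 → x2 ≤ 1 → C21.l ≤ xc → xc ≤ C21.u →
    (87579 / 65536 : ℝ) * (1 - (1 - x1) ^ 6) + (868797 / 65536 : ℝ) * (1 - (1 - x2) ^ 6) - ((379421 / 32768 : ℝ) + (107 / 256 : ℝ)) * (1 - (1 - xc) ^ 6)
      ≤ - C21.a1 * x1 - C21.a2 * x2 + C21.e * xc + C21.f := by
  have h := cell_lines 6 (α1 := (87579 / 65536 : ℝ)) (α2 := (868797 / 65536 : ℝ)) (c := (379421 / 32768 : ℝ) + (107 / 256 : ℝ)) (y1 := (2851 / 32768 : ℝ)) (y2 := (28321 / 262144 : ℝ))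
    (A1 := (21333973 / 4194304 : ℝ)) (B1 := (502581 / 4194304 : ℝ)) (A2 := (188358867 / 4194304 : ℝ)) (B2 := (116030533 / 67108864 : ℝ)) (l := (15281 / 131072 : ℝ)) (u := (33697 / 262144 : ℝ))
    (E := (-39261487 / 1048576 : ℝ)) (F := (-517889161 / 268435456 : ℝ)) (by norm_num) (by norm_num) (by norm_num) (by norm_num) (by norm_num)
    (by norm_num) (by norm_num) (by norm_num) (by norm_num) (by norm_num) (by norm_num) (by norm_num) (by norm_num) (by norm_num) (by norm_num)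
  have e1 : C21.l = (15281 / 131072 : ℝ) := rfl
  have e2 : C21.u = (33697 / 262144 : ℝ) := rfl
  have e3 : C21.a1 = -(21333973 / 4194304 : ℝ) := by norm_num [C21]
  have e4 : C21.a2 = -(188358867 / 4194304 : ℝ) := by norm_num [C21]
  have e5 : C21.e = (-39261487 / 1048576 : ℝ) := rfl
  have e6 : C21.f = (502581 / 4194304 : ℝ) + (116030533 / 67108864 : ℝ) + (-517889161 / 268435456 : ℝ) := by norm_num [C21]
  rw [e1, e2, e3, e4, e5, e6]
  exact h

lemma rcell22 : ∃ N : ℝ, Rw4 P.r2 N (coCell (87579 / 65536 : ℝ) (868797 / 65536 : ℝ) ((379421 / 32768 : ℝ) + (107 / 256 : ℝ)) (15 / 4096 : ℝ) C22) := by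
  refine ⟨(402653184 : ℝ), ⟨Q25, List.mem_cons_of_mem _ (List.mem_cons_of_mem _ (List.mem_cons_of_mem _ (List.mem_cons_of_mem _ (List.mem_cons_of_mem _ (List.mem_cons_of_mem _ (List.mem_cons_of_mem _ (List.mem_cons_of_mem _ (List.mem_cons_of_mem _ (List.mem_cons_of_mem _ (List.mem_cons_of_mem _ (List.mem_cons_of_mem _ (List.mem_cons_of_mem _ (List.mem_cons_of_mem _ (List.mem_cons_of_mem _ (List.mem_cons_of_mem _ (List.mem_cons_of_mem _ (List.mem_cons_of_mem _ (List.mem_cons_of_mem _ (List.mem_cons_of_mem _ (List.mem_cons_of_mem _ (List.mem_cons_of_mem _ (List.mem_cons_of_mem _ (List.mem_cons_of_mem _ (List.mem_cons_of_mem _ (List.mem_cons_self))))))))))))))))))))))))), ?_⟩, by norm_num⟩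
  constructor <;> norm_num [Q25, coCell, C22]

lemma lcell22 : ∀ x1 x2 xc : ℝ, 0 ≤ x1 → x1 ≤ 1 → 0 ≤ x2 → x2 ≤ 1 → C22.l ≤ xc → xc ≤ C22.u →
    (87579 / 65536 : ℝ) * (1 - (1 - x1) ^ 6) + (868797 / 65536 : ℝ) * (1 - (1 - x2) ^ 6) - ((379421 / 32768 : ℝ) + (107 / 256 : ℝ)) * (1 - (1 - xc) ^ 6)
      ≤ - C22.a1 * x1 - C22.a2 * x2 + C22.e * xc + C22.f := by
  have h := cell_lines 6 (α1 := (87579 / 65536 : ℝ)) (α2 := (868797 / 65536 : ℝ)) (c := (379421 / 32768 : ℝ) + (107 / 256 : ℝ)) (y1 := (25099 / 262144 : ℝ)) (y2 := (31003 / 262144 : ℝ))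
    (A1 := (20332257 / 4194304 : ℝ)) (B1 := (19010725 / 134217728 : ℝ)) (A2 := (177801273 / 4194304 : ℝ)) (B2 := (540550479 / 268435456 : ℝ)) (l := (33697 / 262144 : ℝ)) (u := (18577 / 131072 : ℝ))
    (E := (-73058773 / 2097152 : ℝ)) (F := (-607795011 / 268435456 : ℝ)) (by norm_num) (by norm_num) (by norm_num) (by norm_num) (by norm_num)
    (by norm_num) (by norm_num) (by norm_num) (by norm_num) (by norm_num) (by norm_num) (by norm_num) (by norm_num) (by norm_num) (by norm_num)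
  have e1 : C22.l = (33697 / 262144 : ℝ) := rfl
  have e2 : C22.u = (18577 / 131072 : ℝ) := rfl
  have e3 : C22.a1 = -(20332257 / 4194304 : ℝ) := by norm_num [C22]
  have e4 : C22.a2 = -(177801273 / 4194304 : ℝ) := by norm_num [C22]
  have e5 : C22.e = (-73058773 / 2097152 : ℝ) := rfl
  have e6 : C22.f = (19010725 / 134217728 : ℝ) + (540550479 / 268435456 : ℝ) + (-607795011 / 268435456 : ℝ) := by norm_num [C22]
  rw [e1, e2, e3, e4, e5, e6]
  exact h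

lemma rcell23 : ∃ N : ℝ, Rw4 P.r2 N (coCell (87579 / 65536 : ℝ) (868797 / 65536 : ℝ) ((379421 / 32768 : ℝ) + (107 / 256 : ℝ)) (15 / 4096 : ℝ) C23) := by
  refine ⟨(402653184 : ℝ), ⟨Q26, List.mem_cons_of_mem _ (List.mem_cons_of_mem _ (List.mem_cons_of_mem _ (List.mem_cons_of_mem _ (List.mem_cons_of_mem _ (List.mem_cons_of_mem _ (List.mem_cons_of_mem _ (List.mem_cons_of_mem _ (List.mem_cons_of_mem _ (List.mem_cons_of_mem _ (List.mem_cons_of_mem _ (List.mem_cons_of_mem _ (List.mem_cons_of_mem _ (List.mem_cons_of_mem _ (List.mem_cons_of_mem _ (List.mem_cons_of_mem _ (List.mem_cons_of_mem _ (List.mem_cons_of_mem _ (List.mem_cons_of_mem _ (List.mem_cons_of_mem _ (List.mem_cons_of_mem _ (List.mem_cons_of_mem _ (List.mem_cons_of_mem _ (List.mem_cons_of_mem _ (List.mem_cons_of_mem _ (List.mem_cons_of_mem _ (List.mem_cons_self)))))))))))))))))))))))))), ?_⟩, by norm_num⟩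
  constructor <;> norm_num [Q26, coCell, C23]

lemma lcell23 : ∀ x1 x2 xc : ℝ, 0 ≤ x1 → x1 ≤ 1 → 0 ≤ x2 → x2 ≤ 1 → C23.l ≤ xc → xc ≤ C23.u →
    (87579 / 65536 : ℝ) * (1 - (1 - x1) ^ 6) + (868797 / 65536 : ℝ) * (1 - (1 - x2) ^ 6) - ((379421 / 32768 : ℝ) + (107 / 256 : ℝ)) * (1 - (1 - xc) ^ 6)
      ≤ - C23.a1 * x1 - C23.a2 * x2 + C23.e * xc + C23.f := by
  have h := cell_lines 6 (α1 := (87579 / 65536 : ℝ)) (α2 := (868797 / 65536 : ℝ)) (c := (379421 / 32768 : ℝ) + (107 / 256 : ℝ)) (y1 := (27429 / 262144 : ℝ)) (y2 := (34051 / 262144 : ℝ))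
    (A1 := (4838111 / 1048576 : ℝ)) (B1 := (11075571 / 67108864 : ℝ)) (A2 := (41595823 / 1048576 : ℝ)) (B2 := (631184933 / 268435456 : ℝ)) (l := (18577 / 131072 : ℝ)) (u := (40965 / 262144 : ℝ))
    (E := (-134783281 / 4194304 : ℝ)) (F := (-710605871 / 268435456 : ℝ)) (by norm_num) (by norm_num) (by norm_num) (by norm_num) (by norm_num)
    (by norm_num) (by norm_num) (by norm_num) (by norm_num) (by norm_num) (by norm_num) (by norm_num) (by norm_num) (by norm_num) (by norm_num)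
  have e1 : C23.l = (18577 / 131072 : ℝ) := rfl
  have e2 : C23.u = (40965 / 262144 : ℝ) := rfl
  have e3 : C23.a1 = -(4838111 / 1048576 : ℝ) := by norm_num [C23]
  have e4 : C23.a2 = -(41595823 / 1048576 : ℝ) := by norm_num [C23]
  have e5 : C23.e = (-134783281 / 4194304 : ℝ) := rfl
  have e6 : C23.f = (11075571 / 67108864 : ℝ) + (631184933 / 268435456 : ℝ) + (-710605871 / 268435456 : ℝ) := by norm_num [C23]
  rw [e1, e2, e3, e4, e5, e6]
  exact h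

lemma rcell24 : ∃ N : ℝ, Rw4 P.r2 N (coCell (87579 / 65536 : ℝ) (868797 / 65536 : ℝ) ((379421 / 32768 : ℝ) + (107 / 256 : ℝ)) (15 / 4096 : ℝ) C24) := by
  refine ⟨(402653184 : ℝ), ⟨Q27, List.mem_cons_of_mem _ (List.mem_cons_of_mem _ (List.mem_cons_of_mem _ (List.mem_cons_of_mem _ (List.mem_cons_of_mem _ (List.mem_cons_of_mem _ (List.mem_cons_of_mem _ (List.mem_cons_of_mem _ (List.mem_cons_of_mem _ (List.mem_cons_of_mem _ (List.mem_cons_of_mem _ (List.mem_cons_of_mem _ (List.mem_cons_of_mem _ (List.mem_cons_of_mem _ (List.mem_cons_of_mem _ (List.mem_cons_of_mem _ (List.mem_cons_of_mem _ (List.mem_cons_of_mem _ (List.mem_cons_of_mem _ (List.mem_cons_of_mem _ (List.mem_cons_of_mem _ (List.mem_cons_of_mem _ (List.mem_cons_of_mem _ (List.mem_cons_of_mem _ (List.mem_cons_of_mem _ (List.mem_cons_of_mem _ (List.mem_cons_of_mem _ (List.mem_cons_self))))))))))))))))))))))))))), ?_⟩, by norm_num⟩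
  constructor <;> norm_num [Q27, coCell, C24]

lemma lcell24 : ∀ x1 x2 xc : ℝ, 0 ≤ x1 → x1 ≤ 1 → 0 ≤ x2 → x2 ≤ 1 → C24.l ≤ xc → xc ≤ C24.u →
    (87579 / 65536 : ℝ) * (1 - (1 - x1) ^ 6) + (868797 / 65536 : ℝ) * (1 - (1 - x2) ^ 6) - ((379421 / 32768 : ℝ) + (107 / 256 : ℝ)) * (1 - (1 - xc) ^ 6)
      ≤ - C24.a1 * x1 - C24.a2 * x2 + C24.e * xc + C24.f := by
  have h := cell_lines 6 (α1 := (87579 / 65536 : ℝ)) (α2 := (868797 / 65536 : ℝ)) (c := (379421 / 32768 : ℝ) + (107 / 256 : ℝ)) (y1 := (7395 / 65536 : ℝ)) (y2 := (37333 / 262144 : ℝ))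
    (A1 := (9240895 / 2097152 : ℝ)) (B1 := (50359867 / 268435456 : ℝ)) (A2 := (154752515 / 4194304 : ℝ)) (B2 := (732488945 / 268435456 : ℝ)) (l := (40965 / 262144 : ℝ)) (u := (45167 / 262144 : ℝ))
    (E := (-61557419 / 2097152 : ℝ)) (F := (-413652273 / 134217728 : ℝ)) (by norm_num) (by norm_num) (by norm_num) (by norm_num) (by norm_num)
    (by norm_num) (by norm_num) (by norm_num) (by norm_num) (by norm_num) (by norm_num) (by norm_num) (by norm_num) (by norm_num) (by norm_num)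
  have e1 : C24.l = (40965 / 262144 : ℝ) := rfl
  have e2 : C24.u = (45167 / 262144 : ℝ) := rfl
  have e3 : C24.a1 = -(9240895 / 2097152 : ℝ) := by norm_num [C24]
  have e4 : C24.a2 = -(154752515 / 4194304 : ℝ) := by norm_num [C24]
  have e5 : C24.e = (-61557419 / 2097152 : ℝ) := rfl
  have e6 : C24.f = (50359867 / 268435456 : ℝ) + (732488945 / 268435456 : ℝ) + (-413652273 / 134217728 : ℝ) := by norm_num [C24]
  rw [e1, e2, e3, e4, e5, e6]
  exact h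

lemma rcell25 : ∃ N : ℝ, Rw4 P.r2 N (coCell (87579 / 65536 : ℝ) (868797 / 65536 : ℝ) ((379421 / 32768 : ℝ) + (107 / 256 : ℝ)) (15 / 4096 : ℝ) C25) := by
  refine ⟨(402653184 : ℝ), ⟨Q28, List.mem_cons_of_mem _ (List.mem_cons_of_mem _ (List.mem_cons_of_mem _ (List.mem_cons_of_mem _ (List.mem_cons_of_mem _ (List.mem_cons_of_mem _ (List.mem_cons_of_mem _ (List.mem_cons_of_mem _ (List.mem_cons_of_mem _ (List.mem_cons_of_mem _ (List.mem_cons_of_mem _ (List.mem_cons_of_mem _ (List.mem_cons_of_mem _ (List.mem_cons_of_mem _ (List.mem_cons_of_mem _ (List.mem_cons_of_mem _ (List.mem_cons_of_mem _ (List.mem_cons_of_mem _ (List.mem_cons_of_mem _ (List.mem_cons_of_mem _ (List.mem_cons_of_mem _ (List.mem_cons_of_mem _ (List.mem_cons_of_mem _ (List.mem_cons_of_mem _ (List.mem_cons_of_mem _ (List.mem_cons_of_mem _ (List.mem_cons_of_mem _ (List.mem_cons_of_mem _ (List.mem_cons_self)))))))))))))))))))))))))))),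 ?_⟩, by norm_num⟩
  constructor <;> norm_num [Q28, coCell, C25]

lemma lcell25 : ∀ x1 x2 xc : ℝ, 0 ≤ x1 → x1 ≤ 1 → 0 ≤ x2 → x2 ≤ 1 → C25.l ≤ xc → xc ≤ C25.u →
    (87579 / 65536 : ℝ) * (1 - (1 - x1) ^ 6) + (868797 / 65536 : ℝ) * (1 - (1 - x2) ^ 6) - ((379421 / 32768 : ℝ) + (107 / 256 : ℝ)) * (1 - (1 - xc) ^ 6)
      ≤ - C25.a1 * x1 - C25.a2 * x2 + C25.e * xc + C25.f := by
  have h := cell_lines 6 (α1 := (87579 / 65536 : ℝ)) (α2 := (868797 / 65536 : ℝ)) (c := (379421 / 32768 : ℝ) + (107 / 256 : ℝ)) (y1 := (32275 / 262144 : ℝ)) (y2 := (40699 / 262144 : ℝ))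
    (A1 := (17435469 / 4194304 : ℝ)) (B1 := (58257589 / 268435456 : ℝ)) (A2 := (35877265 / 1048576 : ℝ)) (B2 := (419770405 / 134217728 : ℝ)) (l := (45167 / 262144 : ℝ)) (u := (6225 / 32768 : ℝ))
    (E := (-27800505 / 1048576 : ℝ)) (F := (-958668377 / 268435456 : ℝ)) (by norm_num) (by norm_num) (by norm_num) (by norm_num) (by norm_num)
    (by norm_num) (by norm_num) (by norm_num) (by norm_num) (by norm_num) (by norm_num) (by norm_num) (by norm_num) (by norm_num) (by norm_num)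
  have e1 : C25.l = (45167 / 262144 : ℝ) := rfl
  have e2 : C25.u = (6225 / 32768 : ℝ) := rfl
  have e3 : C25.a1 = -(17435469 / 4194304 : ℝ) := by norm_num [C25]
  have e4 : C25.a2 = -(35877265 / 1048576 : ℝ) := by norm_num [C25]
  have e5 : C25.e = (-27800505 / 1048576 : ℝ) := rfl
  have e6 : C25.f = (58257589 / 268435456 : ℝ) + (419770405 / 134217728 : ℝ) + (-958668377 / 268435456 : ℝ) := by norm_num [C25]
  rw [e1, e2, e3, e4, e5, e6]
  exact h

lemma rcell26 : ∃ N : ℝ, Rw4 P.r2 N (coCell (87579 / 65536 : ℝ) (868797 / 65536 : ℝ) ((379421 / 32768 : ℝ) + (107 / 256 : ℝ)) (15 / 4096 : ℝ) C26) := by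
  refine ⟨(402653184 : ℝ), ⟨Q29, List.mem_cons_of_mem _ (List.mem_cons_of_mem _ (List.mem_cons_of_mem _ (List.mem_cons_of_mem _ (List.mem_cons_of_mem _ (List.mem_cons_of_mem _ (List.mem_cons_of_mem _ (List.mem_cons_of_mem _ (List.mem_cons_of_mem _ (List.mem_cons_of_mem _ (List.mem_cons_of_mem _ (List.mem_cons_of_mem _ (List.mem_cons_of_mem _ (List.mem_cons_of_mem _ (List.mem_cons_of_mem _ (List.mem_cons_of_mem _ (List.mem_cons_of_mem _ (List.mem_cons_of_mem _ (List.mem_cons_of_mem _ (List.mem_cons_of_mem _ (List.mem_cons_of_mem _ (List.mem_cons_of_mem _ (List.mem_cons_of_mem _ (List.mem_cons_of_mem _ (List.mem_cons_of_mem _ (List.mem_cons_of_mem _ (List.mem_cons_of_mem _ (List.mem_cons_of_mem _ (List.mem_cons_of_mem _ (List.mem_cons_self))))))))))))))))))))))))))))), ?_⟩, by norm_num⟩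
  constructor <;> norm_num [Q29, coCell, C26]

lemma lcell26 : ∀ x1 x2 xc : ℝ, 0 ≤ x1 → x1 ≤ 1 → 0 ≤ x2 → x2 ≤ 1 → C26.l ≤ xc → xc ≤ C26.u →
    (87579 / 65536 : ℝ) * (1 - (1 - x1) ^ 6) + (868797 / 65536 : ℝ) * (1 - (1 - x2) ^ 6) - ((379421 / 32768 : ℝ) + (107 / 256 : ℝ)) * (1 - (1 - xc) ^ 6)
      ≤ - C26.a1 * x1 - C26.a2 * x2 + C26.e * xc + C26.f := by
  have h := cell_lines 6 (α1 := (87579 / 65536 : ℝ)) (α2 := (868797 / 65536 : ℝ)) (c := (379421 / 32768 : ℝ) + (107 / 256 : ℝ)) (y1 := (34809 / 262144 : ℝ)) (y2 := (22271 / 131072 : ℝ))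
    (A1 := (8247705 / 2097152 : ℝ)) (B1 := (4122097 / 16777216 : ℝ)) (A2 := (65740703 / 2097152 : ℝ)) (B2 := (482313727 / 134217728 : ℝ)) (l := (6225 / 32768 : ℝ)) (u := (13727 / 65536 : ℝ))
    (E := (-99156653 / 4194304 : ℝ)) (F := (-276279599 / 67108864 : ℝ)) (by norm_num) (by norm_num) (by norm_num) (by norm_num) (by norm_num)
    (by norm_num) (by norm_num) (by norm_num) (by norm_num) (by norm_num) (by norm_num) (by norm_num) (by norm_num) (by norm_num) (by norm_num)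
  have e1 : C26.l = (6225 / 32768 : ℝ) := rfl
  have e2 : C26.u = (13727 / 65536 : ℝ) := rfl
  have e3 : C26.a1 = -(8247705 / 2097152 : ℝ) := by norm_num [C26]
  have e4 : C26.a2 = -(65740703 / 2097152 : ℝ) := by norm_num [C26]
  have e5 : C26.e = (-99156653 / 4194304 : ℝ) := rfl
  have e6 : C26.f = (4122097 / 16777216 : ℝ) + (482313727 / 134217728 : ℝ) + (-276279599 / 67108864 : ℝ) := by norm_num [C26]
  rw [e1, e2, e3, e4, e5, e6]
  exact h

lemma rcell27 : ∃ N : ℝ, Rw4 P.r2 N (coCell (87579 / 65536 : ℝ) (868797 / 65536 : ℝ) ((379421 / 32768 : ℝ) + (107 / 256 : ℝ)) (15 / 4096 : ℝ) C27) := by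
  refine ⟨(805306368 : ℝ), ⟨Q30, List.mem_cons_of_mem _ (List.mem_cons_of_mem _ (List.mem_cons_of_mem _ (List.mem_cons_of_mem _ (List.mem_cons_of_mem _ (List.mem_cons_of_mem _ (List.mem_cons_of_mem _ (List.mem_cons_of_mem _ (List.mem_cons_of_mem _ (List.mem_cons_of_mem _ (List.mem_cons_of_mem _ (List.mem_cons_of_mem _ (List.mem_cons_of_mem _ (List.mem_cons_of_mem _ (List.mem_cons_of_mem _ (List.mem_cons_of_mem _ (List.mem_cons_of_mem _ (List.mem_cons_of_mem _ (List.mem_cons_of_mem _ (List.mem_cons_of_mem _ (List.mem_cons_of_mem _ (List.mem_cons_of_mem _ (List.mem_cons_of_mem _ (List.mem_cons_of_mem _ (List.mem_cons_of_mem _ (List.mem_cons_of_mem _ (List.mem_cons_of_mem _ (List.mem_cons_of_mem _ (List.mem_cons_of_mem _ (List.mem_cons_of_mem _ (List.mem_cons_self)))))))))))))))))))))))))))))), ?_⟩, by norm_num⟩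
  constructor <;> norm_num [Q30, coCell, C27]

lemma lcell27 : ∀ x1 x2 xc : ℝ, 0 ≤ x1 → x1 ≤ 1 → 0 ≤ x2 → x2 ≤ 1 → C27.l ≤ xc → xc ≤ C27.u →
    (87579 / 65536 : ℝ) * (1 - (1 - x1) ^ 6) + (868797 / 65536 : ℝ) * (1 - (1 - x2) ^ 6) - ((379421 / 32768 : ℝ) + (107 / 256 : ℝ)) * (1 - (1 - xc) ^ 6)
      ≤ - C27.a1 * x1 - C27.a2 * x2 + C27.e * xc + C27.f := by
  have h := cell_lines 6 (α1 := (87579 / 65536 : ℝ)) (α2 := (868797 / 65536 : ℝ)) (c := (379421 / 32768 : ℝ) + (107 / 256 : ℝ)) (y1 := (37331 / 262144 : ℝ)) (y2 := (47631 / 262144 : ℝ))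
    (A1 := (15600507 / 4194304 : ℝ)) (B1 := (73832155 / 268435456 : ℝ)) (A2 := (61205157 / 2097152 : ℝ)) (B2 := (1066659023 / 268435456 : ℝ)) (l := (13727 / 65536 : ℝ)) (u := (15135 / 65536 : ℝ))
    (E := (-87111401 / 4194304 : ℝ)) (F := (-1266588293 / 268435456 : ℝ)) (by norm_num) (by norm_num) (by norm_num) (by norm_num) (by norm_num)
    (by norm_num) (by norm_num) (by norm_num) (by norm_num) (by norm_num) (by norm_num) (by norm_num) (by norm_num) (by norm_num) (by norm_num)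
  have e1 : C27.l = (13727 / 65536 : ℝ) := rfl
  have e2 : C27.u = (15135 / 65536 : ℝ) := rfl
  have e3 : C27.a1 = -(15600507 / 4194304 : ℝ) := by norm_num [C27]
  have e4 : C27.a2 = -(61205157 / 2097152 : ℝ) := by norm_num [C27]
  have e5 : C27.e = (-87111401 / 4194304 : ℝ) := rfl
  have e6 : C27.f = (73832155 / 268435456 : ℝ) + (1066659023 / 268435456 : ℝ) + (-1266588293 / 268435456 : ℝ) := by norm_num [C27]
  rw [e1, e2, e3, e4, e5, e6]
  exact h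

lemma rcell28 : ∃ N : ℝ, Rw4 P.r2 N (coCell (87579 / 65536 : ℝ) (868797 / 65536 : ℝ) ((379421 / 32768 : ℝ) + (107 / 256 : ℝ)) (15 / 4096 : ℝ) C28) := by
  refine ⟨(201326592 : ℝ), ⟨Q31, List.mem_cons_of_mem _ (List.mem_cons_of_mem _ (List.mem_cons_of_mem _ (List.mem_cons_of_mem _ (List.mem_cons_of_mem _ (List.mem_cons_of_mem _ (List.mem_cons_of_mem _ (List.mem_cons_of_mem _ (List.mem_cons_of_mem _ (List.mem_cons_of_mem _ (List.mem_cons_of_mem _ (List.mem_cons_of_mem _ (List.mem_cons_of_mem _ (List.mem_cons_of_mem _ (List.mem_cons_of_mem _ (List.mem_cons_of_mem _ (List.mem_cons_of_mem _ (List.mem_cons_of_mem _ (List.mem_cons_of_mem _ (List.mem_cons_of_mem _ (List.mem_cons_of_mem _ (List.mem_cons_of_mem _ (List.mem_cons_of_mem _ (List.mem_cons_of_mem _ (List.mem_cons_of_mem _ (List.mem_cons_of_mem _ (List.mem_cons_of_mem _ (List.mem_cons_of_mem _ (List.mem_cons_of_mem _ (List.mem_cons_of_mem _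 (List.mem_cons_of_mem _ (List.mem_cons_self))))))))))))))))))))))))))))))), ?_⟩, by norm_num⟩
  constructor <;> norm_num [Q31, coCell, C28]

lemma lcell28 : ∀ x1 x2 xc : ℝ, 0 ≤ x1 → x1 ≤ 1 → 0 ≤ x2 → x2 ≤ 1 → C28.l ≤ xc → xc ≤ C28.u →
    (87579 / 65536 : ℝ) * (1 - (1 - x1) ^ 6) + (868797 / 65536 : ℝ) * (1 - (1 - x2) ^ 6) - ((379421 / 32768 : ℝ) + (107 / 256 : ℝ)) * (1 - (1 - xc) ^ 6)
      ≤ - C28.a1 * x1 - C28.a2 * x2 + C28.e * xc + C28.f := by
  have h := cell_lines 6 (α1 := (87579 / 65536 : ℝ)) (α2 := (868797 / 65536 : ℝ)) (c := (379421 / 32768 : ℝ) + (107 / 256 : ℝ)) (y1 := (2523 / 16384 : ℝ)) (y2 := (101 / 512 : ℝ))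
    (A1 := (7287429 / 2097152 : ℝ)) (B1 := (83556721 / 268435456 : ℝ)) (A2 := (55600519 / 2097152 : ℝ)) (B2 := (1202520523 / 268435456 : ℝ)) (l := (15135 / 65536 : ℝ)) (u := (33375 / 131072 : ℝ))
    (E := (-18804819 / 1048576 : ℝ)) (F := (-45073661 / 8388608 : ℝ)) (by norm_num) (by norm_num) (by norm_num) (by norm_num) (by norm_num)
    (by norm_num) (by norm_num) (by norm_num) (by norm_num) (by norm_num) (by norm_num) (by norm_num) (by norm_num) (by norm_num) (by norm_num)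
  have e1 : C28.l = (15135 / 65536 : ℝ) := rfl
  have e2 : C28.u = (33375 / 131072 : ℝ) := rfl
  have e3 : C28.a1 = -(7287429 / 2097152 : ℝ) := by norm_num [C28]
  have e4 : C28.a2 = -(55600519 / 2097152 : ℝ) := by norm_num [C28]
  have e5 : C28.e = (-18804819 / 1048576 : ℝ) := rfl
  have e6 : C28.f = (83556721 / 268435456 : ℝ) + (1202520523 / 268435456 : ℝ) + (-45073661 / 8388608 : ℝ) := by norm_num [C28]
  rw [e1, e2, e3, e4, e5, e6]
  exact h

lemma rcell29 : ∃ N : ℝ, Rw4 P.r2 N (coCell (87579 / 65536 : ℝ) (868797 / 65536 : ℝ) ((379421 / 32768 : ℝ) + (107 / 256 : ℝ)) (15 / 4096 : ℝ) C29) := by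
  refine ⟨(201326592 : ℝ), ⟨Q32, List.mem_cons_of_mem _ (List.mem_cons_of_mem _ (List.mem_cons_of_mem _ (List.mem_cons_of_mem _ (List.mem_cons_of_mem _ (List.mem_cons_of_mem _ (List.mem_cons_of_mem _ (List.mem_cons_of_mem _ (List.mem_cons_of_mem _ (List.mem_cons_of_mem _ (List.mem_cons_of_mem _ (List.mem_cons_of_mem _ (List.mem_cons_of_mem _ (List.mem_cons_of_mem _ (List.mem_cons_of_mem _ (List.mem_cons_of_mem _ (List.mem_cons_of_mem _ (List.mem_cons_of_mem _ (List.mem_cons_of_mem _ (List.mem_cons_of_mem _ (List.mem_cons_of_mem _ (List.mem_cons_of_mem _ (List.mem_cons_of_mem _ (List.mem_cons_of_mem _ (List.mem_cons_of_mem _ (List.mem_cons_of_mem _ (List.mem_cons_of_mem _ (List.mem_cons_of_mem _ (List.mem_cons_of_mem _ (List.mem_cons_of_mem _ (List.mem_cons_of_mem _ (List.mem_cons_of_mem _ (List.mem_cons_self)))))))))))))))))))))))))))))))), ?_⟩, by norm_num⟩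
  constructor <;> norm_num [Q32, coCell, C29]

lemma lcell29 : ∀ x1 x2 xc : ℝ, 0 ≤ x1 → x1 ≤ 1 → 0 ≤ x2 → x2 ≤ 1 → C29.l ≤ xc → xc ≤ C29.u →
    (87579 / 65536 : ℝ) * (1 - (1 - x1) ^ 6) + (868797 / 65536 : ℝ) * (1 - (1 - x2) ^ 6) - ((379421 / 32768 : ℝ) + (107 / 256 : ℝ)) * (1 - (1 - xc) ^ 6)
      ≤ - C29.a1 * x1 - C29.a2 * x2 + C29.e * xc + C29.f := by
  have h := cell_lines 6 (α1 := (87579 / 65536 : ℝ)) (α2 := (868797 / 65536 : ℝ)) (c := (379421 / 32768 : ℝ) + (107 / 256 : ℝ)) (y1 := (42755 / 262144 : ℝ)) (y2 := (27349 / 131072 : ℝ))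
    (A1 := (13807207 / 4194304 : ℝ)) (B1 := (2854511 / 8388608 : ℝ)) (A2 := (103532155 / 4194304 : ℝ)) (B2 := (1302108863 / 268435456 : ℝ)) (l := (33375 / 131072 : ℝ)) (u := (145 / 512 : ℝ))
    (E := (-31567393 / 2097152 : ℝ)) (F := (-1639290675 / 268435456 : ℝ)) (by norm_num) (by norm_num) (by norm_num) (by norm_num) (by norm_num)
    (by norm_num) (by norm_num) (by norm_num) (by norm_num) (by norm_num) (by norm_num) (by norm_num) (by norm_num) (by norm_num) (by norm_num)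
  have e1 : C29.l = (33375 / 131072 : ℝ) := rfl
  have e2 : C29.u = (145 / 512 : ℝ) := rfl
  have e3 : C29.a1 = -(13807207 / 4194304 : ℝ) := by norm_num [C29]
  have e4 : C29.a2 = -(103532155 / 4194304 : ℝ) := by norm_num [C29]
  have e5 : C29.e = (-31567393 / 2097152 : ℝ) := rfl
  have e6 : C29.f = (2854511 / 8388608 : ℝ) + (1302108863 / 268435456 : ℝ) + (-1639290675 / 268435456 : ℝ) := by norm_num [C29]
  rw [e1, e2, e3, e4, e5, e6]
  exact h

/-- The hypotheses at the origin. -/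
lemma horig (lam : ℝ) (hd : (6 : ℝ) * lam ^ 2 = 1) (hb : |lam| ≤ (448873742385 / 1099511627776 : ℝ)) :
    OriginH 6 lam (87579 / 65536 : ℝ) (868797 / 65536 : ℝ) (379421 / 32768 : ℝ) (107 / 256 : ℝ) (15 / 4096 : ℝ) (45 / 512 : ℝ) (4233 / 4096 : ℝ) (1 / 256 : ℝ) 3298534883328 := by
  refine originH_of_num (d := 6) (by push_cast; exact hd) hb (by norm_num) (by norm_num) (by norm_num) (by norm_num)
    (by norm_num) (by norm_num) (by norm_num) (by norm_num) (by norm_num) (by norm_num) (by norm_num [S]) (by norm_num) ?_ ?_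
  · rw [hch]
    norm_num [abs_of_pos, abs_of_neg]
  · norm_num [abs_of_pos, abs_of_neg]

/-- Nonreconstruction at the bound. -/
theorem main : Tendsto (reconError 3 6 (-(1 / Real.sqrt 6))) atTop (𝓝 0) := by
  have hsq : Real.sqrt ((6 : ℕ) : ℝ) ^ 2 = 6 := by
    rw [Real.sq_sqrt (by positivity)]; norm_num
  have hsq' : Real.sqrt (6 : ℝ) ^ 2 = 6 := by
    rw [Real.sq_sqrt (by positivity)]
  have hs0 : 0 < Real.sqrt (6 : ℝ) := Real.sqrt_pos.2 (by norm_num)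
  have hl2 : ((6 : ℝ)) * (-(1 / Real.sqrt 6)) ^ 2 = 1 := by
    have : (-(1 / Real.sqrt (6 : ℝ))) ^ 2 = 1 / 6 := by
      rw [neg_sq, div_pow, hsq']; norm_num
    rw [this]; norm_num
  have hb : |(-(1 / Real.sqrt (6 : ℝ)))| ≤ (448873742385 / 1099511627776 : ℝ) := by
    rw [abs_neg, abs_of_pos (by positivity)]
    rw [div_le_iff₀ hs0]
    have h1 : (1 : ℝ) ^ 2 ≤ ((448873742385 / 1099511627776 : ℝ) * Real.sqrt 6) ^ 2 := by
      rw [mul_pow, hsq']; norm_num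
    exact le_of_sq_le_sq h1 (by positivity)
  have hb2 : (-(1 / 2) : ℝ) < -(1 / Real.sqrt (6 : ℝ)) := by
    have h2 := (abs_le.1 hb).1
    have h3 : ((448873742385 / 1099511627776 : ℝ) : ℝ) < 1 / 2 := by norm_num
    linarith
  have h1 : (-(1 / Real.sqrt (6 : ℝ))) < 1 := by
    have : 0 < 1 / Real.sqrt (6 : ℝ) := by positivity
    linarith
  have hlam : |(S : ℝ) * (-(1 / Real.sqrt (6 : ℝ))) - ((P.lp : ℝ) - P.ln)| ≤ ((1 : ℕ) : ℝ) := by
    have h := lam_enc 6 29417389580923127 (by norm_num) (by norm_num [S]) (by norm_num [S])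
    have e : ((6 : ℕ) : ℝ) = (6 : ℝ) := by norm_num
    rw [e] at h
    exact h
  obtain ⟨hOa, hON⟩ := horig _ hl2 hb
  refine final_of_box (d := 6) (by norm_num) hb2 h1 (box hlam) (87579 / 65536 : ℝ) (868797 / 65536 : ℝ) (379421 / 32768 : ℝ) (107 / 256 : ℝ) (45 / 512 : ℝ) (4233 / 4096 : ℝ) (15729 / 1048576 : ℝ) (1789 / 4096 : ℝ) (15 / 4096 : ℝ) (145 / 512 : ℝ) cellsL
    (by norm_num) (by norm_num) (by norm_num) (by norm_num) (by norm_num) (by norm_num) (by norm_num) (by norm_num) (by norm_num)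
    (by norm_num) (by norm_num) (by norm_num) (by norm_num) (by norm_num) hOa hON rTa rTb rc1 rc2 rc3
    (forall_cons rcell0 (forall_cons rcell1 (forall_cons rcell2 (forall_cons rcell3 (forall_cons rcell4 (forall_cons rcell5 (forall_cons rcell6 (forall_cons rcell7 (forall_cons rcell8 (forall_cons rcell9 (forall_cons rcell10 (forall_cons rcell11 (forall_cons rcell12 (forall_cons rcell13 (forall_cons rcell14 (forall_cons rcell15 (forall_cons rcell16 (forall_cons rcell17 (forall_cons rcell18 (forall_cons rcell19 (forall_cons rcell20 (forall_cons rcell21 (forall_cons rcell22 (forall_cons rcell23 (forall_cons rcell24 (forall_cons rcell25 (forall_cons rcell26 (forall_cons rcell27 (forall_cons rcell28 (forall_cons rcell29 (forall_nil))))))))))))))))))))))))))))))) hcover (forall_cons lcell0 (forall_cons lcell1 (forall_cons lcell2 (forall_cons lcell3 (forall_cons lcell4 (forall_cons lcell5 (forall_cons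 lcell6 (forall_cons lcell7 (forall_cons lcell8 (forall_cons lcell9 (forall_cons lcell10 (forall_cons lcell11 (forall_cons lcell12 (forall_cons lcell13 (forall_cons lcell14 (forall_cons lcell15 (forall_cons lcell16 (forall_cons lcell17 (forall_cons lcell18 (forall_cons lcell19 (forall_cons lcell20 (forall_cons lcell21 (forall_cons lcell22 (forall_cons lcell23 (forall_cons lcell24 (forall_cons lcell25 (forall_cons lcell26 (forall_cons lcell27 (forall_cons lcell28 (forall_cons lcell29 (forall_nil)))))))))))))))))))))))))))))))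

end Vale.Agent.P154H.Tm.D6
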