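import Vale.Agent.P154H.D.D7
import Vale.Agent.P154H.FinalD
import Vale.Agent.P154H.OriginW

open Filter Topology

set_option maxRecDepth 100000

/-!
Nonreconstruction at the Kesten-Stigum bound for `d = 7`, negative eigenvalue.
-/

namespace Vale.Agent.P154H.Tm.D7

open Vale.Agent.P154 Vale.Agent.P154H

/-- A chord cell. -/
noncomputable def C0 : Cell := ⟨(5243 / 1048576 : ℝ), (747 / 131072 : ℝ), (-38283375 / 4194304 : ℝ), (-189065143 / 2097152 : ℝ), (-170538635 / 2097152 : ℝ), (-70011 / 268435456 : ℝ)⟩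

/-- A chord cell. -/
noncomputable def C1 : Cell := ⟨(747 / 131072 : ℝ), (1703 / 262144 : ℝ), (-19095543 / 2097152 : ℝ), (-376567611 / 4194304 : ℝ), (-339540913 / 4194304 : ℝ), (-90083 / 268435456 : ℝ)⟩

/-- A chord cell. -/
noncomputable def C2 : Cell := ⟨(1703 / 262144 : ℝ), (1941 / 262144 : ℝ), (-37993073 / 4194304 : ℝ), (-374872155 / 4194304 : ℝ), (-337797157 / 4194304 : ℝ), (-58083 / 134217728 : ℝ)⟩

/-- A chord cell. -/
noncomputable def C3 : Cell := ⟨(1941 / 262144 : ℝ), (553 / 65536 : ℝ), (-18924959 / 2097152 : ℝ), (-46608115 / 524288 : ℝ), (-83955161 / 1048576 : ℝ), (-142173 / 268435456 : ℝ)⟩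

/-- A chord cell. -/
noncomputable def C4 : Cell := ⟨(553 / 65536 : ℝ), (2521 / 262144 : ℝ), (-2353499 / 262144 : ℝ), (-185326387 / 2097152 : ℝ), (-333580203 / 4194304 : ℝ), (-96833 / 134217728 : ℝ)⟩

/-- A chord cell. -/
noncomputable def C5 : Cell := ⟨(2521 / 262144 : ℝ), (2873 / 262144 : ℝ), (-37451647 / 4194304 : ℝ), (-368094273 / 4194304 : ℝ), (-331042095 / 4194304 : ℝ), (-238461 / 268435456 : ℝ)⟩

/-- A chord cell. -/
noncomputable def C6 : Cell := ⟨(2873 / 262144 : ℝ), (3275 / 262144 : ℝ), (-37246515 / 4194304 : ℝ), (-11412097 / 131072 : ℝ), (-328166587 / 4194304 : ℝ), (-303861 / 268435456 : ℝ)⟩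

/-- A chord cell. -/
noncomputable def C7 : Cell := ⟨(3275 / 262144 : ℝ), (933 / 65536 : ℝ), (-36942281 / 4194304 : ℝ), (-181023703 / 2097152 : ℝ), (-324916065 / 4194304 : ℝ), (-455533 / 268435456 : ℝ)⟩

/-- A chord cell. -/
noncomputable def C8 : Cell := ⟨(933 / 65536 : ℝ), (2127 / 131072 : ℝ), (-36680855 / 4194304 : ℝ), (-358372691 / 4194304 : ℝ), (-20077767 / 262144 : ℝ), (-75915 / 33554432 : ℝ)⟩

/-- A chord cell. -/
noncomputable def C9 : Cell := ⟨(2127 / 131072 : ℝ), (303 / 16384 : ℝ), (-36300445 / 4194304 : ℝ), (-177121447 / 2097152 : ℝ), (-158550471 / 2097152 : ℝ), (-188555 / 67108864 : ℝ)⟩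

/-- A chord cell. -/
noncomputable def C10 : Cell := ⟨(303 / 16384 : ℝ), (2763 / 131072 : ℝ), (-2244061 / 262144 : ℝ), (-87401669 / 1048576 : ℝ), (-156216465 / 2097152 : ℝ), (-247637 / 67108864 : ℝ)⟩

/-- A chord cell. -/
noncomputable def C11 : Cell := ⟨(2763 / 131072 : ℝ), (3149 / 131072 : ℝ), (-35410747 / 4194304 : ℝ), (-172192553 / 2097152 : ℝ), (-76795441 / 1048576 : ℝ), (-1239415 / 268435456 : ℝ)⟩

/-- A chord cell. -/
noncomputable def C12 : Cell := ⟨(3149 / 131072 : ℝ), (3589 / 131072 : ℝ), (-34945841 / 4194304 : ℝ), (-338490539 / 4194304 : ℝ), (-301289031 / 4194304 : ℝ), (-808349 / 134217728 : ℝ)⟩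

/-- A chord cell. -/
noncomputable def C13 : Cell := ⟨(3589 / 131072 : ℝ), (8181 / 262144 : ℝ), (-34362825 / 4194304 : ℝ), (-331907229 / 4194304 : ℝ), (-294687663 / 4194304 : ℝ), (-514205 / 67108864 : ℝ)⟩

/-- A chord cell. -/
noncomputable def C14 : Cell := ⟨(8181 / 262144 : ℝ), (2331 / 65536 : ℝ), (-8458289 / 1048576 : ℝ), (-324442263 / 4194304 : ℝ), (-287311893 / 4194304 : ℝ), (-2610411 / 268435456 : ℝ)⟩

/-- A chord cell. -/
noncomputable def C15 : Cell := ⟨(2331 / 65536 : ℝ), (10627 / 262144 : ℝ), (-16516565 / 2097152 : ℝ), (-158153741 / 2097152 : ℝ), (-279093555 / 4194304 : ℝ), (-3349315 / 268435456 : ℝ)⟩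

/-- A chord cell. -/
noncomputable def C16 : Cell := ⟨(10627 / 262144 : ℝ), (757 / 16384 : ℝ), (-32257321 / 4194304 : ℝ), (-307193301 / 4194304 : ℝ), (-269966315 / 4194304 : ℝ), (-4345431 / 268435456 : ℝ)⟩

/-- A chord cell. -/
noncomputable def C17 : Cell := ⟨(757 / 16384 : ℝ), (13805 / 262144 : ℝ), (-31437727 / 4194304 : ℝ), (-297073553 / 4194304 : ℝ), (-129933749 / 2097152 : ℝ), (-2820171 / 134217728 : ℝ)⟩

/-- A chord cell. -/
noncomputable def C18 : Cell := ⟨(13805 / 262144 : ℝ), (7867 / 131072 : ℝ), (-7607519 / 1048576 : ℝ), (-142998727 / 2097152 : ℝ), (-248744157 / 4194304 : ℝ), (-3642865 / 134217728 : ℝ)⟩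

/-- A chord cell. -/
noncomputable def C19 : Cell := ⟨(7867 / 131072 : ℝ), (17933 / 262144 : ℝ), (-29428987 / 4194304 : ℝ), (-17112653 / 262144 : ℝ), (-236554247 / 4194304 : ℝ), (-9543527 / 268435456 : ℝ)⟩

/-- A chord cell. -/
noncomputable def C20 : Cell := ⟨(17933 / 262144 : ℝ), (20439 / 262144 : ℝ), (-28406057 / 4194304 : ℝ), (-130239101 / 2097152 : ℝ), (-111636261 / 2097152 : ℝ), (-3146539 / 67108864 : ℝ)⟩

/-- A chord cell. -/
noncomputable def C21 : Cell := ⟨(20439 / 262144 : ℝ), (23295 / 262144 : ℝ), (-6826799 / 1048576 : ℝ), (-246028513 / 4194304 : ℝ), (-208900847 / 4194304 : ℝ), (-2057475 / 33554432 : ℝ)⟩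

/-- A chord cell. -/
noncomputable def C22 : Cell := ⟨(23295 / 262144 : ℝ), (13275 / 131072 : ℝ), (-3229923 / 524288 : ℝ), (-115516655 / 2097152 : ℝ), (-96735703 / 2097152 : ℝ), (-5768475 / 67108864 : ℝ)⟩

/-- A chord cell. -/
noncomputable def C23 : Cell := ⟨(13275 / 131072 : ℝ), (30261 / 262144 : ℝ), (-24477893 / 4194304 : ℝ), (-215024825 / 4194304 : ℝ), (-88527591 / 2097152 : ℝ), (-32426861 / 268435456 : ℝ)⟩

/-- A chord cell. -/
noncomputable def C24 : Cell := ⟨(30261 / 262144 : ℝ), (34489 / 262144 : ℝ), (-22939139 / 4194304 : ℝ), (-197246389 / 4194304 : ℝ), (-79890051 / 2097152 : ℝ), (-4713321 / 33554432 : ℝ)⟩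

/-- A chord cell. -/
noncomputable def C25 : Cell := ⟨(34489 / 262144 : ℝ), (39309 / 262144 : ℝ), (-10679375 / 2097152 : ℝ), (-89638307 / 2097152 : ℝ), (-141830551 / 4194304 : ℝ), (-48472417 / 268435456 : ℝ)⟩

/-- A chord cell. -/
noncomputable def C26 : Cell := ⟨(39309 / 262144 : ℝ), (22401 / 131072 : ℝ), (-9857141 / 2097152 : ℝ), (-163425783 / 4194304 : ℝ), (-61728037 / 2097152 : ℝ), (-84350037 / 268435456 : ℝ)⟩

/-- A chord cell. -/
noncomputable def C27 : Cell := ⟨(22401 / 131072 : ℝ), (51063 / 262144 : ℝ), (-18632115 / 4194304 : ℝ), (-149509433 / 4194304 : ℝ), (-13122621 / 524288 : ℝ), (-153100775 / 268435456 : ℝ)⟩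

/-- A chord cell. -/
noncomputable def C28 : Cell := ⟨(51063 / 262144 : ℝ), (115 / 512 : ℝ), (-8569765 / 2097152 : ℝ), (-134648549 / 4194304 : ℝ), (-85971657 / 4194304 : ℝ), (-231252359 / 268435456 : ℝ)⟩

/-- The chord cells. -/
noncomputable def cellsL : List Cell := [C0, C1, C2, C3, C4, C5, C6, C7, C8, C9, C10, C11, C12, C13, C14, C15, C16, C17, C18, C19, C20, C21, C22, C23, C24, C25, C26, C27, C28]

lemma hcover : ∀ x : ℝ, (5243 / 1048576 : ℝ) ≤ x → x ≤ (115 / 512 : ℝ) → ∃ D ∈ cellsL, D.l ≤ x ∧ x ≤ D.u := by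
  refine cover_of_chain ?_ (by norm_num [C0])
  simp only [ChainP, C0, C1, C2, C3, C4, C5, C6, C7, C8, C9, C10, C11, C12, C13, C14, C15, C16, C17, C18, C19, C20, C21, C22, C23, C24, C25, C26, C27, C28]
  norm_num

lemma hch : ((Nat.choose 7 2 : ℕ) : ℝ) = 21 := by norm_num [Nat.choose]

lemma rTa : Rw4 P.r1 (393216 : ℝ) (coTa 7 (87579 / 65536 : ℝ) (868797 / 65536 : ℝ) (379421 / 32768 : ℝ) (107 / 256 : ℝ) (51 / 4096 : ℝ)) := by
  refine ⟨⟨Ra, List.mem_cons_self, ?_⟩, by norm_num⟩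
  constructor <;> norm_num [Ra, coTa, hch]

lemma rTb : Rw4 P.r1 (6597069766656 : ℝ) (coTb 7 (87579 / 65536 : ℝ) (868797 / 65536 : ℝ) (379421 / 32768 : ℝ) (107 / 256 : ℝ) (51 / 4096 : ℝ) (45 / 512 : ℝ) (4233 / 4096 : ℝ) (1699 / 8192 : ℝ)) := by
  refine ⟨⟨Rb, List.mem_cons_of_mem _ (List.mem_cons_self), ?_⟩, by norm_num⟩
  constructor <;> norm_num [Rb, coTb, hch]

lemma rc1 : Rw4 P.r2 (16777216 : ℝ) ⟨0, 0, 0, -(87579 / 65536 : ℝ), 0, 0, 0, 0, (379421 / 32768 : ℝ) * (45 / 512 : ℝ)⟩ := by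
  refine ⟨⟨Q0, List.mem_cons_self, ?_⟩, by norm_num⟩
  constructor <;> norm_num [Q0]

lemma rc2 : Rw4 P.r2 (134217728 : ℝ) ⟨0, 0, 0, 0, -(868797 / 65536 : ℝ), 0, 0, 0, (379421 / 32768 : ℝ) * (4233 / 4096 : ℝ)⟩ := by
  refine ⟨⟨Q1, List.mem_cons_of_mem _ (List.mem_cons_self), ?_⟩, by norm_num⟩
  constructor <;> norm_num [Q1]

lemma rc3 : Rw4 P.r2 (1536 : ℝ) ⟨0, 0, 0, 0, 0, -1, 0, 0, (115 / 512 : ℝ)⟩ := by
  refine ⟨⟨Q2, List.mem_cons_of_mem _ (List.mem_cons_of_mem _ (List.mem_cons_self)), ?_⟩, by norm_num⟩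
  constructor <;> norm_num [Q2]

lemma rcell0 : ∃ N : ℝ, Rw4 P.r2 N (coCell (87579 / 65536 : ℝ) (868797 / 65536 : ℝ) ((379421 / 32768 : ℝ) + (107 / 256 : ℝ)) (51 / 4096 : ℝ) C0) := by
  refine ⟨(805306368 : ℝ), ⟨Q3, List.mem_cons_of_mem _ (List.mem_cons_of_mem _ (List.mem_cons_of_mem _ (List.mem_cons_self))), ?_⟩, by norm_num⟩
  constructor <;> norm_num [Q3, coCell, C0]

lemma lcell0 : ∀ x1 x2 xc : ℝ, 0 ≤ x1 → x1 ≤ 1 → 0 ≤ x2 → x2 ≤ 1 → C0.l ≤ xc → xc ≤ C0.u →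
    (87579 / 65536 : ℝ) * (1 - (1 - x1) ^ 7) + (868797 / 65536 : ℝ) * (1 - (1 - x2) ^ 7) - ((379421 / 32768 : ℝ) + (107 / 256 : ℝ)) * (1 - (1 - xc) ^ 7)
      ≤ - C0.a1 * x1 - C0.a2 * x2 + C0.e * xc + C0.f := by
  have h := cell_lines 7 (α1 := (87579 / 65536 : ℝ)) (α2 := (868797 / 65536 : ℝ)) (c := (379421 / 32768 : ℝ) + (107 / 256 : ℝ)) (y1 := (1071 / 262144 : ℝ)) (y2 := (315 / 65536 : ℝ))
    (A1 := (38283375 / 4194304 : ℝ)) (B1 := (31017 / 67108864 : ℝ)) (A2 := (189065143 / 2097152 : ℝ)) (B2 := (1699007 / 268435456 : ℝ)) (l := (5243 / 1048576 : ℝ)) (u := (747 / 131072 : ℝ))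
    (E := (-170538635 / 2097152 : ℝ)) (F := (-946543 / 134217728 : ℝ)) (by norm_num) (by norm_num) (by norm_num) (by norm_num) (by norm_num)
    (by norm_num) (by norm_num) (by norm_num) (by norm_num) (by norm_num) (by norm_num) (by norm_num) (by norm_num) (by norm_num) (by norm_num)
  have e1 : C0.l = (5243 / 1048576 : ℝ) := rfl
  have e2 : C0.u = (747 / 131072 : ℝ) := rfl
  have e3 : C0.a1 = -(38283375 / 4194304 : ℝ) := by norm_num [C0]
  have e4 : C0.a2 = -(189065143 / 2097152 : ℝ) := by norm_num [C0]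
  have e5 : C0.e = (-170538635 / 2097152 : ℝ) := rfl
  have e6 : C0.f = (31017 / 67108864 : ℝ) + (1699007 / 268435456 : ℝ) + (-946543 / 134217728 : ℝ) := by norm_num [C0]
  rw [e1, e2, e3, e4, e5, e6]
  exact h

lemma rcell1 : ∃ N : ℝ, Rw4 P.r2 N (coCell (87579 / 65536 : ℝ) (868797 / 65536 : ℝ) ((379421 / 32768 : ℝ) + (107 / 256 : ℝ)) (51 / 4096 : ℝ) C1) := by
  refine ⟨(805306368 : ℝ), ⟨Q4, List.mem_cons_of_mem _ (List.mem_cons_of_mem _ (List.mem_cons_of_mem _ (List.mem_cons_of_mem _ (List.mem_cons_self)))), ?_⟩, by norm_num⟩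
  constructor <;> norm_num [Q4, coCell, C1]

lemma lcell1 : ∀ x1 x2 xc : ℝ, 0 ≤ x1 → x1 ≤ 1 → 0 ≤ x2 → x2 ≤ 1 → C1.l ≤ xc → xc ≤ C1.u →
    (87579 / 65536 : ℝ) * (1 - (1 - x1) ^ 7) + (868797 / 65536 : ℝ) * (1 - (1 - x2) ^ 7) - ((379421 / 32768 : ℝ) + (107 / 256 : ℝ)) * (1 - (1 - xc) ^ 7)
      ≤ - C1.a1 * x1 - C1.a2 * x2 + C1.e * xc + C1.f := by
  have h := cell_lines 7 (α1 := (87579 / 65536 : ℝ)) (α2 := (868797 / 65536 : ℝ)) (c := (379421 / 32768 : ℝ) + (107 / 256 : ℝ)) (y1 := (147 / 32768 : ℝ)) (y2 := (45 / 8192 : ℝ))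
    (A1 := (19095543 / 2097152 : ℝ)) (B1 := (74677 / 134217728 : ℝ)) (A2 := (376567611 / 4194304 : ℝ)) (B2 := (2214029 / 268435456 : ℝ)) (l := (747 / 131072 : ℝ)) (u := (1703 / 262144 : ℝ))
    (E := (-339540913 / 4194304 : ℝ)) (F := (-1226733 / 134217728 : ℝ)) (by norm_num) (by norm_num) (by norm_num) (by norm_num) (by norm_num)
    (by norm_num) (by norm_num) (by norm_num) (by norm_num) (by norm_num) (by norm_num) (by norm_num) (by norm_num) (by norm_num) (by norm_num)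
  have e1 : C1.l = (747 / 131072 : ℝ) := rfl
  have e2 : C1.u = (1703 / 262144 : ℝ) := rfl
  have e3 : C1.a1 = -(19095543 / 2097152 : ℝ) := by norm_num [C1]
  have e4 : C1.a2 = -(376567611 / 4194304 : ℝ) := by norm_num [C1]
  have e5 : C1.e = (-339540913 / 4194304 : ℝ) := rfl
  have e6 : C1.f = (74677 / 134217728 : ℝ) + (2214029 / 268435456 : ℝ) + (-1226733 / 134217728 : ℝ) := by norm_num [C1]
  rw [e1, e2, e3, e4, e5, e6]
  exact h

lemma rcell2 : ∃ N : ℝ, Rw4 P.r2 N (coCell (87579 / 65536 : ℝ) (868797 / 65536 : ℝ) ((379421 / 32768 : ℝ) + (107 / 256 : ℝ)) (51 / 4096 : ℝ) C2) := by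
  refine ⟨(402653184 : ℝ), ⟨Q5, List.mem_cons_of_mem _ (List.mem_cons_of_mem _ (List.mem_cons_of_mem _ (List.mem_cons_of_mem _ (List.mem_cons_of_mem _ (List.mem_cons_self))))), ?_⟩, by norm_num⟩
  constructor <;> norm_num [Q5, coCell, C2]

lemma lcell2 : ∀ x1 x2 xc : ℝ, 0 ≤ x1 → x1 ≤ 1 → 0 ≤ x2 → x2 ≤ 1 → C2.l ≤ xc → xc ≤ C2.u →
    (87579 / 65536 : ℝ) * (1 - (1 - x1) ^ 7) + (868797 / 65536 : ℝ) * (1 - (1 - x2) ^ 7) - ((379421 / 32768 : ℝ) + (107 / 256 : ℝ)) * (1 - (1 - xc) ^ 7)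
      ≤ - C2.a1 * x1 - C2.a2 * x2 + C2.e * xc + C2.f := by
  have h := cell_lines 7 (α1 := (87579 / 65536 : ℝ)) (α2 := (868797 / 65536 : ℝ)) (c := (379421 / 32768 : ℝ) + (107 / 256 : ℝ)) (y1 := (701 / 131072 : ℝ)) (y2 := (409 / 65536 : ℝ))
    (A1 := (37993073 / 4194304 : ℝ)) (B1 := (13229 / 16777216 : ℝ)) (A2 := (374872155 / 4194304 : ℝ)) (B2 := (178165 / 16777216 : ℝ)) (l := (1703 / 262144 : ℝ)) (u := (1941 / 262144 : ℝ))
    (E := (-337797157 / 4194304 : ℝ)) (F := (-1589235 / 134217728 : ℝ)) (by norm_num) (by norm_num) (by norm_num) (by norm_num) (by norm_num)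
    (by norm_num) (by norm_num) (by norm_num) (by norm_num) (by norm_num) (by norm_num) (by norm_num) (by norm_num) (by norm_num) (by norm_num)
  have e1 : C2.l = (1703 / 262144 : ℝ) := rfl
  have e2 : C2.u = (1941 / 262144 : ℝ) := rfl
  have e3 : C2.a1 = -(37993073 / 4194304 : ℝ) := by norm_num [C2]
  have e4 : C2.a2 = -(374872155 / 4194304 : ℝ) := by norm_num [C2]
  have e5 : C2.e = (-337797157 / 4194304 : ℝ) := rfl
  have e6 : C2.f = (13229 / 16777216 : ℝ) + (178165 / 16777216 : ℝ) + (-1589235 / 134217728 : ℝ) := by norm_num [C2]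
  rw [e1, e2, e3, e4, e5, e6]
  exact h

lemma rcell3 : ∃ N : ℝ, Rw4 P.r2 N (coCell (87579 / 65536 : ℝ) (868797 / 65536 : ℝ) ((379421 / 32768 : ℝ) + (107 / 256 : ℝ)) (51 / 4096 : ℝ) C3) := by
  refine ⟨(805306368 : ℝ), ⟨Q6, List.mem_cons_of_mem _ (List.mem_cons_of_mem _ (List.mem_cons_of_mem _ (List.mem_cons_of_mem _ (List.mem_cons_of_mem _ (List.mem_cons_of_mem _ (List.mem_cons_self)))))), ?_⟩, by norm_num⟩
  constructor <;> norm_num [Q6, coCell, C3]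

lemma lcell3 : ∀ x1 x2 xc : ℝ, 0 ≤ x1 → x1 ≤ 1 → 0 ≤ x2 → x2 ≤ 1 → C3.l ≤ xc → xc ≤ C3.u →
    (87579 / 65536 : ℝ) * (1 - (1 - x1) ^ 7) + (868797 / 65536 : ℝ) * (1 - (1 - x2) ^ 7) - ((379421 / 32768 : ℝ) + (107 / 256 : ℝ)) * (1 - (1 - xc) ^ 7)
      ≤ - C3.a1 * x1 - C3.a2 * x2 + C3.e * xc + C3.f := by
  have h := cell_lines 7 (α1 := (87579 / 65536 : ℝ)) (α2 := (868797 / 65536 : ℝ)) (c := (379421 / 32768 : ℝ) + (107 / 256 : ℝ)) (y1 := (783 / 131072 : ℝ)) (y2 := (1869 / 262144 : ℝ))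
    (A1 := (18924959 / 2097152 : ℝ)) (B1 := (32941 / 33554432 : ℝ)) (A2 := (46608115 / 524288 : ℝ)) (B2 := (3709393 / 268435456 : ℝ)) (l := (1941 / 262144 : ℝ)) (u := (553 / 65536 : ℝ))
    (E := (-83955161 / 1048576 : ℝ)) (F := (-2057547 / 134217728 : ℝ)) (by norm_num) (by norm_num) (by norm_num) (by norm_num) (by norm_num)
    (by norm_num) (by norm_num) (by norm_num) (by norm_num) (by norm_num) (by norm_num) (by norm_num) (by norm_num) (by norm_num) (by norm_num)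
  have e1 : C3.l = (1941 / 262144 : ℝ) := rfl
  have e2 : C3.u = (553 / 65536 : ℝ) := rfl
  have e3 : C3.a1 = -(18924959 / 2097152 : ℝ) := by norm_num [C3]
  have e4 : C3.a2 = -(46608115 / 524288 : ℝ) := by norm_num [C3]
  have e5 : C3.e = (-83955161 / 1048576 : ℝ) := rfl
  have e6 : C3.f = (32941 / 33554432 : ℝ) + (3709393 / 268435456 : ℝ) + (-2057547 / 134217728 : ℝ) := by norm_num [C3]
  rw [e1, e2, e3, e4, e5, e6]
  exact h

lemma rcell4 : ∃ N : ℝ, Rw4 P.r2 N (coCell (87579 / 65536 : ℝ) (868797 / 65536 : ℝ) ((379421 / 32768 : ℝ) + (107 / 256 : ℝ)) (51 / 4096 : ℝ) C4) := by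
  refine ⟨(402653184 : ℝ), ⟨Q7, List.mem_cons_of_mem _ (List.mem_cons_of_mem _ (List.mem_cons_of_mem _ (List.mem_cons_of_mem _ (List.mem_cons_of_mem _ (List.mem_cons_of_mem _ (List.mem_cons_of_mem _ (List.mem_cons_self))))))), ?_⟩, by norm_num⟩
  constructor <;> norm_num [Q7, coCell, C4]

lemma lcell4 : ∀ x1 x2 xc : ℝ, 0 ≤ x1 → x1 ≤ 1 → 0 ≤ x2 → x2 ≤ 1 → C4.l ≤ xc → xc ≤ C4.u →
    (87579 / 65536 : ℝ) * (1 - (1 - x1) ^ 7) + (868797 / 65536 : ℝ) * (1 - (1 - x2) ^ 7) - ((379421 / 32768 : ℝ) + (107 / 256 : ℝ)) * (1 - (1 - xc) ^ 7)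
      ≤ - C4.a1 * x1 - C4.a2 * x2 + C4.e * xc + C4.f := by
  have h := cell_lines 7 (α1 := (87579 / 65536 : ℝ)) (α2 := (868797 / 65536 : ℝ)) (c := (379421 / 32768 : ℝ) + (107 / 256 : ℝ)) (y1 := (1789 / 262144 : ℝ)) (y2 := (2127 / 262144 : ℝ))
    (A1 := (2353499 / 262144 : ℝ)) (B1 := (342949 / 268435456 : ℝ)) (A2 := (185326387 / 2097152 : ℝ)) (B2 := (4788405 / 268435456 : ℝ)) (l := (553 / 65536 : ℝ)) (u := (2521 / 262144 : ℝ))
    (E := (-333580203 / 4194304 : ℝ)) (F := (-1331255 / 67108864 : ℝ)) (by norm_num) (by norm_num) (by norm_num) (by norm_num) (by norm_num)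
    (by norm_num) (by norm_num) (by norm_num) (by norm_num) (by norm_num) (by norm_num) (by norm_num) (by norm_num) (by norm_num) (by norm_num)
  have e1 : C4.l = (553 / 65536 : ℝ) := rfl
  have e2 : C4.u = (2521 / 262144 : ℝ) := rfl
  have e3 : C4.a1 = -(2353499 / 262144 : ℝ) := by norm_num [C4]
  have e4 : C4.a2 = -(185326387 / 2097152 : ℝ) := by norm_num [C4]
  have e5 : C4.e = (-333580203 / 4194304 : ℝ) := rfl
  have e6 : C4.f = (342949 / 268435456 : ℝ) + (4788405 / 268435456 : ℝ) + (-1331255 / 67108864 : ℝ) := by norm_num [C4]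
  rw [e1, e2, e3, e4, e5, e6]
  exact h

lemma rcell5 : ∃ N : ℝ, Rw4 P.r2 N (coCell (87579 / 65536 : ℝ) (868797 / 65536 : ℝ) ((379421 / 32768 : ℝ) + (107 / 256 : ℝ)) (51 / 4096 : ℝ) C5) := by
  refine ⟨(805306368 : ℝ), ⟨Q8, List.mem_cons_of_mem _ (List.mem_cons_of_mem _ (List.mem_cons_of_mem _ (List.mem_cons_of_mem _ (List.mem_cons_of_mem _ (List.mem_cons_of_mem _ (List.mem_cons_of_mem _ (List.mem_cons_of_mem _ (List.mem_cons_self)))))))), ?_⟩, by norm_num⟩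
  constructor <;> norm_num [Q8, coCell, C5]

lemma lcell5 : ∀ x1 x2 xc : ℝ, 0 ≤ x1 → x1 ≤ 1 → 0 ≤ x2 → x2 ≤ 1 → C5.l ≤ xc → xc ≤ C5.u →
    (87579 / 65536 : ℝ) * (1 - (1 - x1) ^ 7) + (868797 / 65536 : ℝ) * (1 - (1 - x2) ^ 7) - ((379421 / 32768 : ℝ) + (107 / 256 : ℝ)) * (1 - (1 - xc) ^ 7)
      ≤ - C5.a1 * x1 - C5.a2 * x2 + C5.e * xc + C5.f := by
  have h := cell_lines 7 (α1 := (87579 / 65536 : ℝ)) (α2 := (868797 / 65536 : ℝ)) (c := (379421 / 32768 : ℝ) + (107 / 256 : ℝ)) (y1 := (2025 / 262144 : ℝ)) (y2 := (2427 / 262144 : ℝ))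
    (A1 := (37451647 / 4194304 : ℝ)) (B1 := (438079 / 268435456 : ℝ)) (A2 := (368094273 / 4194304 : ℝ)) (B2 := (6210631 / 268435456 : ℝ)) (l := (2521 / 262144 : ℝ)) (u := (2873 / 262144 : ℝ))
    (E := (-331042095 / 4194304 : ℝ)) (F := (-6887171 / 268435456 : ℝ)) (by norm_num) (by norm_num) (by norm_num) (by norm_num) (by norm_num)
    (by norm_num) (by norm_num) (by norm_num) (by norm_num) (by norm_num) (by norm_num) (by norm_num) (by norm_num) (by norm_num) (by norm_num)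
  have e1 : C5.l = (2521 / 262144 : ℝ) := rfl
  have e2 : C5.u = (2873 / 262144 : ℝ) := rfl
  have e3 : C5.a1 = -(37451647 / 4194304 : ℝ) := by norm_num [C5]
  have e4 : C5.a2 = -(368094273 / 4194304 : ℝ) := by norm_num [C5]
  have e5 : C5.e = (-331042095 / 4194304 : ℝ) := rfl
  have e6 : C5.f = (438079 / 268435456 : ℝ) + (6210631 / 268435456 : ℝ) + (-6887171 / 268435456 : ℝ) := by norm_num [C5]
  rw [e1, e2, e3, e4, e5, e6]
  exact h

lemma rcell6 : ∃ N : ℝ, Rw4 P.r2 N (coCell (87579 / 65536 : ℝ) (868797 / 65536 : ℝ) ((379421 / 32768 : ℝ) + (107 / 256 : ℝ)) (51 / 4096 : ℝ) C6) := by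
  refine ⟨(805306368 : ℝ), ⟨Q9, List.mem_cons_of_mem _ (List.mem_cons_of_mem _ (List.mem_cons_of_mem _ (List.mem_cons_of_mem _ (List.mem_cons_of_mem _ (List.mem_cons_of_mem _ (List.mem_cons_of_mem _ (List.mem_cons_of_mem _ (List.mem_cons_of_mem _ (List.mem_cons_self))))))))), ?_⟩, by norm_num⟩
  constructor <;> norm_num [Q9, coCell, C6]

lemma lcell6 : ∀ x1 x2 xc : ℝ, 0 ≤ x1 → x1 ≤ 1 → 0 ≤ x2 → x2 ≤ 1 → C6.l ≤ xc → xc ≤ C6.u →
    (87579 / 65536 : ℝ) * (1 - (1 - x1) ^ 7) + (868797 / 65536 : ℝ) * (1 - (1 - x2) ^ 7) - ((379421 / 32768 : ℝ) + (107 / 256 : ℝ)) * (1 - (1 - xc) ^ 7)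
      ≤ - C6.a1 * x1 - C6.a2 * x2 + C6.e * xc + C6.f := by
  have h := cell_lines 7 (α1 := (87579 / 65536 : ℝ)) (α2 := (868797 / 65536 : ℝ)) (c := (379421 / 32768 : ℝ) + (107 / 256 : ℝ)) (y1 := (2263 / 262144 : ℝ)) (y2 := (1385 / 131072 : ℝ))
    (A1 := (37246515 / 4194304 : ℝ)) (B1 := (545449 / 268435456 : ℝ)) (A2 := (11412097 / 131072 : ℝ)) (B2 := (2013697 / 67108864 : ℝ)) (l := (2873 / 262144 : ℝ)) (u := (3275 / 262144 : ℝ))
    (E := (-328166587 / 4194304 : ℝ)) (F := (-4452049 / 134217728 : ℝ)) (by norm_num) (by norm_num) (by norm_num) (by norm_num) (by norm_num)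
    (by norm_num) (by norm_num) (by norm_num) (by norm_num) (by norm_num) (by norm_num) (by norm_num) (by norm_num) (by norm_num) (by norm_num)
  have e1 : C6.l = (2873 / 262144 : ℝ) := rfl
  have e2 : C6.u = (3275 / 262144 : ℝ) := rfl
  have e3 : C6.a1 = -(37246515 / 4194304 : ℝ) := by norm_num [C6]
  have e4 : C6.a2 = -(11412097 / 131072 : ℝ) := by norm_num [C6]
  have e5 : C6.e = (-328166587 / 4194304 : ℝ) := rfl
  have e6 : C6.f = (545449 / 268435456 : ℝ) + (2013697 / 67108864 : ℝ) + (-4452049 / 134217728 : ℝ) := by norm_num [C6]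
  rw [e1, e2, e3, e4, e5, e6]
  exact h

lemma rcell7 : ∃ N : ℝ, Rw4 P.r2 N (coCell (87579 / 65536 : ℝ) (868797 / 65536 : ℝ) ((379421 / 32768 : ℝ) + (107 / 256 : ℝ)) (51 / 4096 : ℝ) C7) := by
  refine ⟨(805306368 : ℝ), ⟨Q10, List.mem_cons_of_mem _ (List.mem_cons_of_mem _ (List.mem_cons_of_mem _ (List.mem_cons_of_mem _ (List.mem_cons_of_mem _ (List.mem_cons_of_mem _ (List.mem_cons_of_mem _ (List.mem_cons_of_mem _ (List.mem_cons_of_mem _ (List.mem_cons_of_mem _ (List.mem_cons_self)))))))))), ?_⟩, by norm_num⟩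
  constructor <;> norm_num [Q10, coCell, C7]

lemma lcell7 : ∀ x1 x2 xc : ℝ, 0 ≤ x1 → x1 ≤ 1 → 0 ≤ x2 → x2 ≤ 1 → C7.l ≤ xc → xc ≤ C7.u →
    (87579 / 65536 : ℝ) * (1 - (1 - x1) ^ 7) + (868797 / 65536 : ℝ) * (1 - (1 - x2) ^ 7) - ((379421 / 32768 : ℝ) + (107 / 256 : ℝ)) * (1 - (1 - xc) ^ 7)
      ≤ - C7.a1 * x1 - C7.a2 * x2 + C7.e * xc + C7.f := by
  have h := cell_lines 7 (α1 := (87579 / 65536 : ℝ)) (α2 := (868797 / 65536 : ℝ)) (c := (379421 / 32768 : ℝ) + (107 / 256 : ℝ)) (y1 := (1309 / 131072 : ℝ)) (y2 := (3143 / 262144 : ℝ))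
    (A1 := (36942281 / 4194304 : ℝ)) (B1 := (45419 / 16777216 : ℝ)) (A2 := (181023703 / 2097152 : ℝ)) (B2 := (5160425 / 134217728 : ℝ)) (l := (3275 / 262144 : ℝ)) (u := (933 / 65536 : ℝ))
    (E := (-324916065 / 4194304 : ℝ)) (F := (-11503087 / 268435456 : ℝ)) (by norm_num) (by norm_num) (by norm_num) (by norm_num) (by norm_num)
    (by norm_num) (by norm_num) (by norm_num) (by norm_num) (by norm_num) (by norm_num) (by norm_num) (by norm_num) (by norm_num) (by norm_num)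
  have e1 : C7.l = (3275 / 262144 : ℝ) := rfl
  have e2 : C7.u = (933 / 65536 : ℝ) := rfl
  have e3 : C7.a1 = -(36942281 / 4194304 : ℝ) := by norm_num [C7]
  have e4 : C7.a2 = -(181023703 / 2097152 : ℝ) := by norm_num [C7]
  have e5 : C7.e = (-324916065 / 4194304 : ℝ) := rfl
  have e6 : C7.f = (45419 / 16777216 : ℝ) + (5160425 / 134217728 : ℝ) + (-11503087 / 268435456 : ℝ) := by norm_num [C7]
  rw [e1, e2, e3, e4, e5, e6]
  exact h

lemma rcell8 : ∃ N : ℝ, Rw4 P.r2 N (coCell (87579 / 65536 : ℝ) (868797 / 65536 : ℝ) ((379421 / 32768 : ℝ) + (107 / 256 : ℝ)) (51 / 4096 : ℝ) C8) := by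
  refine ⟨(100663296 : ℝ), ⟨Q11, List.mem_cons_of_mem _ (List.mem_cons_of_mem _ (List.mem_cons_of_mem _ (List.mem_cons_of_mem _ (List.mem_cons_of_mem _ (List.mem_cons_of_mem _ (List.mem_cons_of_mem _ (List.mem_cons_of_mem _ (List.mem_cons_of_mem _ (List.mem_cons_of_mem _ (List.mem_cons_of_mem _ (List.mem_cons_self))))))))))), ?_⟩, by norm_num⟩
  constructor <;> norm_num [Q11, coCell, C8]

lemma lcell8 : ∀ x1 x2 xc : ℝ, 0 ≤ x1 → x1 ≤ 1 → 0 ≤ x2 → x2 ≤ 1 → C8.l ≤ xc → xc ≤ C8.u →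
    (87579 / 65536 : ℝ) * (1 - (1 - x1) ^ 7) + (868797 / 65536 : ℝ) * (1 - (1 - x2) ^ 7) - ((379421 / 32768 : ℝ) + (107 / 256 : ℝ)) * (1 - (1 - xc) ^ 7)
      ≤ - C8.a1 * x1 - C8.a2 * x2 + C8.e * xc + C8.f := by
  have h := cell_lines 7 (α1 := (87579 / 65536 : ℝ)) (α2 := (868797 / 65536 : ℝ)) (c := (379421 / 32768 : ℝ) + (107 / 256 : ℝ)) (y1 := (2925 / 262144 : ℝ)) (y2 := (3583 / 262144 : ℝ))
    (A1 := (36680855 / 4194304 : ℝ)) (B1 := (28237 / 8388608 : ℝ)) (A2 := (358372691 / 4194304 : ℝ)) (B2 := (6668837 / 134217728 : ℝ)) (l := (933 / 65536 : ℝ)) (u := (2127 / 131072 : ℝ))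
    (E := (-20077767 / 262144 : ℝ)) (F := (-7424289 / 134217728 : ℝ)) (by norm_num) (by norm_num) (by norm_num) (by norm_num) (by norm_num)
    (by norm_num) (by norm_num) (by norm_num) (by norm_num) (by norm_num) (by norm_num) (by norm_num) (by norm_num) (by norm_num) (by norm_num)
  have e1 : C8.l = (933 / 65536 : ℝ) := rfl
  have e2 : C8.u = (2127 / 131072 : ℝ) := rfl
  have e3 : C8.a1 = -(36680855 / 4194304 : ℝ) := by norm_num [C8]
  have e4 : C8.a2 = -(358372691 / 4194304 : ℝ) := by norm_num [C8]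
  have e5 : C8.e = (-20077767 / 262144 : ℝ) := rfl
  have e6 : C8.f = (28237 / 8388608 : ℝ) + (6668837 / 134217728 : ℝ) + (-7424289 / 134217728 : ℝ) := by norm_num [C8]
  rw [e1, e2, e3, e4, e5, e6]
  exact h

lemma rcell9 : ∃ N : ℝ, Rw4 P.r2 N (coCell (87579 / 65536 : ℝ) (868797 / 65536 : ℝ) ((379421 / 32768 : ℝ) + (107 / 256 : ℝ)) (51 / 4096 : ℝ) C9) := by
  refine ⟨(201326592 : ℝ), ⟨Q12, List.mem_cons_of_mem _ (List.mem_cons_of_mem _ (List.mem_cons_of_mem _ (List.mem_cons_of_mem _ (List.mem_cons_of_mem _ (List.mem_cons_of_mem _ (List.mem_cons_of_mem _ (List.mem_cons_of_mem _ (List.mem_cons_of_mem _ (List.mem_cons_of_mem _ (List.mem_cons_of_mem _ (List.mem_cons_of_mem _ (List.mem_cons_self)))))))))))), ?_⟩, by norm_num⟩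
  constructor <;> norm_num [Q12, coCell, C9]

lemma lcell9 : ∀ x1 x2 xc : ℝ, 0 ≤ x1 → x1 ≤ 1 → 0 ≤ x2 → x2 ≤ 1 → C9.l ≤ xc → xc ≤ C9.u →
    (87579 / 65536 : ℝ) * (1 - (1 - x1) ^ 7) + (868797 / 65536 : ℝ) * (1 - (1 - x2) ^ 7) - ((379421 / 32768 : ℝ) + (107 / 256 : ℝ)) * (1 - (1 - xc) ^ 7)
      ≤ - C9.a1 * x1 - C9.a2 * x2 + C9.e * xc + C9.f := by
  have h := cell_lines 7 (α1 := (87579 / 65536 : ℝ)) (α2 := (868797 / 65536 : ℝ)) (c := (379421 / 32768 : ℝ) + (107 / 256 : ℝ)) (y1 := (3375 / 262144 : ℝ)) (y2 := (2041 / 131072 : ℝ))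
    (A1 := (36300445 / 4194304 : ℝ)) (B1 := (299027 / 67108864 : ℝ)) (A2 := (177121447 / 2097152 : ℝ)) (B2 := (8600703 / 134217728 : ℝ)) (l := (2127 / 131072 : ℝ)) (u := (303 / 16384 : ℝ))
    (E := (-158550471 / 2097152 : ℝ)) (F := (-9575867 / 134217728 : ℝ)) (by norm_num) (by norm_num) (by norm_num) (by norm_num) (by norm_num)
    (by norm_num) (by norm_num) (by norm_num) (by norm_num) (by norm_num) (by norm_num) (by norm_num) (by norm_num) (by norm_num) (by norm_num)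
  have e1 : C9.l = (2127 / 131072 : ℝ) := rfl
  have e2 : C9.u = (303 / 16384 : ℝ) := rfl
  have e3 : C9.a1 = -(36300445 / 4194304 : ℝ) := by norm_num [C9]
  have e4 : C9.a2 = -(177121447 / 2097152 : ℝ) := by norm_num [C9]
  have e5 : C9.e = (-158550471 / 2097152 : ℝ) := rfl
  have e6 : C9.f = (299027 / 67108864 : ℝ) + (8600703 / 134217728 : ℝ) + (-9575867 / 134217728 : ℝ) := by norm_num [C9]
  rw [e1, e2, e3, e4, e5, e6]
  exact h

lemma rcell10 : ∃ N : ℝ, Rw4 P.r2 N (coCell (87579 / 65536 : ℝ) (868797 / 65536 : ℝ) ((379421 / 32768 : ℝ) + (107 / 256 : ℝ)) (51 / 4096 : ℝ) C10) := by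
  refine ⟨(201326592 : ℝ), ⟨Q13, List.mem_cons_of_mem _ (List.mem_cons_of_mem _ (List.mem_cons_of_mem _ (List.mem_cons_of_mem _ (List.mem_cons_of_mem _ (List.mem_cons_of_mem _ (List.mem_cons_of_mem _ (List.mem_cons_of_mem _ (List.mem_cons_of_mem _ (List.mem_cons_of_mem _ (List.mem_cons_of_mem _ (List.mem_cons_of_mem _ (List.mem_cons_of_mem _ (List.mem_cons_self))))))))))))), ?_⟩, by norm_num⟩
  constructor <;> norm_num [Q13, coCell, C10]

lemma lcell10 : ∀ x1 x2 xc : ℝ, 0 ≤ x1 → x1 ≤ 1 → 0 ≤ x2 → x2 ≤ 1 → C10.l ≤ xc → xc ≤ C10.u →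
    (87579 / 65536 : ℝ) * (1 - (1 - x1) ^ 7) + (868797 / 65536 : ℝ) * (1 - (1 - x2) ^ 7) - ((379421 / 32768 : ℝ) + (107 / 256 : ℝ)) * (1 - (1 - xc) ^ 7)
      ≤ - C10.a1 * x1 - C10.a2 * x2 + C10.e * xc + C10.f := by
  have h := cell_lines 7 (α1 := (87579 / 65536 : ℝ)) (α2 := (868797 / 65536 : ℝ)) (c := (379421 / 32768 : ℝ) + (107 / 256 : ℝ)) (y1 := (3847 / 262144 : ℝ)) (y2 := (581 / 32768 : ℝ))
    (A1 := (2244061 / 262144 : ℝ)) (B1 := (772357 / 134217728 : ℝ)) (A2 := (87401669 / 1048576 : ℝ)) (B2 := (11070751 / 134217728 : ℝ)) (l := (303 / 16384 : ℝ)) (u := (2763 / 131072 : ℝ))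
    (E := (-156216465 / 2097152 : ℝ)) (F := (-6169191 / 67108864 : ℝ)) (by norm_num) (by norm_num) (by norm_num) (by norm_num) (by norm_num)
    (by norm_num) (by norm_num) (by norm_num) (by norm_num) (by norm_num) (by norm_num) (by norm_num) (by norm_num) (by norm_num) (by norm_num)
  have e1 : C10.l = (303 / 16384 : ℝ) := rfl
  have e2 : C10.u = (2763 / 131072 : ℝ) := rfl
  have e3 : C10.a1 = -(2244061 / 262144 : ℝ) := by norm_num [C10]
  have e4 : C10.a2 = -(87401669 / 1048576 : ℝ) := by norm_num [C10]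
  have e5 : C10.e = (-156216465 / 2097152 : ℝ) := rfl
  have e6 : C10.f = (772357 / 134217728 : ℝ) + (11070751 / 134217728 : ℝ) + (-6169191 / 67108864 : ℝ) := by norm_num [C10]
  rw [e1, e2, e3, e4, e5, e6]
  exact h

lemma rcell11 : ∃ N : ℝ, Rw4 P.r2 N (coCell (87579 / 65536 : ℝ) (868797 / 65536 : ℝ) ((379421 / 32768 : ℝ) + (107 / 256 : ℝ)) (51 / 4096 : ℝ) C11) := by
  refine ⟨(805306368 : ℝ), ⟨Q14, List.mem_cons_of_mem _ (List.mem_cons_of_mem _ (List.mem_cons_of_mem _ (List.mem_cons_of_mem _ (List.mem_cons_of_mem _ (List.mem_cons_of_mem _ (List.mem_cons_of_mem _ (List.mem_cons_of_mem _ (List.mem_cons_of_mem _ (List.mem_cons_of_mem _ (List.mem_cons_of_mem _ (List.mem_cons_of_mem _ (List.mem_cons_of_mem _ (List.mem_cons_of_mem _ (List.mem_cons_self)))))))))))))), ?_⟩, by norm_num⟩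
  constructor <;> norm_num [Q14, coCell, C11]

lemma lcell11 : ∀ x1 x2 xc : ℝ, 0 ≤ x1 → x1 ≤ 1 → 0 ≤ x2 → x2 ≤ 1 → C11.l ≤ xc → xc ≤ C11.u →
    (87579 / 65536 : ℝ) * (1 - (1 - x1) ^ 7) + (868797 / 65536 : ℝ) * (1 - (1 - x2) ^ 7) - ((379421 / 32768 : ℝ) + (107 / 256 : ℝ)) * (1 - (1 - xc) ^ 7)
      ≤ - C11.a1 * x1 - C11.a2 * x2 + C11.e * xc + C11.f := by
  have h := cell_lines 7 (α1 := (87579 / 65536 : ℝ)) (α2 := (868797 / 65536 : ℝ)) (c := (379421 / 32768 : ℝ) + (107 / 256 : ℝ)) (y1 := (4443 / 262144 : ℝ)) (y2 := (5293 / 262144 : ℝ))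
    (A1 := (35410747 / 4194304 : ℝ)) (B1 := (2044785 / 268435456 : ℝ)) (A2 := (172192553 / 2097152 : ℝ)) (B2 := (28477023 / 268435456 : ℝ)) (l := (2763 / 131072 : ℝ)) (u := (3149 / 131072 : ℝ))
    (E := (-76795441 / 1048576 : ℝ)) (F := (-31761223 / 268435456 : ℝ)) (by norm_num) (by norm_num) (by norm_num) (by norm_num) (by norm_num)
    (by norm_num) (by norm_num) (by norm_num) (by norm_num) (by norm_num) (by norm_num) (by norm_num) (by norm_num) (by norm_num) (by norm_num)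
  have e1 : C11.l = (2763 / 131072 : ℝ) := rfl
  have e2 : C11.u = (3149 / 131072 : ℝ) := rfl
  have e3 : C11.a1 = -(35410747 / 4194304 : ℝ) := by norm_num [C11]
  have e4 : C11.a2 = -(172192553 / 2097152 : ℝ) := by norm_num [C11]
  have e5 : C11.e = (-76795441 / 1048576 : ℝ) := rfl
  have e6 : C11.f = (2044785 / 268435456 : ℝ) + (28477023 / 268435456 : ℝ) + (-31761223 / 268435456 : ℝ) := by norm_num [C11]
  rw [e1, e2, e3, e4, e5, e6]
  exact h

lemma rcell12 : ∃ N : ℝ, Rw4 P.r2 N (coCell (87579 / 65536 : ℝ) (868797 / 65536 : ℝ) ((379421 / 32768 : ℝ) + (107 / 256 : ℝ)) (51 / 4096 : ℝ) C12) := by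
  refine ⟨(402653184 : ℝ), ⟨Q15, List.mem_cons_of_mem _ (List.mem_cons_of_mem _ (List.mem_cons_of_mem _ (List.mem_cons_of_mem _ (List.mem_cons_of_mem _ (List.mem_cons_of_mem _ (List.mem_cons_of_mem _ (List.mem_cons_of_mem _ (List.mem_cons_of_mem _ (List.mem_cons_of_mem _ (List.mem_cons_of_mem _ (List.mem_cons_of_mem _ (List.mem_cons_of_mem _ (List.mem_cons_of_mem _ (List.mem_cons_of_mem _ (List.mem_cons_self))))))))))))))), ?_⟩, by norm_num⟩
  constructor <;> norm_num [Q15, coCell, C12]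

lemma lcell12 : ∀ x1 x2 xc : ℝ, 0 ≤ x1 → x1 ≤ 1 → 0 ≤ x2 → x2 ≤ 1 → C12.l ≤ xc → xc ≤ C12.u →
    (87579 / 65536 : ℝ) * (1 - (1 - x1) ^ 7) + (868797 / 65536 : ℝ) * (1 - (1 - x2) ^ 7) - ((379421 / 32768 : ℝ) + (107 / 256 : ℝ)) * (1 - (1 - xc) ^ 7)
      ≤ - C12.a1 * x1 - C12.a2 * x2 + C12.e * xc + C12.f := by
  have h := cell_lines 7 (α1 := (87579 / 65536 : ℝ)) (α2 := (868797 / 65536 : ℝ)) (c := (379421 / 32768 : ℝ) + (107 / 256 : ℝ)) (y1 := (2505 / 131072 : ℝ)) (y2 := (6031 / 262144 : ℝ))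
    (A1 := (34945841 / 4194304 : ℝ)) (B1 := (322651 / 33554432 : ℝ)) (A2 := (338490539 / 4194304 : ℝ)) (B2 := (36623969 / 268435456 : ℝ)) (l := (3149 / 131072 : ℝ)) (u := (3589 / 131072 : ℝ))
    (E := (-301289031 / 4194304 : ℝ)) (F := (-40821875 / 268435456 : ℝ)) (by norm_num) (by norm_num) (by norm_num) (by norm_num) (by norm_num)
    (by norm_num) (by norm_num) (by norm_num) (by norm_num) (by norm_num) (by norm_num) (by norm_num) (by norm_num) (by norm_num) (by norm_num)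
  have e1 : C12.l = (3149 / 131072 : ℝ) := rfl
  have e2 : C12.u = (3589 / 131072 : ℝ) := rfl
  have e3 : C12.a1 = -(34945841 / 4194304 : ℝ) := by norm_num [C12]
  have e4 : C12.a2 = -(338490539 / 4194304 : ℝ) := by norm_num [C12]
  have e5 : C12.e = (-301289031 / 4194304 : ℝ) := rfl
  have e6 : C12.f = (322651 / 33554432 : ℝ) + (36623969 / 268435456 : ℝ) + (-40821875 / 268435456 : ℝ) := by norm_num [C12]
  rw [e1, e2, e3, e4, e5, e6]
  exact h

lemma rcell13 : ∃ N : ℝ, Rw4 P.r2 N (coCell (87579 / 65536 : ℝ) (868797 / 65536 : ℝ) ((379421 / 32768 : ℝ) + (107 / 256 : ℝ)) (51 / 4096 : ℝ) C13) := by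
  refine ⟨(201326592 : ℝ), ⟨Q16, List.mem_cons_of_mem _ (List.mem_cons_of_mem _ (List.mem_cons_of_mem _ (List.mem_cons_of_mem _ (List.mem_cons_of_mem _ (List.mem_cons_of_mem _ (List.mem_cons_of_mem _ (List.mem_cons_of_mem _ (List.mem_cons_of_mem _ (List.mem_cons_of_mem _ (List.mem_cons_of_mem _ (List.mem_cons_of_mem _ (List.mem_cons_of_mem _ (List.mem_cons_of_mem _ (List.mem_cons_of_mem _ (List.mem_cons_of_mem _ (List.mem_cons_self)))))))))))))))), ?_⟩, by norm_num⟩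
  constructor <;> norm_num [Q16, coCell, C13]

lemma lcell13 : ∀ x1 x2 xc : ℝ, 0 ≤ x1 → x1 ≤ 1 → 0 ≤ x2 → x2 ≤ 1 → C13.l ≤ xc → xc ≤ C13.u →
    (87579 / 65536 : ℝ) * (1 - (1 - x1) ^ 7) + (868797 / 65536 : ℝ) * (1 - (1 - x2) ^ 7) - ((379421 / 32768 : ℝ) + (107 / 256 : ℝ)) * (1 - (1 - xc) ^ 7)
      ≤ - C13.a1 * x1 - C13.a2 * x2 + C13.e * xc + C13.f := by
  have h := cell_lines 7 (α1 := (87579 / 65536 : ℝ)) (α2 := (868797 / 65536 : ℝ)) (c := (379421 / 32768 : ℝ) + (107 / 256 : ℝ)) (y1 := (2865 / 131072 : ℝ)) (y2 := (1717 / 65536 : ℝ))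
    (A1 := (34362825 / 4194304 : ℝ)) (B1 := (1672729 / 134217728 : ℝ)) (A2 := (331907229 / 4194304 : ℝ)) (B2 := (11747027 / 67108864 : ℝ)) (l := (3589 / 131072 : ℝ)) (u := (8181 / 262144 : ℝ))
    (E := (-294687663 / 4194304 : ℝ)) (F := (-26195193 / 134217728 : ℝ)) (by norm_num) (by norm_num) (by norm_num) (by norm_num) (by norm_num)
    (by norm_num) (by norm_num) (by norm_num) (by norm_num) (by norm_num) (by norm_num) (by norm_num) (by norm_num) (by norm_num) (by norm_num)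
  have e1 : C13.l = (3589 / 131072 : ℝ) := rfl
  have e2 : C13.u = (8181 / 262144 : ℝ) := rfl
  have e3 : C13.a1 = -(34362825 / 4194304 : ℝ) := by norm_num [C13]
  have e4 : C13.a2 = -(331907229 / 4194304 : ℝ) := by norm_num [C13]
  have e5 : C13.e = (-294687663 / 4194304 : ℝ) := rfl
  have e6 : C13.f = (1672729 / 134217728 : ℝ) + (11747027 / 67108864 : ℝ) + (-26195193 / 134217728 : ℝ) := by norm_num [C13]
  rw [e1, e2, e3, e4, e5, e6]
  exact h

lemma rcell14 : ∃ N : ℝ, Rw4 P.r2 N (coCell (87579 / 65536 : ℝ) (868797 / 65536 : ℝ) ((379421 / 32768 : ℝ) + (107 / 256 : ℝ)) (51 / 4096 : ℝ) C14) := by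
  refine ⟨(805306368 : ℝ), ⟨Q17, List.mem_cons_of_mem _ (List.mem_cons_of_mem _ (List.mem_cons_of_mem _ (List.mem_cons_of_mem _ (List.mem_cons_of_mem _ (List.mem_cons_of_mem _ (List.mem_cons_of_mem _ (List.mem_cons_of_mem _ (List.mem_cons_of_mem _ (List.mem_cons_of_mem _ (List.mem_cons_of_mem _ (List.mem_cons_of_mem _ (List.mem_cons_of_mem _ (List.mem_cons_of_mem _ (List.mem_cons_of_mem _ (List.mem_cons_of_mem _ (List.mem_cons_of_mem _ (List.mem_cons_self))))))))))))))))), ?_⟩, by norm_num⟩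
  constructor <;> norm_num [Q17, coCell, C14]

lemma lcell14 : ∀ x1 x2 xc : ℝ, 0 ≤ x1 → x1 ≤ 1 → 0 ≤ x2 → x2 ≤ 1 → C14.l ≤ xc → xc ≤ C14.u →
    (87579 / 65536 : ℝ) * (1 - (1 - x1) ^ 7) + (868797 / 65536 : ℝ) * (1 - (1 - x2) ^ 7) - ((379421 / 32768 : ℝ) + (107 / 256 : ℝ)) * (1 - (1 - xc) ^ 7)
      ≤ - C14.a1 * x1 - C14.a2 * x2 + C14.e * xc + C14.f := by
  have h := cell_lines 7 (α1 := (87579 / 65536 : ℝ)) (α2 := (868797 / 65536 : ℝ)) (c := (379421 / 32768 : ℝ) + (107 / 256 : ℝ)) (y1 := (6393 / 262144 : ℝ)) (y2 := (3917 / 131072 : ℝ))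
    (A1 := (8458289 / 1048576 : ℝ)) (B1 := (4129173 / 268435456 : ℝ)) (A2 := (324442263 / 4194304 : ℝ)) (B2 := (30191267 / 134217728 : ℝ)) (l := (8181 / 262144 : ℝ)) (u := (2331 / 65536 : ℝ))
    (E := (-287311893 / 4194304 : ℝ)) (F := (-33561059 / 134217728 : ℝ)) (by norm_num) (by norm_num) (by norm_num) (by norm_num) (by norm_num)
    (by norm_num) (by norm_num) (by norm_num) (by norm_num) (by norm_num) (by norm_num) (by norm_num) (by norm_num) (by norm_num) (by norm_num)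
  have e1 : C14.l = (8181 / 262144 : ℝ) := rfl
  have e2 : C14.u = (2331 / 65536 : ℝ) := rfl
  have e3 : C14.a1 = -(8458289 / 1048576 : ℝ) := by norm_num [C14]
  have e4 : C14.a2 = -(324442263 / 4194304 : ℝ) := by norm_num [C14]
  have e5 : C14.e = (-287311893 / 4194304 : ℝ) := rfl
  have e6 : C14.f = (4129173 / 268435456 : ℝ) + (30191267 / 134217728 : ℝ) + (-33561059 / 134217728 : ℝ) := by norm_num [C14]
  rw [e1, e2, e3, e4, e5, e6]
  exact h

lemma rcell15 : ∃ N : ℝ, Rw4 P.r2 N (coCell (87579 / 65536 : ℝ) (868797 / 65536 : ℝ) ((379421 / 32768 : ℝ) + (107 / 256 : ℝ)) (51 / 4096 : ℝ) C15) := by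
  refine ⟨(805306368 : ℝ), ⟨Q18, List.mem_cons_of_mem _ (List.mem_cons_of_mem _ (List.mem_cons_of_mem _ (List.mem_cons_of_mem _ (List.mem_cons_of_mem _ (List.mem_cons_of_mem _ (List.mem_cons_of_mem _ (List.mem_cons_of_mem _ (List.mem_cons_of_mem _ (List.mem_cons_of_mem _ (List.mem_cons_of_mem _ (List.mem_cons_of_mem _ (List.mem_cons_of_mem _ (List.mem_cons_of_mem _ (List.mem_cons_of_mem _ (List.mem_cons_of_mem _ (List.mem_cons_of_mem _ (List.mem_cons_of_mem _ (List.mem_cons_self)))))))))))))))))), ?_⟩, by norm_num⟩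
  constructor <;> norm_num [Q18, coCell, C15]

lemma lcell15 : ∀ x1 x2 xc : ℝ, 0 ≤ x1 → x1 ≤ 1 → 0 ≤ x2 → x2 ≤ 1 → C15.l ≤ xc → xc ≤ C15.u →
    (87579 / 65536 : ℝ) * (1 - (1 - x1) ^ 7) + (868797 / 65536 : ℝ) * (1 - (1 - x2) ^ 7) - ((379421 / 32768 : ℝ) + (107 / 256 : ℝ)) * (1 - (1 - xc) ^ 7)
      ≤ - C15.a1 * x1 - C15.a2 * x2 + C15.e * xc + C15.f := by
  have h := cell_lines 7 (α1 := (87579 / 65536 : ℝ)) (α2 := (868797 / 65536 : ℝ)) (c := (379421 / 32768 : ℝ) + (107 / 256 : ℝ)) (y1 := (7411 / 262144 : ℝ)) (y2 := (2227 / 65536 : ℝ))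
    (A1 := (16516565 / 2097152 : ℝ)) (B1 := (5476933 / 268435456 : ℝ)) (A2 := (158153741 / 2097152 : ℝ)) (B2 := (77003825 / 268435456 : ℝ)) (l := (2331 / 65536 : ℝ)) (u := (10627 / 262144 : ℝ))
    (E := (-279093555 / 4194304 : ℝ)) (F := (-85830073 / 268435456 : ℝ)) (by norm_num) (by norm_num) (by norm_num) (by norm_num) (by norm_num)
    (by norm_num) (by norm_num) (by norm_num) (by norm_num) (by norm_num) (by norm_num) (by norm_num) (by norm_num) (by norm_num) (by norm_num)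
  have e1 : C15.l = (2331 / 65536 : ℝ) := rfl
  have e2 : C15.u = (10627 / 262144 : ℝ) := rfl
  have e3 : C15.a1 = -(16516565 / 2097152 : ℝ) := by norm_num [C15]
  have e4 : C15.a2 = -(158153741 / 2097152 : ℝ) := by norm_num [C15]
  have e5 : C15.e = (-279093555 / 4194304 : ℝ) := rfl
  have e6 : C15.f = (5476933 / 268435456 : ℝ) + (77003825 / 268435456 : ℝ) + (-85830073 / 268435456 : ℝ) := by norm_num [C15]
  rw [e1, e2, e3, e4, e5, e6]
  exact h

lemma rcell16 : ∃ N : ℝ, Rw4 P.r2 N (coCell (87579 / 65536 : ℝ) (868797 / 65536 : ℝ) ((379421 / 32768 : ℝ) + (107 / 256 : ℝ)) (51 / 4096 : ℝ) C16) := by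
  refine ⟨(805306368 : ℝ), ⟨Q19, List.mem_cons_of_mem _ (List.mem_cons_of_mem _ (List.mem_cons_of_mem _ (List.mem_cons_of_mem _ (List.mem_cons_of_mem _ (List.mem_cons_of_mem _ (List.mem_cons_of_mem _ (List.mem_cons_of_mem _ (List.mem_cons_of_mem _ (List.mem_cons_of_mem _ (List.mem_cons_of_mem _ (List.mem_cons_of_mem _ (List.mem_cons_of_mem _ (List.mem_cons_of_mem _ (List.mem_cons_of_mem _ (List.mem_cons_of_mem _ (List.mem_cons_of_mem _ (List.mem_cons_of_mem _ (List.mem_cons_of_mem _ (List.mem_cons_self))))))))))))))))))), ?_⟩, by norm_num⟩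
  constructor <;> norm_num [Q19, coCell, C16]

lemma lcell16 : ∀ x1 x2 xc : ℝ, 0 ≤ x1 → x1 ≤ 1 → 0 ≤ x2 → x2 ≤ 1 → C16.l ≤ xc → xc ≤ C16.u →
    (87579 / 65536 : ℝ) * (1 - (1 - x1) ^ 7) + (868797 / 65536 : ℝ) * (1 - (1 - x2) ^ 7) - ((379421 / 32768 : ℝ) + (107 / 256 : ℝ)) * (1 - (1 - xc) ^ 7)
      ≤ - C16.a1 * x1 - C16.a2 * x2 + C16.e * xc + C16.f := by
  have h := cell_lines 7 (α1 := (87579 / 65536 : ℝ)) (α2 := (868797 / 65536 : ℝ)) (c := (379421 / 32768 : ℝ) + (107 / 256 : ℝ)) (y1 := (4209 / 131072 : ℝ)) (y2 := (10139 / 262144 : ℝ))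
    (A1 := (32257321 / 4194304 : ℝ)) (B1 := (6975701 / 268435456 : ℝ)) (A2 := (307193301 / 4194304 : ℝ)) (B2 := (24547351 / 67108864 : ℝ)) (l := (10627 / 262144 : ℝ)) (u := (757 / 16384 : ℝ))
    (E := (-269966315 / 4194304 : ℝ)) (F := (-13688817 / 33554432 : ℝ)) (by norm_num) (by norm_num) (by norm_num) (by norm_num) (by norm_num)
    (by norm_num) (by norm_num) (by norm_num) (by norm_num) (by norm_num) (by norm_num) (by norm_num) (by norm_num) (by norm_num) (by norm_num)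
  have e1 : C16.l = (10627 / 262144 : ℝ) := rfl
  have e2 : C16.u = (757 / 16384 : ℝ) := rfl
  have e3 : C16.a1 = -(32257321 / 4194304 : ℝ) := by norm_num [C16]
  have e4 : C16.a2 = -(307193301 / 4194304 : ℝ) := by norm_num [C16]
  have e5 : C16.e = (-269966315 / 4194304 : ℝ) := rfl
  have e6 : C16.f = (6975701 / 268435456 : ℝ) + (24547351 / 67108864 : ℝ) + (-13688817 / 33554432 : ℝ) := by norm_num [C16]
  rw [e1, e2, e3, e4, e5, e6]
  exact h

lemma rcell17 : ∃ N : ℝ, Rw4 P.r2 N (coCell (87579 / 65536 : ℝ) (868797 / 65536 : ℝ) ((379421 / 32768 : ℝ) + (107 / 256 : ℝ)) (51 / 4096 : ℝ) C17) := by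
  refine ⟨(402653184 : ℝ), ⟨Q20, List.mem_cons_of_mem _ (List.mem_cons_of_mem _ (List.mem_cons_of_mem _ (List.mem_cons_of_mem _ (List.mem_cons_of_mem _ (List.mem_cons_of_mem _ (List.mem_cons_of_mem _ (List.mem_cons_of_mem _ (List.mem_cons_of_mem _ (List.mem_cons_of_mem _ (List.mem_cons_of_mem _ (List.mem_cons_of_mem _ (List.mem_cons_of_mem _ (List.mem_cons_of_mem _ (List.mem_cons_of_mem _ (List.mem_cons_of_mem _ (List.mem_cons_of_mem _ (List.mem_cons_of_mem _ (List.mem_cons_of_mem _ (List.mem_cons_of_mem _ (List.mem_cons_self)))))))))))))))))))), ?_⟩, by norm_num⟩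
  constructor <;> norm_num [Q20, coCell, C17]

lemma lcell17 : ∀ x1 x2 xc : ℝ, 0 ≤ x1 → x1 ≤ 1 → 0 ≤ x2 → x2 ≤ 1 → C17.l ≤ xc → xc ≤ C17.u →
    (87579 / 65536 : ℝ) * (1 - (1 - x1) ^ 7) + (868797 / 65536 : ℝ) * (1 - (1 - x2) ^ 7) - ((379421 / 32768 : ℝ) + (107 / 256 : ℝ)) * (1 - (1 - xc) ^ 7)
      ≤ - C17.a1 * x1 - C17.a2 * x2 + C17.e * xc + C17.f := by
  have h := cell_lines 7 (α1 := (87579 / 65536 : ℝ)) (α2 := (868797 / 65536 : ℝ)) (c := (379421 / 32768 : ℝ) + (107 / 256 : ℝ)) (y1 := (297 / 8192 : ℝ)) (y2 := (5771 / 131072 : ℝ))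
    (A1 := (31437727 / 4194304 : ℝ)) (B1 := (8768359 / 268435456 : ℝ)) (A2 := (297073553 / 4194304 : ℝ)) (B2 := (124964353 / 268435456 : ℝ)) (l := (757 / 16384 : ℝ)) (u := (13805 / 262144 : ℝ))
    (E := (-129933749 / 2097152 : ℝ)) (F := (-69686527 / 134217728 : ℝ)) (by norm_num) (by norm_num) (by norm_num) (by norm_num) (by norm_num)
    (by norm_num) (by norm_num) (by norm_num) (by norm_num) (by norm_num) (by norm_num) (by norm_num) (by norm_num) (by norm_num) (by norm_num)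
  have e1 : C17.l = (757 / 16384 : ℝ) := rfl
  have e2 : C17.u = (13805 / 262144 : ℝ) := rfl
  have e3 : C17.a1 = -(31437727 / 4194304 : ℝ) := by norm_num [C17]
  have e4 : C17.a2 = -(297073553 / 4194304 : ℝ) := by norm_num [C17]
  have e5 : C17.e = (-129933749 / 2097152 : ℝ) := rfl
  have e6 : C17.f = (8768359 / 268435456 : ℝ) + (124964353 / 268435456 : ℝ) + (-69686527 / 134217728 : ℝ) := by norm_num [C17]
  rw [e1, e2, e3, e4, e5, e6]
  exact h

lemma rcell18 : ∃ N : ℝ, Rw4 P.r2 N (coCell (87579 / 65536 : ℝ) (868797 / 65536 : ℝ) ((379421 / 32768 : ℝ) + (107 / 256 : ℝ)) (51 / 4096 : ℝ) C18) := by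
  refine ⟨(402653184 : ℝ), ⟨Q21, List.mem_cons_of_mem _ (List.mem_cons_of_mem _ (List.mem_cons_of_mem _ (List.mem_cons_of_mem _ (List.mem_cons_of_mem _ (List.mem_cons_of_mem _ (List.mem_cons_of_mem _ (List.mem_cons_of_mem _ (List.mem_cons_of_mem _ (List.mem_cons_of_mem _ (List.mem_cons_of_mem _ (List.mem_cons_of_mem _ (List.mem_cons_of_mem _ (List.mem_cons_of_mem _ (List.mem_cons_of_mem _ (List.mem_cons_of_mem _ (List.mem_cons_of_mem _ (List.mem_cons_of_mem _ (List.mem_cons_of_mem _ (List.mem_cons_of_mem _ (List.mem_cons_of_mem _ (List.mem_cons_self))))))))))))))))))))), ?_⟩, by norm_num⟩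
  constructor <;> norm_num [Q21, coCell, C18]

lemma lcell18 : ∀ x1 x2 xc : ℝ, 0 ≤ x1 → x1 ≤ 1 → 0 ≤ x2 → x2 ≤ 1 → C18.l ≤ xc → xc ≤ C18.u →
    (87579 / 65536 : ℝ) * (1 - (1 - x1) ^ 7) + (868797 / 65536 : ℝ) * (1 - (1 - x2) ^ 7) - ((379421 / 32768 : ℝ) + (107 / 256 : ℝ)) * (1 - (1 - xc) ^ 7)
      ≤ - C18.a1 * x1 - C18.a2 * x2 + C18.e * xc + C18.f := by
  have h := cell_lines 7 (α1 := (87579 / 65536 : ℝ)) (α2 := (868797 / 65536 : ℝ)) (c := (379421 / 32768 : ℝ) + (107 / 256 : ℝ)) (y1 := (1359 / 32768 : ℝ)) (y2 := (3281 / 65536 : ℝ))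
    (A1 := (7607519 / 1048576 : ℝ)) (B1 := (352311 / 8388608 : ℝ)) (A2 := (142998727 / 2097152 : ℝ)) (B2 := (79151525 / 134217728 : ℝ)) (l := (13805 / 262144 : ℝ)) (u := (7867 / 131072 : ℝ))
    (E := (-248744157 / 4194304 : ℝ)) (F := (-44215683 / 67108864 : ℝ)) (by norm_num) (by norm_num) (by norm_num) (by norm_num) (by norm_num)
    (by norm_num) (by norm_num) (by norm_num) (by norm_num) (by norm_num) (by norm_num) (by norm_num) (by norm_num) (by norm_num) (by norm_num)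
  have e1 : C18.l = (13805 / 262144 : ℝ) := rfl
  have e2 : C18.u = (7867 / 131072 : ℝ) := rfl
  have e3 : C18.a1 = -(7607519 / 1048576 : ℝ) := by norm_num [C18]
  have e4 : C18.a2 = -(142998727 / 2097152 : ℝ) := by norm_num [C18]
  have e5 : C18.e = (-248744157 / 4194304 : ℝ) := rfl
  have e6 : C18.f = (352311 / 8388608 : ℝ) + (79151525 / 134217728 : ℝ) + (-44215683 / 67108864 : ℝ) := by norm_num [C18]
  rw [e1, e2, e3, e4, e5, e6]
  exact h

lemma rcell19 : ∃ N : ℝ, Rw4 P.r2 N (coCell (87579 / 65536 : ℝ) (868797 / 65536 : ℝ) ((379421 / 32768 : ℝ) + (107 / 256 : ℝ)) (51 / 4096 : ℝ) C19) := by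
  refine ⟨(805306368 : ℝ), ⟨Q22, List.mem_cons_of_mem _ (List.mem_cons_of_mem _ (List.mem_cons_of_mem _ (List.mem_cons_of_mem _ (List.mem_cons_of_mem _ (List.mem_cons_of_mem _ (List.mem_cons_of_mem _ (List.mem_cons_of_mem _ (List.mem_cons_of_mem _ (List.mem_cons_of_mem _ (List.mem_cons_of_mem _ (List.mem_cons_of_mem _ (List.mem_cons_of_mem _ (List.mem_cons_of_mem _ (List.mem_cons_of_mem _ (List.mem_cons_of_mem _ (List.mem_cons_of_mem _ (List.mem_cons_of_mem _ (List.mem_cons_of_mem _ (List.mem_cons_of_mem _ (List.mem_cons_of_mem _ (List.mem_cons_of_mem _ (List.mem_cons_self)))))))))))))))))))))), ?_⟩, by norm_num⟩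
  constructor <;> norm_num [Q22, coCell, C19]

lemma lcell19 : ∀ x1 x2 xc : ℝ, 0 ≤ x1 → x1 ≤ 1 → 0 ≤ x2 → x2 ≤ 1 → C19.l ≤ xc → xc ≤ C19.u →
    (87579 / 65536 : ℝ) * (1 - (1 - x1) ^ 7) + (868797 / 65536 : ℝ) * (1 - (1 - x2) ^ 7) - ((379421 / 32768 : ℝ) + (107 / 256 : ℝ)) * (1 - (1 - xc) ^ 7)
      ≤ - C19.a1 * x1 - C19.a2 * x2 + C19.e * xc + C19.f := by
  have h := cell_lines 7 (α1 := (87579 / 65536 : ℝ)) (α2 := (868797 / 65536 : ℝ)) (c := (379421 / 32768 : ℝ) + (107 / 256 : ℝ)) (y1 := (12269 / 262144 : ℝ)) (y2 := (7463 / 131072 : ℝ))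
    (A1 := (29428987 / 4194304 : ℝ)) (B1 := (14101037 / 268435456 : ℝ)) (A2 := (17112653 / 262144 : ℝ)) (B2 := (100021687 / 134217728 : ℝ)) (l := (7867 / 131072 : ℝ)) (u := (17933 / 262144 : ℝ))
    (E := (-236554247 / 4194304 : ℝ)) (F := (-111843969 / 134217728 : ℝ)) (by norm_num) (by norm_num) (by norm_num) (by norm_num) (by norm_num)
    (by norm_num) (by norm_num) (by norm_num) (by norm_num) (by norm_num) (by norm_num) (by norm_num) (by norm_num) (by norm_num) (by norm_num)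
  have e1 : C19.l = (7867 / 131072 : ℝ) := rfl
  have e2 : C19.u = (17933 / 262144 : ℝ) := rfl
  have e3 : C19.a1 = -(29428987 / 4194304 : ℝ) := by norm_num [C19]
  have e4 : C19.a2 = -(17112653 / 262144 : ℝ) := by norm_num [C19]
  have e5 : C19.e = (-236554247 / 4194304 : ℝ) := rfl
  have e6 : C19.f = (14101037 / 268435456 : ℝ) + (100021687 / 134217728 : ℝ) + (-111843969 / 134217728 : ℝ) := by norm_num [C19]
  rw [e1, e2, e3, e4, e5, e6]
  exact h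

lemma rcell20 : ∃ N : ℝ, Rw4 P.r2 N (coCell (87579 / 65536 : ℝ) (868797 / 65536 : ℝ) ((379421 / 32768 : ℝ) + (107 / 256 : ℝ)) (51 / 4096 : ℝ) C20) := by
  refine ⟨(201326592 : ℝ), ⟨Q23, List.mem_cons_of_mem _ (List.mem_cons_of_mem _ (List.mem_cons_of_mem _ (List.mem_cons_of_mem _ (List.mem_cons_of_mem _ (List.mem_cons_of_mem _ (List.mem_cons_of_mem _ (List.mem_cons_of_mem _ (List.mem_cons_of_mem _ (List.mem_cons_of_mem _ (List.mem_cons_of_mem _ (List.mem_cons_of_mem _ (List.mem_cons_of_mem _ (List.mem_cons_of_mem _ (List.mem_cons_of_mem _ (List.mem_cons_of_mem _ (List.mem_cons_of_mem _ (List.mem_cons_of_mem _ (List.mem_cons_of_mem _ (List.mem_cons_of_mem _ (List.mem_cons_of_mem _ (List.mem_cons_of_mem _ (List.mem_cons_of_mem _ (List.mem_cons_self))))))))))))))))))))))), ?_⟩, by norm_num⟩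
  constructor <;> norm_num [Q23, coCell, C20]

lemma lcell20 : ∀ x1 x2 xc : ℝ, 0 ≤ x1 → x1 ≤ 1 → 0 ≤ x2 → x2 ≤ 1 → C20.l ≤ xc → xc ≤ C20.u →
    (87579 / 65536 : ℝ) * (1 - (1 - x1) ^ 7) + (868797 / 65536 : ℝ) * (1 - (1 - x2) ^ 7) - ((379421 / 32768 : ℝ) + (107 / 256 : ℝ)) * (1 - (1 - xc) ^ 7)
      ≤ - C20.a1 * x1 - C20.a2 * x2 + C20.e * xc + C20.f := by
  have h := cell_lines 7 (α1 := (87579 / 65536 : ℝ)) (α2 := (868797 / 65536 : ℝ)) (c := (379421 / 32768 : ℝ) + (107 / 256 : ℝ)) (y1 := (6869 / 131072 : ℝ)) (y2 := (16973 / 262144 : ℝ))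
    (A1 := (28406057 / 4194304 : ℝ)) (B1 := (17347613 / 268435456 : ℝ)) (A2 := (130239101 / 2097152 : ℝ)) (B2 := (125951935 / 134217728 : ℝ)) (l := (17933 / 262144 : ℝ)) (u := (20439 / 262144 : ℝ))
    (E := (-111636261 / 2097152 : ℝ)) (F := (-281837639 / 268435456 : ℝ)) (by norm_num) (by norm_num) (by norm_num) (by norm_num) (by norm_num)
    (by norm_num) (by norm_num) (by norm_num) (by norm_num) (by norm_num) (by norm_num) (by norm_num) (by norm_num) (by norm_num) (by norm_num)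
  have e1 : C20.l = (17933 / 262144 : ℝ) := rfl
  have e2 : C20.u = (20439 / 262144 : ℝ) := rfl
  have e3 : C20.a1 = -(28406057 / 4194304 : ℝ) := by norm_num [C20]
  have e4 : C20.a2 = -(130239101 / 2097152 : ℝ) := by norm_num [C20]
  have e5 : C20.e = (-111636261 / 2097152 : ℝ) := rfl
  have e6 : C20.f = (17347613 / 268435456 : ℝ) + (125951935 / 134217728 : ℝ) + (-281837639 / 268435456 : ℝ) := by norm_num [C20]
  rw [e1, e2, e3, e4, e5, e6]
  exact h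

lemma rcell21 : ∃ N : ℝ, Rw4 P.r2 N (coCell (87579 / 65536 : ℝ) (868797 / 65536 : ℝ) ((379421 / 32768 : ℝ) + (107 / 256 : ℝ)) (51 / 4096 : ℝ) C21) := by
  refine ⟨(100663296 : ℝ), ⟨Q24, List.mem_cons_of_mem _ (List.mem_cons_of_mem _ (List.mem_cons_of_mem _ (List.mem_cons_of_mem _ (List.mem_cons_of_mem _ (List.mem_cons_of_mem _ (List.mem_cons_of_mem _ (List.mem_cons_of_mem _ (List.mem_cons_of_mem _ (List.mem_cons_of_mem _ (List.mem_cons_of_mem _ (List.mem_cons_of_mem _ (List.mem_cons_of_mem _ (List.mem_cons_of_mem _ (List.mem_cons_of_mem _ (List.mem_cons_of_mem _ (List.mem_cons_of_mem _ (List.mem_cons_of_mem _ (List.mem_cons_of_mem _ (List.mem_cons_of_mem _ (List.mem_cons_of_mem _ (List.mem_cons_of_mem _ (List.mem_cons_of_mem _ (List.mem_cons_of_mem _ (List.mem_cons_self)))))))))))))))))))))))), ?_⟩, by norm_num⟩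
  constructor <;> norm_num [Q24, coCell, C21]

lemma lcell21 : ∀ x1 x2 xc : ℝ, 0 ≤ x1 → x1 ≤ 1 → 0 ≤ x2 → x2 ≤ 1 → C21.l ≤ xc → xc ≤ C21.u →
    (87579 / 65536 : ℝ) * (1 - (1 - x1) ^ 7) + (868797 / 65536 : ℝ) * (1 - (1 - x2) ^ 7) - ((379421 / 32768 : ℝ) + (107 / 256 : ℝ)) * (1 - (1 - xc) ^ 7)
      ≤ - C21.a1 * x1 - C21.a2 * x2 + C21.e * xc + C21.f := by
  have h := cell_lines 7 (α1 := (87579 / 65536 : ℝ)) (α2 := (868797 / 65536 : ℝ)) (c := (379421 / 32768 : ℝ) + (107 / 256 : ℝ)) (y1 := (7683 / 131072 : ℝ)) (y2 := (9647 / 131072 : ℝ))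
    (A1 := (6826799 / 1048576 : ℝ)) (B1 := (10625189 / 134217728 : ℝ)) (A2 := (246028513 / 4194304 : ℝ)) (B2 := (315841979 / 268435456 : ℝ)) (l := (20439 / 262144 : ℝ)) (u := (23295 / 262144 : ℝ))
    (E := (-208900847 / 4194304 : ℝ)) (F := (-353552157 / 268435456 : ℝ)) (by norm_num) (by norm_num) (by norm_num) (by norm_num) (by norm_num)
    (by norm_num) (by norm_num) (by norm_num) (by norm_num) (by norm_num) (by norm_num) (by norm_num) (by norm_num) (by norm_num) (by norm_num)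
  have e1 : C21.l = (20439 / 262144 : ℝ) := rfl
  have e2 : C21.u = (23295 / 262144 : ℝ) := rfl
  have e3 : C21.a1 = -(6826799 / 1048576 : ℝ) := by norm_num [C21]
  have e4 : C21.a2 = -(246028513 / 4194304 : ℝ) := by norm_num [C21]
  have e5 : C21.e = (-208900847 / 4194304 : ℝ) := rfl
  have e6 : C21.f = (10625189 / 134217728 : ℝ) + (315841979 / 268435456 : ℝ) + (-353552157 / 268435456 : ℝ) := by norm_num [C21]
  rw [e1, e2, e3, e4, e5, e6]
  exact h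

lemma rcell22 : ∃ N : ℝ, Rw4 P.r2 N (coCell (87579 / 65536 : ℝ) (868797 / 65536 : ℝ) ((379421 / 32768 : ℝ) + (107 / 256 : ℝ)) (51 / 4096 : ℝ) C22) := by
  refine ⟨(201326592 : ℝ), ⟨Q25, List.mem_cons_of_mem _ (List.mem_cons_of_mem _ (List.mem_cons_of_mem _ (List.mem_cons_of_mem _ (List.mem_cons_of_mem _ (List.mem_cons_of_mem _ (List.mem_cons_of_mem _ (List.mem_cons_of_mem _ (List.mem_cons_of_mem _ (List.mem_cons_of_mem _ (List.mem_cons_of_mem _ (List.mem_cons_of_mem _ (List.mem_cons_of_mem _ (List.mem_cons_of_mem _ (List.mem_cons_of_mem _ (List.mem_cons_of_mem _ (List.mem_cons_of_mem _ (List.mem_cons_of_mem _ (List.mem_cons_of_mem _ (List.mem_cons_of_mem _ (List.mem_cons_of_mem _ (List.mem_cons_of_mem _ (List.mem_cons_of_mem _ (List.mem_cons_of_mem _ (List.mem_cons_of_mem _ (List.mem_cons_self))))))))))))))))))))))))), ?_⟩, by norm_num⟩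
  constructor <;> norm_num [Q25, coCell, C22]

lemma lcell22 : ∀ x1 x2 xc : ℝ, 0 ≤ x1 → x1 ≤ 1 → 0 ≤ x2 → x2 ≤ 1 → C22.l ≤ xc → xc ≤ C22.u →
    (87579 / 65536 : ℝ) * (1 - (1 - x1) ^ 7) + (868797 / 65536 : ℝ) * (1 - (1 - x2) ^ 7) - ((379421 / 32768 : ℝ) + (107 / 256 : ℝ)) * (1 - (1 - xc) ^ 7)
      ≤ - C22.a1 * x1 - C22.a2 * x2 + C22.e * xc + C22.f := by
  have h := cell_lines 7 (α1 := (87579 / 65536 : ℝ)) (α2 := (868797 / 65536 : ℝ)) (c := (379421 / 32768 : ℝ) + (107 / 256 : ℝ)) (y1 := (4407 / 65536 : ℝ)) (y2 := (10913 / 131072 : ℝ))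
    (A1 := (3229923 / 524288 : ℝ)) (B1 := (27159023 / 268435456 : ℝ)) (A2 := (115516655 / 2097152 : ℝ)) (B2 := (391070413 / 268435456 : ℝ)) (l := (23295 / 262144 : ℝ)) (u := (13275 / 131072 : ℝ))
    (E := (-96735703 / 2097152 : ℝ)) (F := (-55162917 / 33554432 : ℝ)) (by norm_num) (by norm_num) (by norm_num) (by norm_num) (by norm_num)
    (by norm_num) (by norm_num) (by norm_num) (by norm_num) (by norm_num) (by norm_num) (by norm_num) (by norm_num) (by norm_num) (by norm_num)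
  have e1 : C22.l = (23295 / 262144 : ℝ) := rfl
  have e2 : C22.u = (13275 / 131072 : ℝ) := rfl
  have e3 : C22.a1 = -(3229923 / 524288 : ℝ) := by norm_num [C22]
  have e4 : C22.a2 = -(115516655 / 2097152 : ℝ) := by norm_num [C22]
  have e5 : C22.e = (-96735703 / 2097152 : ℝ) := rfl
  have e6 : C22.f = (27159023 / 268435456 : ℝ) + (391070413 / 268435456 : ℝ) + (-55162917 / 33554432 : ℝ) := by norm_num [C22]
  rw [e1, e2, e3, e4, e5, e6]
  exact h

lemma rcell23 : ∃ N : ℝ, Rw4 P.r2 N (coCell (87579 / 65536 : ℝ) (868797 / 65536 : ℝ) ((379421 / 32768 : ℝ) + (107 / 256 : ℝ)) (51 / 4096 : ℝ) C23) := by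
  refine ⟨(805306368 : ℝ), ⟨Q26, List.mem_cons_of_mem _ (List.mem_cons_of_mem _ (List.mem_cons_of_mem _ (List.mem_cons_of_mem _ (List.mem_cons_of_mem _ (List.mem_cons_of_mem _ (List.mem_cons_of_mem _ (List.mem_cons_of_mem _ (List.mem_cons_of_mem _ (List.mem_cons_of_mem _ (List.mem_cons_of_mem _ (List.mem_cons_of_mem _ (List.mem_cons_of_mem _ (List.mem_cons_of_mem _ (List.mem_cons_of_mem _ (List.mem_cons_of_mem _ (List.mem_cons_of_mem _ (List.mem_cons_of_mem _ (List.mem_cons_of_mem _ (List.mem_cons_of_mem _ (List.mem_cons_of_mem _ (List.mem_cons_of_mem _ (List.mem_cons_of_mem _ (List.mem_cons_of_mem _ (List.mem_cons_of_mem _ (List.mem_cons_of_mem _ (List.mem_cons_self)))))))))))))))))))))))))), ?_⟩, by norm_num⟩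
  constructor <;> norm_num [Q26, coCell, C23]

lemma lcell23 : ∀ x1 x2 xc : ℝ, 0 ≤ x1 → x1 ≤ 1 → 0 ≤ x2 → x2 ≤ 1 → C23.l ≤ xc → xc ≤ C23.u →
    (87579 / 65536 : ℝ) * (1 - (1 - x1) ^ 7) + (868797 / 65536 : ℝ) * (1 - (1 - x2) ^ 7) - ((379421 / 32768 : ℝ) + (107 / 256 : ℝ)) * (1 - (1 - xc) ^ 7)
      ≤ - C23.a1 * x1 - C23.a2 * x2 + C23.e * xc + C23.f := by
  have h := cell_lines 7 (α1 := (87579 / 65536 : ℝ)) (α2 := (868797 / 65536 : ℝ)) (c := (379421 / 32768 : ℝ) + (107 / 256 : ℝ)) (y1 := (1239 / 16384 : ℝ)) (y2 := (24685 / 262144 : ℝ))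
    (A1 := (24477893 / 4194304 : ℝ)) (B1 := (33380701 / 268435456 : ℝ)) (A2 := (215024825 / 4194304 : ℝ)) (B2 := (481904649 / 268435456 : ℝ)) (l := (13275 / 131072 : ℝ)) (u := (30261 / 262144 : ℝ))
    (E := (-88527591 / 2097152 : ℝ)) (F := (-547712211 / 268435456 : ℝ)) (by norm_num) (by norm_num) (by norm_num) (by norm_num) (by norm_num)
    (by norm_num) (by norm_num) (by norm_num) (by norm_num) (by norm_num) (by norm_num) (by norm_num) (by norm_num) (by norm_num) (by norm_num)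
  have e1 : C23.l = (13275 / 131072 : ℝ) := rfl
  have e2 : C23.u = (30261 / 262144 : ℝ) := rfl
  have e3 : C23.a1 = -(24477893 / 4194304 : ℝ) := by norm_num [C23]
  have e4 : C23.a2 = -(215024825 / 4194304 : ℝ) := by norm_num [C23]
  have e5 : C23.e = (-88527591 / 2097152 : ℝ) := rfl
  have e6 : C23.f = (33380701 / 268435456 : ℝ) + (481904649 / 268435456 : ℝ) + (-547712211 / 268435456 : ℝ) := by norm_num [C23]
  rw [e1, e2, e3, e4, e5, e6]
  exact h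

lemma rcell24 : ∃ N : ℝ, Rw4 P.r2 N (coCell (87579 / 65536 : ℝ) (868797 / 65536 : ℝ) ((379421 / 32768 : ℝ) + (107 / 256 : ℝ)) (51 / 4096 : ℝ) C24) := by
  refine ⟨(100663296 : ℝ), ⟨Q27, List.mem_cons_of_mem _ (List.mem_cons_of_mem _ (List.mem_cons_of_mem _ (List.mem_cons_of_mem _ (List.mem_cons_of_mem _ (List.mem_cons_of_mem _ (List.mem_cons_of_mem _ (List.mem_cons_of_mem _ (List.mem_cons_of_mem _ (List.mem_cons_of_mem _ (List.mem_cons_of_mem _ (List.mem_cons_of_mem _ (List.mem_cons_of_mem _ (List.mem_cons_of_mem _ (List.mem_cons_of_mem _ (List.mem_cons_of_mem _ (List.mem_cons_of_mem _ (List.mem_cons_of_mem _ (List.mem_cons_of_mem _ (List.mem_cons_of_mem _ (List.mem_cons_of_mem _ (List.mem_cons_of_mem _ (List.mem_cons_of_mem _ (List.mem_cons_of_mem _ (List.mem_cons_of_mem _ (List.mem_cons_of_mem _ (List.mem_cons_of_mem _ (List.mem_cons_self))))))))))))))))))))))))))), ?_⟩, by norm_num⟩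
  constructor <;> norm_num [Q27, coCell, C24]

lemma lcell24 : ∀ x1 x2 xc : ℝ, 0 ≤ x1 → x1 ≤ 1 → 0 ≤ x2 → x2 ≤ 1 → C24.l ≤ xc → xc ≤ C24.u →
    (87579 / 65536 : ℝ) * (1 - (1 - x1) ^ 7) + (868797 / 65536 : ℝ) * (1 - (1 - x2) ^ 7) - ((379421 / 32768 : ℝ) + (107 / 256 : ℝ)) * (1 - (1 - xc) ^ 7)
      ≤ - C24.a1 * x1 - C24.a2 * x2 + C24.e * xc + C24.f := by
  have h := cell_lines 7 (α1 := (87579 / 65536 : ℝ)) (α2 := (868797 / 65536 : ℝ)) (c := (379421 / 32768 : ℝ) + (107 / 256 : ℝ)) (y1 := (701 / 8192 : ℝ)) (y2 := (7019 / 65536 : ℝ))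
    (A1 := (22939139 / 4194304 : ℝ)) (B1 := (41313499 / 268435456 : ℝ)) (A2 := (197246389 / 4194304 : ℝ)) (B2 := (596319389 / 268435456 : ℝ)) (l := (30261 / 262144 : ℝ)) (u := (34489 / 262144 : ℝ))
    (E := (-79890051 / 2097152 : ℝ)) (F := (-10552179 / 4194304 : ℝ)) (by norm_num) (by norm_num) (by norm_num) (by norm_num) (by norm_num)
    (by norm_num) (by norm_num) (by norm_num) (by norm_num) (by norm_num) (by norm_num) (by norm_num) (by norm_num) (by norm_num) (by norm_num)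
  have e1 : C24.l = (30261 / 262144 : ℝ) := rfl
  have e2 : C24.u = (34489 / 262144 : ℝ) := rfl
  have e3 : C24.a1 = -(22939139 / 4194304 : ℝ) := by norm_num [C24]
  have e4 : C24.a2 = -(197246389 / 4194304 : ℝ) := by norm_num [C24]
  have e5 : C24.e = (-79890051 / 2097152 : ℝ) := rfl
  have e6 : C24.f = (41313499 / 268435456 : ℝ) + (596319389 / 268435456 : ℝ) + (-10552179 / 4194304 : ℝ) := by norm_num [C24]
  rw [e1, e2, e3, e4, e5, e6]
  exact h

lemma rcell25 : ∃ N : ℝ, Rw4 P.r2 N (coCell (87579 / 65536 : ℝ) (868797 / 65536 : ℝ) ((379421 / 32768 : ℝ) + (107 / 256 : ℝ)) (51 / 4096 : ℝ) C25) := by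
  refine ⟨(805306368 : ℝ), ⟨Q28, List.mem_cons_of_mem _ (List.mem_cons_of_mem _ (List.mem_cons_of_mem _ (List.mem_cons_of_mem _ (List.mem_cons_of_mem _ (List.mem_cons_of_mem _ (List.mem_cons_of_mem _ (List.mem_cons_of_mem _ (List.mem_cons_of_mem _ (List.mem_cons_of_mem _ (List.mem_cons_of_mem _ (List.mem_cons_of_mem _ (List.mem_cons_of_mem _ (List.mem_cons_of_mem _ (List.mem_cons_of_mem _ (List.mem_cons_of_mem _ (List.mem_cons_of_mem _ (List.mem_cons_of_mem _ (List.mem_cons_of_mem _ (List.mem_cons_of_mem _ (List.mem_cons_of_mem _ (List.mem_cons_of_mem _ (List.mem_cons_of_mem _ (List.mem_cons_of_mem _ (List.mem_cons_of_mem _ (List.mem_cons_of_mem _ (List.mem_cons_of_mem _ (List.mem_cons_of_mem _ (List.mem_cons_self)))))))))))))))))))))))))))), ?_⟩, by norm_num⟩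
  constructor <;> norm_num [Q28, coCell, C25]

lemma lcell25 : ∀ x1 x2 xc : ℝ, 0 ≤ x1 → x1 ≤ 1 → 0 ≤ x2 → x2 ≤ 1 → C25.l ≤ xc → xc ≤ C25.u →
    (87579 / 65536 : ℝ) * (1 - (1 - x1) ^ 7) + (868797 / 65536 : ℝ) * (1 - (1 - x2) ^ 7) - ((379421 / 32768 : ℝ) + (107 / 256 : ℝ)) * (1 - (1 - xc) ^ 7)
      ≤ - C25.a1 * x1 - C25.a2 * x2 + C25.e * xc + C25.f := by
  have h := cell_lines 7 (α1 := (87579 / 65536 : ℝ)) (α2 := (868797 / 65536 : ℝ)) (c := (379421 / 32768 : ℝ) + (107 / 256 : ℝ)) (y1 := (25267 / 262144 : ℝ)) (y2 := (31773 / 262144 : ℝ))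
    (A1 := (10679375 / 2097152 : ℝ)) (B1 := (25255045 / 134217728 : ℝ)) (A2 := (89638307 / 2097152 : ℝ)) (B2 := (181873787 / 67108864 : ℝ)) (l := (34489 / 262144 : ℝ)) (u := (39309 / 262144 : ℝ))
    (E := (-141830551 / 4194304 : ℝ)) (F := (-826477655 / 268435456 : ℝ)) (by norm_num) (by norm_num) (by norm_num) (by norm_num) (by norm_num)
    (by norm_num) (by norm_num) (by norm_num) (by norm_num) (by norm_num) (by norm_num) (by norm_num) (by norm_num) (by norm_num) (by norm_num)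
  have e1 : C25.l = (34489 / 262144 : ℝ) := rfl
  have e2 : C25.u = (39309 / 262144 : ℝ) := rfl
  have e3 : C25.a1 = -(10679375 / 2097152 : ℝ) := by norm_num [C25]
  have e4 : C25.a2 = -(89638307 / 2097152 : ℝ) := by norm_num [C25]
  have e5 : C25.e = (-141830551 / 4194304 : ℝ) := rfl
  have e6 : C25.f = (25255045 / 134217728 : ℝ) + (181873787 / 67108864 : ℝ) + (-826477655 / 268435456 : ℝ) := by norm_num [C25]
  rw [e1, e2, e3, e4, e5, e6]
  exact h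

lemma rcell26 : ∃ N : ℝ, Rw4 P.r2 N (coCell (87579 / 65536 : ℝ) (868797 / 65536 : ℝ) ((379421 / 32768 : ℝ) + (107 / 256 : ℝ)) (51 / 4096 : ℝ) C26) := by
  refine ⟨(805306368 : ℝ), ⟨Q29, List.mem_cons_of_mem _ (List.mem_cons_of_mem _ (List.mem_cons_of_mem _ (List.mem_cons_of_mem _ (List.mem_cons_of_mem _ (List.mem_cons_of_mem _ (List.mem_cons_of_mem _ (List.mem_cons_of_mem _ (List.mem_cons_of_mem _ (List.mem_cons_of_mem _ (List.mem_cons_of_mem _ (List.mem_cons_of_mem _ (List.mem_cons_of_mem _ (List.mem_cons_of_mem _ (List.mem_cons_of_mem _ (List.mem_cons_of_mem _ (List.mem_cons_of_mem _ (List.mem_cons_of_mem _ (List.mem_cons_of_mem _ (List.mem_cons_of_mem _ (List.mem_cons_of_mem _ (List.mem_cons_of_mem _ (List.mem_cons_of_mem _ (List.mem_cons_of_mem _ (List.mem_cons_of_mem _ (List.mem_cons_of_mem _ (List.mem_cons_of_mem _ (List.mem_cons_of_mem _ (List.mem_cons_of_mem _ (List.mem_cons_self))))))))))))))))))))))))))))),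 ?_⟩, by norm_num⟩
  constructor <;> norm_num [Q29, coCell, C26]

lemma lcell26 : ∀ x1 x2 xc : ℝ, 0 ≤ x1 → x1 ≤ 1 → 0 ≤ x2 → x2 ≤ 1 → C26.l ≤ xc → xc ≤ C26.u →
    (87579 / 65536 : ℝ) * (1 - (1 - x1) ^ 7) + (868797 / 65536 : ℝ) * (1 - (1 - x2) ^ 7) - ((379421 / 32768 : ℝ) + (107 / 256 : ℝ)) * (1 - (1 - xc) ^ 7)
      ≤ - C26.a1 * x1 - C26.a2 * x2 + C26.e * xc + C26.f := by
  have h := cell_lines 7 (α1 := (87579 / 65536 : ℝ)) (α2 := (868797 / 65536 : ℝ)) (c := (379421 / 32768 : ℝ) + (107 / 256 : ℝ)) (y1 := (28409 / 262144 : ℝ)) (y2 := (8825 / 65536 : ℝ))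
    (A1 := (9857141 / 2097152 : ℝ)) (B1 := (61278031 / 268435456 : ℝ)) (A2 := (163425783 / 4194304 : ℝ)) (B2 := (214297011 / 67108864 : ℝ)) (l := (39309 / 262144 : ℝ)) (u := (22401 / 131072 : ℝ))
    (E := (-61728037 / 2097152 : ℝ)) (F := (-62676007 / 16777216 : ℝ)) (by norm_num) (by norm_num) (by norm_num) (by norm_num) (by norm_num)
    (by norm_num) (by norm_num) (by norm_num) (by norm_num) (by norm_num) (by norm_num) (by norm_num) (by norm_num) (by norm_num) (by norm_num)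
  have e1 : C26.l = (39309 / 262144 : ℝ) := rfl
  have e2 : C26.u = (22401 / 131072 : ℝ) := rfl
  have e3 : C26.a1 = -(9857141 / 2097152 : ℝ) := by norm_num [C26]
  have e4 : C26.a2 = -(163425783 / 4194304 : ℝ) := by norm_num [C26]
  have e5 : C26.e = (-61728037 / 2097152 : ℝ) := rfl
  have e6 : C26.f = (61278031 / 268435456 : ℝ) + (214297011 / 67108864 : ℝ) + (-62676007 / 16777216 : ℝ) := by norm_num [C26]
  rw [e1, e2, e3, e4, e5, e6]
  exact h

lemma rcell27 : ∃ N : ℝ, Rw4 P.r2 N (coCell (87579 / 65536 : ℝ) (868797 / 65536 : ℝ) ((379421 / 32768 : ℝ) + (107 / 256 : ℝ)) (51 / 4096 : ℝ) C27) := by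
  refine ⟨(805306368 : ℝ), ⟨Q30, List.mem_cons_of_mem _ (List.mem_cons_of_mem _ (List.mem_cons_of_mem _ (List.mem_cons_of_mem _ (List.mem_cons_of_mem _ (List.mem_cons_of_mem _ (List.mem_cons_of_mem _ (List.mem_cons_of_mem _ (List.mem_cons_of_mem _ (List.mem_cons_of_mem _ (List.mem_cons_of_mem _ (List.mem_cons_of_mem _ (List.mem_cons_of_mem _ (List.mem_cons_of_mem _ (List.mem_cons_of_mem _ (List.mem_cons_of_mem _ (List.mem_cons_of_mem _ (List.mem_cons_of_mem _ (List.mem_cons_of_mem _ (List.mem_cons_of_mem _ (List.mem_cons_of_mem _ (List.mem_cons_of_mem _ (List.mem_cons_of_mem _ (List.mem_cons_of_mem _ (List.mem_cons_of_mem _ (List.mem_cons_of_mem _ (List.mem_cons_of_mem _ (List.mem_cons_of_mem _ (List.mem_cons_of_mem _ (List.mem_cons_of_mem _ (List.mem_cons_self)))))))))))))))))))))))))))))), ?_⟩, by norm_num⟩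
  constructor <;> norm_num [Q30, coCell, C27]

lemma lcell27 : ∀ x1 x2 xc : ℝ, 0 ≤ x1 → x1 ≤ 1 → 0 ≤ x2 → x2 ≤ 1 → C27.l ≤ xc → xc ≤ C27.u →
    (87579 / 65536 : ℝ) * (1 - (1 - x1) ^ 7) + (868797 / 65536 : ℝ) * (1 - (1 - x2) ^ 7) - ((379421 / 32768 : ℝ) + (107 / 256 : ℝ)) * (1 - (1 - xc) ^ 7)
      ≤ - C27.a1 * x1 - C27.a2 * x2 + C27.e * xc + C27.f := by
  have h := cell_lines 7 (α1 := (87579 / 65536 : ℝ)) (α2 := (868797 / 65536 : ℝ)) (c := (379421 / 32768 : ℝ) + (107 / 256 : ℝ)) (y1 := (15299 / 131072 : ℝ)) (y2 := (2415 / 16384 : ℝ))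
    (A1 := (18632115 / 4194304 : ℝ)) (B1 := (17267657 / 67108864 : ℝ)) (A2 := (149509433 / 4194304 : ℝ)) (B2 := (491362601 / 134217728 : ℝ)) (l := (22401 / 131072 : ℝ)) (u := (51063 / 262144 : ℝ))
    (E := (-13122621 / 524288 : ℝ)) (F := (-1204896605 / 268435456 : ℝ)) (by norm_num) (by norm_num) (by norm_num) (by norm_num) (by norm_num)
    (by norm_num) (by norm_num) (by norm_num) (by norm_num) (by norm_num) (by norm_num) (by norm_num) (by norm_num) (by norm_num) (by norm_num)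
  have e1 : C27.l = (22401 / 131072 : ℝ) := rfl
  have e2 : C27.u = (51063 / 262144 : ℝ) := rfl
  have e3 : C27.a1 = -(18632115 / 4194304 : ℝ) := by norm_num [C27]
  have e4 : C27.a2 = -(149509433 / 4194304 : ℝ) := by norm_num [C27]
  have e5 : C27.e = (-13122621 / 524288 : ℝ) := rfl
  have e6 : C27.f = (17267657 / 67108864 : ℝ) + (491362601 / 134217728 : ℝ) + (-1204896605 / 268435456 : ℝ) := by norm_num [C27]
  rw [e1, e2, e3, e4, e5, e6]
  exact h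

lemma rcell28 : ∃ N : ℝ, Rw4 P.r2 N (coCell (87579 / 65536 : ℝ) (868797 / 65536 : ℝ) ((379421 / 32768 : ℝ) + (107 / 256 : ℝ)) (51 / 4096 : ℝ) C28) := by
  refine ⟨(805306368 : ℝ), ⟨Q31, List.mem_cons_of_mem _ (List.mem_cons_of_mem _ (List.mem_cons_of_mem _ (List.mem_cons_of_mem _ (List.mem_cons_of_mem _ (List.mem_cons_of_mem _ (List.mem_cons_of_mem _ (List.mem_cons_of_mem _ (List.mem_cons_of_mem _ (List.mem_cons_of_mem _ (List.mem_cons_of_mem _ (List.mem_cons_of_mem _ (List.mem_cons_of_mem _ (List.mem_cons_of_mem _ (List.mem_cons_of_mem _ (List.mem_cons_of_mem _ (List.mem_cons_of_mem _ (List.mem_cons_of_mem _ (List.mem_cons_of_mem _ (List.mem_cons_of_mem _ (List.mem_cons_of_mem _ (List.mem_cons_of_mem _ (List.mem_cons_of_mem _ (List.mem_cons_of_mem _ (List.mem_cons_of_mem _ (List.mem_cons_of_mem _ (List.mem_cons_of_mem _ (List.mem_cons_of_mem _ (List.mem_cons_of_mem _ (List.mem_cons_of_mem _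 (List.mem_cons_of_mem _ (List.mem_cons_self))))))))))))))))))))))))))))))), ?_⟩, by norm_num⟩
  constructor <;> norm_num [Q31, coCell, C28]

lemma lcell28 : ∀ x1 x2 xc : ℝ, 0 ≤ x1 → x1 ≤ 1 → 0 ≤ x2 → x2 ≤ 1 → C28.l ≤ xc → xc ≤ C28.u →
    (87579 / 65536 : ℝ) * (1 - (1 - x1) ^ 7) + (868797 / 65536 : ℝ) * (1 - (1 - x2) ^ 7) - ((379421 / 32768 : ℝ) + (107 / 256 : ℝ)) * (1 - (1 - xc) ^ 7)
      ≤ - C28.a1 * x1 - C28.a2 * x2 + C28.e * xc + C28.f := by
  have h := cell_lines 7 (α1 := (87579 / 65536 : ℝ)) (α2 := (868797 / 65536 : ℝ)) (c := (379421 / 32768 : ℝ) + (107 / 256 : ℝ)) (y1 := (16899 / 131072 : ℝ)) (y2 := (21253 / 131072 : ℝ))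
    (A1 := (8569765 / 2097152 : ℝ)) (B1 := (80796839 / 268435456 : ℝ)) (A2 := (134648549 / 4194304 : ℝ)) (B2 := (1129827985 / 268435456 : ℝ)) (l := (51063 / 262144 : ℝ)) (u := (115 / 512 : ℝ))
    (E := (-85971657 / 4194304 : ℝ)) (F := (-1441877183 / 268435456 : ℝ)) (by norm_num) (by norm_num) (by norm_num) (by norm_num) (by norm_num)
    (by norm_num) (by norm_num) (by norm_num) (by norm_num) (by norm_num) (by norm_num) (by norm_num) (by norm_num) (by norm_num) (by norm_num)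
  have e1 : C28.l = (51063 / 262144 : ℝ) := rfl
  have e2 : C28.u = (115 / 512 : ℝ) := rfl
  have e3 : C28.a1 = -(8569765 / 2097152 : ℝ) := by norm_num [C28]
  have e4 : C28.a2 = -(134648549 / 4194304 : ℝ) := by norm_num [C28]
  have e5 : C28.e = (-85971657 / 4194304 : ℝ) := rfl
  have e6 : C28.f = (80796839 / 268435456 : ℝ) + (1129827985 / 268435456 : ℝ) + (-1441877183 / 268435456 : ℝ) := by norm_num [C28]
  rw [e1, e2, e3, e4, e5, e6]
  exact h

/-- The hypotheses at the origin. -/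
lemma horig (lam : ℝ) (hd : (7 : ℝ) * lam ^ 2 = 1) (hb : |lam| ≤ (12986760405 / 34359738368 : ℝ)) :
    OriginH 7 lam (87579 / 65536 : ℝ) (868797 / 65536 : ℝ) (379421 / 32768 : ℝ) (107 / 256 : ℝ) (51 / 4096 : ℝ) (45 / 512 : ℝ) (4233 / 4096 : ℝ) (1 / 256 : ℝ) 3298534883328 := by
  refine originH_of_num (d := 7) (by push_cast; exact hd) hb (by norm_num) (by norm_num) (by norm_num) (by norm_num)
    (by norm_num) (by norm_num) (by norm_num) (by norm_num) (by norm_num) (by norm_num) (by norm_num [S]) (by norm_num) ?_ ?_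
  · rw [hch]
    norm_num [abs_of_pos, abs_of_neg]
  · norm_num [abs_of_pos, abs_of_neg]

/-- Nonreconstruction at the bound. -/
theorem main : Tendsto (reconError 3 7 (-(1 / Real.sqrt 7))) atTop (𝓝 0) := by
  have hsq : Real.sqrt ((7 : ℕ) : ℝ) ^ 2 = 7 := by
    rw [Real.sq_sqrt (by positivity)]; norm_num
  have hsq' : Real.sqrt (7 : ℝ) ^ 2 = 7 := by
    rw [Real.sq_sqrt (by positivity)]
  have hs0 : 0 < Real.sqrt (7 : ℝ) := Real.sqrt_pos.2 (by norm_num)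
  have hl2 : ((7 : ℝ)) * (-(1 / Real.sqrt 7)) ^ 2 = 1 := by
    have : (-(1 / Real.sqrt (7 : ℝ))) ^ 2 = 1 / 7 := by
      rw [neg_sq, div_pow, hsq']; norm_num
    rw [this]; norm_num
  have hb : |(-(1 / Real.sqrt (7 : ℝ)))| ≤ (12986760405 / 34359738368 : ℝ) := by
    rw [abs_neg, abs_of_pos (by positivity)]
    rw [div_le_iff₀ hs0]
    have h1 : (1 : ℝ) ^ 2 ≤ ((12986760405 / 34359738368 : ℝ) * Real.sqrt 7) ^ 2 := by
      rw [mul_pow, hsq']; norm_num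
    exact le_of_sq_le_sq h1 (by positivity)
  have hb2 : (-(1 / 2) : ℝ) < -(1 / Real.sqrt (7 : ℝ)) := by
    have h2 := (abs_le.1 hb).1
    have h3 : ((12986760405 / 34359738368 : ℝ) : ℝ) < 1 / 2 := by norm_num
    linarith
  have h1 : (-(1 / Real.sqrt (7 : ℝ))) < 1 := by
    have : 0 < 1 / Real.sqrt (7 : ℝ) := by positivity
    linarith
  have hlam : |(S : ℝ) * (-(1 / Real.sqrt (7 : ℝ))) - ((P.lp : ℝ) - P.ln)| ≤ ((1 : ℕ) : ℝ) := by
    have h := lam_enc 7 27235210556858266 (by norm_num) (by norm_num [S]) (by norm_num [S])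
    have e : ((7 : ℕ) : ℝ) = (7 : ℝ) := by norm_num
    rw [e] at h
    exact h
  obtain ⟨hOa, hON⟩ := horig _ hl2 hb
  refine final_of_box (d := 7) (by norm_num) hb2 h1 (box hlam) (87579 / 65536 : ℝ) (868797 / 65536 : ℝ) (379421 / 32768 : ℝ) (107 / 256 : ℝ) (45 / 512 : ℝ) (4233 / 4096 : ℝ) (5243 / 1048576 : ℝ) (1699 / 8192 : ℝ) (51 / 4096 : ℝ) (115 / 512 : ℝ) cellsL
    (by norm_num) (by norm_num) (by norm_num) (by norm_num) (by norm_num) (by norm_num) (by norm_num) (by norm_num) (by norm_num)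
    (by norm_num) (by norm_num) (by norm_num) (by norm_num) (by norm_num) hOa hON rTa rTb rc1 rc2 rc3
    (forall_cons rcell0 (forall_cons rcell1 (forall_cons rcell2 (forall_cons rcell3 (forall_cons rcell4 (forall_cons rcell5 (forall_cons rcell6 (forall_cons rcell7 (forall_cons rcell8 (forall_cons rcell9 (forall_cons rcell10 (forall_cons rcell11 (forall_cons rcell12 (forall_cons rcell13 (forall_cons rcell14 (forall_cons rcell15 (forall_cons rcell16 (forall_cons rcell17 (forall_cons rcell18 (forall_cons rcell19 (forall_cons rcell20 (forall_cons rcell21 (forall_cons rcell22 (forall_cons rcell23 (forall_cons rcell24 (forall_cons rcell25 (forall_cons rcell26 (forall_cons rcell27 (forall_cons rcell28 (forall_nil)))))))))))))))))))))))))))))) hcover (forall_cons lcell0 (forall_cons lcell1 (forall_cons lcell2 (forall_cons lcell3 (forall_cons lcell4 (forall_cons lcell5 (forall_cons lcell6 (forall_cons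 lcell7 (forall_cons lcell8 (forall_cons lcell9 (forall_cons lcell10 (forall_cons lcell11 (forall_cons lcell12 (forall_cons lcell13 (forall_cons lcell14 (forall_cons lcell15 (forall_cons lcell16 (forall_cons lcell17 (forall_cons lcell18 (forall_cons lcell19 (forall_cons lcell20 (forall_cons lcell21 (forall_cons lcell22 (forall_cons lcell23 (forall_cons lcell24 (forall_cons lcell25 (forall_cons lcell26 (forall_cons lcell27 (forall_cons lcell28 (forall_nil))))))))))))))))))))))))))))))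

end Vale.Agent.P154H.Tm.D7
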