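import Vale.Agent.P154H.D.D8
import Vale.Agent.P154H.FinalD
import Vale.Agent.P154H.OriginW

open Filter Topology

set_option maxRecDepth 100000

/-!
Nonreconstruction at the Kesten-Stigum bound for `d = 8`, negative eigenvalue.
-/

namespace Vale.Agent.P154H.Tm.D8

open Vale.Agent.P154 Vale.Agent.P154H

/-- A chord cell. -/
noncomputable def C0 : Cell := ⟨(5243 / 1048576 : ℝ), (1523 / 262144 : ℝ), (-43580687 / 4194304 : ℝ), (-214955119 / 2097152 : ℝ), (-387566599 / 4194304 : ℝ), (-5763 / 16777216 : ℝ)⟩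

/-- A chord cell. -/
noncomputable def C1 : Cell := ⟨(1523 / 262144 : ℝ), (885 / 131072 : ℝ), (-21688889 / 2097152 : ℝ), (-213763991 / 2097152 : ℝ), (-385183725 / 4194304 : ℝ), (-3751 / 8388608 : ℝ)⟩

/-- A chord cell. -/
noncomputable def C2 : Cell := ⟨(885 / 131072 : ℝ), (2057 / 262144 : ℝ), (-5393773 / 524288 : ℝ), (-106209303 / 1048576 : ℝ), (-382428831 / 4194304 : ℝ), (-186181 / 268435456 : ℝ)⟩

/-- A chord cell. -/
noncomputable def C3 : Cell := ⟨(2057 / 262144 : ℝ), (1195 / 131072 : ℝ), (-10714767 / 1048576 : ℝ), (-421672843 / 4194304 : ℝ), (-23703219 / 262144 : ℝ), (-7435 / 8388608 : ℝ)⟩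

/-- A chord cell. -/
noncomputable def C4 : Cell := ⟨(1195 / 131072 : ℝ), (1389 / 131072 : ℝ), (-21300857 / 2097152 : ℝ), (-13061065 / 131072 : ℝ), (-187792563 / 2097152 : ℝ), (-304693 / 268435456 : ℝ)⟩

/-- A chord cell. -/
noncomputable def C5 : Cell := ⟨(1389 / 131072 : ℝ), (807 / 65536 : ℝ), (-21105103 / 2097152 : ℝ), (-103437421 / 1048576 : ℝ), (-92840515 / 1048576 : ℝ), (-393181 / 268435456 : ℝ)⟩

/-- A chord cell. -/
noncomputable def C6 : Cell := ⟨(807 / 65536 : ℝ), (469 / 32768 : ℝ), (-41804871 / 4194304 : ℝ), (-204508761 / 2097152 : ℝ), (-183252473 / 2097152 : ℝ), (-617581 / 268435456 : ℝ)⟩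

/-- A chord cell. -/
noncomputable def C7 : Cell := ⟨(469 / 32768 : ℝ), (545 / 32768 : ℝ), (-41334711 / 4194304 : ℝ), (-403446111 / 4194304 : ℝ), (-360928545 / 4194304 : ℝ), (-808387 / 268435456 : ℝ)⟩

/-- A chord cell. -/
noncomputable def C8 : Cell := ⟨(545 / 32768 : ℝ), (2533 / 131072 : ℝ), (-40780703 / 4194304 : ℝ), (-397044625 / 4194304 : ℝ), (-177273555 / 2097152 : ℝ), (-63921 / 16777216 : ℝ)⟩

/-- A chord cell. -/
noncomputable def C9 : Cell := ⟨(2533 / 131072 : ℝ), (23 / 1024 : ℝ), (-10067819 / 1048576 : ℝ), (-389647561 / 4194304 : ℝ), (-347248489 / 4194304 : ℝ), (-1335947 / 268435456 : ℝ)⟩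

/-- A chord cell. -/
noncomputable def C10 : Cell := ⟨(23 / 1024 : ℝ), (3421 / 131072 : ℝ), (-2470507 / 262144 : ℝ), (-381399681 / 4194304 : ℝ), (-338927725 / 4194304 : ℝ), (-1829365 / 268435456 : ℝ)⟩

/-- A chord cell. -/
noncomputable def C11 : Cell := ⟨(3421 / 131072 : ℝ), (7951 / 262144 : ℝ), (-38717481 / 4194304 : ℝ), (-372107685 / 4194304 : ℝ), (-329477867 / 4194304 : ℝ), (-2667493 / 268435456 : ℝ)⟩

/-- A chord cell. -/
noncomputable def C12 : Cell := ⟨(7951 / 262144 : ℝ), (1155 / 32768 : ℝ), (-18882405 / 2097152 : ℝ), (-361436657 / 4194304 : ℝ), (-39847337 / 524288 : ℝ), (-873893 / 67108864 : ℝ)⟩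

/-- A chord cell. -/
noncomputable def C13 : Cell := ⟨(1155 / 32768 : ℝ), (5369 / 131072 : ℝ), (-36870759 / 4194304 : ℝ), (-174590627 / 2097152 : ℝ), (-153360051 / 2097152 : ℝ), (-4434981 / 268435456 : ℝ)⟩

/-- A chord cell. -/
noncomputable def C14 : Cell := ⟨(5369 / 131072 : ℝ), (12479 / 262144 : ℝ), (-35531337 / 4194304 : ℝ), (-335759481 / 4194304 : ℝ), (-73299995 / 1048576 : ℝ), (-5793943 / 268435456 : ℝ)⟩

/-- A chord cell. -/
noncomputable def C15 : Cell := ⟨(12479 / 262144 : ℝ), (14501 / 262144 : ℝ), (-34239541 / 4194304 : ℝ), (-320533285 / 4194304 : ℝ), (-278138259 / 4194304 : ℝ), (-3657335 / 134217728 : ℝ)⟩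

/-- A chord cell. -/
noncomputable def C16 : Cell := ⟨(14501 / 262144 : ℝ), (4213 / 65536 : ℝ), (-32946817 / 4194304 : ℝ), (-151937457 / 2097152 : ℝ), (-16342147 / 262144 : ℝ), (-10371957 / 268435456 : ℝ)⟩

/-- A chord cell. -/
noncomputable def C17 : Cell := ⟨(4213 / 65536 : ℝ), (153 / 2048 : ℝ), (-31416177 / 4194304 : ℝ), (-143226937 / 2097152 : ℝ), (-243189219 / 4194304 : ℝ), (-8798847 / 134217728 : ℝ)⟩

/-- A chord cell. -/
noncomputable def C18 : Cell := ⟨(153 / 2048 : ℝ), (22759 / 262144 : ℝ), (-464937 / 65536 : ℝ), (-133369231 / 2097152 : ℝ), (-223329779 / 4194304 : ℝ), (-24066309 / 268435456 : ℝ)⟩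

/-- A chord cell. -/
noncomputable def C19 : Cell := ⟨(22759 / 262144 : ℝ), (1653 / 16384 : ℝ), (-27945613 / 4194304 : ℝ), (-122875849 / 2097152 : ℝ), (-202017627 / 4194304 : ℝ), (-16799359 / 134217728 : ℝ)⟩

/-- A chord cell. -/
noncomputable def C20 : Cell := ⟨(1653 / 16384 : ℝ), (30735 / 262144 : ℝ), (-26002229 / 4194304 : ℝ), (-224730309 / 4194304 : ℝ), (-179469225 / 4194304 : ℝ), (-26697819 / 134217728 : ℝ)⟩

/-- A chord cell. -/
noncomputable def C21 : Cell := ⟨(30735 / 262144 : ℝ), (35717 / 262144 : ℝ), (-6023369 / 1048576 : ℝ), (-201124707 / 4194304 : ℝ), (-78006681 / 2097152 : ℝ), (-68639569 / 268435456 : ℝ)⟩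

/-- A chord cell. -/
noncomputable def C22 : Cell := ⟨(35717 / 262144 : ℝ), (41507 / 262144 : ℝ), (-11030239 / 2097152 : ℝ), (-90164011 / 2097152 : ℝ), (-4128383 / 131072 : ℝ), (-7098463 / 16777216 : ℝ)⟩

/-- A chord cell. -/
noncomputable def C23 : Cell := ⟨(41507 / 262144 : ℝ), (191 / 1024 : ℝ), (-5058895 / 1048576 : ℝ), (-80741095 / 2097152 : ℝ), (-107234823 / 4194304 : ℝ), (-199616317 / 268435456 : ℝ)⟩

/-- The chord cells. -/
noncomputable def cellsL : List Cell := [C0, C1, C2, C3, C4, C5, C6, C7, C8, C9, C10, C11, C12, C13, C14, C15, C16, C17, C18, C19, C20, C21, C22, C23]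

lemma hcover : ∀ x : ℝ, (5243 / 1048576 : ℝ) ≤ x → x ≤ (191 / 1024 : ℝ) → ∃ D ∈ cellsL, D.l ≤ x ∧ x ≤ D.u := by
  refine cover_of_chain ?_ (by norm_num [C0])
  simp only [ChainP, C0, C1, C2, C3, C4, C5, C6, C7, C8, C9, C10, C11, C12, C13, C14, C15, C16, C17, C18, C19, C20, C21, C22, C23]
  norm_num

lemma hch : ((Nat.choose 8 2 : ℕ) : ℝ) = 28 := by norm_num [Nat.choose]

lemma rTa : Rw4 P.r1 (1179648 : ℝ) (coTa 8 (87579 / 65536 : ℝ) (868797 / 65536 : ℝ) (379421 / 32768 : ℝ) (107 / 256 : ℝ) (71 / 4096 : ℝ)) := by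
  refine ⟨⟨Ra, List.mem_cons_self, ?_⟩, by norm_num⟩
  constructor <;> norm_num [Ra, coTa, hch]

lemma rTb : Rw4 P.r1 (4947802324992 : ℝ) (coTb 8 (87579 / 65536 : ℝ) (868797 / 65536 : ℝ) (379421 / 32768 : ℝ) (107 / 256 : ℝ) (71 / 4096 : ℝ) (45 / 512 : ℝ) (4233 / 4096 : ℝ) (565 / 2048 : ℝ)) := by
  refine ⟨⟨Rb, List.mem_cons_of_mem _ (List.mem_cons_self), ?_⟩, by norm_num⟩
  constructor <;> norm_num [Rb, coTb, hch]

lemma rc1 : Rw4 P.r2 (16777216 : ℝ) ⟨0, 0, 0, -(87579 / 65536 : ℝ), 0, 0, 0, 0, (379421 / 32768 : ℝ) * (45 / 512 : ℝ)⟩ := by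
  refine ⟨⟨Q0, List.mem_cons_self, ?_⟩, by norm_num⟩
  constructor <;> norm_num [Q0]

lemma rc2 : Rw4 P.r2 (134217728 : ℝ) ⟨0, 0, 0, 0, -(868797 / 65536 : ℝ), 0, 0, 0, (379421 / 32768 : ℝ) * (4233 / 4096 : ℝ)⟩ := by
  refine ⟨⟨Q1, List.mem_cons_of_mem _ (List.mem_cons_self), ?_⟩, by norm_num⟩
  constructor <;> norm_num [Q1]

lemma rc3 : Rw4 P.r2 (3072 : ℝ) ⟨0, 0, 0, 0, 0, -1, 0, 0, (191 / 1024 : ℝ)⟩ := by
  refine ⟨⟨Q2, List.mem_cons_of_mem _ (List.mem_cons_of_mem _ (List.mem_cons_self)), ?_⟩, by norm_num⟩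
  constructor <;> norm_num [Q2]

lemma rcell0 : ∃ N : ℝ, Rw4 P.r2 N (coCell (87579 / 65536 : ℝ) (868797 / 65536 : ℝ) ((379421 / 32768 : ℝ) + (107 / 256 : ℝ)) (71 / 4096 : ℝ) C0) := by
  refine ⟨(150994944 : ℝ), ⟨Q3, List.mem_cons_of_mem _ (List.mem_cons_of_mem _ (List.mem_cons_of_mem _ (List.mem_cons_self))), ?_⟩, by norm_num⟩
  constructor <;> norm_num [Q3, coCell, C0]

lemma lcell0 : ∀ x1 x2 xc : ℝ, 0 ≤ x1 → x1 ≤ 1 → 0 ≤ x2 → x2 ≤ 1 → C0.l ≤ xc → xc ≤ C0.u →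
    (87579 / 65536 : ℝ) * (1 - (1 - x1) ^ 8) + (868797 / 65536 : ℝ) * (1 - (1 - x2) ^ 8) - ((379421 / 32768 : ℝ) + (107 / 256 : ℝ)) * (1 - (1 - xc) ^ 8)
      ≤ - C0.a1 * x1 - C0.a2 * x2 + C0.e * xc + C0.f := by
  have h := cell_lines 8 (α1 := (87579 / 65536 : ℝ)) (α2 := (868797 / 65536 : ℝ)) (c := (379421 / 32768 : ℝ) + (107 / 256 : ℝ)) (y1 := (1065 / 262144 : ℝ)) (y2 := (637 / 131072 : ℝ))
    (A1 := (43580687 / 4194304 : ℝ)) (B1 := (40779 / 67108864 : ℝ)) (A2 := (214955119 / 2097152 : ℝ)) (B2 := (2308063 / 268435456 : ℝ)) (l := (5243 / 1048576 : ℝ)) (u := (1523 / 262144 : ℝ))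
    (E := (-387566599 / 4194304 : ℝ)) (F := (-2563387 / 268435456 : ℝ)) (by norm_num) (by norm_num) (by norm_num) (by norm_num) (by norm_num)
    (by norm_num) (by norm_num) (by norm_num) (by norm_num) (by norm_num) (by norm_num) (by norm_num) (by norm_num) (by norm_num) (by norm_num)
  have e1 : C0.l = (5243 / 1048576 : ℝ) := rfl
  have e2 : C0.u = (1523 / 262144 : ℝ) := rfl
  have e3 : C0.a1 = -(43580687 / 4194304 : ℝ) := by norm_num [C0]
  have e4 : C0.a2 = -(214955119 / 2097152 : ℝ) := by norm_num [C0]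
  have e5 : C0.e = (-387566599 / 4194304 : ℝ) := rfl
  have e6 : C0.f = (40779 / 67108864 : ℝ) + (2308063 / 268435456 : ℝ) + (-2563387 / 268435456 : ℝ) := by norm_num [C0]
  rw [e1, e2, e3, e4, e5, e6]
  exact h

lemma rcell1 : ∃ N : ℝ, Rw4 P.r2 N (coCell (87579 / 65536 : ℝ) (868797 / 65536 : ℝ) ((379421 / 32768 : ℝ) + (107 / 256 : ℝ)) (71 / 4096 : ℝ) C1) := by
  refine ⟨(75497472 : ℝ), ⟨Q4, List.mem_cons_of_mem _ (List.mem_cons_of_mem _ (List.mem_cons_of_mem _ (List.mem_cons_of_mem _ (List.mem_cons_self)))), ?_⟩, by norm_num⟩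
  constructor <;> norm_num [Q4, coCell, C1]

lemma lcell1 : ∀ x1 x2 xc : ℝ, 0 ≤ x1 → x1 ≤ 1 → 0 ≤ x2 → x2 ≤ 1 → C1.l ≤ xc → xc ≤ C1.u →
    (87579 / 65536 : ℝ) * (1 - (1 - x1) ^ 8) + (868797 / 65536 : ℝ) * (1 - (1 - x2) ^ 8) - ((379421 / 32768 : ℝ) + (107 / 256 : ℝ)) * (1 - (1 - xc) ^ 8)
      ≤ - C1.a1 * x1 - C1.a2 * x2 + C1.e * xc + C1.f := by
  have h := cell_lines 8 (α1 := (87579 / 65536 : ℝ)) (α2 := (868797 / 65536 : ℝ)) (c := (379421 / 32768 : ℝ) + (107 / 256 : ℝ)) (y1 := (1239 / 262144 : ℝ)) (y2 := (1481 / 262144 : ℝ))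
    (A1 := (21688889 / 2097152 : ℝ)) (B1 := (220185 / 268435456 : ℝ)) (A2 := (213763991 / 2097152 : ℝ)) (B2 := (3109185 / 268435456 : ℝ)) (l := (1523 / 262144 : ℝ)) (u := (885 / 131072 : ℝ))
    (E := (-385183725 / 4194304 : ℝ)) (F := (-1724701 / 134217728 : ℝ)) (by norm_num) (by norm_num) (by norm_num) (by norm_num) (by norm_num)
    (by norm_num) (by norm_num) (by norm_num) (by norm_num) (by norm_num) (by norm_num) (by norm_num) (by norm_num) (by norm_num) (by norm_num)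
  have e1 : C1.l = (1523 / 262144 : ℝ) := rfl
  have e2 : C1.u = (885 / 131072 : ℝ) := rfl
  have e3 : C1.a1 = -(21688889 / 2097152 : ℝ) := by norm_num [C1]
  have e4 : C1.a2 = -(213763991 / 2097152 : ℝ) := by norm_num [C1]
  have e5 : C1.e = (-385183725 / 4194304 : ℝ) := rfl
  have e6 : C1.f = (220185 / 268435456 : ℝ) + (3109185 / 268435456 : ℝ) + (-1724701 / 134217728 : ℝ) := by norm_num [C1]
  rw [e1, e2, e3, e4, e5, e6]
  exact h

lemma rcell2 : ∃ N : ℝ, Rw4 P.r2 N (coCell (87579 / 65536 : ℝ) (868797 / 65536 : ℝ) ((379421 / 32768 : ℝ) + (107 / 256 : ℝ)) (71 / 4096 : ℝ) C2) := by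
  refine ⟨(2415919104 : ℝ), ⟨Q5, List.mem_cons_of_mem _ (List.mem_cons_of_mem _ (List.mem_cons_of_mem _ (List.mem_cons_of_mem _ (List.mem_cons_of_mem _ (List.mem_cons_self))))), ?_⟩, by norm_num⟩
  constructor <;> norm_num [Q5, coCell, C2]

lemma lcell2 : ∀ x1 x2 xc : ℝ, 0 ≤ x1 → x1 ≤ 1 → 0 ≤ x2 → x2 ≤ 1 → C2.l ≤ xc → xc ≤ C2.u →
    (87579 / 65536 : ℝ) * (1 - (1 - x1) ^ 8) + (868797 / 65536 : ℝ) * (1 - (1 - x2) ^ 8) - ((379421 / 32768 : ℝ) + (107 / 256 : ℝ)) * (1 - (1 - xc) ^ 8)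
      ≤ - C2.a1 * x1 - C2.a2 * x2 + C2.e * xc + C2.f := by
  have h := cell_lines 8 (α1 := (87579 / 65536 : ℝ)) (α2 := (868797 / 65536 : ℝ)) (c := (379421 / 32768 : ℝ) + (107 / 256 : ℝ)) (y1 := (1435 / 262144 : ℝ)) (y2 := (429 / 65536 : ℝ))
    (A1 := (5393773 / 524288 : ℝ)) (B1 := (147243 / 134217728 : ℝ)) (A2 := (106209303 / 1048576 : ℝ)) (B2 := (1039801 / 67108864 : ℝ)) (l := (885 / 131072 : ℝ)) (u := (2057 / 262144 : ℝ))
    (E := (-382428831 / 4194304 : ℝ)) (F := (-4639871 / 268435456 : ℝ)) (by norm_num) (by norm_num) (by norm_num) (by norm_num) (by norm_num)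
    (by norm_num) (by norm_num) (by norm_num) (by norm_num) (by norm_num) (by norm_num) (by norm_num) (by norm_num) (by norm_num) (by norm_num)
  have e1 : C2.l = (885 / 131072 : ℝ) := rfl
  have e2 : C2.u = (2057 / 262144 : ℝ) := rfl
  have e3 : C2.a1 = -(5393773 / 524288 : ℝ) := by norm_num [C2]
  have e4 : C2.a2 = -(106209303 / 1048576 : ℝ) := by norm_num [C2]
  have e5 : C2.e = (-382428831 / 4194304 : ℝ) := rfl
  have e6 : C2.f = (147243 / 134217728 : ℝ) + (1039801 / 67108864 : ℝ) + (-4639871 / 268435456 : ℝ) := by norm_num [C2]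
  rw [e1, e2, e3, e4, e5, e6]
  exact h

lemma rcell3 : ∃ N : ℝ, Rw4 P.r2 N (coCell (87579 / 65536 : ℝ) (868797 / 65536 : ℝ) ((379421 / 32768 : ℝ) + (107 / 256 : ℝ)) (71 / 4096 : ℝ) C3) := by
  refine ⟨(75497472 : ℝ), ⟨Q6, List.mem_cons_of_mem _ (List.mem_cons_of_mem _ (List.mem_cons_of_mem _ (List.mem_cons_of_mem _ (List.mem_cons_of_mem _ (List.mem_cons_of_mem _ (List.mem_cons_self)))))), ?_⟩, by norm_num⟩
  constructor <;> norm_num [Q6, coCell, C3]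

lemma lcell3 : ∀ x1 x2 xc : ℝ, 0 ≤ x1 → x1 ≤ 1 → 0 ≤ x2 → x2 ≤ 1 → C3.l ≤ xc → xc ≤ C3.u →
    (87579 / 65536 : ℝ) * (1 - (1 - x1) ^ 8) + (868797 / 65536 : ℝ) * (1 - (1 - x2) ^ 8) - ((379421 / 32768 : ℝ) + (107 / 256 : ℝ)) * (1 - (1 - xc) ^ 8)
      ≤ - C3.a1 * x1 - C3.a2 * x2 + C3.e * xc + C3.f := by
  have h := cell_lines 8 (α1 := (87579 / 65536 : ℝ)) (α2 := (868797 / 65536 : ℝ)) (c := (379421 / 32768 : ℝ) + (107 / 256 : ℝ)) (y1 := (1687 / 262144 : ℝ)) (y2 := (997 / 131072 : ℝ))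
    (A1 := (10714767 / 1048576 : ℝ)) (B1 := (25339 / 16777216 : ℝ)) (A2 := (421672843 / 4194304 : ℝ)) (B2 := (1398043 / 67108864 : ℝ)) (l := (2057 / 262144 : ℝ)) (u := (1195 / 131072 : ℝ))
    (E := (-23703219 / 262144 : ℝ)) (F := (-1558879 / 67108864 : ℝ)) (by norm_num) (by norm_num) (by norm_num) (by norm_num) (by norm_num)
    (by norm_num) (by norm_num) (by norm_num) (by norm_num) (by norm_num) (by norm_num) (by norm_num) (by norm_num) (by norm_num) (by norm_num)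
  have e1 : C3.l = (2057 / 262144 : ℝ) := rfl
  have e2 : C3.u = (1195 / 131072 : ℝ) := rfl
  have e3 : C3.a1 = -(10714767 / 1048576 : ℝ) := by norm_num [C3]
  have e4 : C3.a2 = -(421672843 / 4194304 : ℝ) := by norm_num [C3]
  have e5 : C3.e = (-23703219 / 262144 : ℝ) := rfl
  have e6 : C3.f = (25339 / 16777216 : ℝ) + (1398043 / 67108864 : ℝ) + (-1558879 / 67108864 : ℝ) := by norm_num [C3]
  rw [e1, e2, e3, e4, e5, e6]
  exact h

lemma rcell4 : ∃ N : ℝ, Rw4 P.r2 N (coCell (87579 / 65536 : ℝ) (868797 / 65536 : ℝ) ((379421 / 32768 : ℝ) + (107 / 256 : ℝ)) (71 / 4096 : ℝ) C4) := by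
  refine ⟨(2415919104 : ℝ), ⟨Q7, List.mem_cons_of_mem _ (List.mem_cons_of_mem _ (List.mem_cons_of_mem _ (List.mem_cons_of_mem _ (List.mem_cons_of_mem _ (List.mem_cons_of_mem _ (List.mem_cons_of_mem _ (List.mem_cons_self))))))), ?_⟩, by norm_num⟩
  constructor <;> norm_num [Q7, coCell, C4]

lemma lcell4 : ∀ x1 x2 xc : ℝ, 0 ≤ x1 → x1 ≤ 1 → 0 ≤ x2 → x2 ≤ 1 → C4.l ≤ xc → xc ≤ C4.u →
    (87579 / 65536 : ℝ) * (1 - (1 - x1) ^ 8) + (868797 / 65536 : ℝ) * (1 - (1 - x2) ^ 8) - ((379421 / 32768 : ℝ) + (107 / 256 : ℝ)) * (1 - (1 - xc) ^ 8)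
      ≤ - C4.a1 * x1 - C4.a2 * x2 + C4.e * xc + C4.f := by
  have h := cell_lines 8 (α1 := (87579 / 65536 : ℝ)) (α2 := (868797 / 65536 : ℝ)) (c := (379421 / 32768 : ℝ) + (107 / 256 : ℝ)) (y1 := (1911 / 262144 : ℝ)) (y2 := (2323 / 262144 : ℝ))
    (A1 := (21300857 / 2097152 : ℝ)) (B1 := (518423 / 268435456 : ℝ)) (A2 := (13061065 / 131072 : ℝ)) (B2 := (7551717 / 268435456 : ℝ)) (l := (1195 / 131072 : ℝ)) (u := (1389 / 131072 : ℝ))
    (E := (-187792563 / 2097152 : ℝ)) (F := (-8374833 / 268435456 : ℝ)) (by norm_num) (by norm_num) (by norm_num) (by norm_num) (by norm_num)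
    (by norm_num) (by norm_num) (by norm_num) (by norm_num) (by norm_num) (by norm_num) (by norm_num) (by norm_num) (by norm_num) (by norm_num)
  have e1 : C4.l = (1195 / 131072 : ℝ) := rfl
  have e2 : C4.u = (1389 / 131072 : ℝ) := rfl
  have e3 : C4.a1 = -(21300857 / 2097152 : ℝ) := by norm_num [C4]
  have e4 : C4.a2 = -(13061065 / 131072 : ℝ) := by norm_num [C4]
  have e5 : C4.e = (-187792563 / 2097152 : ℝ) := rfl
  have e6 : C4.f = (518423 / 268435456 : ℝ) + (7551717 / 268435456 : ℝ) + (-8374833 / 268435456 : ℝ) := by norm_num [C4]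
  rw [e1, e2, e3, e4, e5, e6]
  exact h

lemma rcell5 : ∃ N : ℝ, Rw4 P.r2 N (coCell (87579 / 65536 : ℝ) (868797 / 65536 : ℝ) ((379421 / 32768 : ℝ) + (107 / 256 : ℝ)) (71 / 4096 : ℝ) C5) := by
  refine ⟨(2415919104 : ℝ), ⟨Q8, List.mem_cons_of_mem _ (List.mem_cons_of_mem _ (List.mem_cons_of_mem _ (List.mem_cons_of_mem _ (List.mem_cons_of_mem _ (List.mem_cons_of_mem _ (List.mem_cons_of_mem _ (List.mem_cons_of_mem _ (List.mem_cons_self)))))))), ?_⟩, by norm_num⟩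
  constructor <;> norm_num [Q8, coCell, C5]

lemma lcell5 : ∀ x1 x2 xc : ℝ, 0 ≤ x1 → x1 ≤ 1 → 0 ≤ x2 → x2 ≤ 1 → C5.l ≤ xc → xc ≤ C5.u →
    (87579 / 65536 : ℝ) * (1 - (1 - x1) ^ 8) + (868797 / 65536 : ℝ) * (1 - (1 - x2) ^ 8) - ((379421 / 32768 : ℝ) + (107 / 256 : ℝ)) * (1 - (1 - xc) ^ 8)
      ≤ - C5.a1 * x1 - C5.a2 * x2 + C5.e * xc + C5.f := by
  have h := cell_lines 8 (α1 := (87579 / 65536 : ℝ)) (α2 := (868797 / 65536 : ℝ)) (c := (379421 / 32768 : ℝ) + (107 / 256 : ℝ)) (y1 := (1127 / 131072 : ℝ)) (y2 := (1349 / 131072 : ℝ))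
    (A1 := (21105103 / 2097152 : ℝ)) (B1 := (358731 / 134217728 : ℝ)) (A2 := (103437421 / 1048576 : ℝ)) (B2 := (10128369 / 268435456 : ℝ)) (l := (1389 / 131072 : ℝ)) (u := (807 / 65536 : ℝ))
    (E := (-92840515 / 1048576 : ℝ)) (F := (-2809753 / 67108864 : ℝ)) (by norm_num) (by norm_num) (by norm_num) (by norm_num) (by norm_num)
    (by norm_num) (by norm_num) (by norm_num) (by norm_num) (by norm_num) (by norm_num) (by norm_num) (by norm_num) (by norm_num) (by norm_num)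
  have e1 : C5.l = (1389 / 131072 : ℝ) := rfl
  have e2 : C5.u = (807 / 65536 : ℝ) := rfl
  have e3 : C5.a1 = -(21105103 / 2097152 : ℝ) := by norm_num [C5]
  have e4 : C5.a2 = -(103437421 / 1048576 : ℝ) := by norm_num [C5]
  have e5 : C5.e = (-92840515 / 1048576 : ℝ) := rfl
  have e6 : C5.f = (358731 / 134217728 : ℝ) + (10128369 / 268435456 : ℝ) + (-2809753 / 67108864 : ℝ) := by norm_num [C5]
  rw [e1, e2, e3, e4, e5, e6]
  exact h

lemma rcell6 : ∃ N : ℝ, Rw4 P.r2 N (coCell (87579 / 65536 : ℝ) (868797 / 65536 : ℝ) ((379421 / 32768 : ℝ) + (107 / 256 : ℝ)) (71 / 4096 : ℝ) C6) := by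
  refine ⟨(2415919104 : ℝ), ⟨Q9, List.mem_cons_of_mem _ (List.mem_cons_of_mem _ (List.mem_cons_of_mem _ (List.mem_cons_of_mem _ (List.mem_cons_of_mem _ (List.mem_cons_of_mem _ (List.mem_cons_of_mem _ (List.mem_cons_of_mem _ (List.mem_cons_of_mem _ (List.mem_cons_self))))))))), ?_⟩, by norm_num⟩
  constructor <;> norm_num [Q9, coCell, C6]

lemma lcell6 : ∀ x1 x2 xc : ℝ, 0 ≤ x1 → x1 ≤ 1 → 0 ≤ x2 → x2 ≤ 1 → C6.l ≤ xc → xc ≤ C6.u →
    (87579 / 65536 : ℝ) * (1 - (1 - x1) ^ 8) + (868797 / 65536 : ℝ) * (1 - (1 - x2) ^ 8) - ((379421 / 32768 : ℝ) + (107 / 256 : ℝ)) * (1 - (1 - xc) ^ 8)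
      ≤ - C6.a1 * x1 - C6.a2 * x2 + C6.e * xc + C6.f := by
  have h := cell_lines 8 (α1 := (87579 / 65536 : ℝ)) (α2 := (868797 / 65536 : ℝ)) (c := (379421 / 32768 : ℝ) + (107 / 256 : ℝ)) (y1 := (653 / 65536 : ℝ)) (y2 := (781 / 65536 : ℝ))
    (A1 := (41804871 / 4194304 : ℝ)) (B1 := (239549 / 67108864 : ℝ)) (A2 := (204508761 / 2097152 : ℝ)) (B2 := (13491059 / 268435456 : ℝ)) (l := (807 / 65536 : ℝ)) (u := (469 / 32768 : ℝ))
    (E := (-183252473 / 2097152 : ℝ)) (F := (-3766709 / 67108864 : ℝ)) (by norm_num) (by norm_num) (by norm_num) (by norm_num) (by norm_num)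
    (by norm_num) (by norm_num) (by norm_num) (by norm_num) (by norm_num) (by norm_num) (by norm_num) (by norm_num) (by norm_num) (by norm_num)
  have e1 : C6.l = (807 / 65536 : ℝ) := rfl
  have e2 : C6.u = (469 / 32768 : ℝ) := rfl
  have e3 : C6.a1 = -(41804871 / 4194304 : ℝ) := by norm_num [C6]
  have e4 : C6.a2 = -(204508761 / 2097152 : ℝ) := by norm_num [C6]
  have e5 : C6.e = (-183252473 / 2097152 : ℝ) := rfl
  have e6 : C6.f = (239549 / 67108864 : ℝ) + (13491059 / 268435456 : ℝ) + (-3766709 / 67108864 : ℝ) := by norm_num [C6]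
  rw [e1, e2, e3, e4, e5, e6]
  exact h

lemma rcell7 : ∃ N : ℝ, Rw4 P.r2 N (coCell (87579 / 65536 : ℝ) (868797 / 65536 : ℝ) ((379421 / 32768 : ℝ) + (107 / 256 : ℝ)) (71 / 4096 : ℝ) C7) := by
  refine ⟨(2415919104 : ℝ), ⟨Q10, List.mem_cons_of_mem _ (List.mem_cons_of_mem _ (List.mem_cons_of_mem _ (List.mem_cons_of_mem _ (List.mem_cons_of_mem _ (List.mem_cons_of_mem _ (List.mem_cons_of_mem _ (List.mem_cons_of_mem _ (List.mem_cons_of_mem _ (List.mem_cons_of_mem _ (List.mem_cons_self)))))))))), ?_⟩, by norm_num⟩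
  constructor <;> norm_num [Q10, coCell, C7]

lemma lcell7 : ∀ x1 x2 xc : ℝ, 0 ≤ x1 → x1 ≤ 1 → 0 ≤ x2 → x2 ≤ 1 → C7.l ≤ xc → xc ≤ C7.u →
    (87579 / 65536 : ℝ) * (1 - (1 - x1) ^ 8) + (868797 / 65536 : ℝ) * (1 - (1 - x2) ^ 8) - ((379421 / 32768 : ℝ) + (107 / 256 : ℝ)) * (1 - (1 - xc) ^ 8)
      ≤ - C7.a1 * x1 - C7.a2 * x2 + C7.e * xc + C7.f := by
  have h := cell_lines 8 (α1 := (87579 / 65536 : ℝ)) (α2 := (868797 / 65536 : ℝ)) (c := (379421 / 32768 : ℝ) + (107 / 256 : ℝ)) (y1 := (3031 / 262144 : ℝ)) (y2 := (3631 / 262144 : ℝ))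
    (A1 := (41334711 / 4194304 : ℝ)) (B1 := (641017 / 134217728 : ℝ)) (A2 := (403446111 / 4194304 : ℝ)) (B2 := (18084485 / 268435456 : ℝ)) (l := (469 / 32768 : ℝ)) (u := (545 / 32768 : ℝ))
    (E := (-360928545 / 4194304 : ℝ)) (F := (-10087453 / 134217728 : ℝ)) (by norm_num) (by norm_num) (by norm_num) (by norm_num) (by norm_num)
    (by norm_num) (by norm_num) (by norm_num) (by norm_num) (by norm_num) (by norm_num) (by norm_num) (by norm_num) (by norm_num) (by norm_num)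
  have e1 : C7.l = (469 / 32768 : ℝ) := rfl
  have e2 : C7.u = (545 / 32768 : ℝ) := rfl
  have e3 : C7.a1 = -(41334711 / 4194304 : ℝ) := by norm_num [C7]
  have e4 : C7.a2 = -(403446111 / 4194304 : ℝ) := by norm_num [C7]
  have e5 : C7.e = (-360928545 / 4194304 : ℝ) := rfl
  have e6 : C7.f = (641017 / 134217728 : ℝ) + (18084485 / 268435456 : ℝ) + (-10087453 / 134217728 : ℝ) := by norm_num [C7]
  rw [e1, e2, e3, e4, e5, e6]
  exact h

lemma rcell8 : ∃ N : ℝ, Rw4 P.r2 N (coCell (87579 / 65536 : ℝ) (868797 / 65536 : ℝ) ((379421 / 32768 : ℝ) + (107 / 256 : ℝ)) (71 / 4096 : ℝ) C8) := by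
  refine ⟨(150994944 : ℝ), ⟨Q11, List.mem_cons_of_mem _ (List.mem_cons_of_mem _ (List.mem_cons_of_mem _ (List.mem_cons_of_mem _ (List.mem_cons_of_mem _ (List.mem_cons_of_mem _ (List.mem_cons_of_mem _ (List.mem_cons_of_mem _ (List.mem_cons_of_mem _ (List.mem_cons_of_mem _ (List.mem_cons_of_mem _ (List.mem_cons_self))))))))))), ?_⟩, by norm_num⟩
  constructor <;> norm_num [Q11, coCell, C8]

lemma lcell8 : ∀ x1 x2 xc : ℝ, 0 ≤ x1 → x1 ≤ 1 → 0 ≤ x2 → x2 ≤ 1 → C8.l ≤ xc → xc ≤ C8.u →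
    (87579 / 65536 : ℝ) * (1 - (1 - x1) ^ 8) + (868797 / 65536 : ℝ) * (1 - (1 - x2) ^ 8) - ((379421 / 32768 : ℝ) + (107 / 256 : ℝ)) * (1 - (1 - xc) ^ 8)
      ≤ - C8.a1 * x1 - C8.a2 * x2 + C8.e * xc + C8.f := by
  have h := cell_lines 8 (α1 := (87579 / 65536 : ℝ)) (α2 := (868797 / 65536 : ℝ)) (c := (379421 / 32768 : ℝ) + (107 / 256 : ℝ)) (y1 := (1765 / 131072 : ℝ)) (y2 := (4221 / 262144 : ℝ))
    (A1 := (40780703 / 4194304 : ℝ)) (B1 := (1725679 / 268435456 : ℝ)) (A2 := (397044625 / 4194304 : ℝ)) (B2 := (12109615 / 134217728 : ℝ)) (l := (545 / 32768 : ℝ)) (u := (2533 / 131072 : ℝ))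
    (E := (-177273555 / 2097152 : ℝ)) (F := (-26967645 / 268435456 : ℝ)) (by norm_num) (by norm_num) (by norm_num) (by norm_num) (by norm_num)
    (by norm_num) (by norm_num) (by norm_num) (by norm_num) (by norm_num) (by norm_num) (by norm_num) (by norm_num) (by norm_num) (by norm_num)
  have e1 : C8.l = (545 / 32768 : ℝ) := rfl
  have e2 : C8.u = (2533 / 131072 : ℝ) := rfl
  have e3 : C8.a1 = -(40780703 / 4194304 : ℝ) := by norm_num [C8]
  have e4 : C8.a2 = -(397044625 / 4194304 : ℝ) := by norm_num [C8]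
  have e5 : C8.e = (-177273555 / 2097152 : ℝ) := rfl
  have e6 : C8.f = (1725679 / 268435456 : ℝ) + (12109615 / 134217728 : ℝ) + (-26967645 / 268435456 : ℝ) := by norm_num [C8]
  rw [e1, e2, e3, e4, e5, e6]
  exact h

lemma rcell9 : ∃ N : ℝ, Rw4 P.r2 N (coCell (87579 / 65536 : ℝ) (868797 / 65536 : ℝ) ((379421 / 32768 : ℝ) + (107 / 256 : ℝ)) (71 / 4096 : ℝ) C9) := by
  refine ⟨(2415919104 : ℝ), ⟨Q12, List.mem_cons_of_mem _ (List.mem_cons_of_mem _ (List.mem_cons_of_mem _ (List.mem_cons_of_mem _ (List.mem_cons_of_mem _ (List.mem_cons_of_mem _ (List.mem_cons_of_mem _ (List.mem_cons_of_mem _ (List.mem_cons_of_mem _ (List.mem_cons_of_mem _ (List.mem_cons_of_mem _ (List.mem_cons_of_mem _ (List.mem_cons_self)))))))))))), ?_⟩, by norm_num⟩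
  constructor <;> norm_num [Q12, coCell, C9]

lemma lcell9 : ∀ x1 x2 xc : ℝ, 0 ≤ x1 → x1 ≤ 1 → 0 ≤ x2 → x2 ≤ 1 → C9.l ≤ xc → xc ≤ C9.u →
    (87579 / 65536 : ℝ) * (1 - (1 - x1) ^ 8) + (868797 / 65536 : ℝ) * (1 - (1 - x2) ^ 8) - ((379421 / 32768 : ℝ) + (107 / 256 : ℝ)) * (1 - (1 - xc) ^ 8)
      ≤ - C9.a1 * x1 - C9.a2 * x2 + C9.e * xc + C9.f := by
  have h := cell_lines 8 (α1 := (87579 / 65536 : ℝ)) (α2 := (868797 / 65536 : ℝ)) (c := (379421 / 32768 : ℝ) + (107 / 256 : ℝ)) (y1 := (1997 / 131072 : ℝ)) (y2 := (4913 / 262144 : ℝ))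
    (A1 := (10067819 / 1048576 : ℝ)) (B1 := (1096763 / 134217728 : ℝ)) (A2 := (389647561 / 4194304 : ℝ)) (B2 := (16232613 / 134217728 : ℝ)) (l := (2533 / 131072 : ℝ)) (u := (23 / 1024 : ℝ))
    (E := (-347248489 / 4194304 : ℝ)) (F := (-35994699 / 268435456 : ℝ)) (by norm_num) (by norm_num) (by norm_num) (by norm_num) (by norm_num)
    (by norm_num) (by norm_num) (by norm_num) (by norm_num) (by norm_num) (by norm_num) (by norm_num) (by norm_num) (by norm_num) (by norm_num)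
  have e1 : C9.l = (2533 / 131072 : ℝ) := rfl
  have e2 : C9.u = (23 / 1024 : ℝ) := rfl
  have e3 : C9.a1 = -(10067819 / 1048576 : ℝ) := by norm_num [C9]
  have e4 : C9.a2 = -(389647561 / 4194304 : ℝ) := by norm_num [C9]
  have e5 : C9.e = (-347248489 / 4194304 : ℝ) := rfl
  have e6 : C9.f = (1096763 / 134217728 : ℝ) + (16232613 / 134217728 : ℝ) + (-35994699 / 268435456 : ℝ) := by norm_num [C9]
  rw [e1, e2, e3, e4, e5, e6]
  exact h

lemma rcell10 : ∃ N : ℝ, Rw4 P.r2 N (coCell (87579 / 65536 : ℝ) (868797 / 65536 : ℝ) ((379421 / 32768 : ℝ) + (107 / 256 : ℝ)) (71 / 4096 : ℝ) C10) := by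
  refine ⟨(2415919104 : ℝ), ⟨Q13, List.mem_cons_of_mem _ (List.mem_cons_of_mem _ (List.mem_cons_of_mem _ (List.mem_cons_of_mem _ (List.mem_cons_of_mem _ (List.mem_cons_of_mem _ (List.mem_cons_of_mem _ (List.mem_cons_of_mem _ (List.mem_cons_of_mem _ (List.mem_cons_of_mem _ (List.mem_cons_of_mem _ (List.mem_cons_of_mem _ (List.mem_cons_of_mem _ (List.mem_cons_self))))))))))))), ?_⟩, by norm_num⟩
  constructor <;> norm_num [Q13, coCell, C10]

lemma lcell10 : ∀ x1 x2 xc : ℝ, 0 ≤ x1 → x1 ≤ 1 → 0 ≤ x2 → x2 ≤ 1 → C10.l ≤ xc → xc ≤ C10.u →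
    (87579 / 65536 : ℝ) * (1 - (1 - x1) ^ 8) + (868797 / 65536 : ℝ) * (1 - (1 - x2) ^ 8) - ((379421 / 32768 : ℝ) + (107 / 256 : ℝ)) * (1 - (1 - xc) ^ 8)
      ≤ - C10.a1 * x1 - C10.a2 * x2 + C10.e * xc + C10.f := by
  have h := cell_lines 8 (α1 := (87579 / 65536 : ℝ)) (α2 := (868797 / 65536 : ℝ)) (c := (379421 / 32768 : ℝ) + (107 / 256 : ℝ)) (y1 := (585 / 32768 : ℝ)) (y2 := (2849 / 131072 : ℝ))
    (A1 := (2470507 / 262144 : ℝ)) (B1 := (2980245 / 268435456 : ℝ)) (A2 := (381399681 / 4194304 : ℝ)) (B2 := (43146187 / 268435456 : ℝ)) (l := (23 / 1024 : ℝ)) (u := (3421 / 131072 : ℝ))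
    (E := (-338927725 / 4194304 : ℝ)) (F := (-47955797 / 268435456 : ℝ)) (by norm_num) (by norm_num) (by norm_num) (by norm_num) (by norm_num)
    (by norm_num) (by norm_num) (by norm_num) (by norm_num) (by norm_num) (by norm_num) (by norm_num) (by norm_num) (by norm_num) (by norm_num)
  have e1 : C10.l = (23 / 1024 : ℝ) := rfl
  have e2 : C10.u = (3421 / 131072 : ℝ) := rfl
  have e3 : C10.a1 = -(2470507 / 262144 : ℝ) := by norm_num [C10]
  have e4 : C10.a2 = -(381399681 / 4194304 : ℝ) := by norm_num [C10]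
  have e5 : C10.e = (-338927725 / 4194304 : ℝ) := rfl
  have e6 : C10.f = (2980245 / 268435456 : ℝ) + (43146187 / 268435456 : ℝ) + (-47955797 / 268435456 : ℝ) := by norm_num [C10]
  rw [e1, e2, e3, e4, e5, e6]
  exact h

lemma rcell11 : ∃ N : ℝ, Rw4 P.r2 N (coCell (87579 / 65536 : ℝ) (868797 / 65536 : ℝ) ((379421 / 32768 : ℝ) + (107 / 256 : ℝ)) (71 / 4096 : ℝ) C11) := by
  refine ⟨(2415919104 : ℝ), ⟨Q14, List.mem_cons_of_mem _ (List.mem_cons_of_mem _ (List.mem_cons_of_mem _ (List.mem_cons_of_mem _ (List.mem_cons_of_mem _ (List.mem_cons_of_mem _ (List.mem_cons_of_mem _ (List.mem_cons_of_mem _ (List.mem_cons_of_mem _ (List.mem_cons_of_mem _ (List.mem_cons_of_mem _ (List.mem_cons_of_mem _ (List.mem_cons_of_mem _ (List.mem_cons_of_mem _ (List.mem_cons_self)))))))))))))), ?_⟩, by norm_num⟩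
  constructor <;> norm_num [Q14, coCell, C11]

lemma lcell11 : ∀ x1 x2 xc : ℝ, 0 ≤ x1 → x1 ≤ 1 → 0 ≤ x2 → x2 ≤ 1 → C11.l ≤ xc → xc ≤ C11.u →
    (87579 / 65536 : ℝ) * (1 - (1 - x1) ^ 8) + (868797 / 65536 : ℝ) * (1 - (1 - x2) ^ 8) - ((379421 / 32768 : ℝ) + (107 / 256 : ℝ)) * (1 - (1 - xc) ^ 8)
      ≤ - C11.a1 * x1 - C11.a2 * x2 + C11.e * xc + C11.f := by
  have h := cell_lines 8 (α1 := (87579 / 65536 : ℝ)) (α2 := (868797 / 65536 : ℝ)) (c := (379421 / 32768 : ℝ) + (107 / 256 : ℝ)) (y1 := (5441 / 262144 : ℝ)) (y2 := (825 / 32768 : ℝ))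
    (A1 := (38717481 / 4194304 : ℝ)) (B1 := (995385 / 67108864 : ℝ)) (A2 := (372107685 / 4194304 : ℝ)) (B2 := (57091903 / 268435456 : ℝ)) (l := (3421 / 131072 : ℝ)) (u := (7951 / 262144 : ℝ))
    (E := (-329477867 / 4194304 : ℝ)) (F := (-7967617 / 33554432 : ℝ)) (by norm_num) (by norm_num) (by norm_num) (by norm_num) (by norm_num)
    (by norm_num) (by norm_num) (by norm_num) (by norm_num) (by norm_num) (by norm_num) (by norm_num) (by norm_num) (by norm_num) (by norm_num)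
  have e1 : C11.l = (3421 / 131072 : ℝ) := rfl
  have e2 : C11.u = (7951 / 262144 : ℝ) := rfl
  have e3 : C11.a1 = -(38717481 / 4194304 : ℝ) := by norm_num [C11]
  have e4 : C11.a2 = -(372107685 / 4194304 : ℝ) := by norm_num [C11]
  have e5 : C11.e = (-329477867 / 4194304 : ℝ) := rfl
  have e6 : C11.f = (995385 / 67108864 : ℝ) + (57091903 / 268435456 : ℝ) + (-7967617 / 33554432 : ℝ) := by norm_num [C11]
  rw [e1, e2, e3, e4, e5, e6]
  exact h

lemma rcell12 : ∃ N : ℝ, Rw4 P.r2 N (coCell (87579 / 65536 : ℝ) (868797 / 65536 : ℝ) ((379421 / 32768 : ℝ) + (107 / 256 : ℝ)) (71 / 4096 : ℝ) C12) := by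
  refine ⟨(603979776 : ℝ), ⟨Q15, List.mem_cons_of_mem _ (List.mem_cons_of_mem _ (List.mem_cons_of_mem _ (List.mem_cons_of_mem _ (List.mem_cons_of_mem _ (List.mem_cons_of_mem _ (List.mem_cons_of_mem _ (List.mem_cons_of_mem _ (List.mem_cons_of_mem _ (List.mem_cons_of_mem _ (List.mem_cons_of_mem _ (List.mem_cons_of_mem _ (List.mem_cons_of_mem _ (List.mem_cons_of_mem _ (List.mem_cons_of_mem _ (List.mem_cons_self))))))))))))))), ?_⟩, by norm_num⟩
  constructor <;> norm_num [Q15, coCell, C12]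

lemma lcell12 : ∀ x1 x2 xc : ℝ, 0 ≤ x1 → x1 ≤ 1 → 0 ≤ x2 → x2 ≤ 1 → C12.l ≤ xc → xc ≤ C12.u →
    (87579 / 65536 : ℝ) * (1 - (1 - x1) ^ 8) + (868797 / 65536 : ℝ) * (1 - (1 - x2) ^ 8) - ((379421 / 32768 : ℝ) + (107 / 256 : ℝ)) * (1 - (1 - xc) ^ 8)
      ≤ - C12.a1 * x1 - C12.a2 * x2 + C12.e * xc + C12.f := by
  have h := cell_lines 8 (α1 := (87579 / 65536 : ℝ)) (α2 := (868797 / 65536 : ℝ)) (c := (379421 / 32768 : ℝ) + (107 / 256 : ℝ)) (y1 := (6353 / 262144 : ℝ)) (y2 := (1915 / 65536 : ℝ))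
    (A1 := (18882405 / 2097152 : ℝ)) (B1 := (5352715 / 268435456 : ℝ)) (A2 := (361436657 / 4194304 : ℝ)) (B2 := (37830737 / 134217728 : ℝ)) (l := (7951 / 262144 : ℝ)) (u := (1155 / 32768 : ℝ))
    (E := (-39847337 / 524288 : ℝ)) (F := (-84509761 / 268435456 : ℝ)) (by norm_num) (by norm_num) (by norm_num) (by norm_num) (by norm_num)
    (by norm_num) (by norm_num) (by norm_num) (by norm_num) (by norm_num) (by norm_num) (by norm_num) (by norm_num) (by norm_num) (by norm_num)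
  have e1 : C12.l = (7951 / 262144 : ℝ) := rfl
  have e2 : C12.u = (1155 / 32768 : ℝ) := rfl
  have e3 : C12.a1 = -(18882405 / 2097152 : ℝ) := by norm_num [C12]
  have e4 : C12.a2 = -(361436657 / 4194304 : ℝ) := by norm_num [C12]
  have e5 : C12.e = (-39847337 / 524288 : ℝ) := rfl
  have e6 : C12.f = (5352715 / 268435456 : ℝ) + (37830737 / 134217728 : ℝ) + (-84509761 / 268435456 : ℝ) := by norm_num [C12]
  rw [e1, e2, e3, e4, e5, e6]
  exact h

lemma rcell13 : ∃ N : ℝ, Rw4 P.r2 N (coCell (87579 / 65536 : ℝ) (868797 / 65536 : ℝ) ((379421 / 32768 : ℝ) + (107 / 256 : ℝ)) (71 / 4096 : ℝ) C13) := by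
  refine ⟨(2415919104 : ℝ), ⟨Q16, List.mem_cons_of_mem _ (List.mem_cons_of_mem _ (List.mem_cons_of_mem _ (List.mem_cons_of_mem _ (List.mem_cons_of_mem _ (List.mem_cons_of_mem _ (List.mem_cons_of_mem _ (List.mem_cons_of_mem _ (List.mem_cons_of_mem _ (List.mem_cons_of_mem _ (List.mem_cons_of_mem _ (List.mem_cons_of_mem _ (List.mem_cons_of_mem _ (List.mem_cons_of_mem _ (List.mem_cons_of_mem _ (List.mem_cons_of_mem _ (List.mem_cons_self)))))))))))))))), ?_⟩, by norm_num⟩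
  constructor <;> norm_num [Q16, coCell, C13]

lemma lcell13 : ∀ x1 x2 xc : ℝ, 0 ≤ x1 → x1 ≤ 1 → 0 ≤ x2 → x2 ≤ 1 → C13.l ≤ xc → xc ≤ C13.u →
    (87579 / 65536 : ℝ) * (1 - (1 - x1) ^ 8) + (868797 / 65536 : ℝ) * (1 - (1 - x2) ^ 8) - ((379421 / 32768 : ℝ) + (107 / 256 : ℝ)) * (1 - (1 - xc) ^ 8)
      ≤ - C13.a1 * x1 - C13.a2 * x2 + C13.e * xc + C13.f := by
  have h := cell_lines 8 (α1 := (87579 / 65536 : ℝ)) (α2 := (868797 / 65536 : ℝ)) (c := (379421 / 32768 : ℝ) + (107 / 256 : ℝ)) (y1 := (7227 / 262144 : ℝ)) (y2 := (8911 / 262144 : ℝ))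
    (A1 := (36870759 / 4194304 : ℝ)) (B1 := (1708617 / 67108864 : ℝ)) (A2 := (174590627 / 2097152 : ℝ)) (B2 := (25110701 / 67108864 : ℝ)) (l := (1155 / 32768 : ℝ)) (u := (5369 / 131072 : ℝ))
    (E := (-153360051 / 2097152 : ℝ)) (F := (-111712253 / 268435456 : ℝ)) (by norm_num) (by norm_num) (by norm_num) (by norm_num) (by norm_num)
    (by norm_num) (by norm_num) (by norm_num) (by norm_num) (by norm_num) (by norm_num) (by norm_num) (by norm_num) (by norm_num) (by norm_num)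
  have e1 : C13.l = (1155 / 32768 : ℝ) := rfl
  have e2 : C13.u = (5369 / 131072 : ℝ) := rfl
  have e3 : C13.a1 = -(36870759 / 4194304 : ℝ) := by norm_num [C13]
  have e4 : C13.a2 = -(174590627 / 2097152 : ℝ) := by norm_num [C13]
  have e5 : C13.e = (-153360051 / 2097152 : ℝ) := rfl
  have e6 : C13.f = (1708617 / 67108864 : ℝ) + (25110701 / 67108864 : ℝ) + (-111712253 / 268435456 : ℝ) := by norm_num [C13]
  rw [e1, e2, e3, e4, e5, e6]
  exact h

lemma rcell14 : ∃ N : ℝ, Rw4 P.r2 N (coCell (87579 / 65536 : ℝ) (868797 / 65536 : ℝ) ((379421 / 32768 : ℝ) + (107 / 256 : ℝ)) (71 / 4096 : ℝ) C14) := by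
  refine ⟨(2415919104 : ℝ), ⟨Q17, List.mem_cons_of_mem _ (List.mem_cons_of_mem _ (List.mem_cons_of_mem _ (List.mem_cons_of_mem _ (List.mem_cons_of_mem _ (List.mem_cons_of_mem _ (List.mem_cons_of_mem _ (List.mem_cons_of_mem _ (List.mem_cons_of_mem _ (List.mem_cons_of_mem _ (List.mem_cons_of_mem _ (List.mem_cons_of_mem _ (List.mem_cons_of_mem _ (List.mem_cons_of_mem _ (List.mem_cons_of_mem _ (List.mem_cons_of_mem _ (List.mem_cons_of_mem _ (List.mem_cons_self))))))))))))))))), ?_⟩, by norm_num⟩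
  constructor <;> norm_num [Q17, coCell, C14]

lemma lcell14 : ∀ x1 x2 xc : ℝ, 0 ≤ x1 → x1 ≤ 1 → 0 ≤ x2 → x2 ≤ 1 → C14.l ≤ xc → xc ≤ C14.u →
    (87579 / 65536 : ℝ) * (1 - (1 - x1) ^ 8) + (868797 / 65536 : ℝ) * (1 - (1 - x2) ^ 8) - ((379421 / 32768 : ℝ) + (107 / 256 : ℝ)) * (1 - (1 - xc) ^ 8)
      ≤ - C14.a1 * x1 - C14.a2 * x2 + C14.e * xc + C14.f := by
  have h := cell_lines 8 (α1 := (87579 / 65536 : ℝ)) (α2 := (868797 / 65536 : ℝ)) (c := (379421 / 32768 : ℝ) + (107 / 256 : ℝ)) (y1 := (8571 / 262144 : ℝ)) (y2 := (10325 / 262144 : ℝ))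
    (A1 := (35531337 / 4194304 : ℝ)) (B1 := (9416325 / 268435456 : ℝ)) (A2 := (335759481 / 4194304 : ℝ)) (B2 := (65973047 / 134217728 : ℝ)) (l := (5369 / 131072 : ℝ)) (u := (12479 / 262144 : ℝ))
    (E := (-73299995 / 1048576 : ℝ)) (F := (-73578181 / 134217728 : ℝ)) (by norm_num) (by norm_num) (by norm_num) (by norm_num) (by norm_num)
    (by norm_num) (by norm_num) (by norm_num) (by norm_num) (by norm_num) (by norm_num) (by norm_num) (by norm_num) (by norm_num) (by norm_num)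
  have e1 : C14.l = (5369 / 131072 : ℝ) := rfl
  have e2 : C14.u = (12479 / 262144 : ℝ) := rfl
  have e3 : C14.a1 = -(35531337 / 4194304 : ℝ) := by norm_num [C14]
  have e4 : C14.a2 = -(335759481 / 4194304 : ℝ) := by norm_num [C14]
  have e5 : C14.e = (-73299995 / 1048576 : ℝ) := rfl
  have e6 : C14.f = (9416325 / 268435456 : ℝ) + (65973047 / 134217728 : ℝ) + (-73578181 / 134217728 : ℝ) := by norm_num [C14]
  rw [e1, e2, e3, e4, e5, e6]
  exact h

lemma rcell15 : ∃ N : ℝ, Rw4 P.r2 N (coCell (87579 / 65536 : ℝ) (868797 / 65536 : ℝ) ((379421 / 32768 : ℝ) + (107 / 256 : ℝ)) (71 / 4096 : ℝ) C15) := by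
  refine ⟨(1207959552 : ℝ), ⟨Q18, List.mem_cons_of_mem _ (List.mem_cons_of_mem _ (List.mem_cons_of_mem _ (List.mem_cons_of_mem _ (List.mem_cons_of_mem _ (List.mem_cons_of_mem _ (List.mem_cons_of_mem _ (List.mem_cons_of_mem _ (List.mem_cons_of_mem _ (List.mem_cons_of_mem _ (List.mem_cons_of_mem _ (List.mem_cons_of_mem _ (List.mem_cons_of_mem _ (List.mem_cons_of_mem _ (List.mem_cons_of_mem _ (List.mem_cons_of_mem _ (List.mem_cons_of_mem _ (List.mem_cons_of_mem _ (List.mem_cons_self)))))))))))))))))), ?_⟩, by norm_num⟩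
  constructor <;> norm_num [Q18, coCell, C15]

lemma lcell15 : ∀ x1 x2 xc : ℝ, 0 ≤ x1 → x1 ≤ 1 → 0 ≤ x2 → x2 ≤ 1 → C15.l ≤ xc → xc ≤ C15.u →
    (87579 / 65536 : ℝ) * (1 - (1 - x1) ^ 8) + (868797 / 65536 : ℝ) * (1 - (1 - x2) ^ 8) - ((379421 / 32768 : ℝ) + (107 / 256 : ℝ)) * (1 - (1 - xc) ^ 8)
      ≤ - C15.a1 * x1 - C15.a2 * x2 + C15.e * xc + C15.f := by
  have h := cell_lines 8 (α1 := (87579 / 65536 : ℝ)) (α2 := (868797 / 65536 : ℝ)) (c := (379421 / 32768 : ℝ) + (107 / 256 : ℝ)) (y1 := (9909 / 262144 : ℝ)) (y2 := (11989 / 262144 : ℝ))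
    (A1 := (34239541 / 4194304 : ℝ)) (B1 := (6164657 / 134217728 : ℝ)) (A2 := (320533285 / 4194304 : ℝ)) (B2 := (86699941 / 134217728 : ℝ)) (l := (12479 / 262144 : ℝ)) (u := (14501 / 262144 : ℝ))
    (E := (-278138259 / 4194304 : ℝ)) (F := (-96521933 / 134217728 : ℝ)) (by norm_num) (by norm_num) (by norm_num) (by norm_num) (by norm_num)
    (by norm_num) (by norm_num) (by norm_num) (by norm_num) (by norm_num) (by norm_num) (by norm_num) (by norm_num) (by norm_num) (by norm_num)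
  have e1 : C15.l = (12479 / 262144 : ℝ) := rfl
  have e2 : C15.u = (14501 / 262144 : ℝ) := rfl
  have e3 : C15.a1 = -(34239541 / 4194304 : ℝ) := by norm_num [C15]
  have e4 : C15.a2 = -(320533285 / 4194304 : ℝ) := by norm_num [C15]
  have e5 : C15.e = (-278138259 / 4194304 : ℝ) := rfl
  have e6 : C15.f = (6164657 / 134217728 : ℝ) + (86699941 / 134217728 : ℝ) + (-96521933 / 134217728 : ℝ) := by norm_num [C15]
  rw [e1, e2, e3, e4, e5, e6]
  exact h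

lemma rcell16 : ∃ N : ℝ, Rw4 P.r2 N (coCell (87579 / 65536 : ℝ) (868797 / 65536 : ℝ) ((379421 / 32768 : ℝ) + (107 / 256 : ℝ)) (71 / 4096 : ℝ) C16) := by
  refine ⟨(2415919104 : ℝ), ⟨Q19, List.mem_cons_of_mem _ (List.mem_cons_of_mem _ (List.mem_cons_of_mem _ (List.mem_cons_of_mem _ (List.mem_cons_of_mem _ (List.mem_cons_of_mem _ (List.mem_cons_of_mem _ (List.mem_cons_of_mem _ (List.mem_cons_of_mem _ (List.mem_cons_of_mem _ (List.mem_cons_of_mem _ (List.mem_cons_of_mem _ (List.mem_cons_of_mem _ (List.mem_cons_of_mem _ (List.mem_cons_of_mem _ (List.mem_cons_of_mem _ (List.mem_cons_of_mem _ (List.mem_cons_of_mem _ (List.mem_cons_of_mem _ (List.mem_cons_self))))))))))))))))))), ?_⟩, by norm_num⟩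
  constructor <;> norm_num [Q19, coCell, C16]

lemma lcell16 : ∀ x1 x2 xc : ℝ, 0 ≤ x1 → x1 ≤ 1 → 0 ≤ x2 → x2 ≤ 1 → C16.l ≤ xc → xc ≤ C16.u →
    (87579 / 65536 : ℝ) * (1 - (1 - x1) ^ 8) + (868797 / 65536 : ℝ) * (1 - (1 - x2) ^ 8) - ((379421 / 32768 : ℝ) + (107 / 256 : ℝ)) * (1 - (1 - xc) ^ 8)
      ≤ - C16.a1 * x1 - C16.a2 * x2 + C16.e * xc + C16.f := by
  have h := cell_lines 8 (α1 := (87579 / 65536 : ℝ)) (α2 := (868797 / 65536 : ℝ)) (c := (379421 / 32768 : ℝ) + (107 / 256 : ℝ)) (y1 := (2823 / 65536 : ℝ)) (y2 := (13889 / 262144 : ℝ))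
    (A1 := (32946817 / 4194304 : ℝ)) (B1 := (15673705 / 268435456 : ℝ)) (A2 := (151937457 / 2097152 : ℝ)) (B2 := (112996577 / 134217728 : ℝ)) (l := (14501 / 262144 : ℝ)) (u := (4213 / 65536 : ℝ))
    (E := (-16342147 / 262144 : ℝ)) (F := (-7876213 / 8388608 : ℝ)) (by norm_num) (by norm_num) (by norm_num) (by norm_num) (by norm_num)
    (by norm_num) (by norm_num) (by norm_num) (by norm_num) (by norm_num) (by norm_num) (by norm_num) (by norm_num) (by norm_num) (by norm_num)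
  have e1 : C16.l = (14501 / 262144 : ℝ) := rfl
  have e2 : C16.u = (4213 / 65536 : ℝ) := rfl
  have e3 : C16.a1 = -(32946817 / 4194304 : ℝ) := by norm_num [C16]
  have e4 : C16.a2 = -(151937457 / 2097152 : ℝ) := by norm_num [C16]
  have e5 : C16.e = (-16342147 / 262144 : ℝ) := rfl
  have e6 : C16.f = (15673705 / 268435456 : ℝ) + (112996577 / 134217728 : ℝ) + (-7876213 / 8388608 : ℝ) := by norm_num [C16]
  rw [e1, e2, e3, e4, e5, e6]
  exact h

lemma rcell17 : ∃ N : ℝ, Rw4 P.r2 N (coCell (87579 / 65536 : ℝ) (868797 / 65536 : ℝ) ((379421 / 32768 : ℝ) + (107 / 256 : ℝ)) (71 / 4096 : ℝ) C17) := by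
  refine ⟨(1207959552 : ℝ), ⟨Q20, List.mem_cons_of_mem _ (List.mem_cons_of_mem _ (List.mem_cons_of_mem _ (List.mem_cons_of_mem _ (List.mem_cons_of_mem _ (List.mem_cons_of_mem _ (List.mem_cons_of_mem _ (List.mem_cons_of_mem _ (List.mem_cons_of_mem _ (List.mem_cons_of_mem _ (List.mem_cons_of_mem _ (List.mem_cons_of_mem _ (List.mem_cons_of_mem _ (List.mem_cons_of_mem _ (List.mem_cons_of_mem _ (List.mem_cons_of_mem _ (List.mem_cons_of_mem _ (List.mem_cons_of_mem _ (List.mem_cons_of_mem _ (List.mem_cons_of_mem _ (List.mem_cons_self)))))))))))))))))))), ?_⟩, by norm_num⟩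
  constructor <;> norm_num [Q20, coCell, C17]

lemma lcell17 : ∀ x1 x2 xc : ℝ, 0 ≤ x1 → x1 ≤ 1 → 0 ≤ x2 → x2 ≤ 1 → C17.l ≤ xc → xc ≤ C17.u →
    (87579 / 65536 : ℝ) * (1 - (1 - x1) ^ 8) + (868797 / 65536 : ℝ) * (1 - (1 - x2) ^ 8) - ((379421 / 32768 : ℝ) + (107 / 256 : ℝ)) * (1 - (1 - xc) ^ 8)
      ≤ - C17.a1 * x1 - C17.a2 * x2 + C17.e * xc + C17.f := by
  have h := cell_lines 8 (α1 := (87579 / 65536 : ℝ)) (α2 := (868797 / 65536 : ℝ)) (c := (379421 / 32768 : ℝ) + (107 / 256 : ℝ)) (y1 := (12991 / 262144 : ℝ)) (y2 := (7987 / 131072 : ℝ))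
    (A1 := (31416177 / 4194304 : ℝ)) (B1 := (20208717 / 268435456 : ℝ)) (A2 := (143226937 / 2097152 : ℝ)) (B2 := (289462157 / 268435456 : ℝ)) (l := (4213 / 65536 : ℝ)) (u := (153 / 2048 : ℝ))
    (E := (-243189219 / 4194304 : ℝ)) (F := (-40908571 / 33554432 : ℝ)) (by norm_num) (by norm_num) (by norm_num) (by norm_num) (by norm_num)
    (by norm_num) (by norm_num) (by norm_num) (by norm_num) (by norm_num) (by norm_num) (by norm_num) (by norm_num) (by norm_num) (by norm_num)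
  have e1 : C17.l = (4213 / 65536 : ℝ) := rfl
  have e2 : C17.u = (153 / 2048 : ℝ) := rfl
  have e3 : C17.a1 = -(31416177 / 4194304 : ℝ) := by norm_num [C17]
  have e4 : C17.a2 = -(143226937 / 2097152 : ℝ) := by norm_num [C17]
  have e5 : C17.e = (-243189219 / 4194304 : ℝ) := rfl
  have e6 : C17.f = (20208717 / 268435456 : ℝ) + (289462157 / 268435456 : ℝ) + (-40908571 / 33554432 : ℝ) := by norm_num [C17]
  rw [e1, e2, e3, e4, e5, e6]
  exact h

lemma rcell18 : ∃ N : ℝ, Rw4 P.r2 N (coCell (87579 / 65536 : ℝ) (868797 / 65536 : ℝ) ((379421 / 32768 : ℝ) + (107 / 256 : ℝ)) (71 / 4096 : ℝ) C18) := by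
  refine ⟨(2415919104 : ℝ), ⟨Q21, List.mem_cons_of_mem _ (List.mem_cons_of_mem _ (List.mem_cons_of_mem _ (List.mem_cons_of_mem _ (List.mem_cons_of_mem _ (List.mem_cons_of_mem _ (List.mem_cons_of_mem _ (List.mem_cons_of_mem _ (List.mem_cons_of_mem _ (List.mem_cons_of_mem _ (List.mem_cons_of_mem _ (List.mem_cons_of_mem _ (List.mem_cons_of_mem _ (List.mem_cons_of_mem _ (List.mem_cons_of_mem _ (List.mem_cons_of_mem _ (List.mem_cons_of_mem _ (List.mem_cons_of_mem _ (List.mem_cons_of_mem _ (List.mem_cons_of_mem _ (List.mem_cons_of_mem _ (List.mem_cons_self))))))))))))))))))))), ?_⟩, by norm_num⟩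
  constructor <;> norm_num [Q21, coCell, C18]

lemma lcell18 : ∀ x1 x2 xc : ℝ, 0 ≤ x1 → x1 ≤ 1 → 0 ≤ x2 → x2 ≤ 1 → C18.l ≤ xc → xc ≤ C18.u →
    (87579 / 65536 : ℝ) * (1 - (1 - x1) ^ 8) + (868797 / 65536 : ℝ) * (1 - (1 - x2) ^ 8) - ((379421 / 32768 : ℝ) + (107 / 256 : ℝ)) * (1 - (1 - xc) ^ 8)
      ≤ - C18.a1 * x1 - C18.a2 * x2 + C18.e * xc + C18.f := by
  have h := cell_lines 8 (α1 := (87579 / 65536 : ℝ)) (α2 := (868797 / 65536 : ℝ)) (c := (379421 / 32768 : ℝ) + (107 / 256 : ℝ)) (y1 := (3729 / 65536 : ℝ)) (y2 := (18469 / 262144 : ℝ))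
    (A1 := (464937 / 65536 : ℝ)) (B1 := (25861387 / 268435456 : ℝ)) (A2 := (133369231 / 2097152 : ℝ)) (B2 := (372293819 / 268435456 : ℝ)) (l := (153 / 2048 : ℝ)) (u := (22759 / 262144 : ℝ))
    (E := (-223329779 / 4194304 : ℝ)) (F := (-422221515 / 268435456 : ℝ)) (by norm_num) (by norm_num) (by norm_num) (by norm_num) (by norm_num)
    (by norm_num) (by norm_num) (by norm_num) (by norm_num) (by norm_num) (by norm_num) (by norm_num) (by norm_num) (by norm_num) (by norm_num)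
  have e1 : C18.l = (153 / 2048 : ℝ) := rfl
  have e2 : C18.u = (22759 / 262144 : ℝ) := rfl
  have e3 : C18.a1 = -(464937 / 65536 : ℝ) := by norm_num [C18]
  have e4 : C18.a2 = -(133369231 / 2097152 : ℝ) := by norm_num [C18]
  have e5 : C18.e = (-223329779 / 4194304 : ℝ) := rfl
  have e6 : C18.f = (25861387 / 268435456 : ℝ) + (372293819 / 268435456 : ℝ) + (-422221515 / 268435456 : ℝ) := by norm_num [C18]
  rw [e1, e2, e3, e4, e5, e6]
  exact h

lemma rcell19 : ∃ N : ℝ, Rw4 P.r2 N (coCell (87579 / 65536 : ℝ) (868797 / 65536 : ℝ) ((379421 / 32768 : ℝ) + (107 / 256 : ℝ)) (71 / 4096 : ℝ) C19) := by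
  refine ⟨(1207959552 : ℝ), ⟨Q22, List.mem_cons_of_mem _ (List.mem_cons_of_mem _ (List.mem_cons_of_mem _ (List.mem_cons_of_mem _ (List.mem_cons_of_mem _ (List.mem_cons_of_mem _ (List.mem_cons_of_mem _ (List.mem_cons_of_mem _ (List.mem_cons_of_mem _ (List.mem_cons_of_mem _ (List.mem_cons_of_mem _ (List.mem_cons_of_mem _ (List.mem_cons_of_mem _ (List.mem_cons_of_mem _ (List.mem_cons_of_mem _ (List.mem_cons_of_mem _ (List.mem_cons_of_mem _ (List.mem_cons_of_mem _ (List.mem_cons_of_mem _ (List.mem_cons_of_mem _ (List.mem_cons_of_mem _ (List.mem_cons_of_mem _ (List.mem_cons_self)))))))))))))))))))))), ?_⟩, by norm_num⟩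
  constructor <;> norm_num [Q22, coCell, C19]

lemma lcell19 : ∀ x1 x2 xc : ℝ, 0 ≤ x1 → x1 ≤ 1 → 0 ≤ x2 → x2 ≤ 1 → C19.l ≤ xc → xc ≤ C19.u →
    (87579 / 65536 : ℝ) * (1 - (1 - x1) ^ 8) + (868797 / 65536 : ℝ) * (1 - (1 - x2) ^ 8) - ((379421 / 32768 : ℝ) + (107 / 256 : ℝ)) * (1 - (1 - xc) ^ 8)
      ≤ - C19.a1 * x1 - C19.a2 * x2 + C19.e * xc + C19.f := by
  have h := cell_lines 8 (α1 := (87579 / 65536 : ℝ)) (α2 := (868797 / 65536 : ℝ)) (c := (379421 / 32768 : ℝ) + (107 / 256 : ℝ)) (y1 := (17123 / 262144 : ℝ)) (y2 := (21305 / 262144 : ℝ))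
    (A1 := (27945613 / 4194304 : ℝ)) (B1 := (32937349 / 268435456 : ℝ)) (A2 := (122875849 / 2097152 : ℝ)) (B2 := (474104215 / 268435456 : ℝ)) (l := (22759 / 262144 : ℝ)) (u := (1653 / 16384 : ℝ))
    (E := (-202017627 / 4194304 : ℝ)) (F := (-270320141 / 134217728 : ℝ)) (by norm_num) (by norm_num) (by norm_num) (by norm_num) (by norm_num)
    (by norm_num) (by norm_num) (by norm_num) (by norm_num) (by norm_num) (by norm_num) (by norm_num) (by norm_num) (by norm_num) (by norm_num)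
  have e1 : C19.l = (22759 / 262144 : ℝ) := rfl
  have e2 : C19.u = (1653 / 16384 : ℝ) := rfl
  have e3 : C19.a1 = -(27945613 / 4194304 : ℝ) := by norm_num [C19]
  have e4 : C19.a2 = -(122875849 / 2097152 : ℝ) := by norm_num [C19]
  have e5 : C19.e = (-202017627 / 4194304 : ℝ) := rfl
  have e6 : C19.f = (32937349 / 268435456 : ℝ) + (474104215 / 268435456 : ℝ) + (-270320141 / 134217728 : ℝ) := by norm_num [C19]
  rw [e1, e2, e3, e4, e5, e6]
  exact h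

lemma rcell20 : ∃ N : ℝ, Rw4 P.r2 N (coCell (87579 / 65536 : ℝ) (868797 / 65536 : ℝ) ((379421 / 32768 : ℝ) + (107 / 256 : ℝ)) (71 / 4096 : ℝ) C20) := by
  refine ⟨(1207959552 : ℝ), ⟨Q23, List.mem_cons_of_mem _ (List.mem_cons_of_mem _ (List.mem_cons_of_mem _ (List.mem_cons_of_mem _ (List.mem_cons_of_mem _ (List.mem_cons_of_mem _ (List.mem_cons_of_mem _ (List.mem_cons_of_mem _ (List.mem_cons_of_mem _ (List.mem_cons_of_mem _ (List.mem_cons_of_mem _ (List.mem_cons_of_mem _ (List.mem_cons_of_mem _ (List.mem_cons_of_mem _ (List.mem_cons_of_mem _ (List.mem_cons_of_mem _ (List.mem_cons_of_mem _ (List.mem_cons_of_mem _ (List.mem_cons_of_mem _ (List.mem_cons_of_mem _ (List.mem_cons_of_mem _ (List.mem_cons_of_mem _ (List.mem_cons_of_mem _ (List.mem_cons_self))))))))))))))))))))))), ?_⟩, by norm_num⟩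
  constructor <;> norm_num [Q23, coCell, C20]

lemma lcell20 : ∀ x1 x2 xc : ℝ, 0 ≤ x1 → x1 ≤ 1 → 0 ≤ x2 → x2 ≤ 1 → C20.l ≤ xc → xc ≤ C20.u →
    (87579 / 65536 : ℝ) * (1 - (1 - x1) ^ 8) + (868797 / 65536 : ℝ) * (1 - (1 - x2) ^ 8) - ((379421 / 32768 : ℝ) + (107 / 256 : ℝ)) * (1 - (1 - xc) ^ 8)
      ≤ - C20.a1 * x1 - C20.a2 * x2 + C20.e * xc + C20.f := by
  have h := cell_lines 8 (α1 := (87579 / 65536 : ℝ)) (α2 := (868797 / 65536 : ℝ)) (c := (379421 / 32768 : ℝ) + (107 / 256 : ℝ)) (y1 := (19633 / 262144 : ℝ)) (y2 := (12181 / 131072 : ℝ))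
    (A1 := (26002229 / 4194304 : ℝ)) (B1 := (20825417 / 134217728 : ℝ)) (A2 := (224730309 / 4194304 : ℝ)) (B2 := (295594773 / 134217728 : ℝ)) (l := (1653 / 16384 : ℝ)) (u := (30735 / 262144 : ℝ))
    (E := (-179469225 / 4194304 : ℝ)) (F := (-343118009 / 134217728 : ℝ)) (by norm_num) (by norm_num) (by norm_num) (by norm_num) (by norm_num)
    (by norm_num) (by norm_num) (by norm_num) (by norm_num) (by norm_num) (by norm_num) (by norm_num) (by norm_num) (by norm_num) (by norm_num)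
  have e1 : C20.l = (1653 / 16384 : ℝ) := rfl
  have e2 : C20.u = (30735 / 262144 : ℝ) := rfl
  have e3 : C20.a1 = -(26002229 / 4194304 : ℝ) := by norm_num [C20]
  have e4 : C20.a2 = -(224730309 / 4194304 : ℝ) := by norm_num [C20]
  have e5 : C20.e = (-179469225 / 4194304 : ℝ) := rfl
  have e6 : C20.f = (20825417 / 134217728 : ℝ) + (295594773 / 134217728 : ℝ) + (-343118009 / 134217728 : ℝ) := by norm_num [C20]
  rw [e1, e2, e3, e4, e5, e6]
  exact h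

lemma rcell21 : ∃ N : ℝ, Rw4 P.r2 N (coCell (87579 / 65536 : ℝ) (868797 / 65536 : ℝ) ((379421 / 32768 : ℝ) + (107 / 256 : ℝ)) (71 / 4096 : ℝ) C21) := by
  refine ⟨(2415919104 : ℝ), ⟨Q24, List.mem_cons_of_mem _ (List.mem_cons_of_mem _ (List.mem_cons_of_mem _ (List.mem_cons_of_mem _ (List.mem_cons_of_mem _ (List.mem_cons_of_mem _ (List.mem_cons_of_mem _ (List.mem_cons_of_mem _ (List.mem_cons_of_mem _ (List.mem_cons_of_mem _ (List.mem_cons_of_mem _ (List.mem_cons_of_mem _ (List.mem_cons_of_mem _ (List.mem_cons_of_mem _ (List.mem_cons_of_mem _ (List.mem_cons_of_mem _ (List.mem_cons_of_mem _ (List.mem_cons_of_mem _ (List.mem_cons_of_mem _ (List.mem_cons_of_mem _ (List.mem_cons_of_mem _ (List.mem_cons_of_mem _ (List.mem_cons_of_mem _ (List.mem_cons_of_mem _ (List.mem_cons_self)))))))))))))))))))))))), ?_⟩, by norm_num⟩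
  constructor <;> norm_num [Q24, coCell, C21]

lemma lcell21 : ∀ x1 x2 xc : ℝ, 0 ≤ x1 → x1 ≤ 1 → 0 ≤ x2 → x2 ≤ 1 → C21.l ≤ xc → xc ≤ C21.u →
    (87579 / 65536 : ℝ) * (1 - (1 - x1) ^ 8) + (868797 / 65536 : ℝ) * (1 - (1 - x2) ^ 8) - ((379421 / 32768 : ℝ) + (107 / 256 : ℝ)) * (1 - (1 - xc) ^ 8)
      ≤ - C21.a1 * x1 - C21.a2 * x2 + C21.e * xc + C21.f := by
  have h := cell_lines 8 (α1 := (87579 / 65536 : ℝ)) (α2 := (868797 / 65536 : ℝ)) (c := (379421 / 32768 : ℝ) + (107 / 256 : ℝ)) (y1 := (5565 / 65536 : ℝ)) (y2 := (14051 / 131072 : ℝ))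
    (A1 := (6023369 / 1048576 : ℝ)) (B1 := (51405305 / 268435456 : ℝ)) (A2 := (201124707 / 4194304 : ℝ)) (B2 := (371098007 / 134217728 : ℝ)) (l := (30735 / 262144 : ℝ)) (u := (35717 / 262144 : ℝ))
    (E := (-78006681 / 2097152 : ℝ)) (F := (-107780111 / 33554432 : ℝ)) (by norm_num) (by norm_num) (by norm_num) (by norm_num) (by norm_num)
    (by norm_num) (by norm_num) (by norm_num) (by norm_num) (by norm_num) (by norm_num) (by norm_num) (by norm_num) (by norm_num) (by norm_num)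
  have e1 : C21.l = (30735 / 262144 : ℝ) := rfl
  have e2 : C21.u = (35717 / 262144 : ℝ) := rfl
  have e3 : C21.a1 = -(6023369 / 1048576 : ℝ) := by norm_num [C21]
  have e4 : C21.a2 = -(201124707 / 4194304 : ℝ) := by norm_num [C21]
  have e5 : C21.e = (-78006681 / 2097152 : ℝ) := rfl
  have e6 : C21.f = (51405305 / 268435456 : ℝ) + (371098007 / 134217728 : ℝ) + (-107780111 / 33554432 : ℝ) := by norm_num [C21]
  rw [e1, e2, e3, e4, e5, e6]
  exact h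

lemma rcell22 : ∃ N : ℝ, Rw4 P.r2 N (coCell (87579 / 65536 : ℝ) (868797 / 65536 : ℝ) ((379421 / 32768 : ℝ) + (107 / 256 : ℝ)) (71 / 4096 : ℝ) C22) := by
  refine ⟨(150994944 : ℝ), ⟨Q25, List.mem_cons_of_mem _ (List.mem_cons_of_mem _ (List.mem_cons_of_mem _ (List.mem_cons_of_mem _ (List.mem_cons_of_mem _ (List.mem_cons_of_mem _ (List.mem_cons_of_mem _ (List.mem_cons_of_mem _ (List.mem_cons_of_mem _ (List.mem_cons_of_mem _ (List.mem_cons_of_mem _ (List.mem_cons_of_mem _ (List.mem_cons_of_mem _ (List.mem_cons_of_mem _ (List.mem_cons_of_mem _ (List.mem_cons_of_mem _ (List.mem_cons_of_mem _ (List.mem_cons_of_mem _ (List.mem_cons_of_mem _ (List.mem_cons_of_mem _ (List.mem_cons_of_mem _ (List.mem_cons_of_mem _ (List.mem_cons_of_mem _ (List.mem_cons_of_mem _ (List.mem_cons_of_mem _ (List.mem_cons_self))))))))))))))))))))))))), ?_⟩, by norm_num⟩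
  constructor <;> norm_num [Q25, coCell, C22]

lemma lcell22 : ∀ x1 x2 xc : ℝ, 0 ≤ x1 → x1 ≤ 1 → 0 ≤ x2 → x2 ≤ 1 → C22.l ≤ xc → xc ≤ C22.u →
    (87579 / 65536 : ℝ) * (1 - (1 - x1) ^ 8) + (868797 / 65536 : ℝ) * (1 - (1 - x2) ^ 8) - ((379421 / 32768 : ℝ) + (107 / 256 : ℝ)) * (1 - (1 - xc) ^ 8)
      ≤ - C22.a1 * x1 - C22.a2 * x2 + C22.e * xc + C22.f := by
  have h := cell_lines 8 (α1 := (87579 / 65536 : ℝ)) (α2 := (868797 / 65536 : ℝ)) (c := (379421 / 32768 : ℝ) + (107 / 256 : ℝ)) (y1 := (12631 / 131072 : ℝ)) (y2 := (31723 / 262144 : ℝ))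
    (A1 := (11030239 / 2097152 : ℝ)) (B1 := (31594695 / 134217728 : ℝ)) (A2 := (90164011 / 2097152 : ℝ)) (B2 := (446963957 / 134217728 : ℝ)) (l := (35717 / 262144 : ℝ)) (u := (41507 / 262144 : ℝ))
    (E := (-4128383 / 131072 : ℝ)) (F := (-133836589 / 33554432 : ℝ)) (by norm_num) (by norm_num) (by norm_num) (by norm_num) (by norm_num)
    (by norm_num) (by norm_num) (by norm_num) (by norm_num) (by norm_num) (by norm_num) (by norm_num) (by norm_num) (by norm_num) (by norm_num)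
  have e1 : C22.l = (35717 / 262144 : ℝ) := rfl
  have e2 : C22.u = (41507 / 262144 : ℝ) := rfl
  have e3 : C22.a1 = -(11030239 / 2097152 : ℝ) := by norm_num [C22]
  have e4 : C22.a2 = -(90164011 / 2097152 : ℝ) := by norm_num [C22]
  have e5 : C22.e = (-4128383 / 131072 : ℝ) := rfl
  have e6 : C22.f = (31594695 / 134217728 : ℝ) + (446963957 / 134217728 : ℝ) + (-133836589 / 33554432 : ℝ) := by norm_num [C22]
  rw [e1, e2, e3, e4, e5, e6]
  exact h

lemma rcell23 : ∃ N : ℝ, Rw4 P.r2 N (coCell (87579 / 65536 : ℝ) (868797 / 65536 : ℝ) ((379421 / 32768 : ℝ) + (107 / 256 : ℝ)) (71 / 4096 : ℝ) C23) := by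
  refine ⟨(2415919104 : ℝ), ⟨Q26, List.mem_cons_of_mem _ (List.mem_cons_of_mem _ (List.mem_cons_of_mem _ (List.mem_cons_of_mem _ (List.mem_cons_of_mem _ (List.mem_cons_of_mem _ (List.mem_cons_of_mem _ (List.mem_cons_of_mem _ (List.mem_cons_of_mem _ (List.mem_cons_of_mem _ (List.mem_cons_of_mem _ (List.mem_cons_of_mem _ (List.mem_cons_of_mem _ (List.mem_cons_of_mem _ (List.mem_cons_of_mem _ (List.mem_cons_of_mem _ (List.mem_cons_of_mem _ (List.mem_cons_of_mem _ (List.mem_cons_of_mem _ (List.mem_cons_of_mem _ (List.mem_cons_of_mem _ (List.mem_cons_of_mem _ (List.mem_cons_of_mem _ (List.mem_cons_of_mem _ (List.mem_cons_of_mem _ (List.mem_cons_of_mem _ (List.mem_cons_self)))))))))))))))))))))))))), ?_⟩, by norm_num⟩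
  constructor <;> norm_num [Q26, coCell, C23]

lemma lcell23 : ∀ x1 x2 xc : ℝ, 0 ≤ x1 → x1 ≤ 1 → 0 ≤ x2 → x2 ≤ 1 → C23.l ≤ xc → xc ≤ C23.u →
    (87579 / 65536 : ℝ) * (1 - (1 - x1) ^ 8) + (868797 / 65536 : ℝ) * (1 - (1 - x2) ^ 8) - ((379421 / 32768 : ℝ) + (107 / 256 : ℝ)) * (1 - (1 - xc) ^ 8)
      ≤ - C23.a1 * x1 - C23.a2 * x2 + C23.e * xc + C23.f := by
  have h := cell_lines 8 (α1 := (87579 / 65536 : ℝ)) (α2 := (868797 / 65536 : ℝ)) (c := (379421 / 32768 : ℝ) + (107 / 256 : ℝ)) (y1 := (14083 / 131072 : ℝ)) (y2 := (69 / 512 : ℝ))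
    (A1 := (5058895 / 1048576 : ℝ)) (B1 := (37541677 / 134217728 : ℝ)) (A2 := (80741095 / 2097152 : ℝ)) (B2 := (262012273 / 67108864 : ℝ)) (l := (41507 / 262144 : ℝ)) (u := (191 / 1024 : ℝ))
    (E := (-107234823 / 4194304 : ℝ)) (F := (-1322748763 / 268435456 : ℝ)) (by norm_num) (by norm_num) (by norm_num) (by norm_num) (by norm_num)
    (by norm_num) (by norm_num) (by norm_num) (by norm_num) (by norm_num) (by norm_num) (by norm_num) (by norm_num) (by norm_num) (by norm_num)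
  have e1 : C23.l = (41507 / 262144 : ℝ) := rfl
  have e2 : C23.u = (191 / 1024 : ℝ) := rfl
  have e3 : C23.a1 = -(5058895 / 1048576 : ℝ) := by norm_num [C23]
  have e4 : C23.a2 = -(80741095 / 2097152 : ℝ) := by norm_num [C23]
  have e5 : C23.e = (-107234823 / 4194304 : ℝ) := rfl
  have e6 : C23.f = (37541677 / 134217728 : ℝ) + (262012273 / 67108864 : ℝ) + (-1322748763 / 268435456 : ℝ) := by norm_num [C23]
  rw [e1, e2, e3, e4, e5, e6]
  exact h

/-- The hypotheses at the origin. -/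
lemma horig (lam : ℝ) (hd : (8 : ℝ) * lam ^ 2 = 1) (hb : |lam| ≤ (388736063997 / 1099511627776 : ℝ)) :
    OriginH 8 lam (87579 / 65536 : ℝ) (868797 / 65536 : ℝ) (379421 / 32768 : ℝ) (107 / 256 : ℝ) (71 / 4096 : ℝ) (45 / 512 : ℝ) (4233 / 4096 : ℝ) (1 / 256 : ℝ) 3298534883328 := by
  refine originH_of_num (d := 8) (by push_cast; exact hd) hb (by norm_num) (by norm_num) (by norm_num) (by norm_num)
    (by norm_num) (by norm_num) (by norm_num) (by norm_num) (by norm_num) (by norm_num) (by norm_num [S]) (by norm_num) ?_ ?_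
  · rw [hch]
    norm_num [abs_of_pos, abs_of_neg]
  · norm_num [abs_of_pos, abs_of_neg]

/-- Nonreconstruction at the bound. -/
theorem main : Tendsto (reconError 3 8 (-(1 / Real.sqrt 8))) atTop (𝓝 0) := by
  have hsq : Real.sqrt ((8 : ℕ) : ℝ) ^ 2 = 8 := by
    rw [Real.sq_sqrt (by positivity)]; norm_num
  have hsq' : Real.sqrt (8 : ℝ) ^ 2 = 8 := by
    rw [Real.sq_sqrt (by positivity)]
  have hs0 : 0 < Real.sqrt (8 : ℝ) := Real.sqrt_pos.2 (by norm_num)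
  have hl2 : ((8 : ℝ)) * (-(1 / Real.sqrt 8)) ^ 2 = 1 := by
    have : (-(1 / Real.sqrt (8 : ℝ))) ^ 2 = 1 / 8 := by
      rw [neg_sq, div_pow, hsq']; norm_num
    rw [this]; norm_num
  have hb : |(-(1 / Real.sqrt (8 : ℝ)))| ≤ (388736063997 / 1099511627776 : ℝ) := by
    rw [abs_neg, abs_of_pos (by positivity)]
    rw [div_le_iff₀ hs0]
    have h1 : (1 : ℝ) ^ 2 ≤ ((388736063997 / 1099511627776 : ℝ) * Real.sqrt 8) ^ 2 := by
      rw [mul_pow, hsq']; norm_num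
    exact le_of_sq_le_sq h1 (by positivity)
  have hb2 : (-(1 / 2) : ℝ) < -(1 / Real.sqrt (8 : ℝ)) := by
    have h2 := (abs_le.1 hb).1
    have h3 : ((388736063997 / 1099511627776 : ℝ) : ℝ) < 1 / 2 := by norm_num
    linarith
  have h1 : (-(1 / Real.sqrt (8 : ℝ))) < 1 := by
    have : 0 < 1 / Real.sqrt (8 : ℝ) := by positivity
    linarith
  have hlam : |(S : ℝ) * (-(1 / Real.sqrt (8 : ℝ))) - ((P.lp : ℝ) - P.ln)| ≤ ((1 : ℕ) : ℝ) := by
    have h := lam_enc 8 25476206690103090 (by norm_num) (by norm_num [S]) (by norm_num [S])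
    have e : ((8 : ℕ) : ℝ) = (8 : ℝ) := by norm_num
    rw [e] at h
    exact h
  obtain ⟨hOa, hON⟩ := horig _ hl2 hb
  refine final_of_box (d := 8) (by norm_num) hb2 h1 (box hlam) (87579 / 65536 : ℝ) (868797 / 65536 : ℝ) (379421 / 32768 : ℝ) (107 / 256 : ℝ) (45 / 512 : ℝ) (4233 / 4096 : ℝ) (5243 / 1048576 : ℝ) (565 / 2048 : ℝ) (71 / 4096 : ℝ) (191 / 1024 : ℝ) cellsL
    (by norm_num) (by norm_num) (by norm_num) (by norm_num) (by norm_num) (by norm_num) (by norm_num) (by norm_num) (by norm_num)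
    (by norm_num) (by norm_num) (by norm_num) (by norm_num) (by norm_num) hOa hON rTa rTb rc1 rc2 rc3
    (forall_cons rcell0 (forall_cons rcell1 (forall_cons rcell2 (forall_cons rcell3 (forall_cons rcell4 (forall_cons rcell5 (forall_cons rcell6 (forall_cons rcell7 (forall_cons rcell8 (forall_cons rcell9 (forall_cons rcell10 (forall_cons rcell11 (forall_cons rcell12 (forall_cons rcell13 (forall_cons rcell14 (forall_cons rcell15 (forall_cons rcell16 (forall_cons rcell17 (forall_cons rcell18 (forall_cons rcell19 (forall_cons rcell20 (forall_cons rcell21 (forall_cons rcell22 (forall_cons rcell23 (forall_nil))))))))))))))))))))))))) hcover (forall_cons lcell0 (forall_cons lcell1 (forall_cons lcell2 (forall_cons lcell3 (forall_cons lcell4 (forall_cons lcell5 (forall_cons lcell6 (forall_cons lcell7 (forall_cons lcell8 (forall_cons lcell9 (forall_cons lcell10 (forall_cons lcell11 (forall_cons lcell12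 (forall_cons lcell13 (forall_cons lcell14 (forall_cons lcell15 (forall_cons lcell16 (forall_cons lcell17 (forall_cons lcell18 (forall_cons lcell19 (forall_cons lcell20 (forall_cons lcell21 (forall_cons lcell22 (forall_cons lcell23 (forall_nil)))))))))))))))))))))))))

end Vale.Agent.P154H.Tm.D8
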