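import Vale.Agent.P154H.D.D9
import Vale.Agent.P154H.FinalD
import Vale.Agent.P154H.OriginW

open Filter Topology

set_option maxRecDepth 100000

/-!
Nonreconstruction at the Kesten-Stigum bound for `d = 9`, negative eigenvalue.
-/

namespace Vale.Agent.P154H.Tm.D9

open Vale.Agent.P154 Vale.Agent.P154H

/-- A chord cell. -/
noncomputable def C0 : Cell := ⟨(5243 / 1048576 : ℝ), (1545 / 262144 : ℝ), (-48796181 / 4194304 : ℝ), (-481195211 / 4194304 : ℝ), (-54188721 / 524288 : ℝ), (-30699 / 67108864 : ℝ)⟩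

/-- A chord cell. -/
noncomputable def C1 : Cell := ⟨(1545 / 262144 : ℝ), (455 / 65536 : ℝ), (-48566373 / 4194304 : ℝ), (-477855551 / 4194304 : ℝ), (-215067289 / 2097152 : ℝ), (-48421 / 67108864 : ℝ)⟩

/-- A chord cell. -/
noncomputable def C2 : Cell := ⟨(455 / 65536 : ℝ), (2145 / 262144 : ℝ), (-48239719 / 4194304 : ℝ), (-59235071 / 524288 : ℝ), (-426187525 / 4194304 : ℝ), (-122235 / 134217728 : ℝ)⟩

/-- A chord cell. -/
noncomputable def C3 : Cell := ⟨(2145 / 262144 : ℝ), (79 / 8192 : ℝ), (-23931017 / 2097152 : ℝ), (-14663787 / 131072 : ℝ), (-210785439 / 2097152 : ℝ), (-318505 / 268435456 : ℝ)⟩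

/-- A chord cell. -/
noncomputable def C4 : Cell := ⟨(79 / 8192 : ℝ), (2979 / 262144 : ℝ), (-23684397 / 2097152 : ℝ), (-116003061 / 1048576 : ℝ), (-812869 / 8192 : ℝ), (-125099 / 67108864 : ℝ)⟩

/-- A chord cell. -/
noncomputable def C5 : Cell := ⟨(2979 / 262144 : ℝ), (1755 / 131072 : ℝ), (-46822285 / 4194304 : ℝ), (-457745539 / 4194304 : ℝ), (-102482307 / 1048576 : ℝ), (-647377 / 268435456 : ℝ)⟩

/-- A chord cell. -/
noncomputable def C6 : Cell := ⟨(1755 / 131072 : ℝ), (4137 / 262144 : ℝ), (-46178607 / 4194304 : ℝ), (-450437545 / 4194304 : ℝ), (-25165867 / 262144 : ℝ), (-817915 / 268435456 : ℝ)⟩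

/-- A chord cell. -/
noncomputable def C7 : Cell := ⟨(4137 / 262144 : ℝ), (4875 / 262144 : ℝ), (-2844219 / 262144 : ℝ), (-221101453 / 2097152 : ℝ), (-394223579 / 4194304 : ℝ), (-1336823 / 268435456 : ℝ)⟩

/-- A chord cell. -/
noncomputable def C8 : Cell := ⟨(4875 / 262144 : ℝ), (5745 / 262144 : ℝ), (-11157533 / 1048576 : ℝ), (-432430937 / 4194304 : ℝ), (-384491445 / 4194304 : ℝ), (-105173 / 16777216 : ℝ)⟩

/-- A chord cell. -/
noncomputable def C9 : Cell := ⟨(5745 / 262144 : ℝ), (3385 / 131072 : ℝ), (-21881079 / 2097152 : ℝ), (-210542847 / 2097152 : ℝ), (-46661661 / 524288 : ℝ), (-2165561 / 268435456 : ℝ)⟩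

/-- A chord cell. -/
noncomputable def C10 : Cell := ⟨(3385 / 131072 : ℝ), (3989 / 131072 : ℝ), (-10679903 / 1048576 : ℝ), (-204277223 / 2097152 : ℝ), (-360465751 / 4194304 : ℝ), (-1750551 / 134217728 : ℝ)⟩

/-- A chord cell. -/
noncomputable def C11 : Cell := ⟨(3989 / 131072 : ℝ), (4701 / 131072 : ℝ), (-41301749 / 4194304 : ℝ), (-394003143 / 4194304 : ℝ), (-172921947 / 2097152 : ℝ), (-2285295 / 134217728 : ℝ)⟩

/-- A chord cell. -/
noncomputable def C12 : Cell := ⟨(4701 / 131072 : ℝ), (11079 / 262144 : ℝ), (-40064703 / 4194304 : ℝ), (-377108393 / 4194304 : ℝ), (-329286141 / 4194304 : ℝ), (-5790063 / 268435456 : ℝ)⟩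

/-- A chord cell. -/
noncomputable def C13 : Cell := ⟨(11079 / 262144 : ℝ), (51 / 1024 : ℝ), (-4800843 / 524288 : ℝ), (-179258677 / 2097152 : ℝ), (-310671431 / 4194304 : ℝ), (-3961285 / 134217728 : ℝ)⟩

/-- A chord cell. -/
noncomputable def C14 : Cell := ⟨(51 / 1024 : ℝ), (7693 / 131072 : ℝ), (-9148671 / 1048576 : ℝ), (-338535641 / 4194304 : ℝ), (-72480133 / 1048576 : ℝ), (-1660973 / 33554432 : ℝ)⟩

/-- A chord cell. -/
noncomputable def C15 : Cell := ⟨(7693 / 131072 : ℝ), (4533 / 65536 : ℝ), (-17335021 / 2097152 : ℝ), (-315351367 / 4194304 : ℝ), (-267033599 / 4194304 : ℝ), (-17099325 / 268435456 : ℝ)⟩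

/-- A chord cell. -/
noncomputable def C16 : Cell := ⟨(4533 / 65536 : ℝ), (21367 / 262144 : ℝ), (-32098607 / 4194304 : ℝ), (-290888179 / 4194304 : ℝ), (-121056327 / 2097152 : ℝ), (-5997735 / 67108864 : ℝ)⟩

/-- A chord cell. -/
noncomputable def C17 : Cell := ⟨(21367 / 262144 : ℝ), (6295 / 65536 : ℝ), (-7551951 / 1048576 : ℝ), (-263893985 / 4194304 : ℝ), (-107691949 / 2097152 : ℝ), (-16720997 / 134217728 : ℝ)⟩

/-- A chord cell. -/
noncomputable def C18 : Cell := ⟨(6295 / 65536 : ℝ), (29673 / 262144 : ℝ), (-27658327 / 4194304 : ℝ), (-29620671 / 524288 : ℝ), (-46809059 / 1048576 : ℝ), (-26284705 / 134217728 : ℝ)⟩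

/-- A chord cell. -/
noncomputable def C19 : Cell := ⟨(29673 / 262144 : ℝ), (4371 / 32768 : ℝ), (-25404543 / 4194304 : ℝ), (-105444979 / 2097152 : ℝ), (-158251589 / 4194304 : ℝ), (-91724263 / 268435456 : ℝ)⟩

/-- A chord cell. -/
noncomputable def C20 : Cell := ⟨(4371 / 32768 : ℝ), (163 / 1024 : ℝ), (-23456107 / 4194304 : ℝ), (-189896781 / 4194304 : ℝ), (-128055257 / 4194304 : ℝ), (-193410811 / 268435456 : ℝ)⟩

/-- The chord cells. -/
noncomputable def cellsL : List Cell := [C0, C1, C2, C3, C4, C5, C6, C7, C8, C9, C10, C11, C12, C13, C14, C15, C16, C17, C18, C19, C20]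

lemma hcover : ∀ x : ℝ, (5243 / 1048576 : ℝ) ≤ x → x ≤ (163 / 1024 : ℝ) → ∃ D ∈ cellsL, D.l ≤ x ∧ x ≤ D.u := by
  refine cover_of_chain ?_ (by norm_num [C0])
  simp only [ChainP, C0, C1, C2, C3, C4, C5, C6, C7, C8, C9, C10, C11, C12, C13, C14, C15, C16, C17, C18, C19, C20]
  norm_num

lemma hch : ((Nat.choose 9 2 : ℕ) : ℝ) = 36 := by norm_num [Nat.choose]

lemma rTa : Rw4 P.r1 (393216 : ℝ) (coTa 9 (87579 / 65536 : ℝ) (868797 / 65536 : ℝ) (379421 / 32768 : ℝ) (107 / 256 : ℝ) (21 / 1024 : ℝ)) := by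
  refine ⟨⟨Ra, List.mem_cons_self, ?_⟩, by norm_num⟩
  constructor <;> norm_num [Ra, coTa, hch]

lemma rTb : Rw4 P.r1 (13194139533312 : ℝ) (coTb 9 (87579 / 65536 : ℝ) (868797 / 65536 : ℝ) (379421 / 32768 : ℝ) (107 / 256 : ℝ) (21 / 1024 : ℝ) (45 / 512 : ℝ) (4233 / 4096 : ℝ) (5797 / 16384 : ℝ)) := by
  refine ⟨⟨Rb, List.mem_cons_of_mem _ (List.mem_cons_self), ?_⟩, by norm_num⟩
  constructor <;> norm_num [Rb, coTb, hch]

lemma rc1 : Rw4 P.r2 (16777216 : ℝ) ⟨0, 0, 0, -(87579 / 65536 : ℝ), 0, 0, 0, 0, (379421 / 32768 : ℝ) * (45 / 512 : ℝ)⟩ := by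
  refine ⟨⟨Q0, List.mem_cons_self, ?_⟩, by norm_num⟩
  constructor <;> norm_num [Q0]

lemma rc2 : Rw4 P.r2 (134217728 : ℝ) ⟨0, 0, 0, 0, -(868797 / 65536 : ℝ), 0, 0, 0, (379421 / 32768 : ℝ) * (4233 / 4096 : ℝ)⟩ := by
  refine ⟨⟨Q1, List.mem_cons_of_mem _ (List.mem_cons_self), ?_⟩, by norm_num⟩
  constructor <;> norm_num [Q1]

lemma rc3 : Rw4 P.r2 (3072 : ℝ) ⟨0, 0, 0, 0, 0, -1, 0, 0, (163 / 1024 : ℝ)⟩ := by
  refine ⟨⟨Q2, List.mem_cons_of_mem _ (List.mem_cons_of_mem _ (List.mem_cons_self)), ?_⟩, by norm_num⟩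
  constructor <;> norm_num [Q2]

lemma rcell0 : ∃ N : ℝ, Rw4 P.r2 N (coCell (87579 / 65536 : ℝ) (868797 / 65536 : ℝ) ((379421 / 32768 : ℝ) + (107 / 256 : ℝ)) (21 / 1024 : ℝ) C0) := by
  refine ⟨(201326592 : ℝ), ⟨Q3, List.mem_cons_of_mem _ (List.mem_cons_of_mem _ (List.mem_cons_of_mem _ (List.mem_cons_self))), ?_⟩, by norm_num⟩
  constructor <;> norm_num [Q3, coCell, C0]

lemma lcell0 : ∀ x1 x2 xc : ℝ, 0 ≤ x1 → x1 ≤ 1 → 0 ≤ x2 → x2 ≤ 1 → C0.l ≤ xc → xc ≤ C0.u →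
    (87579 / 65536 : ℝ) * (1 - (1 - x1) ^ 9) + (868797 / 65536 : ℝ) * (1 - (1 - x2) ^ 9) - ((379421 / 32768 : ℝ) + (107 / 256 : ℝ)) * (1 - (1 - xc) ^ 9)
      ≤ - C0.a1 * x1 - C0.a2 * x2 + C0.e * xc + C0.f := by
  have h := cell_lines 9 (α1 := (87579 / 65536 : ℝ)) (α2 := (868797 / 65536 : ℝ)) (c := (379421 / 32768 : ℝ) + (107 / 256 : ℝ)) (y1 := (1087 / 262144 : ℝ)) (y2 := (1281 / 262144 : ℝ))
    (A1 := (48796181 / 4194304 : ℝ)) (B1 := (217789 / 268435456 : ℝ)) (A2 := (481195211 / 4194304 : ℝ)) (B2 := (747535 / 67108864 : ℝ)) (l := (5243 / 1048576 : ℝ)) (u := (1545 / 262144 : ℝ))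
    (E := (-54188721 / 524288 : ℝ)) (F := (-3330725 / 268435456 : ℝ)) (by norm_num) (by norm_num) (by norm_num) (by norm_num) (by norm_num)
    (by norm_num) (by norm_num) (by norm_num) (by norm_num) (by norm_num) (by norm_num) (by norm_num) (by norm_num) (by norm_num) (by norm_num)
  have e1 : C0.l = (5243 / 1048576 : ℝ) := rfl
  have e2 : C0.u = (1545 / 262144 : ℝ) := rfl
  have e3 : C0.a1 = -(48796181 / 4194304 : ℝ) := by norm_num [C0]
  have e4 : C0.a2 = -(481195211 / 4194304 : ℝ) := by norm_num [C0]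
  have e5 : C0.e = (-54188721 / 524288 : ℝ) := rfl
  have e6 : C0.f = (217789 / 268435456 : ℝ) + (747535 / 67108864 : ℝ) + (-3330725 / 268435456 : ℝ) := by norm_num [C0]
  rw [e1, e2, e3, e4, e5, e6]
  exact h

lemma rcell1 : ∃ N : ℝ, Rw4 P.r2 N (coCell (87579 / 65536 : ℝ) (868797 / 65536 : ℝ) ((379421 / 32768 : ℝ) + (107 / 256 : ℝ)) (21 / 1024 : ℝ) C1) := by
  refine ⟨(201326592 : ℝ), ⟨Q4, List.mem_cons_of_mem _ (List.mem_cons_of_mem _ (List.mem_cons_of_mem _ (List.mem_cons_of_mem _ (List.mem_cons_self)))), ?_⟩, by norm_num⟩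
  constructor <;> norm_num [Q4, coCell, C1]

lemma lcell1 : ∀ x1 x2 xc : ℝ, 0 ≤ x1 → x1 ≤ 1 → 0 ≤ x2 → x2 ≤ 1 → C1.l ≤ xc → xc ≤ C1.u →
    (87579 / 65536 : ℝ) * (1 - (1 - x1) ^ 9) + (868797 / 65536 : ℝ) * (1 - (1 - x2) ^ 9) - ((379421 / 32768 : ℝ) + (107 / 256 : ℝ)) * (1 - (1 - xc) ^ 9)
      ≤ - C1.a1 * x1 - C1.a2 * x2 + C1.e * xc + C1.f := by
  have h := cell_lines 9 (α1 := (87579 / 65536 : ℝ)) (α2 := (868797 / 65536 : ℝ)) (c := (379421 / 32768 : ℝ) + (107 / 256 : ℝ)) (y1 := (1241 / 262144 : ℝ)) (y2 := (377 / 65536 : ℝ))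
    (A1 := (48566373 / 4194304 : ℝ)) (B1 := (141553 / 134217728 : ℝ)) (A2 := (477855551 / 4194304 : ℝ)) (B2 := (4127047 / 268435456 : ℝ)) (l := (1545 / 262144 : ℝ)) (u := (455 / 65536 : ℝ))
    (E := (-215067289 / 2097152 : ℝ)) (F := (-4603837 / 268435456 : ℝ)) (by norm_num) (by norm_num) (by norm_num) (by norm_num) (by norm_num)
    (by norm_num) (by norm_num) (by norm_num) (by norm_num) (by norm_num) (by norm_num) (by norm_num) (by norm_num) (by norm_num) (by norm_num)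
  have e1 : C1.l = (1545 / 262144 : ℝ) := rfl
  have e2 : C1.u = (455 / 65536 : ℝ) := rfl
  have e3 : C1.a1 = -(48566373 / 4194304 : ℝ) := by norm_num [C1]
  have e4 : C1.a2 = -(477855551 / 4194304 : ℝ) := by norm_num [C1]
  have e5 : C1.e = (-215067289 / 2097152 : ℝ) := rfl
  have e6 : C1.f = (141553 / 134217728 : ℝ) + (4127047 / 268435456 : ℝ) + (-4603837 / 268435456 : ℝ) := by norm_num [C1]
  rw [e1, e2, e3, e4, e5, e6]
  exact h

lemma rcell2 : ∃ N : ℝ, Rw4 P.r2 N (coCell (87579 / 65536 : ℝ) (868797 / 65536 : ℝ) ((379421 / 32768 : ℝ) + (107 / 256 : ℝ)) (21 / 1024 : ℝ) C2) := by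
  refine ⟨(402653184 : ℝ), ⟨Q5, List.mem_cons_of_mem _ (List.mem_cons_of_mem _ (List.mem_cons_of_mem _ (List.mem_cons_of_mem _ (List.mem_cons_of_mem _ (List.mem_cons_self))))), ?_⟩, by norm_num⟩
  constructor <;> norm_num [Q5, coCell, C2]

lemma lcell2 : ∀ x1 x2 xc : ℝ, 0 ≤ x1 → x1 ≤ 1 → 0 ≤ x2 → x2 ≤ 1 → C2.l ≤ xc → xc ≤ C2.u →
    (87579 / 65536 : ℝ) * (1 - (1 - x1) ^ 9) + (868797 / 65536 : ℝ) * (1 - (1 - x2) ^ 9) - ((379421 / 32768 : ℝ) + (107 / 256 : ℝ)) * (1 - (1 - xc) ^ 9)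
      ≤ - C2.a1 * x1 - C2.a2 * x2 + C2.e * xc + C2.f := by
  have h := cell_lines 9 (α1 := (87579 / 65536 : ℝ)) (α2 := (868797 / 65536 : ℝ)) (c := (379421 / 32768 : ℝ) + (107 / 256 : ℝ)) (y1 := (1461 / 262144 : ℝ)) (y2 := (445 / 65536 : ℝ))
    (A1 := (48239719 / 4194304 : ℝ)) (B1 := (390847 / 268435456 : ℝ)) (A2 := (59235071 / 524288 : ℝ)) (B2 := (2861169 / 134217728 : ℝ)) (l := (455 / 65536 : ℝ)) (u := (2145 / 262144 : ℝ))
    (E := (-426187525 / 4194304 : ℝ)) (F := (-6357655 / 268435456 : ℝ)) (by norm_num) (by norm_num) (by norm_num) (by norm_num) (by norm_num)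
    (by norm_num) (by norm_num) (by norm_num) (by norm_num) (by norm_num) (by norm_num) (by norm_num) (by norm_num) (by norm_num) (by norm_num)
  have e1 : C2.l = (455 / 65536 : ℝ) := rfl
  have e2 : C2.u = (2145 / 262144 : ℝ) := rfl
  have e3 : C2.a1 = -(48239719 / 4194304 : ℝ) := by norm_num [C2]
  have e4 : C2.a2 = -(59235071 / 524288 : ℝ) := by norm_num [C2]
  have e5 : C2.e = (-426187525 / 4194304 : ℝ) := rfl
  have e6 : C2.f = (390847 / 268435456 : ℝ) + (2861169 / 134217728 : ℝ) + (-6357655 / 268435456 : ℝ) := by norm_num [C2]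
  rw [e1, e2, e3, e4, e5, e6]
  exact h

lemma rcell3 : ∃ N : ℝ, Rw4 P.r2 N (coCell (87579 / 65536 : ℝ) (868797 / 65536 : ℝ) ((379421 / 32768 : ℝ) + (107 / 256 : ℝ)) (21 / 1024 : ℝ) C3) := by
  refine ⟨(805306368 : ℝ), ⟨Q6, List.mem_cons_of_mem _ (List.mem_cons_of_mem _ (List.mem_cons_of_mem _ (List.mem_cons_of_mem _ (List.mem_cons_of_mem _ (List.mem_cons_of_mem _ (List.mem_cons_self)))))), ?_⟩, by norm_num⟩
  constructor <;> norm_num [Q6, coCell, C3]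

lemma lcell3 : ∀ x1 x2 xc : ℝ, 0 ≤ x1 → x1 ≤ 1 → 0 ≤ x2 → x2 ≤ 1 → C3.l ≤ xc → xc ≤ C3.u →
    (87579 / 65536 : ℝ) * (1 - (1 - x1) ^ 9) + (868797 / 65536 : ℝ) * (1 - (1 - x2) ^ 9) - ((379421 / 32768 : ℝ) + (107 / 256 : ℝ)) * (1 - (1 - xc) ^ 9)
      ≤ - C3.a1 * x1 - C3.a2 * x2 + C3.e * xc + C3.f := by
  have h := cell_lines 9 (α1 := (87579 / 65536 : ℝ)) (α2 := (868797 / 65536 : ℝ)) (c := (379421 / 32768 : ℝ) + (107 / 256 : ℝ)) (y1 := (1717 / 262144 : ℝ)) (y2 := (525 / 65536 : ℝ))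
    (A1 := (23931017 / 2097152 : ℝ)) (B1 := (537357 / 268435456 : ℝ)) (A2 := (14663787 / 131072 : ℝ)) (B2 := (3959723 / 134217728 : ℝ)) (l := (2145 / 262144 : ℝ)) (u := (79 / 8192 : ℝ))
    (E := (-210785439 / 2097152 : ℝ)) (F := (-2193827 / 67108864 : ℝ)) (by norm_num) (by norm_num) (by norm_num) (by norm_num) (by norm_num)
    (by norm_num) (by norm_num) (by norm_num) (by norm_num) (by norm_num) (by norm_num) (by norm_num) (by norm_num) (by norm_num) (by norm_num)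
  have e1 : C3.l = (2145 / 262144 : ℝ) := rfl
  have e2 : C3.u = (79 / 8192 : ℝ) := rfl
  have e3 : C3.a1 = -(23931017 / 2097152 : ℝ) := by norm_num [C3]
  have e4 : C3.a2 = -(14663787 / 131072 : ℝ) := by norm_num [C3]
  have e5 : C3.e = (-210785439 / 2097152 : ℝ) := rfl
  have e6 : C3.f = (537357 / 268435456 : ℝ) + (3959723 / 134217728 : ℝ) + (-2193827 / 67108864 : ℝ) := by norm_num [C3]
  rw [e1, e2, e3, e4, e5, e6]
  exact h

lemma rcell4 : ∃ N : ℝ, Rw4 P.r2 N (coCell (87579 / 65536 : ℝ) (868797 / 65536 : ℝ) ((379421 / 32768 : ℝ) + (107 / 256 : ℝ)) (21 / 1024 : ℝ) C4) := by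
  refine ⟨(201326592 : ℝ), ⟨Q7, List.mem_cons_of_mem _ (List.mem_cons_of_mem _ (List.mem_cons_of_mem _ (List.mem_cons_of_mem _ (List.mem_cons_of_mem _ (List.mem_cons_of_mem _ (List.mem_cons_of_mem _ (List.mem_cons_self))))))), ?_⟩, by norm_num⟩
  constructor <;> norm_num [Q7, coCell, C4]

lemma lcell4 : ∀ x1 x2 xc : ℝ, 0 ≤ x1 → x1 ≤ 1 → 0 ≤ x2 → x2 ≤ 1 → C4.l ≤ xc → xc ≤ C4.u →
    (87579 / 65536 : ℝ) * (1 - (1 - x1) ^ 9) + (868797 / 65536 : ℝ) * (1 - (1 - x2) ^ 9) - ((379421 / 32768 : ℝ) + (107 / 256 : ℝ)) * (1 - (1 - xc) ^ 9)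
      ≤ - C4.a1 * x1 - C4.a2 * x2 + C4.e * xc + C4.f := by
  have h := cell_lines 9 (α1 := (87579 / 65536 : ℝ)) (α2 := (868797 / 65536 : ℝ)) (c := (379421 / 32768 : ℝ) + (107 / 256 : ℝ)) (y1 := (1027 / 131072 : ℝ)) (y2 := (77 / 8192 : ℝ))
    (A1 := (23684397 / 2097152 : ℝ)) (B1 := (11943 / 4194304 : ℝ)) (A2 := (116003061 / 1048576 : ℝ)) (B2 := (1354029 / 33554432 : ℝ)) (l := (79 / 8192 : ℝ)) (u := (2979 / 262144 : ℝ))
    (E := (-812869 / 8192 : ℝ)) (F := (-3024245 / 67108864 : ℝ)) (by norm_num) (by norm_num) (by norm_num) (by norm_num) (by norm_num)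
    (by norm_num) (by norm_num) (by norm_num) (by norm_num) (by norm_num) (by norm_num) (by norm_num) (by norm_num) (by norm_num) (by norm_num)
  have e1 : C4.l = (79 / 8192 : ℝ) := rfl
  have e2 : C4.u = (2979 / 262144 : ℝ) := rfl
  have e3 : C4.a1 = -(23684397 / 2097152 : ℝ) := by norm_num [C4]
  have e4 : C4.a2 = -(116003061 / 1048576 : ℝ) := by norm_num [C4]
  have e5 : C4.e = (-812869 / 8192 : ℝ) := rfl
  have e6 : C4.f = (11943 / 4194304 : ℝ) + (1354029 / 33554432 : ℝ) + (-3024245 / 67108864 : ℝ) := by norm_num [C4]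
  rw [e1, e2, e3, e4, e5, e6]
  exact h

lemma rcell5 : ∃ N : ℝ, Rw4 P.r2 N (coCell (87579 / 65536 : ℝ) (868797 / 65536 : ℝ) ((379421 / 32768 : ℝ) + (107 / 256 : ℝ)) (21 / 1024 : ℝ) C5) := by
  refine ⟨(805306368 : ℝ), ⟨Q8, List.mem_cons_of_mem _ (List.mem_cons_of_mem _ (List.mem_cons_of_mem _ (List.mem_cons_of_mem _ (List.mem_cons_of_mem _ (List.mem_cons_of_mem _ (List.mem_cons_of_mem _ (List.mem_cons_of_mem _ (List.mem_cons_self)))))))), ?_⟩, by norm_num⟩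
  constructor <;> norm_num [Q8, coCell, C5]

lemma lcell5 : ∀ x1 x2 xc : ℝ, 0 ≤ x1 → x1 ≤ 1 → 0 ≤ x2 → x2 ≤ 1 → C5.l ≤ xc → xc ≤ C5.u →
    (87579 / 65536 : ℝ) * (1 - (1 - x1) ^ 9) + (868797 / 65536 : ℝ) * (1 - (1 - x2) ^ 9) - ((379421 / 32768 : ℝ) + (107 / 256 : ℝ)) * (1 - (1 - xc) ^ 9)
      ≤ - C5.a1 * x1 - C5.a2 * x2 + C5.e * xc + C5.f := by
  have h := cell_lines 9 (α1 := (87579 / 65536 : ℝ)) (α2 := (868797 / 65536 : ℝ)) (c := (379421 / 32768 : ℝ) + (107 / 256 : ℝ)) (y1 := (2431 / 262144 : ℝ)) (y2 := (2905 / 262144 : ℝ))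
    (A1 := (46822285 / 4194304 : ℝ)) (B1 := (265879 / 67108864 : ℝ)) (A2 := (457745539 / 4194304 : ℝ)) (B2 := (14938735 / 268435456 : ℝ)) (l := (2979 / 262144 : ℝ)) (u := (1755 / 131072 : ℝ))
    (E := (-102482307 / 1048576 : ℝ)) (F := (-4162407 / 67108864 : ℝ)) (by norm_num) (by norm_num) (by norm_num) (by norm_num) (by norm_num)
    (by norm_num) (by norm_num) (by norm_num) (by norm_num) (by norm_num) (by norm_num) (by norm_num) (by norm_num) (by norm_num) (by norm_num)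
  have e1 : C5.l = (2979 / 262144 : ℝ) := rfl
  have e2 : C5.u = (1755 / 131072 : ℝ) := rfl
  have e3 : C5.a1 = -(46822285 / 4194304 : ℝ) := by norm_num [C5]
  have e4 : C5.a2 = -(457745539 / 4194304 : ℝ) := by norm_num [C5]
  have e5 : C5.e = (-102482307 / 1048576 : ℝ) := rfl
  have e6 : C5.f = (265879 / 67108864 : ℝ) + (14938735 / 268435456 : ℝ) + (-4162407 / 67108864 : ℝ) := by norm_num [C5]
  rw [e1, e2, e3, e4, e5, e6]
  exact h

lemma rcell6 : ∃ N : ℝ, Rw4 P.r2 N (coCell (87579 / 65536 : ℝ) (868797 / 65536 : ℝ) ((379421 / 32768 : ℝ) + (107 / 256 : ℝ)) (21 / 1024 : ℝ) C6) := by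
  refine ⟨(805306368 : ℝ), ⟨Q9, List.mem_cons_of_mem _ (List.mem_cons_of_mem _ (List.mem_cons_of_mem _ (List.mem_cons_of_mem _ (List.mem_cons_of_mem _ (List.mem_cons_of_mem _ (List.mem_cons_of_mem _ (List.mem_cons_of_mem _ (List.mem_cons_of_mem _ (List.mem_cons_self))))))))), ?_⟩, by norm_num⟩
  constructor <;> norm_num [Q9, coCell, C6]

lemma lcell6 : ∀ x1 x2 xc : ℝ, 0 ≤ x1 → x1 ≤ 1 → 0 ≤ x2 → x2 ≤ 1 → C6.l ≤ xc → xc ≤ C6.u →
    (87579 / 65536 : ℝ) * (1 - (1 - x1) ^ 9) + (868797 / 65536 : ℝ) * (1 - (1 - x2) ^ 9) - ((379421 / 32768 : ℝ) + (107 / 256 : ℝ)) * (1 - (1 - xc) ^ 9)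
      ≤ - C6.a1 * x1 - C6.a2 * x2 + C6.e * xc + C6.f := by
  have h := cell_lines 9 (α1 := (87579 / 65536 : ℝ)) (α2 := (868797 / 65536 : ℝ)) (c := (379421 / 32768 : ℝ) + (107 / 256 : ℝ)) (y1 := (45 / 4096 : ℝ)) (y2 := (1713 / 131072 : ℝ))
    (A1 := (46178607 / 4194304 : ℝ)) (B1 := (1480751 / 268435456 : ℝ)) (A2 := (450437545 / 4194304 : ℝ)) (B2 := (20585459 / 268435456 : ℝ)) (l := (1755 / 131072 : ℝ)) (u := (4137 / 262144 : ℝ))
    (E := (-25165867 / 262144 : ℝ)) (F := (-22884125 / 268435456 : ℝ)) (by norm_num) (by norm_num) (by norm_num) (by norm_num) (by norm_num)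
    (by norm_num) (by norm_num) (by norm_num) (by norm_num) (by norm_num) (by norm_num) (by norm_num) (by norm_num) (by norm_num) (by norm_num)
  have e1 : C6.l = (1755 / 131072 : ℝ) := rfl
  have e2 : C6.u = (4137 / 262144 : ℝ) := rfl
  have e3 : C6.a1 = -(46178607 / 4194304 : ℝ) := by norm_num [C6]
  have e4 : C6.a2 = -(450437545 / 4194304 : ℝ) := by norm_num [C6]
  have e5 : C6.e = (-25165867 / 262144 : ℝ) := rfl
  have e6 : C6.f = (1480751 / 268435456 : ℝ) + (20585459 / 268435456 : ℝ) + (-22884125 / 268435456 : ℝ) := by norm_num [C6]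
  rw [e1, e2, e3, e4, e5, e6]
  exact h

lemma rcell7 : ∃ N : ℝ, Rw4 P.r2 N (coCell (87579 / 65536 : ℝ) (868797 / 65536 : ℝ) ((379421 / 32768 : ℝ) + (107 / 256 : ℝ)) (21 / 1024 : ℝ) C7) := by
  refine ⟨(805306368 : ℝ), ⟨Q10, List.mem_cons_of_mem _ (List.mem_cons_of_mem _ (List.mem_cons_of_mem _ (List.mem_cons_of_mem _ (List.mem_cons_of_mem _ (List.mem_cons_of_mem _ (List.mem_cons_of_mem _ (List.mem_cons_of_mem _ (List.mem_cons_of_mem _ (List.mem_cons_of_mem _ (List.mem_cons_self)))))))))), ?_⟩, by norm_num⟩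
  constructor <;> norm_num [Q10, coCell, C7]

lemma lcell7 : ∀ x1 x2 xc : ℝ, 0 ≤ x1 → x1 ≤ 1 → 0 ≤ x2 → x2 ≤ 1 → C7.l ≤ xc → xc ≤ C7.u →
    (87579 / 65536 : ℝ) * (1 - (1 - x1) ^ 9) + (868797 / 65536 : ℝ) * (1 - (1 - x2) ^ 9) - ((379421 / 32768 : ℝ) + (107 / 256 : ℝ)) * (1 - (1 - xc) ^ 9)
      ≤ - C7.a1 * x1 - C7.a2 * x2 + C7.e * xc + C7.f := by
  have h := cell_lines 9 (α1 := (87579 / 65536 : ℝ)) (α2 := (868797 / 65536 : ℝ)) (c := (379421 / 32768 : ℝ) + (107 / 256 : ℝ)) (y1 := (1677 / 131072 : ℝ)) (y2 := (2011 / 131072 : ℝ))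
    (A1 := (2844219 / 262144 : ℝ)) (B1 := (248921 / 33554432 : ℝ)) (A2 := (221101453 / 2097152 : ℝ)) (B2 := (28070613 / 268435456 : ℝ)) (l := (4137 / 262144 : ℝ)) (u := (4875 / 262144 : ℝ))
    (E := (-394223579 / 4194304 : ℝ)) (F := (-7849701 / 67108864 : ℝ)) (by norm_num) (by norm_num) (by norm_num) (by norm_num) (by norm_num)
    (by norm_num) (by norm_num) (by norm_num) (by norm_num) (by norm_num) (by norm_num) (by norm_num) (by norm_num) (by norm_num) (by norm_num)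
  have e1 : C7.l = (4137 / 262144 : ℝ) := rfl
  have e2 : C7.u = (4875 / 262144 : ℝ) := rfl
  have e3 : C7.a1 = -(2844219 / 262144 : ℝ) := by norm_num [C7]
  have e4 : C7.a2 = -(221101453 / 2097152 : ℝ) := by norm_num [C7]
  have e5 : C7.e = (-394223579 / 4194304 : ℝ) := rfl
  have e6 : C7.f = (248921 / 33554432 : ℝ) + (28070613 / 268435456 : ℝ) + (-7849701 / 67108864 : ℝ) := by norm_num [C7]
  rw [e1, e2, e3, e4, e5, e6]
  exact h

lemma rcell8 : ∃ N : ℝ, Rw4 P.r2 N (coCell (87579 / 65536 : ℝ) (868797 / 65536 : ℝ) ((379421 / 32768 : ℝ) + (107 / 256 : ℝ)) (21 / 1024 : ℝ) C8) := by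
  refine ⟨(50331648 : ℝ), ⟨Q11, List.mem_cons_of_mem _ (List.mem_cons_of_mem _ (List.mem_cons_of_mem _ (List.mem_cons_of_mem _ (List.mem_cons_of_mem _ (List.mem_cons_of_mem _ (List.mem_cons_of_mem _ (List.mem_cons_of_mem _ (List.mem_cons_of_mem _ (List.mem_cons_of_mem _ (List.mem_cons_of_mem _ (List.mem_cons_self))))))))))), ?_⟩, by norm_num⟩
  constructor <;> norm_num [Q11, coCell, C8]

lemma lcell8 : ∀ x1 x2 xc : ℝ, 0 ≤ x1 → x1 ≤ 1 → 0 ≤ x2 → x2 ≤ 1 → C8.l ≤ xc → xc ≤ C8.u →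
    (87579 / 65536 : ℝ) * (1 - (1 - x1) ^ 9) + (868797 / 65536 : ℝ) * (1 - (1 - x2) ^ 9) - ((379421 / 32768 : ℝ) + (107 / 256 : ℝ)) * (1 - (1 - xc) ^ 9)
      ≤ - C8.a1 * x1 - C8.a2 * x2 + C8.e * xc + C8.f := by
  have h := cell_lines 9 (α1 := (87579 / 65536 : ℝ)) (α2 := (868797 / 65536 : ℝ)) (c := (379421 / 32768 : ℝ) + (107 / 256 : ℝ)) (y1 := (3983 / 262144 : ℝ)) (y2 := (2371 / 131072 : ℝ))
    (A1 := (11157533 / 1048576 : ℝ)) (B1 := (2776977 / 268435456 : ℝ)) (A2 := (432430937 / 4194304 : ℝ)) (B2 := (4815263 / 33554432 : ℝ)) (l := (4875 / 262144 : ℝ)) (u := (5745 / 262144 : ℝ))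
    (E := (-384491445 / 4194304 : ℝ)) (F := (-42981849 / 268435456 : ℝ)) (by norm_num) (by norm_num) (by norm_num) (by norm_num) (by norm_num)
    (by norm_num) (by norm_num) (by norm_num) (by norm_num) (by norm_num) (by norm_num) (by norm_num) (by norm_num) (by norm_num) (by norm_num)
  have e1 : C8.l = (4875 / 262144 : ℝ) := rfl
  have e2 : C8.u = (5745 / 262144 : ℝ) := rfl
  have e3 : C8.a1 = -(11157533 / 1048576 : ℝ) := by norm_num [C8]
  have e4 : C8.a2 = -(432430937 / 4194304 : ℝ) := by norm_num [C8]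
  have e5 : C8.e = (-384491445 / 4194304 : ℝ) := rfl
  have e6 : C8.f = (2776977 / 268435456 : ℝ) + (4815263 / 33554432 : ℝ) + (-42981849 / 268435456 : ℝ) := by norm_num [C8]
  rw [e1, e2, e3, e4, e5, e6]
  exact h

lemma rcell9 : ∃ N : ℝ, Rw4 P.r2 N (coCell (87579 / 65536 : ℝ) (868797 / 65536 : ℝ) ((379421 / 32768 : ℝ) + (107 / 256 : ℝ)) (21 / 1024 : ℝ) C9) := by
  refine ⟨(805306368 : ℝ), ⟨Q12, List.mem_cons_of_mem _ (List.mem_cons_of_mem _ (List.mem_cons_of_mem _ (List.mem_cons_of_mem _ (List.mem_cons_of_mem _ (List.mem_cons_of_mem _ (List.mem_cons_of_mem _ (List.mem_cons_of_mem _ (List.mem_cons_of_mem _ (List.mem_cons_of_mem _ (List.mem_cons_of_mem _ (List.mem_cons_of_mem _ (List.mem_cons_self)))))))))))), ?_⟩, by norm_num⟩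
  constructor <;> norm_num [Q12, coCell, C9]

lemma lcell9 : ∀ x1 x2 xc : ℝ, 0 ≤ x1 → x1 ≤ 1 → 0 ≤ x2 → x2 ≤ 1 → C9.l ≤ xc → xc ≤ C9.u →
    (87579 / 65536 : ℝ) * (1 - (1 - x1) ^ 9) + (868797 / 65536 : ℝ) * (1 - (1 - x2) ^ 9) - ((379421 / 32768 : ℝ) + (107 / 256 : ℝ)) * (1 - (1 - xc) ^ 9)
      ≤ - C9.a1 * x1 - C9.a2 * x2 + C9.e * xc + C9.f := by
  have h := cell_lines 9 (α1 := (87579 / 65536 : ℝ)) (α2 := (868797 / 65536 : ℝ)) (c := (379421 / 32768 : ℝ) + (107 / 256 : ℝ)) (y1 := (577 / 32768 : ℝ)) (y2 := (1399 / 65536 : ℝ))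
    (A1 := (21881079 / 2097152 : ℝ)) (B1 := (1843943 / 134217728 : ℝ)) (A2 := (210542847 / 2097152 : ℝ)) (B2 := (52834801 / 268435456 : ℝ)) (l := (5745 / 262144 : ℝ)) (u := (3385 / 131072 : ℝ))
    (E := (-46661661 / 524288 : ℝ)) (F := (-7336031 / 33554432 : ℝ)) (by norm_num) (by norm_num) (by norm_num) (by norm_num) (by norm_num)
    (by norm_num) (by norm_num) (by norm_num) (by norm_num) (by norm_num) (by norm_num) (by norm_num) (by norm_num) (by norm_num) (by norm_num)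
  have e1 : C9.l = (5745 / 262144 : ℝ) := rfl
  have e2 : C9.u = (3385 / 131072 : ℝ) := rfl
  have e3 : C9.a1 = -(21881079 / 2097152 : ℝ) := by norm_num [C9]
  have e4 : C9.a2 = -(210542847 / 2097152 : ℝ) := by norm_num [C9]
  have e5 : C9.e = (-46661661 / 524288 : ℝ) := rfl
  have e6 : C9.f = (1843943 / 134217728 : ℝ) + (52834801 / 268435456 : ℝ) + (-7336031 / 33554432 : ℝ) := by norm_num [C9]
  rw [e1, e2, e3, e4, e5, e6]
  exact h

lemma rcell10 : ∃ N : ℝ, Rw4 P.r2 N (coCell (87579 / 65536 : ℝ) (868797 / 65536 : ℝ) ((379421 / 32768 : ℝ) + (107 / 256 : ℝ)) (21 / 1024 : ℝ) C10) := by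
  refine ⟨(402653184 : ℝ), ⟨Q13, List.mem_cons_of_mem _ (List.mem_cons_of_mem _ (List.mem_cons_of_mem _ (List.mem_cons_of_mem _ (List.mem_cons_of_mem _ (List.mem_cons_of_mem _ (List.mem_cons_of_mem _ (List.mem_cons_of_mem _ (List.mem_cons_of_mem _ (List.mem_cons_of_mem _ (List.mem_cons_of_mem _ (List.mem_cons_of_mem _ (List.mem_cons_of_mem _ (List.mem_cons_self))))))))))))), ?_⟩, by norm_num⟩
  constructor <;> norm_num [Q13, coCell, C10]

lemma lcell10 : ∀ x1 x2 xc : ℝ, 0 ≤ x1 → x1 ≤ 1 → 0 ≤ x2 → x2 ≤ 1 → C10.l ≤ xc → xc ≤ C10.u →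
    (87579 / 65536 : ℝ) * (1 - (1 - x1) ^ 9) + (868797 / 65536 : ℝ) * (1 - (1 - x2) ^ 9) - ((379421 / 32768 : ℝ) + (107 / 256 : ℝ)) * (1 - (1 - xc) ^ 9)
      ≤ - C10.a1 * x1 - C10.a2 * x2 + C10.e * xc + C10.f := by
  have h := cell_lines 9 (α1 := (87579 / 65536 : ℝ)) (α2 := (868797 / 65536 : ℝ)) (c := (379421 / 32768 : ℝ) + (107 / 256 : ℝ)) (y1 := (5391 / 262144 : ℝ)) (y2 := (6563 / 262144 : ℝ))
    (A1 := (10679903 / 1048576 : ℝ)) (B1 := (1240273 / 67108864 : ℝ)) (A2 := (204277223 / 2097152 : ℝ)) (B2 := (35713909 / 134217728 : ℝ)) (l := (3385 / 131072 : ℝ)) (u := (3989 / 131072 : ℝ))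
    (E := (-360465751 / 4194304 : ℝ)) (F := (-19972503 / 67108864 : ℝ)) (by norm_num) (by norm_num) (by norm_num) (by norm_num) (by norm_num)
    (by norm_num) (by norm_num) (by norm_num) (by norm_num) (by norm_num) (by norm_num) (by norm_num) (by norm_num) (by norm_num) (by norm_num)
  have e1 : C10.l = (3385 / 131072 : ℝ) := rfl
  have e2 : C10.u = (3989 / 131072 : ℝ) := rfl
  have e3 : C10.a1 = -(10679903 / 1048576 : ℝ) := by norm_num [C10]
  have e4 : C10.a2 = -(204277223 / 2097152 : ℝ) := by norm_num [C10]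
  have e5 : C10.e = (-360465751 / 4194304 : ℝ) := rfl
  have e6 : C10.f = (1240273 / 67108864 : ℝ) + (35713909 / 134217728 : ℝ) + (-19972503 / 67108864 : ℝ) := by norm_num [C10]
  rw [e1, e2, e3, e4, e5, e6]
  exact h

lemma rcell11 : ∃ N : ℝ, Rw4 P.r2 N (coCell (87579 / 65536 : ℝ) (868797 / 65536 : ℝ) ((379421 / 32768 : ℝ) + (107 / 256 : ℝ)) (21 / 1024 : ℝ) C11) := by
  refine ⟨(402653184 : ℝ), ⟨Q14, List.mem_cons_of_mem _ (List.mem_cons_of_mem _ (List.mem_cons_of_mem _ (List.mem_cons_of_mem _ (List.mem_cons_of_mem _ (List.mem_cons_of_mem _ (List.mem_cons_of_mem _ (List.mem_cons_of_mem _ (List.mem_cons_of_mem _ (List.mem_cons_of_mem _ (List.mem_cons_of_mem _ (List.mem_cons_of_mem _ (List.mem_cons_of_mem _ (List.mem_cons_of_mem _ (List.mem_cons_self)))))))))))))), ?_⟩, by norm_num⟩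
  constructor <;> norm_num [Q14, coCell, C11]

lemma lcell11 : ∀ x1 x2 xc : ℝ, 0 ≤ x1 → x1 ≤ 1 → 0 ≤ x2 → x2 ≤ 1 → C11.l ≤ xc → xc ≤ C11.u →
    (87579 / 65536 : ℝ) * (1 - (1 - x1) ^ 9) + (868797 / 65536 : ℝ) * (1 - (1 - x2) ^ 9) - ((379421 / 32768 : ℝ) + (107 / 256 : ℝ)) * (1 - (1 - xc) ^ 9)
      ≤ - C11.a1 * x1 - C11.a2 * x2 + C11.e * xc + C11.f := by
  have h := cell_lines 9 (α1 := (87579 / 65536 : ℝ)) (α2 := (868797 / 65536 : ℝ)) (c := (379421 / 32768 : ℝ) + (107 / 256 : ℝ)) (y1 := (809 / 32768 : ℝ)) (y2 := (7719 / 262144 : ℝ))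
    (A1 := (41301749 / 4194304 : ℝ)) (B1 := (7013381 / 268435456 : ℝ)) (A2 := (394003143 / 4194304 : ℝ)) (B2 := (24196455 / 67108864 : ℝ)) (l := (3989 / 131072 : ℝ)) (u := (4701 / 131072 : ℝ))
    (E := (-172921947 / 2097152 : ℝ)) (F := (-108369791 / 268435456 : ℝ)) (by norm_num) (by norm_num) (by norm_num) (by norm_num) (by norm_num)
    (by norm_num) (by norm_num) (by norm_num) (by norm_num) (by norm_num) (by norm_num) (by norm_num) (by norm_num) (by norm_num) (by norm_num)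
  have e1 : C11.l = (3989 / 131072 : ℝ) := rfl
  have e2 : C11.u = (4701 / 131072 : ℝ) := rfl
  have e3 : C11.a1 = -(41301749 / 4194304 : ℝ) := by norm_num [C11]
  have e4 : C11.a2 = -(394003143 / 4194304 : ℝ) := by norm_num [C11]
  have e5 : C11.e = (-172921947 / 2097152 : ℝ) := rfl
  have e6 : C11.f = (7013381 / 268435456 : ℝ) + (24196455 / 67108864 : ℝ) + (-108369791 / 268435456 : ℝ) := by norm_num [C11]
  rw [e1, e2, e3, e4, e5, e6]
  exact h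

lemma rcell12 : ∃ N : ℝ, Rw4 P.r2 N (coCell (87579 / 65536 : ℝ) (868797 / 65536 : ℝ) ((379421 / 32768 : ℝ) + (107 / 256 : ℝ)) (21 / 1024 : ℝ) C12) := by
  refine ⟨(805306368 : ℝ), ⟨Q15, List.mem_cons_of_mem _ (List.mem_cons_of_mem _ (List.mem_cons_of_mem _ (List.mem_cons_of_mem _ (List.mem_cons_of_mem _ (List.mem_cons_of_mem _ (List.mem_cons_of_mem _ (List.mem_cons_of_mem _ (List.mem_cons_of_mem _ (List.mem_cons_of_mem _ (List.mem_cons_of_mem _ (List.mem_cons_of_mem _ (List.mem_cons_of_mem _ (List.mem_cons_of_mem _ (List.mem_cons_of_mem _ (List.mem_cons_self))))))))))))))), ?_⟩, by norm_num⟩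
  constructor <;> norm_num [Q15, coCell, C12]

lemma lcell12 : ∀ x1 x2 xc : ℝ, 0 ≤ x1 → x1 ≤ 1 → 0 ≤ x2 → x2 ≤ 1 → C12.l ≤ xc → xc ≤ C12.u →
    (87579 / 65536 : ℝ) * (1 - (1 - x1) ^ 9) + (868797 / 65536 : ℝ) * (1 - (1 - x2) ^ 9) - ((379421 / 32768 : ℝ) + (107 / 256 : ℝ)) * (1 - (1 - xc) ^ 9)
      ≤ - C12.a1 * x1 - C12.a2 * x2 + C12.e * xc + C12.f := by
  have h := cell_lines 9 (α1 := (87579 / 65536 : ℝ)) (α2 := (868797 / 65536 : ℝ)) (c := (379421 / 32768 : ℝ) + (107 / 256 : ℝ)) (y1 := (3721 / 131072 : ℝ)) (y2 := (9109 / 262144 : ℝ))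
    (A1 := (40064703 / 4194304 : ℝ)) (B1 := (4556929 / 134217728 : ℝ)) (A2 := (377108393 / 4194304 : ℝ)) (B2 := (2054261 / 4194304 : ℝ)) (l := (4701 / 131072 : ℝ)) (u := (11079 / 262144 : ℝ))
    (E := (-329286141 / 4194304 : ℝ)) (F := (-146376625 / 268435456 : ℝ)) (by norm_num) (by norm_num) (by norm_num) (by norm_num) (by norm_num)
    (by norm_num) (by norm_num) (by norm_num) (by norm_num) (by norm_num) (by norm_num) (by norm_num) (by norm_num) (by norm_num) (by norm_num)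
  have e1 : C12.l = (4701 / 131072 : ℝ) := rfl
  have e2 : C12.u = (11079 / 262144 : ℝ) := rfl
  have e3 : C12.a1 = -(40064703 / 4194304 : ℝ) := by norm_num [C12]
  have e4 : C12.a2 = -(377108393 / 4194304 : ℝ) := by norm_num [C12]
  have e5 : C12.e = (-329286141 / 4194304 : ℝ) := rfl
  have e6 : C12.f = (4556929 / 134217728 : ℝ) + (2054261 / 4194304 : ℝ) + (-146376625 / 268435456 : ℝ) := by norm_num [C12]
  rw [e1, e2, e3, e4, e5, e6]
  exact h

lemma rcell13 : ∃ N : ℝ, Rw4 P.r2 N (coCell (87579 / 65536 : ℝ) (868797 / 65536 : ℝ) ((379421 / 32768 : ℝ) + (107 / 256 : ℝ)) (21 / 1024 : ℝ) C13) := by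
  refine ⟨(402653184 : ℝ), ⟨Q16, List.mem_cons_of_mem _ (List.mem_cons_of_mem _ (List.mem_cons_of_mem _ (List.mem_cons_of_mem _ (List.mem_cons_of_mem _ (List.mem_cons_of_mem _ (List.mem_cons_of_mem _ (List.mem_cons_of_mem _ (List.mem_cons_of_mem _ (List.mem_cons_of_mem _ (List.mem_cons_of_mem _ (List.mem_cons_of_mem _ (List.mem_cons_of_mem _ (List.mem_cons_of_mem _ (List.mem_cons_of_mem _ (List.mem_cons_of_mem _ (List.mem_cons_self)))))))))))))))), ?_⟩, by norm_num⟩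
  constructor <;> norm_num [Q16, coCell, C13]

lemma lcell13 : ∀ x1 x2 xc : ℝ, 0 ≤ x1 → x1 ≤ 1 → 0 ≤ x2 → x2 ≤ 1 → C13.l ≤ xc → xc ≤ C13.u →
    (87579 / 65536 : ℝ) * (1 - (1 - x1) ^ 9) + (868797 / 65536 : ℝ) * (1 - (1 - x2) ^ 9) - ((379421 / 32768 : ℝ) + (107 / 256 : ℝ)) * (1 - (1 - xc) ^ 9)
      ≤ - C13.a1 * x1 - C13.a2 * x2 + C13.e * xc + C13.f := by
  have h := cell_lines 9 (α1 := (87579 / 65536 : ℝ)) (α2 := (868797 / 65536 : ℝ)) (c := (379421 / 32768 : ℝ) + (107 / 256 : ℝ)) (y1 := (549 / 16384 : ℝ)) (y2 := (10703 / 262144 : ℝ))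
    (A1 := (4800843 / 524288 : ℝ)) (B1 := (12396115 / 268435456 : ℝ)) (A2 := (179258677 / 2097152 : ℝ)) (B2 := (176407641 / 268435456 : ℝ)) (l := (11079 / 262144 : ℝ)) (u := (51 / 1024 : ℝ))
    (E := (-310671431 / 4194304 : ℝ)) (F := (-98363163 / 134217728 : ℝ)) (by norm_num) (by norm_num) (by norm_num) (by norm_num) (by norm_num)
    (by norm_num) (by norm_num) (by norm_num) (by norm_num) (by norm_num) (by norm_num) (by norm_num) (by norm_num) (by norm_num) (by norm_num)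
  have e1 : C13.l = (11079 / 262144 : ℝ) := rfl
  have e2 : C13.u = (51 / 1024 : ℝ) := rfl
  have e3 : C13.a1 = -(4800843 / 524288 : ℝ) := by norm_num [C13]
  have e4 : C13.a2 = -(179258677 / 2097152 : ℝ) := by norm_num [C13]
  have e5 : C13.e = (-310671431 / 4194304 : ℝ) := rfl
  have e6 : C13.f = (12396115 / 268435456 : ℝ) + (176407641 / 268435456 : ℝ) + (-98363163 / 134217728 : ℝ) := by norm_num [C13]
  rw [e1, e2, e3, e4, e5, e6]
  exact h

lemma rcell14 : ∃ N : ℝ, Rw4 P.r2 N (coCell (87579 / 65536 : ℝ) (868797 / 65536 : ℝ) ((379421 / 32768 : ℝ) + (107 / 256 : ℝ)) (21 / 1024 : ℝ) C14) := by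
  refine ⟨(100663296 : ℝ), ⟨Q17, List.mem_cons_of_mem _ (List.mem_cons_of_mem _ (List.mem_cons_of_mem _ (List.mem_cons_of_mem _ (List.mem_cons_of_mem _ (List.mem_cons_of_mem _ (List.mem_cons_of_mem _ (List.mem_cons_of_mem _ (List.mem_cons_of_mem _ (List.mem_cons_of_mem _ (List.mem_cons_of_mem _ (List.mem_cons_of_mem _ (List.mem_cons_of_mem _ (List.mem_cons_of_mem _ (List.mem_cons_of_mem _ (List.mem_cons_of_mem _ (List.mem_cons_of_mem _ (List.mem_cons_self))))))))))))))))), ?_⟩, by norm_num⟩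
  constructor <;> norm_num [Q17, coCell, C14]

lemma lcell14 : ∀ x1 x2 xc : ℝ, 0 ≤ x1 → x1 ≤ 1 → 0 ≤ x2 → x2 ≤ 1 → C14.l ≤ xc → xc ≤ C14.u →
    (87579 / 65536 : ℝ) * (1 - (1 - x1) ^ 9) + (868797 / 65536 : ℝ) * (1 - (1 - x2) ^ 9) - ((379421 / 32768 : ℝ) + (107 / 256 : ℝ)) * (1 - (1 - xc) ^ 9)
      ≤ - C14.a1 * x1 - C14.a2 * x2 + C14.e * xc + C14.f := by
  have h := cell_lines 9 (α1 := (87579 / 65536 : ℝ)) (α2 := (868797 / 65536 : ℝ)) (c := (379421 / 32768 : ℝ) + (107 / 256 : ℝ)) (y1 := (5155 / 131072 : ℝ)) (y2 := (12499 / 262144 : ℝ))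
    (A1 := (9148671 / 1048576 : ℝ)) (B1 := (8308647 / 134217728 : ℝ)) (A2 := (338535641 / 4194304 : ℝ)) (B2 := (116482369 / 134217728 : ℝ)) (l := (51 / 1024 : ℝ)) (u := (7693 / 131072 : ℝ))
    (E := (-72480133 / 1048576 : ℝ)) (F := (-32858727 / 33554432 : ℝ)) (by norm_num) (by norm_num) (by norm_num) (by norm_num) (by norm_num)
    (by norm_num) (by norm_num) (by norm_num) (by norm_num) (by norm_num) (by norm_num) (by norm_num) (by norm_num) (by norm_num) (by norm_num)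
  have e1 : C14.l = (51 / 1024 : ℝ) := rfl
  have e2 : C14.u = (7693 / 131072 : ℝ) := rfl
  have e3 : C14.a1 = -(9148671 / 1048576 : ℝ) := by norm_num [C14]
  have e4 : C14.a2 = -(338535641 / 4194304 : ℝ) := by norm_num [C14]
  have e5 : C14.e = (-72480133 / 1048576 : ℝ) := rfl
  have e6 : C14.f = (8308647 / 134217728 : ℝ) + (116482369 / 134217728 : ℝ) + (-32858727 / 33554432 : ℝ) := by norm_num [C14]
  rw [e1, e2, e3, e4, e5, e6]
  exact h

lemma rcell15 : ∃ N : ℝ, Rw4 P.r2 N (coCell (87579 / 65536 : ℝ) (868797 / 65536 : ℝ) ((379421 / 32768 : ℝ) + (107 / 256 : ℝ)) (21 / 1024 : ℝ) C15) := by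
  refine ⟨(805306368 : ℝ), ⟨Q18, List.mem_cons_of_mem _ (List.mem_cons_of_mem _ (List.mem_cons_of_mem _ (List.mem_cons_of_mem _ (List.mem_cons_of_mem _ (List.mem_cons_of_mem _ (List.mem_cons_of_mem _ (List.mem_cons_of_mem _ (List.mem_cons_of_mem _ (List.mem_cons_of_mem _ (List.mem_cons_of_mem _ (List.mem_cons_of_mem _ (List.mem_cons_of_mem _ (List.mem_cons_of_mem _ (List.mem_cons_of_mem _ (List.mem_cons_of_mem _ (List.mem_cons_of_mem _ (List.mem_cons_of_mem _ (List.mem_cons_self)))))))))))))))))), ?_⟩, by norm_num⟩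
  constructor <;> norm_num [Q18, coCell, C15]

lemma lcell15 : ∀ x1 x2 xc : ℝ, 0 ≤ x1 → x1 ≤ 1 → 0 ≤ x2 → x2 ≤ 1 → C15.l ≤ xc → xc ≤ C15.u →
    (87579 / 65536 : ℝ) * (1 - (1 - x1) ^ 9) + (868797 / 65536 : ℝ) * (1 - (1 - x2) ^ 9) - ((379421 / 32768 : ℝ) + (107 / 256 : ℝ)) * (1 - (1 - xc) ^ 9)
      ≤ - C15.a1 * x1 - C15.a2 * x2 + C15.e * xc + C15.f := by
  have h := cell_lines 9 (α1 := (87579 / 65536 : ℝ)) (α2 := (868797 / 65536 : ℝ)) (c := (379421 / 32768 : ℝ) + (107 / 256 : ℝ)) (y1 := (12005 / 262144 : ℝ)) (y2 := (14703 / 262144 : ℝ))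
    (A1 := (17335021 / 2097152 : ℝ)) (B1 := (21856879 / 268435456 : ℝ)) (A2 := (315351367 / 4194304 : ℝ)) (B2 := (309884889 / 268435456 : ℝ)) (l := (7693 / 131072 : ℝ)) (u := (4533 / 65536 : ℝ))
    (E := (-267033599 / 4194304 : ℝ)) (F := (-348841093 / 268435456 : ℝ)) (by norm_num) (by norm_num) (by norm_num) (by norm_num) (by norm_num)
    (by norm_num) (by norm_num) (by norm_num) (by norm_num) (by norm_num) (by norm_num) (by norm_num) (by norm_num) (by norm_num) (by norm_num)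
  have e1 : C15.l = (7693 / 131072 : ℝ) := rfl
  have e2 : C15.u = (4533 / 65536 : ℝ) := rfl
  have e3 : C15.a1 = -(17335021 / 2097152 : ℝ) := by norm_num [C15]
  have e4 : C15.a2 = -(315351367 / 4194304 : ℝ) := by norm_num [C15]
  have e5 : C15.e = (-267033599 / 4194304 : ℝ) := rfl
  have e6 : C15.f = (21856879 / 268435456 : ℝ) + (309884889 / 268435456 : ℝ) + (-348841093 / 268435456 : ℝ) := by norm_num [C15]
  rw [e1, e2, e3, e4, e5, e6]
  exact h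

lemma rcell16 : ∃ N : ℝ, Rw4 P.r2 N (coCell (87579 / 65536 : ℝ) (868797 / 65536 : ℝ) ((379421 / 32768 : ℝ) + (107 / 256 : ℝ)) (21 / 1024 : ℝ) C16) := by
  refine ⟨(201326592 : ℝ), ⟨Q19, List.mem_cons_of_mem _ (List.mem_cons_of_mem _ (List.mem_cons_of_mem _ (List.mem_cons_of_mem _ (List.mem_cons_of_mem _ (List.mem_cons_of_mem _ (List.mem_cons_of_mem _ (List.mem_cons_of_mem _ (List.mem_cons_of_mem _ (List.mem_cons_of_mem _ (List.mem_cons_of_mem _ (List.mem_cons_of_mem _ (List.mem_cons_of_mem _ (List.mem_cons_of_mem _ (List.mem_cons_of_mem _ (List.mem_cons_of_mem _ (List.mem_cons_of_mem _ (List.mem_cons_of_mem _ (List.mem_cons_of_mem _ (List.mem_cons_self))))))))))))))))))), ?_⟩, by norm_num⟩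
  constructor <;> norm_num [Q19, coCell, C16]

lemma lcell16 : ∀ x1 x2 xc : ℝ, 0 ≤ x1 → x1 ≤ 1 → 0 ≤ x2 → x2 ≤ 1 → C16.l ≤ xc → xc ≤ C16.u →
    (87579 / 65536 : ℝ) * (1 - (1 - x1) ^ 9) + (868797 / 65536 : ℝ) * (1 - (1 - x2) ^ 9) - ((379421 / 32768 : ℝ) + (107 / 256 : ℝ)) * (1 - (1 - xc) ^ 9)
      ≤ - C16.a1 * x1 - C16.a2 * x2 + C16.e * xc + C16.f := by
  have h := cell_lines 9 (α1 := (87579 / 65536 : ℝ)) (α2 := (868797 / 65536 : ℝ)) (c := (379421 / 32768 : ℝ) + (107 / 256 : ℝ)) (y1 := (14403 / 262144 : ℝ)) (y2 := (4297 / 65536 : ℝ))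
    (A1 := (32098607 / 4194304 : ℝ)) (B1 := (30137783 / 268435456 : ℝ)) (A2 := (290888179 / 4194304 : ℝ)) (B2 := (202515679 / 134217728 : ℝ)) (l := (4533 / 65536 : ℝ)) (u := (21367 / 262144 : ℝ))
    (E := (-121056327 / 2097152 : ℝ)) (F := (-459160081 / 268435456 : ℝ)) (by norm_num) (by norm_num) (by norm_num) (by norm_num) (by norm_num)
    (by norm_num) (by norm_num) (by norm_num) (by norm_num) (by norm_num) (by norm_num) (by norm_num) (by norm_num) (by norm_num) (by norm_num)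
  have e1 : C16.l = (4533 / 65536 : ℝ) := rfl
  have e2 : C16.u = (21367 / 262144 : ℝ) := rfl
  have e3 : C16.a1 = -(32098607 / 4194304 : ℝ) := by norm_num [C16]
  have e4 : C16.a2 = -(290888179 / 4194304 : ℝ) := by norm_num [C16]
  have e5 : C16.e = (-121056327 / 2097152 : ℝ) := rfl
  have e6 : C16.f = (30137783 / 268435456 : ℝ) + (202515679 / 134217728 : ℝ) + (-459160081 / 268435456 : ℝ) := by norm_num [C16]
  rw [e1, e2, e3, e4, e5, e6]
  exact h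

lemma rcell17 : ∃ N : ℝ, Rw4 P.r2 N (coCell (87579 / 65536 : ℝ) (868797 / 65536 : ℝ) ((379421 / 32768 : ℝ) + (107 / 256 : ℝ)) (21 / 1024 : ℝ) C17) := by
  refine ⟨(402653184 : ℝ), ⟨Q20, List.mem_cons_of_mem _ (List.mem_cons_of_mem _ (List.mem_cons_of_mem _ (List.mem_cons_of_mem _ (List.mem_cons_of_mem _ (List.mem_cons_of_mem _ (List.mem_cons_of_mem _ (List.mem_cons_of_mem _ (List.mem_cons_of_mem _ (List.mem_cons_of_mem _ (List.mem_cons_of_mem _ (List.mem_cons_of_mem _ (List.mem_cons_of_mem _ (List.mem_cons_of_mem _ (List.mem_cons_of_mem _ (List.mem_cons_of_mem _ (List.mem_cons_of_mem _ (List.mem_cons_of_mem _ (List.mem_cons_of_mem _ (List.mem_cons_of_mem _ (List.mem_cons_self)))))))))))))))))))), ?_⟩, by norm_num⟩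
  constructor <;> norm_num [Q20, coCell, C17]

lemma lcell17 : ∀ x1 x2 xc : ℝ, 0 ≤ x1 → x1 ≤ 1 → 0 ≤ x2 → x2 ≤ 1 → C17.l ≤ xc → xc ≤ C17.u →
    (87579 / 65536 : ℝ) * (1 - (1 - x1) ^ 9) + (868797 / 65536 : ℝ) * (1 - (1 - x2) ^ 9) - ((379421 / 32768 : ℝ) + (107 / 256 : ℝ)) * (1 - (1 - xc) ^ 9)
      ≤ - C17.a1 * x1 - C17.a2 * x2 + C17.e * xc + C17.f := by
  have h := cell_lines 9 (α1 := (87579 / 65536 : ℝ)) (α2 := (868797 / 65536 : ℝ)) (c := (379421 / 32768 : ℝ) + (107 / 256 : ℝ)) (y1 := (4069 / 65536 : ℝ)) (y2 := (2519 / 32768 : ℝ))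
    (A1 := (7551951 / 1048576 : ℝ)) (B1 := (37215015 / 268435456 : ℝ)) (A2 := (263893985 / 4194304 : ℝ)) (B2 := (527935037 / 268435456 : ℝ)) (l := (21367 / 262144 : ℝ)) (u := (6295 / 65536 : ℝ))
    (E := (-107691949 / 2097152 : ℝ)) (F := (-299296023 / 134217728 : ℝ)) (by norm_num) (by norm_num) (by norm_num) (by norm_num) (by norm_num)
    (by norm_num) (by norm_num) (by norm_num) (by norm_num) (by norm_num) (by norm_num) (by norm_num) (by norm_num) (by norm_num) (by norm_num)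
  have e1 : C17.l = (21367 / 262144 : ℝ) := rfl
  have e2 : C17.u = (6295 / 65536 : ℝ) := rfl
  have e3 : C17.a1 = -(7551951 / 1048576 : ℝ) := by norm_num [C17]
  have e4 : C17.a2 = -(263893985 / 4194304 : ℝ) := by norm_num [C17]
  have e5 : C17.e = (-107691949 / 2097152 : ℝ) := rfl
  have e6 : C17.f = (37215015 / 268435456 : ℝ) + (527935037 / 268435456 : ℝ) + (-299296023 / 134217728 : ℝ) := by norm_num [C17]
  rw [e1, e2, e3, e4, e5, e6]
  exact h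

lemma rcell18 : ∃ N : ℝ, Rw4 P.r2 N (coCell (87579 / 65536 : ℝ) (868797 / 65536 : ℝ) ((379421 / 32768 : ℝ) + (107 / 256 : ℝ)) (21 / 1024 : ℝ) C18) := by
  refine ⟨(402653184 : ℝ), ⟨Q21, List.mem_cons_of_mem _ (List.mem_cons_of_mem _ (List.mem_cons_of_mem _ (List.mem_cons_of_mem _ (List.mem_cons_of_mem _ (List.mem_cons_of_mem _ (List.mem_cons_of_mem _ (List.mem_cons_of_mem _ (List.mem_cons_of_mem _ (List.mem_cons_of_mem _ (List.mem_cons_of_mem _ (List.mem_cons_of_mem _ (List.mem_cons_of_mem _ (List.mem_cons_of_mem _ (List.mem_cons_of_mem _ (List.mem_cons_of_mem _ (List.mem_cons_of_mem _ (List.mem_cons_of_mem _ (List.mem_cons_of_mem _ (List.mem_cons_of_mem _ (List.mem_cons_of_mem _ (List.mem_cons_self))))))))))))))))))))), ?_⟩, by norm_num⟩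
  constructor <;> norm_num [Q21, coCell, C18]

lemma lcell18 : ∀ x1 x2 xc : ℝ, 0 ≤ x1 → x1 ≤ 1 → 0 ≤ x2 → x2 ≤ 1 → C18.l ≤ xc → xc ≤ C18.u →
    (87579 / 65536 : ℝ) * (1 - (1 - x1) ^ 9) + (868797 / 65536 : ℝ) * (1 - (1 - x2) ^ 9) - ((379421 / 32768 : ℝ) + (107 / 256 : ℝ)) * (1 - (1 - xc) ^ 9)
      ≤ - C18.a1 * x1 - C18.a2 * x2 + C18.e * xc + C18.f := by
  have h := cell_lines 9 (α1 := (87579 / 65536 : ℝ)) (α2 := (868797 / 65536 : ℝ)) (c := (379421 / 32768 : ℝ) + (107 / 256 : ℝ)) (y1 := (18971 / 262144 : ℝ)) (y2 := (11693 / 131072 : ℝ))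
    (A1 := (27658327 / 4194304 : ℝ)) (B1 := (24086823 / 134217728 : ℝ)) (A2 := (29620671 / 524288 : ℝ)) (B2 := (670885643 / 268435456 : ℝ)) (l := (6295 / 65536 : ℝ)) (u := (29673 / 262144 : ℝ))
    (E := (-46809059 / 1048576 : ℝ)) (F := (-771628699 / 268435456 : ℝ)) (by norm_num) (by norm_num) (by norm_num) (by norm_num) (by norm_num)
    (by norm_num) (by norm_num) (by norm_num) (by norm_num) (by norm_num) (by norm_num) (by norm_num) (by norm_num) (by norm_num) (by norm_num)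
  have e1 : C18.l = (6295 / 65536 : ℝ) := rfl
  have e2 : C18.u = (29673 / 262144 : ℝ) := rfl
  have e3 : C18.a1 = -(27658327 / 4194304 : ℝ) := by norm_num [C18]
  have e4 : C18.a2 = -(29620671 / 524288 : ℝ) := by norm_num [C18]
  have e5 : C18.e = (-46809059 / 1048576 : ℝ) := rfl
  have e6 : C18.f = (24086823 / 134217728 : ℝ) + (670885643 / 268435456 : ℝ) + (-771628699 / 268435456 : ℝ) := by norm_num [C18]
  rw [e1, e2, e3, e4, e5, e6]
  exact h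

lemma rcell19 : ∃ N : ℝ, Rw4 P.r2 N (coCell (87579 / 65536 : ℝ) (868797 / 65536 : ℝ) ((379421 / 32768 : ℝ) + (107 / 256 : ℝ)) (21 / 1024 : ℝ) C19) := by
  refine ⟨(805306368 : ℝ), ⟨Q22, List.mem_cons_of_mem _ (List.mem_cons_of_mem _ (List.mem_cons_of_mem _ (List.mem_cons_of_mem _ (List.mem_cons_of_mem _ (List.mem_cons_of_mem _ (List.mem_cons_of_mem _ (List.mem_cons_of_mem _ (List.mem_cons_of_mem _ (List.mem_cons_of_mem _ (List.mem_cons_of_mem _ (List.mem_cons_of_mem _ (List.mem_cons_of_mem _ (List.mem_cons_of_mem _ (List.mem_cons_of_mem _ (List.mem_cons_of_mem _ (List.mem_cons_of_mem _ (List.mem_cons_of_mem _ (List.mem_cons_of_mem _ (List.mem_cons_of_mem _ (List.mem_cons_of_mem _ (List.mem_cons_of_mem _ (List.mem_cons_self)))))))))))))))))))))), ?_⟩, by norm_num⟩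
  constructor <;> norm_num [Q22, coCell, C19]

lemma lcell19 : ∀ x1 x2 xc : ℝ, 0 ≤ x1 → x1 ≤ 1 → 0 ≤ x2 → x2 ≤ 1 → C19.l ≤ xc → xc ≤ C19.u →
    (87579 / 65536 : ℝ) * (1 - (1 - x1) ^ 9) + (868797 / 65536 : ℝ) * (1 - (1 - x2) ^ 9) - ((379421 / 32768 : ℝ) + (107 / 256 : ℝ)) * (1 - (1 - xc) ^ 9)
      ≤ - C19.a1 * x1 - C19.a2 * x2 + C19.e * xc + C19.f := by
  have h := cell_lines 9 (α1 := (87579 / 65536 : ℝ)) (α2 := (868797 / 65536 : ℝ)) (c := (379421 / 32768 : ℝ) + (107 / 256 : ℝ)) (y1 := (21541 / 262144 : ℝ)) (y2 := (3355 / 32768 : ℝ))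
    (A1 := (25404543 / 4194304 : ℝ)) (B1 := (1853455 / 8388608 : ℝ)) (A2 := (105444979 / 2097152 : ℝ)) (B2 := (207642453 / 67108864 : ℝ)) (l := (29673 / 262144 : ℝ)) (u := (4371 / 32768 : ℝ))
    (E := (-158251589 / 4194304 : ℝ)) (F := (-981604635 / 268435456 : ℝ)) (by norm_num) (by norm_num) (by norm_num) (by norm_num) (by norm_num)
    (by norm_num) (by norm_num) (by norm_num) (by norm_num) (by norm_num) (by norm_num) (by norm_num) (by norm_num) (by norm_num) (by norm_num)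
  have e1 : C19.l = (29673 / 262144 : ℝ) := rfl
  have e2 : C19.u = (4371 / 32768 : ℝ) := rfl
  have e3 : C19.a1 = -(25404543 / 4194304 : ℝ) := by norm_num [C19]
  have e4 : C19.a2 = -(105444979 / 2097152 : ℝ) := by norm_num [C19]
  have e5 : C19.e = (-158251589 / 4194304 : ℝ) := rfl
  have e6 : C19.f = (1853455 / 8388608 : ℝ) + (207642453 / 67108864 : ℝ) + (-981604635 / 268435456 : ℝ) := by norm_num [C19]
  rw [e1, e2, e3, e4, e5, e6]
  exact h

lemma rcell20 : ∃ N : ℝ, Rw4 P.r2 N (coCell (87579 / 65536 : ℝ) (868797 / 65536 : ℝ) ((379421 / 32768 : ℝ) + (107 / 256 : ℝ)) (21 / 1024 : ℝ) C20) := by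
  refine ⟨(805306368 : ℝ), ⟨Q23, List.mem_cons_of_mem _ (List.mem_cons_of_mem _ (List.mem_cons_of_mem _ (List.mem_cons_of_mem _ (List.mem_cons_of_mem _ (List.mem_cons_of_mem _ (List.mem_cons_of_mem _ (List.mem_cons_of_mem _ (List.mem_cons_of_mem _ (List.mem_cons_of_mem _ (List.mem_cons_of_mem _ (List.mem_cons_of_mem _ (List.mem_cons_of_mem _ (List.mem_cons_of_mem _ (List.mem_cons_of_mem _ (List.mem_cons_of_mem _ (List.mem_cons_of_mem _ (List.mem_cons_of_mem _ (List.mem_cons_of_mem _ (List.mem_cons_of_mem _ (List.mem_cons_of_mem _ (List.mem_cons_of_mem _ (List.mem_cons_of_mem _ (List.mem_cons_self))))))))))))))))))))))), ?_⟩, by norm_num⟩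
  constructor <;> norm_num [Q23, coCell, C20]

lemma lcell20 : ∀ x1 x2 xc : ℝ, 0 ≤ x1 → x1 ≤ 1 → 0 ≤ x2 → x2 ≤ 1 → C20.l ≤ xc → xc ≤ C20.u →
    (87579 / 65536 : ℝ) * (1 - (1 - x1) ^ 9) + (868797 / 65536 : ℝ) * (1 - (1 - x2) ^ 9) - ((379421 / 32768 : ℝ) + (107 / 256 : ℝ)) * (1 - (1 - xc) ^ 9)
      ≤ - C20.a1 * x1 - C20.a2 * x2 + C20.e * xc + C20.f := by
  have h := cell_lines 9 (α1 := (87579 / 65536 : ℝ)) (α2 := (868797 / 65536 : ℝ)) (c := (379421 / 32768 : ℝ) + (107 / 256 : ℝ)) (y1 := (23929 / 262144 : ℝ)) (y2 := (1869 / 16384 : ℝ))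
    (A1 := (23456107 / 4194304 : ℝ)) (B1 := (70118793 / 268435456 : ℝ)) (A2 := (189896781 / 4194304 : ℝ)) (B2 := (243966105 / 67108864 : ℝ)) (l := (4371 / 32768 : ℝ)) (u := (163 / 1024 : ℝ))
    (E := (-128055257 / 4194304 : ℝ)) (F := (-154924253 / 33554432 : ℝ)) (by norm_num) (by norm_num) (by norm_num) (by norm_num) (by norm_num)
    (by norm_num) (by norm_num) (by norm_num) (by norm_num) (by norm_num) (by norm_num) (by norm_num) (by norm_num) (by norm_num) (by norm_num)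
  have e1 : C20.l = (4371 / 32768 : ℝ) := rfl
  have e2 : C20.u = (163 / 1024 : ℝ) := rfl
  have e3 : C20.a1 = -(23456107 / 4194304 : ℝ) := by norm_num [C20]
  have e4 : C20.a2 = -(189896781 / 4194304 : ℝ) := by norm_num [C20]
  have e5 : C20.e = (-128055257 / 4194304 : ℝ) := rfl
  have e6 : C20.f = (70118793 / 268435456 : ℝ) + (243966105 / 67108864 : ℝ) + (-154924253 / 33554432 : ℝ) := by norm_num [C20]
  rw [e1, e2, e3, e4, e5, e6]
  exact h

/-- The hypotheses at the origin. -/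
lemma horig (lam : ℝ) (hd : (9 : ℝ) * lam ^ 2 = 1) (hb : |lam| ≤ (183251937963 / 549755813888 : ℝ)) :
    OriginH 9 lam (87579 / 65536 : ℝ) (868797 / 65536 : ℝ) (379421 / 32768 : ℝ) (107 / 256 : ℝ) (21 / 1024 : ℝ) (45 / 512 : ℝ) (4233 / 4096 : ℝ) (1 / 256 : ℝ) 3298534883328 := by
  refine originH_of_num (d := 9) (by push_cast; exact hd) hb (by norm_num) (by norm_num) (by norm_num) (by norm_num)
    (by norm_num) (by norm_num) (by norm_num) (by norm_num) (by norm_num) (by norm_num) (by norm_num [S]) (by norm_num) ?_ ?_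
  · rw [hch]
    norm_num [abs_of_pos, abs_of_neg]
  · norm_num [abs_of_pos, abs_of_neg]

/-- Nonreconstruction at the bound. -/
theorem main : Tendsto (reconError 3 9 (-(1 / Real.sqrt 9))) atTop (𝓝 0) := by
  have hsq : Real.sqrt ((9 : ℕ) : ℝ) ^ 2 = 9 := by
    rw [Real.sq_sqrt (by positivity)]; norm_num
  have hsq' : Real.sqrt (9 : ℝ) ^ 2 = 9 := by
    rw [Real.sq_sqrt (by positivity)]
  have hs0 : 0 < Real.sqrt (9 : ℝ) := Real.sqrt_pos.2 (by norm_num)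
  have hl2 : ((9 : ℝ)) * (-(1 / Real.sqrt 9)) ^ 2 = 1 := by
    have : (-(1 / Real.sqrt (9 : ℝ))) ^ 2 = 1 / 9 := by
      rw [neg_sq, div_pow, hsq']; norm_num
    rw [this]; norm_num
  have hb : |(-(1 / Real.sqrt (9 : ℝ)))| ≤ (183251937963 / 549755813888 : ℝ) := by
    rw [abs_neg, abs_of_pos (by positivity)]
    rw [div_le_iff₀ hs0]
    have h1 : (1 : ℝ) ^ 2 ≤ ((183251937963 / 549755813888 : ℝ) * Real.sqrt 9) ^ 2 := by
      rw [mul_pow, hsq']; norm_num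
    exact le_of_sq_le_sq h1 (by positivity)
  have hb2 : (-(1 / 2) : ℝ) < -(1 / Real.sqrt (9 : ℝ)) := by
    have h2 := (abs_le.1 hb).1
    have h3 : ((183251937963 / 549755813888 : ℝ) : ℝ) < 1 / 2 := by norm_num
    linarith
  have h1 : (-(1 / Real.sqrt (9 : ℝ))) < 1 := by
    have : 0 < 1 / Real.sqrt (9 : ℝ) := by positivity
    linarith
  have hlam : |(S : ℝ) * (-(1 / Real.sqrt (9 : ℝ))) - ((P.lp : ℝ) - P.ln)| ≤ ((1 : ℕ) : ℝ) := by
    have h := lam_enc 9 24019198012642645 (by norm_num) (by norm_num [S]) (by norm_num [S])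
    have e : ((9 : ℕ) : ℝ) = (9 : ℝ) := by norm_num
    rw [e] at h
    exact h
  obtain ⟨hOa, hON⟩ := horig _ hl2 hb
  refine final_of_box (d := 9) (by norm_num) hb2 h1 (box hlam) (87579 / 65536 : ℝ) (868797 / 65536 : ℝ) (379421 / 32768 : ℝ) (107 / 256 : ℝ) (45 / 512 : ℝ) (4233 / 4096 : ℝ) (5243 / 1048576 : ℝ) (5797 / 16384 : ℝ) (21 / 1024 : ℝ) (163 / 1024 : ℝ) cellsL
    (by norm_num) (by norm_num) (by norm_num) (by norm_num) (by norm_num) (by norm_num) (by norm_num) (by norm_num) (by norm_num)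
    (by norm_num) (by norm_num) (by norm_num) (by norm_num) (by norm_num) hOa hON rTa rTb rc1 rc2 rc3
    (forall_cons rcell0 (forall_cons rcell1 (forall_cons rcell2 (forall_cons rcell3 (forall_cons rcell4 (forall_cons rcell5 (forall_cons rcell6 (forall_cons rcell7 (forall_cons rcell8 (forall_cons rcell9 (forall_cons rcell10 (forall_cons rcell11 (forall_cons rcell12 (forall_cons rcell13 (forall_cons rcell14 (forall_cons rcell15 (forall_cons rcell16 (forall_cons rcell17 (forall_cons rcell18 (forall_cons rcell19 (forall_cons rcell20 (forall_nil)))))))))))))))))))))) hcover (forall_cons lcell0 (forall_cons lcell1 (forall_cons lcell2 (forall_cons lcell3 (forall_cons lcell4 (forall_cons lcell5 (forall_cons lcell6 (forall_cons lcell7 (forall_cons lcell8 (forall_cons lcell9 (forall_cons lcell10 (forall_cons lcell11 (forall_cons lcell12 (forall_cons lcell13 (forall_cons lcell14 (forall_cons lcell15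 (forall_cons lcell16 (forall_cons lcell17 (forall_cons lcell18 (forall_cons lcell19 (forall_cons lcell20 (forall_nil))))))))))))))))))))))

end Vale.Agent.P154H.Tm.D9
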