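import Vale.Agent.P154H.D.DP4
import Vale.Agent.P154H.PosEnc
import Vale.Agent.P154H.OriginW

open Filter Topology

set_option maxRecDepth 100000

/-!
Nonreconstruction at the Kesten-Stigum bound for `d = 4`, positive eigenvalue, by a chain of
potentials along the monotone quantity `1 - En`.
-/

namespace Vale.Agent.P154H.Tm.P4

open Vale.Agent.P154 Vale.Agent.P154H

/-- A chord cell. -/
noncomputable def C0 : Cell := ⟨(5243 / 524288 : ℝ), (2889 / 262144 : ℝ), (-6578359 / 4194304 : ℝ), (-265127427 / 4194304 : ℝ), (-113784207 / 2097152 : ℝ), (-12389 / 33554432 : ℝ)⟩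

/-- A chord cell. -/
noncomputable def C1 : Cell := ⟨(2889 / 262144 : ℝ), (199 / 16384 : ℝ), (-3280689 / 2097152 : ℝ), (-264368501 / 4194304 : ℝ), (-113414493 / 2097152 : ℝ), (-129431 / 268435456 : ℝ)⟩

/-- A chord cell. -/
noncomputable def C2 : Cell := ⟨(199 / 16384 : ℝ), (3509 / 262144 : ℝ), (-1636409 / 1048576 : ℝ), (-65869959 / 1048576 : ℝ), (-226015831 / 4194304 : ℝ), (-129241 / 268435456 : ℝ)⟩

/-- A chord cell. -/
noncomputable def C3 : Cell := ⟨(3509 / 262144 : ℝ), (967 / 65536 : ℝ), (-6523881 / 4194304 : ℝ), (-262556643 / 4194304 : ℝ), (-225120997 / 4194304 : ℝ), (-167547 / 268435456 : ℝ)⟩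

/-- A chord cell. -/
noncomputable def C4 : Cell := ⟨(967 / 65536 : ℝ), (4263 / 262144 : ℝ), (-6500969 / 4194304 : ℝ), (-65385375 / 1048576 : ℝ), (-14008583 / 262144 : ℝ), (-215721 / 268435456 : ℝ)⟩

/-- A chord cell. -/
noncomputable def C5 : Cell := ⟨(4263 / 262144 : ℝ), (2349 / 131072 : ℝ), (-6483445 / 4194304 : ℝ), (-130211513 / 2097152 : ℝ), (-111528915 / 2097152 : ℝ), (-277223 / 268435456 : ℝ)⟩

/-- A chord cell. -/
noncomputable def C6 : Cell := ⟨(2349 / 131072 : ℝ), (5177 / 262144 : ℝ), (-3228553 / 2097152 : ℝ), (-259202125 / 4194304 : ℝ), (-221873101 / 4194304 : ℝ), (-354109 / 268435456 : ℝ)⟩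

/-- A chord cell. -/
noncomputable def C7 : Cell := ⟨(5177 / 262144 : ℝ), (2853 / 131072 : ℝ), (-6411649 / 4194304 : ℝ), (-128897799 / 2097152 : ℝ), (-220571407 / 4194304 : ℝ), (-354757 / 268435456 : ℝ)⟩

/-- A chord cell. -/
noncomputable def C8 : Cell := ⟨(2853 / 131072 : ℝ), (6289 / 262144 : ℝ), (-800431 / 524288 : ℝ), (-32037665 / 524288 : ℝ), (-219141333 / 4194304 : ℝ), (-461769 / 268435456 : ℝ)⟩

/-- A chord cell. -/
noncomputable def C9 : Cell := ⟨(6289 / 262144 : ℝ), (6931 / 262144 : ℝ), (-794929 / 524288 : ℝ), (-254696503 / 4194304 : ℝ), (-27196639 / 524288 : ℝ), (-300701 / 134217728 : ℝ)⟩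

/-- A chord cell. -/
noncomputable def C10 : Cell := ⟨(6931 / 262144 : ℝ), (7639 / 262144 : ℝ), (-6293491 / 4194304 : ℝ), (-252929161 / 4194304 : ℝ), (-107926781 / 2097152 : ℝ), (-737353 / 268435456 : ℝ)⟩

/-- A chord cell. -/
noncomputable def C11 : Cell := ⟨(7639 / 262144 : ℝ), (8419 / 262144 : ℝ), (-785637 / 524288 : ℝ), (-125441761 / 2097152 : ℝ), (-1671631 / 32768 : ℝ), (-809695 / 268435456 : ℝ)⟩

/-- A chord cell. -/
noncomputable def C12 : Cell := ⟨(8419 / 262144 : ℝ), (4639 / 131072 : ℝ), (-3127117 / 2097152 : ℝ), (-31092539 / 524288 : ℝ), (-52976363 / 1048576 : ℝ), (-1038659 / 268435456 : ℝ)⟩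

/-- A chord cell. -/
noncomputable def C13 : Cell := ⟨(4639 / 131072 : ℝ), (5113 / 131072 : ℝ), (-6214045 / 4194304 : ℝ), (-246434259 / 4194304 : ℝ), (-409465 / 8192 : ℝ), (-1397595 / 268435456 : ℝ)⟩

/-- A chord cell. -/
noncomputable def C14 : Cell := ⟨(5113 / 131072 : ℝ), (5635 / 131072 : ℝ), (-6131143 / 4194304 : ℝ), (-243962791 / 4194304 : ℝ), (-207174081 / 4194304 : ℝ), (-1892901 / 268435456 : ℝ)⟩

/-- A chord cell. -/
noncomputable def C15 : Cell := ⟨(5635 / 131072 : ℝ), (12421 / 262144 : ℝ), (-3020869 / 2097152 : ℝ), (-241016037 / 4194304 : ℝ), (-204472777 / 4194304 : ℝ), (-469029 / 67108864 : ℝ)⟩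

/-- A chord cell. -/
noncomputable def C16 : Cell := ⟨(12421 / 262144 : ℝ), (13689 / 262144 : ℝ), (-5994831 / 4194304 : ℝ), (-238098809 / 4194304 : ℝ), (-201523139 / 4194304 : ℝ), (-1398541 / 134217728 : ℝ)⟩

/-- A chord cell. -/
noncomputable def C17 : Cell := ⟨(13689 / 262144 : ℝ), (15087 / 262144 : ℝ), (-1489775 / 1048576 : ℝ), (-117548883 / 2097152 : ℝ), (-99152681 / 2097152 : ℝ), (-4560715 / 268435456 : ℝ)⟩

/-- A chord cell. -/
noncomputable def C18 : Cell := ⟨(15087 / 262144 : ℝ), (16627 / 262144 : ℝ), (-737639 / 524288 : ℝ), (-231673807 / 4194304 : ℝ), (-6087475 / 131072 : ℝ), (-6215343 / 268435456 : ℝ)⟩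

/-- A chord cell. -/
noncomputable def C19 : Cell := ⟨(16627 / 262144 : ℝ), (18325 / 262144 : ℝ), (-5830049 / 4194304 : ℝ), (-57137375 / 1048576 : ℝ), (-190983217 / 4194304 : ℝ), (-10475365 / 268435456 : ℝ)⟩

/-- A chord cell. -/
noncomputable def C20 : Cell := ⟨(18325 / 262144 : ℝ), (5049 / 65536 : ℝ), (-5791561 / 4194304 : ℝ), (-226444625 / 4194304 : ℝ), (-93417651 / 2097152 : ℝ), (-21002581 / 268435456 : ℝ)⟩

/-- A chord cell. -/
noncomputable def C21 : Cell := ⟨(5049 / 65536 : ℝ), (22259 / 262144 : ℝ), (-5665361 / 4194304 : ℝ), (-110385531 / 2097152 : ℝ), (-182333327 / 4194304 : ℝ), (-4872417 / 67108864 : ℝ)⟩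

/-- A chord cell. -/
noncomputable def C22 : Cell := ⟨(22259 / 262144 : ℝ), (6133 / 65536 : ℝ), (-5584431 / 4194304 : ℝ), (-214668431 / 4194304 : ℝ), (-177455823 / 4194304 : ℝ), (-17408925 / 268435456 : ℝ)⟩

/-- A chord cell. -/
noncomputable def C23 : Cell := ⟨(6133 / 65536 : ℝ), (27037 / 262144 : ℝ), (-5323707 / 4194304 : ℝ), (-26075449 / 524288 : ℝ), (-86091415 / 2097152 : ℝ), (-16362001 / 268435456 : ℝ)⟩

/-- A chord cell. -/
noncomputable def C24 : Cell := ⟨(27037 / 262144 : ℝ), (29797 / 262144 : ℝ), (-5221251 / 4194304 : ℝ), (-101064789 / 2097152 : ℝ), (-83247319 / 2097152 : ℝ), (-15977257 / 268435456 : ℝ)⟩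

/-- A chord cell. -/
noncomputable def C25 : Cell := ⟨(29797 / 262144 : ℝ), (4105 / 32768 : ℝ), (-639365 / 524288 : ℝ), (-195873513 / 4194304 : ℝ), (-160372051 / 4194304 : ℝ), (-9990769 / 134217728 : ℝ)⟩

/-- A chord cell. -/
noncomputable def C26 : Cell := ⟨(4105 / 32768 : ℝ), (36193 / 262144 : ℝ), (-4983955 / 4194304 : ℝ), (-95037015 / 2097152 : ℝ), (-153799953 / 4194304 : ℝ), (-31454543 / 268435456 : ℝ)⟩

/-- A chord cell. -/
noncomputable def C27 : Cell := ⟨(36193 / 262144 : ℝ), (39889 / 262144 : ℝ), (-4798089 / 4194304 : ℝ), (-46141437 / 1048576 : ℝ), (-146767873 / 4194304 : ℝ), (-50869171 / 268435456 : ℝ)⟩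

/-- A chord cell. -/
noncomputable def C28 : Cell := ⟨(39889 / 262144 : ℝ), (21981 / 131072 : ℝ), (-1160619 / 1048576 : ℝ), (-177530543 / 4194304 : ℝ), (-139269815 / 4194304 : ℝ), (-65262351 / 268435456 : ℝ)⟩

/-- A chord cell. -/
noncomputable def C29 : Cell := ⟨(21981 / 131072 : ℝ), (48451 / 262144 : ℝ), (-2223351 / 2097152 : ℝ), (-43163141 / 1048576 : ℝ), (-32826879 / 1048576 : ℝ), (-106284823 / 268435456 : ℝ)⟩

/-- A chord cell. -/
noncomputable def C30 : Cell := ⟨(48451 / 262144 : ℝ), (209 / 1024 : ℝ), (-4398025 / 4194304 : ℝ), (-41805475 / 1048576 : ℝ), (-122799243 / 4194304 : ℝ), (-155791925 / 268435456 : ℝ)⟩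

/-- The chord cells. -/
noncomputable def cellsL : List Cell := [C0, C1, C2, C3, C4, C5, C6, C7, C8, C9, C10, C11, C12, C13, C14, C15, C16, C17, C18, C19, C20, C21, C22, C23, C24, C25, C26, C27, C28, C29, C30]

lemma hcover : ∀ x : ℝ, (5243 / 524288 : ℝ) ≤ x → x ≤ (209 / 1024 : ℝ) → ∃ D ∈ cellsL, D.l ≤ x ∧ x ≤ D.u := by
  refine cover_of_chain ?_ (by norm_num [C0])
  simp only [ChainP, C0, C1, C2, C3, C4, C5, C6, C7, C8, C9, C10, C11, C12, C13, C14, C15, C16, C17, C18, C19, C20, C21, C22, C23, C24, C25, C26, C27, C28, C29, C30]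
  norm_num

lemma hch : ((Nat.choose 4 2 : ℕ) : ℝ) = 6 := by norm_num [Nat.choose]

lemma rTa : Rw4 P.r1 (589824 : ℝ) (coTa 4 (26307 / 65536 : ℝ) (8325 / 512 : ℝ) (13809 / 1024 : ℝ) (33 / 64 : ℝ) (23 / 2048 : ℝ)) := by
  refine ⟨⟨Ra, List.mem_cons_self, ?_⟩, by norm_num⟩
  constructor <;> norm_num [Ra, coTa, hch]

lemma rTb : Rw4 P.r1 (618475290624 : ℝ) (coTb 4 (26307 / 65536 : ℝ) (8325 / 512 : ℝ) (13809 / 1024 : ℝ) (33 / 64 : ℝ) (23 / 2048 : ℝ) (23 / 1024 : ℝ) (2229 / 2048 : ℝ) (1947 / 16384 : ℝ)) := by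
  refine ⟨⟨Rb, List.mem_cons_of_mem _ (List.mem_cons_self), ?_⟩, by norm_num⟩
  constructor <;> norm_num [Rb, coTb, hch]

lemma rc1 : Rw4 P.r2 (1048576 : ℝ) ⟨0, 0, 0, -(26307 / 65536 : ℝ), 0, 0, 0, 0, (13809 / 1024 : ℝ) * (23 / 1024 : ℝ)⟩ := by
  refine ⟨⟨Q0, List.mem_cons_self, ?_⟩, by norm_num⟩
  constructor <;> norm_num [Q0]

lemma rc2 : Rw4 P.r2 (2097152 : ℝ) ⟨0, 0, 0, 0, -(8325 / 512 : ℝ), 0, 0, 0, (13809 / 1024 : ℝ) * (2229 / 2048 : ℝ)⟩ := by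
  refine ⟨⟨Q1, List.mem_cons_of_mem _ (List.mem_cons_self), ?_⟩, by norm_num⟩
  constructor <;> norm_num [Q1]

lemma rc3 : Rw4 P.r2 (3072 : ℝ) ⟨0, 0, 0, 0, 0, -1, 0, 0, (209 / 1024 : ℝ)⟩ := by
  refine ⟨⟨Q2, List.mem_cons_of_mem _ (List.mem_cons_of_mem _ (List.mem_cons_self)), ?_⟩, by norm_num⟩
  constructor <;> norm_num [Q2]

lemma rcell0 : ∃ N : ℝ, Rw4 P.r2 N (coCell (26307 / 65536 : ℝ) (8325 / 512 : ℝ) ((13809 / 1024 : ℝ) + (33 / 64 : ℝ)) (23 / 2048 : ℝ) C0) := by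
  refine ⟨(301989888 : ℝ), ⟨Q3, List.mem_cons_of_mem _ (List.mem_cons_of_mem _ (List.mem_cons_of_mem _ (List.mem_cons_self))), ?_⟩, by norm_num⟩
  constructor <;> norm_num [Q3, coCell, C0]

lemma lcell0 : ∀ x1 x2 xc : ℝ, 0 ≤ x1 → x1 ≤ 1 → 0 ≤ x2 → x2 ≤ 1 → C0.l ≤ xc → xc ≤ C0.u →
    (26307 / 65536 : ℝ) * (1 - (1 - x1) ^ 4) + (8325 / 512 : ℝ) * (1 - (1 - x2) ^ 4) - ((13809 / 1024 : ℝ) + (33 / 64 : ℝ)) * (1 - (1 - xc) ^ 4)
      ≤ - C0.a1 * x1 - C0.a2 * x2 + C0.e * xc + C0.f := by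
  have h := cell_lines 4 (α1 := (26307 / 65536 : ℝ)) (α2 := (8325 / 512 : ℝ)) (c := (13809 / 1024 : ℝ) + (33 / 64 : ℝ)) (y1 := (2043 / 262144 : ℝ)) (y2 := (2479 / 262144 : ℝ))
    (A1 := (6578359 / 4194304 : ℝ)) (B1 := (38881 / 268435456 : ℝ)) (A2 := (265127427 / 4194304 : ℝ)) (B2 := (2312549 / 268435456 : ℝ)) (l := (5243 / 524288 : ℝ)) (u := (2889 / 262144 : ℝ))
    (E := (-113784207 / 2097152 : ℝ)) (F := (-1225271 / 134217728 : ℝ)) (by norm_num) (by norm_num) (by norm_num) (by norm_num) (by norm_num)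
    (by norm_num) (by norm_num) (by norm_num) (by norm_num) (by norm_num) (by norm_num) (by norm_num) (by norm_num) (by norm_num) (by norm_num)
  have e1 : C0.l = (5243 / 524288 : ℝ) := rfl
  have e2 : C0.u = (2889 / 262144 : ℝ) := rfl
  have e3 : C0.a1 = -(6578359 / 4194304 : ℝ) := by norm_num [C0]
  have e4 : C0.a2 = -(265127427 / 4194304 : ℝ) := by norm_num [C0]
  have e5 : C0.e = (-113784207 / 2097152 : ℝ) := rfl
  have e6 : C0.f = (38881 / 268435456 : ℝ) + (2312549 / 268435456 : ℝ) + (-1225271 / 134217728 : ℝ) := by norm_num [C0]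
  rw [e1, e2, e3, e4, e5, e6]
  exact h

lemma rcell1 : ∃ N : ℝ, Rw4 P.r2 N (coCell (26307 / 65536 : ℝ) (8325 / 512 : ℝ) ((13809 / 1024 : ℝ) + (33 / 64 : ℝ)) (23 / 2048 : ℝ) C1) := by
  refine ⟨(2415919104 : ℝ), ⟨Q4, List.mem_cons_of_mem _ (List.mem_cons_of_mem _ (List.mem_cons_of_mem _ (List.mem_cons_of_mem _ (List.mem_cons_self)))), ?_⟩, by norm_num⟩
  constructor <;> norm_num [Q4, coCell, C1]

lemma lcell1 : ∀ x1 x2 xc : ℝ, 0 ≤ x1 → x1 ≤ 1 → 0 ≤ x2 → x2 ≤ 1 → C1.l ≤ xc → xc ≤ C1.u →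
    (26307 / 65536 : ℝ) * (1 - (1 - x1) ^ 4) + (8325 / 512 : ℝ) * (1 - (1 - x2) ^ 4) - ((13809 / 1024 : ℝ) + (33 / 64 : ℝ)) * (1 - (1 - xc) ^ 4)
      ≤ - C1.a1 * x1 - C1.a2 * x2 + C1.e * xc + C1.f := by
  have h := cell_lines 4 (α1 := (26307 / 65536 : ℝ)) (α2 := (8325 / 512 : ℝ)) (c := (13809 / 1024 : ℝ) + (33 / 64 : ℝ)) (y1 := (2267 / 262144 : ℝ)) (y2 := (2727 / 262144 : ℝ))
    (A1 := (3280689 / 2097152 : ℝ)) (B1 := (11949 / 67108864 : ℝ)) (A2 := (264368501 / 4194304 : ℝ)) (B2 := (1397425 / 134217728 : ℝ)) (l := (2889 / 262144 : ℝ)) (u := (199 / 16384 : ℝ))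
    (E := (-113414493 / 2097152 : ℝ)) (F := (-2972077 / 268435456 : ℝ)) (by norm_num) (by norm_num) (by norm_num) (by norm_num) (by norm_num)
    (by norm_num) (by norm_num) (by norm_num) (by norm_num) (by norm_num) (by norm_num) (by norm_num) (by norm_num) (by norm_num) (by norm_num)
  have e1 : C1.l = (2889 / 262144 : ℝ) := rfl
  have e2 : C1.u = (199 / 16384 : ℝ) := rfl
  have e3 : C1.a1 = -(3280689 / 2097152 : ℝ) := by norm_num [C1]
  have e4 : C1.a2 = -(264368501 / 4194304 : ℝ) := by norm_num [C1]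
  have e5 : C1.e = (-113414493 / 2097152 : ℝ) := rfl
  have e6 : C1.f = (11949 / 67108864 : ℝ) + (1397425 / 134217728 : ℝ) + (-2972077 / 268435456 : ℝ) := by norm_num [C1]
  rw [e1, e2, e3, e4, e5, e6]
  exact h

lemma rcell2 : ∃ N : ℝ, Rw4 P.r2 N (coCell (26307 / 65536 : ℝ) (8325 / 512 : ℝ) ((13809 / 1024 : ℝ) + (33 / 64 : ℝ)) (23 / 2048 : ℝ) C2) := by
  refine ⟨(2415919104 : ℝ), ⟨Q5, List.mem_cons_of_mem _ (List.mem_cons_of_mem _ (List.mem_cons_of_mem _ (List.mem_cons_of_mem _ (List.mem_cons_of_mem _ (List.mem_cons_self))))), ?_⟩, by norm_num⟩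
  constructor <;> norm_num [Q5, coCell, C2]

lemma lcell2 : ∀ x1 x2 xc : ℝ, 0 ≤ x1 → x1 ≤ 1 → 0 ≤ x2 → x2 ≤ 1 → C2.l ≤ xc → xc ≤ C2.u →
    (26307 / 65536 : ℝ) * (1 - (1 - x1) ^ 4) + (8325 / 512 : ℝ) * (1 - (1 - x2) ^ 4) - ((13809 / 1024 : ℝ) + (33 / 64 : ℝ)) * (1 - (1 - xc) ^ 4)
      ≤ - C2.a1 * x1 - C2.a2 * x2 + C2.e * xc + C2.f := by
  have h := cell_lines 4 (α1 := (26307 / 65536 : ℝ)) (α2 := (8325 / 512 : ℝ)) (c := (13809 / 1024 : ℝ) + (33 / 64 : ℝ)) (y1 := (2475 / 262144 : ℝ)) (y2 := (1509 / 131072 : ℝ))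
    (A1 := (1636409 / 1048576 : ℝ)) (B1 := (14227 / 67108864 : ℝ)) (A2 := (65869959 / 1048576 : ℝ)) (B2 := (3418029 / 268435456 : ℝ)) (l := (199 / 16384 : ℝ)) (u := (3509 / 262144 : ℝ))
    (E := (-226015831 / 4194304 : ℝ)) (F := (-1802089 / 134217728 : ℝ)) (by norm_num) (by norm_num) (by norm_num) (by norm_num) (by norm_num)
    (by norm_num) (by norm_num) (by norm_num) (by norm_num) (by norm_num) (by norm_num) (by norm_num) (by norm_num) (by norm_num) (by norm_num)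
  have e1 : C2.l = (199 / 16384 : ℝ) := rfl
  have e2 : C2.u = (3509 / 262144 : ℝ) := rfl
  have e3 : C2.a1 = -(1636409 / 1048576 : ℝ) := by norm_num [C2]
  have e4 : C2.a2 = -(65869959 / 1048576 : ℝ) := by norm_num [C2]
  have e5 : C2.e = (-226015831 / 4194304 : ℝ) := rfl
  have e6 : C2.f = (14227 / 67108864 : ℝ) + (3418029 / 268435456 : ℝ) + (-1802089 / 134217728 : ℝ) := by norm_num [C2]
  rw [e1, e2, e3, e4, e5, e6]
  exact h

lemma rcell3 : ∃ N : ℝ, Rw4 P.r2 N (coCell (26307 / 65536 : ℝ) (8325 / 512 : ℝ) ((13809 / 1024 : ℝ) + (33 / 64 : ℝ)) (23 / 2048 : ℝ) C3) := by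
  refine ⟨(2415919104 : ℝ), ⟨Q6, List.mem_cons_of_mem _ (List.mem_cons_of_mem _ (List.mem_cons_of_mem _ (List.mem_cons_of_mem _ (List.mem_cons_of_mem _ (List.mem_cons_of_mem _ (List.mem_cons_self)))))), ?_⟩, by norm_num⟩
  constructor <;> norm_num [Q6, coCell, C3]

lemma lcell3 : ∀ x1 x2 xc : ℝ, 0 ≤ x1 → x1 ≤ 1 → 0 ≤ x2 → x2 ≤ 1 → C3.l ≤ xc → xc ≤ C3.u →
    (26307 / 65536 : ℝ) * (1 - (1 - x1) ^ 4) + (8325 / 512 : ℝ) * (1 - (1 - x2) ^ 4) - ((13809 / 1024 : ℝ) + (33 / 64 : ℝ)) * (1 - (1 - xc) ^ 4)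
      ≤ - C3.a1 * x1 - C3.a2 * x2 + C3.e * xc + C3.f := by
  have h := cell_lines 4 (α1 := (26307 / 65536 : ℝ)) (α2 := (8325 / 512 : ℝ)) (c := (13809 / 1024 : ℝ) + (33 / 64 : ℝ)) (y1 := (2763 / 262144 : ℝ)) (y2 := (3321 / 262144 : ℝ))
    (A1 := (6523881 / 4194304 : ℝ)) (B1 := (35409 / 134217728 : ℝ)) (A2 := (262556643 / 4194304 : ℝ)) (B2 := (4132407 / 268435456 : ℝ)) (l := (3509 / 262144 : ℝ)) (u := (967 / 65536 : ℝ))
    (E := (-225120997 / 4194304 : ℝ)) (F := (-1092693 / 67108864 : ℝ)) (by norm_num) (by norm_num) (by norm_num) (by norm_num) (by norm_num)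
    (by norm_num) (by norm_num) (by norm_num) (by norm_num) (by norm_num) (by norm_num) (by norm_num) (by norm_num) (by norm_num) (by norm_num)
  have e1 : C3.l = (3509 / 262144 : ℝ) := rfl
  have e2 : C3.u = (967 / 65536 : ℝ) := rfl
  have e3 : C3.a1 = -(6523881 / 4194304 : ℝ) := by norm_num [C3]
  have e4 : C3.a2 = -(262556643 / 4194304 : ℝ) := by norm_num [C3]
  have e5 : C3.e = (-225120997 / 4194304 : ℝ) := rfl
  have e6 : C3.f = (35409 / 134217728 : ℝ) + (4132407 / 268435456 : ℝ) + (-1092693 / 67108864 : ℝ) := by norm_num [C3]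
  rw [e1, e2, e3, e4, e5, e6]
  exact h

lemma rcell4 : ∃ N : ℝ, Rw4 P.r2 N (coCell (26307 / 65536 : ℝ) (8325 / 512 : ℝ) ((13809 / 1024 : ℝ) + (33 / 64 : ℝ)) (23 / 2048 : ℝ) C4) := by
  refine ⟨(2415919104 : ℝ), ⟨Q7, List.mem_cons_of_mem _ (List.mem_cons_of_mem _ (List.mem_cons_of_mem _ (List.mem_cons_of_mem _ (List.mem_cons_of_mem _ (List.mem_cons_of_mem _ (List.mem_cons_of_mem _ (List.mem_cons_self))))))), ?_⟩, by norm_num⟩
  constructor <;> norm_num [Q7, coCell, C4]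

lemma lcell4 : ∀ x1 x2 xc : ℝ, 0 ≤ x1 → x1 ≤ 1 → 0 ≤ x2 → x2 ≤ 1 → C4.l ≤ xc → xc ≤ C4.u →
    (26307 / 65536 : ℝ) * (1 - (1 - x1) ^ 4) + (8325 / 512 : ℝ) * (1 - (1 - x2) ^ 4) - ((13809 / 1024 : ℝ) + (33 / 64 : ℝ)) * (1 - (1 - xc) ^ 4)
      ≤ - C4.a1 * x1 - C4.a2 * x2 + C4.e * xc + C4.f := by
  have h := cell_lines 4 (α1 := (26307 / 65536 : ℝ)) (α2 := (8325 / 512 : ℝ)) (c := (13809 / 1024 : ℝ) + (33 / 64 : ℝ)) (y1 := (3067 / 262144 : ℝ)) (y2 := (3655 / 262144 : ℝ))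
    (A1 := (6500969 / 4194304 : ℝ)) (B1 := (87131 / 268435456 : ℝ)) (A2 := (65385375 / 1048576 : ℝ)) (B2 := (2498417 / 134217728 : ℝ)) (l := (967 / 65536 : ℝ)) (u := (4263 / 262144 : ℝ))
    (E := (-14008583 / 262144 : ℝ)) (F := (-2649843 / 134217728 : ℝ)) (by norm_num) (by norm_num) (by norm_num) (by norm_num) (by norm_num)
    (by norm_num) (by norm_num) (by norm_num) (by norm_num) (by norm_num) (by norm_num) (by norm_num) (by norm_num) (by norm_num) (by norm_num)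
  have e1 : C4.l = (967 / 65536 : ℝ) := rfl
  have e2 : C4.u = (4263 / 262144 : ℝ) := rfl
  have e3 : C4.a1 = -(6500969 / 4194304 : ℝ) := by norm_num [C4]
  have e4 : C4.a2 = -(65385375 / 1048576 : ℝ) := by norm_num [C4]
  have e5 : C4.e = (-14008583 / 262144 : ℝ) := rfl
  have e6 : C4.f = (87131 / 268435456 : ℝ) + (2498417 / 134217728 : ℝ) + (-2649843 / 134217728 : ℝ) := by norm_num [C4]
  rw [e1, e2, e3, e4, e5, e6]
  exact h

lemma rcell5 : ∃ N : ℝ, Rw4 P.r2 N (coCell (26307 / 65536 : ℝ) (8325 / 512 : ℝ) ((13809 / 1024 : ℝ) + (33 / 64 : ℝ)) (23 / 2048 : ℝ) C5) := by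
  refine ⟨(2415919104 : ℝ), ⟨Q8, List.mem_cons_of_mem _ (List.mem_cons_of_mem _ (List.mem_cons_of_mem _ (List.mem_cons_of_mem _ (List.mem_cons_of_mem _ (List.mem_cons_of_mem _ (List.mem_cons_of_mem _ (List.mem_cons_of_mem _ (List.mem_cons_self)))))))), ?_⟩, by norm_num⟩
  constructor <;> norm_num [Q8, coCell, C5]

lemma lcell5 : ∀ x1 x2 xc : ℝ, 0 ≤ x1 → x1 ≤ 1 → 0 ≤ x2 → x2 ≤ 1 → C5.l ≤ xc → xc ≤ C5.u →
    (26307 / 65536 : ℝ) * (1 - (1 - x1) ^ 4) + (8325 / 512 : ℝ) * (1 - (1 - x2) ^ 4) - ((13809 / 1024 : ℝ) + (33 / 64 : ℝ)) * (1 - (1 - xc) ^ 4)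
      ≤ - C5.a1 * x1 - C5.a2 * x2 + C5.e * xc + C5.f := by
  have h := cell_lines 4 (α1 := (26307 / 65536 : ℝ)) (α2 := (8325 / 512 : ℝ)) (c := (13809 / 1024 : ℝ) + (33 / 64 : ℝ)) (y1 := (825 / 65536 : ℝ)) (y2 := (503 / 32768 : ℝ))
    (A1 := (6483445 / 4194304 : ℝ)) (B1 := (12593 / 33554432 : ℝ)) (A2 := (130211513 / 2097152 : ℝ)) (B2 := (3022615 / 134217728 : ℝ)) (l := (4263 / 262144 : ℝ)) (u := (2349 / 131072 : ℝ))
    (E := (-111528915 / 2097152 : ℝ)) (F := (-6423197 / 268435456 : ℝ)) (by norm_num) (by norm_num) (by norm_num) (by norm_num) (by norm_num)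
    (by norm_num) (by norm_num) (by norm_num) (by norm_num) (by norm_num) (by norm_num) (by norm_num) (by norm_num) (by norm_num) (by norm_num)
  have e1 : C5.l = (4263 / 262144 : ℝ) := rfl
  have e2 : C5.u = (2349 / 131072 : ℝ) := rfl
  have e3 : C5.a1 = -(6483445 / 4194304 : ℝ) := by norm_num [C5]
  have e4 : C5.a2 = -(130211513 / 2097152 : ℝ) := by norm_num [C5]
  have e5 : C5.e = (-111528915 / 2097152 : ℝ) := rfl
  have e6 : C5.f = (12593 / 33554432 : ℝ) + (3022615 / 134217728 : ℝ) + (-6423197 / 268435456 : ℝ) := by norm_num [C5]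
  rw [e1, e2, e3, e4, e5, e6]
  exact h

lemma rcell6 : ∃ N : ℝ, Rw4 P.r2 N (coCell (26307 / 65536 : ℝ) (8325 / 512 : ℝ) ((13809 / 1024 : ℝ) + (33 / 64 : ℝ)) (23 / 2048 : ℝ) C6) := by
  refine ⟨(2415919104 : ℝ), ⟨Q9, List.mem_cons_of_mem _ (List.mem_cons_of_mem _ (List.mem_cons_of_mem _ (List.mem_cons_of_mem _ (List.mem_cons_of_mem _ (List.mem_cons_of_mem _ (List.mem_cons_of_mem _ (List.mem_cons_of_mem _ (List.mem_cons_of_mem _ (List.mem_cons_self))))))))), ?_⟩, by norm_num⟩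
  constructor <;> norm_num [Q9, coCell, C6]

lemma lcell6 : ∀ x1 x2 xc : ℝ, 0 ≤ x1 → x1 ≤ 1 → 0 ≤ x2 → x2 ≤ 1 → C6.l ≤ xc → xc ≤ C6.u →
    (26307 / 65536 : ℝ) * (1 - (1 - x1) ^ 4) + (8325 / 512 : ℝ) * (1 - (1 - x2) ^ 4) - ((13809 / 1024 : ℝ) + (33 / 64 : ℝ)) * (1 - (1 - xc) ^ 4)
      ≤ - C6.a1 * x1 - C6.a2 * x2 + C6.e * xc + C6.f := by
  have h := cell_lines 4 (α1 := (26307 / 65536 : ℝ)) (α2 := (8325 / 512 : ℝ)) (c := (13809 / 1024 : ℝ) + (33 / 64 : ℝ)) (y1 := (3651 / 262144 : ℝ)) (y2 := (1107 / 65536 : ℝ))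
    (A1 := (3228553 / 2097152 : ℝ)) (B1 := (30773 / 67108864 : ℝ)) (A2 := (259202125 / 4194304 : ℝ)) (B2 := (456553 / 16777216 : ℝ)) (l := (2349 / 131072 : ℝ)) (u := (5177 / 262144 : ℝ))
    (E := (-221873101 / 4194304 : ℝ)) (F := (-7782049 / 268435456 : ℝ)) (by norm_num) (by norm_num) (by norm_num) (by norm_num) (by norm_num)
    (by norm_num) (by norm_num) (by norm_num) (by norm_num) (by norm_num) (by norm_num) (by norm_num) (by norm_num) (by norm_num) (by norm_num)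
  have e1 : C6.l = (2349 / 131072 : ℝ) := rfl
  have e2 : C6.u = (5177 / 262144 : ℝ) := rfl
  have e3 : C6.a1 = -(3228553 / 2097152 : ℝ) := by norm_num [C6]
  have e4 : C6.a2 = -(259202125 / 4194304 : ℝ) := by norm_num [C6]
  have e5 : C6.e = (-221873101 / 4194304 : ℝ) := rfl
  have e6 : C6.f = (30773 / 67108864 : ℝ) + (456553 / 16777216 : ℝ) + (-7782049 / 268435456 : ℝ) := by norm_num [C6]
  rw [e1, e2, e3, e4, e5, e6]
  exact h

lemma rcell7 : ∃ N : ℝ, Rw4 P.r2 N (coCell (26307 / 65536 : ℝ) (8325 / 512 : ℝ) ((13809 / 1024 : ℝ) + (33 / 64 : ℝ)) (23 / 2048 : ℝ) C7) := by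
  refine ⟨(2415919104 : ℝ), ⟨Q10, List.mem_cons_of_mem _ (List.mem_cons_of_mem _ (List.mem_cons_of_mem _ (List.mem_cons_of_mem _ (List.mem_cons_of_mem _ (List.mem_cons_of_mem _ (List.mem_cons_of_mem _ (List.mem_cons_of_mem _ (List.mem_cons_of_mem _ (List.mem_cons_of_mem _ (List.mem_cons_self)))))))))), ?_⟩, by norm_num⟩
  constructor <;> norm_num [Q10, coCell, C7]

lemma lcell7 : ∀ x1 x2 xc : ℝ, 0 ≤ x1 → x1 ≤ 1 → 0 ≤ x2 → x2 ≤ 1 → C7.l ≤ xc → xc ≤ C7.u →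
    (26307 / 65536 : ℝ) * (1 - (1 - x1) ^ 4) + (8325 / 512 : ℝ) * (1 - (1 - x2) ^ 4) - ((13809 / 1024 : ℝ) + (33 / 64 : ℝ)) * (1 - (1 - xc) ^ 4)
      ≤ - C7.a1 * x1 - C7.a2 * x2 + C7.e * xc + C7.f := by
  have h := cell_lines 4 (α1 := (26307 / 65536 : ℝ)) (α2 := (8325 / 512 : ℝ)) (c := (13809 / 1024 : ℝ) + (33 / 64 : ℝ)) (y1 := (4259 / 262144 : ℝ)) (y2 := (4895 / 262144 : ℝ))
    (A1 := (6411649 / 4194304 : ℝ)) (B1 := (83505 / 134217728 : ℝ)) (A2 := (128897799 / 2097152 : ℝ)) (B2 := (4452757 / 134217728 : ℝ)) (l := (5177 / 262144 : ℝ)) (u := (2853 / 131072 : ℝ))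
    (E := (-220571407 / 4194304 : ℝ)) (F := (-9427281 / 268435456 : ℝ)) (by norm_num) (by norm_num) (by norm_num) (by norm_num) (by norm_num)
    (by norm_num) (by norm_num) (by norm_num) (by norm_num) (by norm_num) (by norm_num) (by norm_num) (by norm_num) (by norm_num) (by norm_num)
  have e1 : C7.l = (5177 / 262144 : ℝ) := rfl
  have e2 : C7.u = (2853 / 131072 : ℝ) := rfl
  have e3 : C7.a1 = -(6411649 / 4194304 : ℝ) := by norm_num [C7]
  have e4 : C7.a2 = -(128897799 / 2097152 : ℝ) := by norm_num [C7]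
  have e5 : C7.e = (-220571407 / 4194304 : ℝ) := rfl
  have e6 : C7.f = (83505 / 134217728 : ℝ) + (4452757 / 134217728 : ℝ) + (-9427281 / 268435456 : ℝ) := by norm_num [C7]
  rw [e1, e2, e3, e4, e5, e6]
  exact h

lemma rcell8 : ∃ N : ℝ, Rw4 P.r2 N (coCell (26307 / 65536 : ℝ) (8325 / 512 : ℝ) ((13809 / 1024 : ℝ) + (33 / 64 : ℝ)) (23 / 2048 : ℝ) C8) := by
  refine ⟨(2415919104 : ℝ), ⟨Q11, List.mem_cons_of_mem _ (List.mem_cons_of_mem _ (List.mem_cons_of_mem _ (List.mem_cons_of_mem _ (List.mem_cons_of_mem _ (List.mem_cons_of_mem _ (List.mem_cons_of_mem _ (List.mem_cons_of_mem _ (List.mem_cons_of_mem _ (List.mem_cons_of_mem _ (List.mem_cons_of_mem _ (List.mem_cons_self))))))))))), ?_⟩, by norm_num⟩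
  constructor <;> norm_num [Q11, coCell, C8]

lemma lcell8 : ∀ x1 x2 xc : ℝ, 0 ≤ x1 → x1 ≤ 1 → 0 ≤ x2 → x2 ≤ 1 → C8.l ≤ xc → xc ≤ C8.u →
    (26307 / 65536 : ℝ) * (1 - (1 - x1) ^ 4) + (8325 / 512 : ℝ) * (1 - (1 - x2) ^ 4) - ((13809 / 1024 : ℝ) + (33 / 64 : ℝ)) * (1 - (1 - xc) ^ 4)
      ≤ - C8.a1 * x1 - C8.a2 * x2 + C8.e * xc + C8.f := by
  have h := cell_lines 4 (α1 := (26307 / 65536 : ℝ)) (α2 := (8325 / 512 : ℝ)) (c := (13809 / 1024 : ℝ) + (33 / 64 : ℝ)) (y1 := (4369 / 262144 : ℝ)) (y2 := (5393 / 262144 : ℝ))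
    (A1 := (800431 / 524288 : ℝ)) (B1 := (175641 / 268435456 : ℝ)) (A2 := (32037665 / 524288 : ℝ)) (B2 := (10782059 / 268435456 : ℝ)) (l := (2853 / 131072 : ℝ)) (u := (6289 / 262144 : ℝ))
    (E := (-219141333 / 4194304 : ℝ)) (F := (-11419469 / 268435456 : ℝ)) (by norm_num) (by norm_num) (by norm_num) (by norm_num) (by norm_num)
    (by norm_num) (by norm_num) (by norm_num) (by norm_num) (by norm_num) (by norm_num) (by norm_num) (by norm_num) (by norm_num) (by norm_num)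
  have e1 : C8.l = (2853 / 131072 : ℝ) := rfl
  have e2 : C8.u = (6289 / 262144 : ℝ) := rfl
  have e3 : C8.a1 = -(800431 / 524288 : ℝ) := by norm_num [C8]
  have e4 : C8.a2 = -(32037665 / 524288 : ℝ) := by norm_num [C8]
  have e5 : C8.e = (-219141333 / 4194304 : ℝ) := rfl
  have e6 : C8.f = (175641 / 268435456 : ℝ) + (10782059 / 268435456 : ℝ) + (-11419469 / 268435456 : ℝ) := by norm_num [C8]
  rw [e1, e2, e3, e4, e5, e6]
  exact h

lemma rcell9 : ∃ N : ℝ, Rw4 P.r2 N (coCell (26307 / 65536 : ℝ) (8325 / 512 : ℝ) ((13809 / 1024 : ℝ) + (33 / 64 : ℝ)) (23 / 2048 : ℝ) C9) := by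
  refine ⟨(1207959552 : ℝ), ⟨Q12, List.mem_cons_of_mem _ (List.mem_cons_of_mem _ (List.mem_cons_of_mem _ (List.mem_cons_of_mem _ (List.mem_cons_of_mem _ (List.mem_cons_of_mem _ (List.mem_cons_of_mem _ (List.mem_cons_of_mem _ (List.mem_cons_of_mem _ (List.mem_cons_of_mem _ (List.mem_cons_of_mem _ (List.mem_cons_of_mem _ (List.mem_cons_self)))))))))))), ?_⟩, by norm_num⟩
  constructor <;> norm_num [Q12, coCell, C9]

lemma lcell9 : ∀ x1 x2 xc : ℝ, 0 ≤ x1 → x1 ≤ 1 → 0 ≤ x2 → x2 ≤ 1 → C9.l ≤ xc → xc ≤ C9.u →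
    (26307 / 65536 : ℝ) * (1 - (1 - x1) ^ 4) + (8325 / 512 : ℝ) * (1 - (1 - x2) ^ 4) - ((13809 / 1024 : ℝ) + (33 / 64 : ℝ)) * (1 - (1 - xc) ^ 4)
      ≤ - C9.a1 * x1 - C9.a2 * x2 + C9.e * xc + C9.f := by
  have h := cell_lines 4 (α1 := (26307 / 65536 : ℝ)) (α2 := (8325 / 512 : ℝ)) (c := (13809 / 1024 : ℝ) + (33 / 64 : ℝ)) (y1 := (4961 / 262144 : ℝ)) (y2 := (2965 / 131072 : ℝ))
    (A1 := (794929 / 524288 : ℝ)) (B1 := (225747 / 268435456 : ℝ)) (A2 := (254696503 / 4194304 : ℝ)) (B2 := (13000167 / 268435456 : ℝ)) (l := (6289 / 262144 : ℝ)) (u := (6931 / 262144 : ℝ))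
    (E := (-27196639 / 524288 : ℝ)) (F := (-3456829 / 67108864 : ℝ)) (by norm_num) (by norm_num) (by norm_num) (by norm_num) (by norm_num)
    (by norm_num) (by norm_num) (by norm_num) (by norm_num) (by norm_num) (by norm_num) (by norm_num) (by norm_num) (by norm_num) (by norm_num)
  have e1 : C9.l = (6289 / 262144 : ℝ) := rfl
  have e2 : C9.u = (6931 / 262144 : ℝ) := rfl
  have e3 : C9.a1 = -(794929 / 524288 : ℝ) := by norm_num [C9]
  have e4 : C9.a2 = -(254696503 / 4194304 : ℝ) := by norm_num [C9]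
  have e5 : C9.e = (-27196639 / 524288 : ℝ) := rfl
  have e6 : C9.f = (225747 / 268435456 : ℝ) + (13000167 / 268435456 : ℝ) + (-3456829 / 67108864 : ℝ) := by norm_num [C9]
  rw [e1, e2, e3, e4, e5, e6]
  exact h

lemma rcell10 : ∃ N : ℝ, Rw4 P.r2 N (coCell (26307 / 65536 : ℝ) (8325 / 512 : ℝ) ((13809 / 1024 : ℝ) + (33 / 64 : ℝ)) (23 / 2048 : ℝ) C10) := by
  refine ⟨(2415919104 : ℝ), ⟨Q13, List.mem_cons_of_mem _ (List.mem_cons_of_mem _ (List.mem_cons_of_mem _ (List.mem_cons_of_mem _ (List.mem_cons_of_mem _ (List.mem_cons_of_mem _ (List.mem_cons_of_mem _ (List.mem_cons_of_mem _ (List.mem_cons_of_mem _ (List.mem_cons_of_mem _ (List.mem_cons_of_mem _ (List.mem_cons_of_mem _ (List.mem_cons_of_mem _ (List.mem_cons_self))))))))))))), ?_⟩, by norm_num⟩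
  constructor <;> norm_num [Q13, coCell, C10]

lemma lcell10 : ∀ x1 x2 xc : ℝ, 0 ≤ x1 → x1 ≤ 1 → 0 ≤ x2 → x2 ≤ 1 → C10.l ≤ xc → xc ≤ C10.u →
    (26307 / 65536 : ℝ) * (1 - (1 - x1) ^ 4) + (8325 / 512 : ℝ) * (1 - (1 - x2) ^ 4) - ((13809 / 1024 : ℝ) + (33 / 64 : ℝ)) * (1 - (1 - xc) ^ 4)
      ≤ - C10.a1 * x1 - C10.a2 * x2 + C10.e * xc + C10.f := by
  have h := cell_lines 4 (α1 := (26307 / 65536 : ℝ)) (α2 := (8325 / 512 : ℝ)) (c := (13809 / 1024 : ℝ) + (33 / 64 : ℝ)) (y1 := (5853 / 262144 : ℝ)) (y2 := (1631 / 65536 : ℝ))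
    (A1 := (6293491 / 4194304 : ℝ)) (B1 := (156393 / 134217728 : ℝ)) (A2 := (252929161 / 4194304 : ℝ)) (B2 := (7843447 / 134217728 : ℝ)) (l := (6931 / 262144 : ℝ)) (u := (7639 / 262144 : ℝ))
    (E := (-107926781 / 2097152 : ℝ)) (F := (-16737033 / 268435456 : ℝ)) (by norm_num) (by norm_num) (by norm_num) (by norm_num) (by norm_num)
    (by norm_num) (by norm_num) (by norm_num) (by norm_num) (by norm_num) (by norm_num) (by norm_num) (by norm_num) (by norm_num) (by norm_num)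
  have e1 : C10.l = (6931 / 262144 : ℝ) := rfl
  have e2 : C10.u = (7639 / 262144 : ℝ) := rfl
  have e3 : C10.a1 = -(6293491 / 4194304 : ℝ) := by norm_num [C10]
  have e4 : C10.a2 = -(252929161 / 4194304 : ℝ) := by norm_num [C10]
  have e5 : C10.e = (-107926781 / 2097152 : ℝ) := rfl
  have e6 : C10.f = (156393 / 134217728 : ℝ) + (7843447 / 134217728 : ℝ) + (-16737033 / 268435456 : ℝ) := by norm_num [C10]
  rw [e1, e2, e3, e4, e5, e6]
  exact h

lemma rcell11 : ∃ N : ℝ, Rw4 P.r2 N (coCell (26307 / 65536 : ℝ) (8325 / 512 : ℝ) ((13809 / 1024 : ℝ) + (33 / 64 : ℝ)) (23 / 2048 : ℝ) C11) := by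
  refine ⟨(2415919104 : ℝ), ⟨Q14, List.mem_cons_of_mem _ (List.mem_cons_of_mem _ (List.mem_cons_of_mem _ (List.mem_cons_of_mem _ (List.mem_cons_of_mem _ (List.mem_cons_of_mem _ (List.mem_cons_of_mem _ (List.mem_cons_of_mem _ (List.mem_cons_of_mem _ (List.mem_cons_of_mem _ (List.mem_cons_of_mem _ (List.mem_cons_of_mem _ (List.mem_cons_of_mem _ (List.mem_cons_of_mem _ (List.mem_cons_self)))))))))))))), ?_⟩, by norm_num⟩
  constructor <;> norm_num [Q14, coCell, C11]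

lemma lcell11 : ∀ x1 x2 xc : ℝ, 0 ≤ x1 → x1 ≤ 1 → 0 ≤ x2 → x2 ≤ 1 → C11.l ≤ xc → xc ≤ C11.u →
    (26307 / 65536 : ℝ) * (1 - (1 - x1) ^ 4) + (8325 / 512 : ℝ) * (1 - (1 - x2) ^ 4) - ((13809 / 1024 : ℝ) + (33 / 64 : ℝ)) * (1 - (1 - xc) ^ 4)
      ≤ - C11.a1 * x1 - C11.a2 * x2 + C11.e * xc + C11.f := by
  have h := cell_lines 4 (α1 := (26307 / 65536 : ℝ)) (α2 := (8325 / 512 : ℝ)) (c := (13809 / 1024 : ℝ) + (33 / 64 : ℝ)) (y1 := (5967 / 262144 : ℝ)) (y2 := (7215 / 262144 : ℝ))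
    (A1 := (785637 / 524288 : ℝ)) (B1 := (20307 / 16777216 : ℝ)) (A2 := (125441761 / 2097152 : ℝ)) (B2 := (19117549 / 268435456 : ℝ)) (l := (7639 / 262144 : ℝ)) (u := (8419 / 262144 : ℝ))
    (E := (-1671631 / 32768 : ℝ)) (F := (-5063039 / 67108864 : ℝ)) (by norm_num) (by norm_num) (by norm_num) (by norm_num) (by norm_num)
    (by norm_num) (by norm_num) (by norm_num) (by norm_num) (by norm_num) (by norm_num) (by norm_num) (by norm_num) (by norm_num) (by norm_num)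
  have e1 : C11.l = (7639 / 262144 : ℝ) := rfl
  have e2 : C11.u = (8419 / 262144 : ℝ) := rfl
  have e3 : C11.a1 = -(785637 / 524288 : ℝ) := by norm_num [C11]
  have e4 : C11.a2 = -(125441761 / 2097152 : ℝ) := by norm_num [C11]
  have e5 : C11.e = (-1671631 / 32768 : ℝ) := rfl
  have e6 : C11.f = (20307 / 16777216 : ℝ) + (19117549 / 268435456 : ℝ) + (-5063039 / 67108864 : ℝ) := by norm_num [C11]
  rw [e1, e2, e3, e4, e5, e6]
  exact h

lemma rcell12 : ∃ N : ℝ, Rw4 P.r2 N (coCell (26307 / 65536 : ℝ) (8325 / 512 : ℝ) ((13809 / 1024 : ℝ) + (33 / 64 : ℝ)) (23 / 2048 : ℝ) C12) := by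
  refine ⟨(2415919104 : ℝ), ⟨Q15, List.mem_cons_of_mem _ (List.mem_cons_of_mem _ (List.mem_cons_of_mem _ (List.mem_cons_of_mem _ (List.mem_cons_of_mem _ (List.mem_cons_of_mem _ (List.mem_cons_of_mem _ (List.mem_cons_of_mem _ (List.mem_cons_of_mem _ (List.mem_cons_of_mem _ (List.mem_cons_of_mem _ (List.mem_cons_of_mem _ (List.mem_cons_of_mem _ (List.mem_cons_of_mem _ (List.mem_cons_of_mem _ (List.mem_cons_self))))))))))))))), ?_⟩, by norm_num⟩
  constructor <;> norm_num [Q15, coCell, C12]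

lemma lcell12 : ∀ x1 x2 xc : ℝ, 0 ≤ x1 → x1 ≤ 1 → 0 ≤ x2 → x2 ≤ 1 → C12.l ≤ xc → xc ≤ C12.u →
    (26307 / 65536 : ℝ) * (1 - (1 - x1) ^ 4) + (8325 / 512 : ℝ) * (1 - (1 - x2) ^ 4) - ((13809 / 1024 : ℝ) + (33 / 64 : ℝ)) * (1 - (1 - xc) ^ 4)
      ≤ - C12.a1 * x1 - C12.a2 * x2 + C12.e * xc + C12.f := by
  have h := cell_lines 4 (α1 := (26307 / 65536 : ℝ)) (α2 := (8325 / 512 : ℝ)) (c := (13809 / 1024 : ℝ) + (33 / 64 : ℝ)) (y1 := (6387 / 262144 : ℝ)) (y2 := (7943 / 262144 : ℝ))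
    (A1 := (3127117 / 2097152 : ℝ)) (B1 := (371439 / 268435456 : ℝ)) (A2 := (31092539 / 524288 : ℝ)) (B2 := (23083039 / 268435456 : ℝ)) (l := (8419 / 262144 : ℝ)) (u := (4639 / 131072 : ℝ))
    (E := (-52976363 / 1048576 : ℝ)) (F := (-24493137 / 268435456 : ℝ)) (by norm_num) (by norm_num) (by norm_num) (by norm_num) (by norm_num)
    (by norm_num) (by norm_num) (by norm_num) (by norm_num) (by norm_num) (by norm_num) (by norm_num) (by norm_num) (by norm_num) (by norm_num)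
  have e1 : C12.l = (8419 / 262144 : ℝ) := rfl
  have e2 : C12.u = (4639 / 131072 : ℝ) := rfl
  have e3 : C12.a1 = -(3127117 / 2097152 : ℝ) := by norm_num [C12]
  have e4 : C12.a2 = -(31092539 / 524288 : ℝ) := by norm_num [C12]
  have e5 : C12.e = (-52976363 / 1048576 : ℝ) := rfl
  have e6 : C12.f = (371439 / 268435456 : ℝ) + (23083039 / 268435456 : ℝ) + (-24493137 / 268435456 : ℝ) := by norm_num [C12]
  rw [e1, e2, e3, e4, e5, e6]
  exact h

lemma rcell13 : ∃ N : ℝ, Rw4 P.r2 N (coCell (26307 / 65536 : ℝ) (8325 / 512 : ℝ) ((13809 / 1024 : ℝ) + (33 / 64 : ℝ)) (23 / 2048 : ℝ) C13) := by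
  refine ⟨(2415919104 : ℝ), ⟨Q16, List.mem_cons_of_mem _ (List.mem_cons_of_mem _ (List.mem_cons_of_mem _ (List.mem_cons_of_mem _ (List.mem_cons_of_mem _ (List.mem_cons_of_mem _ (List.mem_cons_of_mem _ (List.mem_cons_of_mem _ (List.mem_cons_of_mem _ (List.mem_cons_of_mem _ (List.mem_cons_of_mem _ (List.mem_cons_of_mem _ (List.mem_cons_of_mem _ (List.mem_cons_of_mem _ (List.mem_cons_of_mem _ (List.mem_cons_of_mem _ (List.mem_cons_self)))))))))))))))), ?_⟩, by norm_num⟩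
  constructor <;> norm_num [Q16, coCell, C13]

lemma lcell13 : ∀ x1 x2 xc : ℝ, 0 ≤ x1 → x1 ≤ 1 → 0 ≤ x2 → x2 ≤ 1 → C13.l ≤ xc → xc ≤ C13.u →
    (26307 / 65536 : ℝ) * (1 - (1 - x1) ^ 4) + (8325 / 512 : ℝ) * (1 - (1 - x2) ^ 4) - ((13809 / 1024 : ℝ) + (33 / 64 : ℝ)) * (1 - (1 - xc) ^ 4)
      ≤ - C13.a1 * x1 - C13.a2 * x2 + C13.e * xc + C13.f := by
  have h := cell_lines 4 (α1 := (26307 / 65536 : ℝ)) (α2 := (8325 / 512 : ℝ)) (c := (13809 / 1024 : ℝ) + (33 / 64 : ℝ)) (y1 := (867 / 32768 : ℝ)) (y2 := (8731 / 262144 : ℝ))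
    (A1 := (6214045 / 4194304 : ℝ)) (B1 := (218399 / 134217728 : ℝ)) (A2 := (246434259 / 4194304 : ℝ)) (B2 := (13888265 / 134217728 : ℝ)) (l := (4639 / 131072 : ℝ)) (u := (5113 / 131072 : ℝ))
    (E := (-409465 / 8192 : ℝ)) (F := (-29610923 / 268435456 : ℝ)) (by norm_num) (by norm_num) (by norm_num) (by norm_num) (by norm_num)
    (by norm_num) (by norm_num) (by norm_num) (by norm_num) (by norm_num) (by norm_num) (by norm_num) (by norm_num) (by norm_num) (by norm_num)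
  have e1 : C13.l = (4639 / 131072 : ℝ) := rfl
  have e2 : C13.u = (5113 / 131072 : ℝ) := rfl
  have e3 : C13.a1 = -(6214045 / 4194304 : ℝ) := by norm_num [C13]
  have e4 : C13.a2 = -(246434259 / 4194304 : ℝ) := by norm_num [C13]
  have e5 : C13.e = (-409465 / 8192 : ℝ) := rfl
  have e6 : C13.f = (218399 / 134217728 : ℝ) + (13888265 / 134217728 : ℝ) + (-29610923 / 268435456 : ℝ) := by norm_num [C13]
  rw [e1, e2, e3, e4, e5, e6]
  exact h

lemma rcell14 : ∃ N : ℝ, Rw4 P.r2 N (coCell (26307 / 65536 : ℝ) (8325 / 512 : ℝ) ((13809 / 1024 : ℝ) + (33 / 64 : ℝ)) (23 / 2048 : ℝ) C14) := by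
  refine ⟨(2415919104 : ℝ), ⟨Q17, List.mem_cons_of_mem _ (List.mem_cons_of_mem _ (List.mem_cons_of_mem _ (List.mem_cons_of_mem _ (List.mem_cons_of_mem _ (List.mem_cons_of_mem _ (List.mem_cons_of_mem _ (List.mem_cons_of_mem _ (List.mem_cons_of_mem _ (List.mem_cons_of_mem _ (List.mem_cons_of_mem _ (List.mem_cons_of_mem _ (List.mem_cons_of_mem _ (List.mem_cons_of_mem _ (List.mem_cons_of_mem _ (List.mem_cons_of_mem _ (List.mem_cons_of_mem _ (List.mem_cons_self))))))))))))))))), ?_⟩, by norm_num⟩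
  constructor <;> norm_num [Q17, coCell, C14]

lemma lcell14 : ∀ x1 x2 xc : ℝ, 0 ≤ x1 → x1 ≤ 1 → 0 ≤ x2 → x2 ≤ 1 → C14.l ≤ xc → xc ≤ C14.u →
    (26307 / 65536 : ℝ) * (1 - (1 - x1) ^ 4) + (8325 / 512 : ℝ) * (1 - (1 - x2) ^ 4) - ((13809 / 1024 : ℝ) + (33 / 64 : ℝ)) * (1 - (1 - xc) ^ 4)
      ≤ - C14.a1 * x1 - C14.a2 * x2 + C14.e * xc + C14.f := by
  have h := cell_lines 4 (α1 := (26307 / 65536 : ℝ)) (α2 := (8325 / 512 : ℝ)) (c := (13809 / 1024 : ℝ) + (33 / 64 : ℝ)) (y1 := (2019 / 65536 : ℝ)) (y2 := (9581 / 262144 : ℝ))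
    (A1 := (6131143 / 4194304 : ℝ)) (B1 := (588701 / 268435456 : ℝ)) (A2 := (243962791 / 4194304 : ℝ)) (B2 := (33300869 / 268435456 : ℝ)) (l := (5113 / 131072 : ℝ)) (u := (5635 / 131072 : ℝ))
    (E := (-207174081 / 4194304 : ℝ)) (F := (-35782471 / 268435456 : ℝ)) (by norm_num) (by norm_num) (by norm_num) (by norm_num) (by norm_num)
    (by norm_num) (by norm_num) (by norm_num) (by norm_num) (by norm_num) (by norm_num) (by norm_num) (by norm_num) (by norm_num) (by norm_num)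
  have e1 : C14.l = (5113 / 131072 : ℝ) := rfl
  have e2 : C14.u = (5635 / 131072 : ℝ) := rfl
  have e3 : C14.a1 = -(6131143 / 4194304 : ℝ) := by norm_num [C14]
  have e4 : C14.a2 = -(243962791 / 4194304 : ℝ) := by norm_num [C14]
  have e5 : C14.e = (-207174081 / 4194304 : ℝ) := rfl
  have e6 : C14.f = (588701 / 268435456 : ℝ) + (33300869 / 268435456 : ℝ) + (-35782471 / 268435456 : ℝ) := by norm_num [C14]
  rw [e1, e2, e3, e4, e5, e6]
  exact h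

lemma rcell15 : ∃ N : ℝ, Rw4 P.r2 N (coCell (26307 / 65536 : ℝ) (8325 / 512 : ℝ) ((13809 / 1024 : ℝ) + (33 / 64 : ℝ)) (23 / 2048 : ℝ) C15) := by
  refine ⟨(603979776 : ℝ), ⟨Q18, List.mem_cons_of_mem _ (List.mem_cons_of_mem _ (List.mem_cons_of_mem _ (List.mem_cons_of_mem _ (List.mem_cons_of_mem _ (List.mem_cons_of_mem _ (List.mem_cons_of_mem _ (List.mem_cons_of_mem _ (List.mem_cons_of_mem _ (List.mem_cons_of_mem _ (List.mem_cons_of_mem _ (List.mem_cons_of_mem _ (List.mem_cons_of_mem _ (List.mem_cons_of_mem _ (List.mem_cons_of_mem _ (List.mem_cons_of_mem _ (List.mem_cons_of_mem _ (List.mem_cons_of_mem _ (List.mem_cons_self)))))))))))))))))), ?_⟩, by norm_num⟩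
  constructor <;> norm_num [Q18, coCell, C15]

lemma lcell15 : ∀ x1 x2 xc : ℝ, 0 ≤ x1 → x1 ≤ 1 → 0 ≤ x2 → x2 ≤ 1 → C15.l ≤ xc → xc ≤ C15.u →
    (26307 / 65536 : ℝ) * (1 - (1 - x1) ^ 4) + (8325 / 512 : ℝ) * (1 - (1 - x2) ^ 4) - ((13809 / 1024 : ℝ) + (33 / 64 : ℝ)) * (1 - (1 - xc) ^ 4)
      ≤ - C15.a1 * x1 - C15.a2 * x2 + C15.e * xc + C15.f := by
  have h := cell_lines 4 (α1 := (26307 / 65536 : ℝ)) (α2 := (8325 / 512 : ℝ)) (c := (13809 / 1024 : ℝ) + (33 / 64 : ℝ)) (y1 := (9317 / 262144 : ℝ)) (y2 := (5301 / 131072 : ℝ))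
    (A1 := (3020869 / 2097152 : ℝ)) (B1 := (194625 / 67108864 : ℝ)) (A2 := (241016037 / 4194304 : ℝ)) (B2 := (20280199 / 134217728 : ℝ)) (l := (5635 / 131072 : ℝ)) (u := (12421 / 262144 : ℝ))
    (E := (-204472777 / 4194304 : ℝ)) (F := (-21607507 / 134217728 : ℝ)) (by norm_num) (by norm_num) (by norm_num) (by norm_num) (by norm_num)
    (by norm_num) (by norm_num) (by norm_num) (by norm_num) (by norm_num) (by norm_num) (by norm_num) (by norm_num) (by norm_num) (by norm_num)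
  have e1 : C15.l = (5635 / 131072 : ℝ) := rfl
  have e2 : C15.u = (12421 / 262144 : ℝ) := rfl
  have e3 : C15.a1 = -(3020869 / 2097152 : ℝ) := by norm_num [C15]
  have e4 : C15.a2 = -(241016037 / 4194304 : ℝ) := by norm_num [C15]
  have e5 : C15.e = (-204472777 / 4194304 : ℝ) := rfl
  have e6 : C15.f = (194625 / 67108864 : ℝ) + (20280199 / 134217728 : ℝ) + (-21607507 / 134217728 : ℝ) := by norm_num [C15]
  rw [e1, e2, e3, e4, e5, e6]
  exact h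

lemma rcell16 : ∃ N : ℝ, Rw4 P.r2 N (coCell (26307 / 65536 : ℝ) (8325 / 512 : ℝ) ((13809 / 1024 : ℝ) + (33 / 64 : ℝ)) (23 / 2048 : ℝ) C16) := by
  refine ⟨(1207959552 : ℝ), ⟨Q19, List.mem_cons_of_mem _ (List.mem_cons_of_mem _ (List.mem_cons_of_mem _ (List.mem_cons_of_mem _ (List.mem_cons_of_mem _ (List.mem_cons_of_mem _ (List.mem_cons_of_mem _ (List.mem_cons_of_mem _ (List.mem_cons_of_mem _ (List.mem_cons_of_mem _ (List.mem_cons_of_mem _ (List.mem_cons_of_mem _ (List.mem_cons_of_mem _ (List.mem_cons_of_mem _ (List.mem_cons_of_mem _ (List.mem_cons_of_mem _ (List.mem_cons_of_mem _ (List.mem_cons_of_mem _ (List.mem_cons_of_mem _ (List.mem_cons_self))))))))))))))))))), ?_⟩, by norm_num⟩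
  constructor <;> norm_num [Q19, coCell, C16]

lemma lcell16 : ∀ x1 x2 xc : ℝ, 0 ≤ x1 → x1 ≤ 1 → 0 ≤ x2 → x2 ≤ 1 → C16.l ≤ xc → xc ≤ C16.u →
    (26307 / 65536 : ℝ) * (1 - (1 - x1) ^ 4) + (8325 / 512 : ℝ) * (1 - (1 - x2) ^ 4) - ((13809 / 1024 : ℝ) + (33 / 64 : ℝ)) * (1 - (1 - xc) ^ 4)
      ≤ - C16.a1 * x1 - C16.a2 * x2 + C16.e * xc + C16.f := by
  have h := cell_lines 4 (α1 := (26307 / 65536 : ℝ)) (α2 := (8325 / 512 : ℝ)) (c := (13809 / 1024 : ℝ) + (33 / 64 : ℝ)) (y1 := (9973 / 262144 : ℝ)) (y2 := (11621 / 262144 : ℝ))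
    (A1 := (5994831 / 4194304 : ℝ)) (B1 := (111119 / 33554432 : ℝ)) (A2 := (238098809 / 4194304 : ℝ)) (B2 := (48473671 / 268435456 : ℝ)) (l := (12421 / 262144 : ℝ)) (u := (13689 / 262144 : ℝ))
    (E := (-201523139 / 4194304 : ℝ)) (F := (-52159705 / 268435456 : ℝ)) (by norm_num) (by norm_num) (by norm_num) (by norm_num) (by norm_num)
    (by norm_num) (by norm_num) (by norm_num) (by norm_num) (by norm_num) (by norm_num) (by norm_num) (by norm_num) (by norm_num) (by norm_num)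
  have e1 : C16.l = (12421 / 262144 : ℝ) := rfl
  have e2 : C16.u = (13689 / 262144 : ℝ) := rfl
  have e3 : C16.a1 = -(5994831 / 4194304 : ℝ) := by norm_num [C16]
  have e4 : C16.a2 = -(238098809 / 4194304 : ℝ) := by norm_num [C16]
  have e5 : C16.e = (-201523139 / 4194304 : ℝ) := rfl
  have e6 : C16.f = (111119 / 33554432 : ℝ) + (48473671 / 268435456 : ℝ) + (-52159705 / 268435456 : ℝ) := by norm_num [C16]
  rw [e1, e2, e3, e4, e5, e6]
  exact h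

lemma rcell17 : ∃ N : ℝ, Rw4 P.r2 N (coCell (26307 / 65536 : ℝ) (8325 / 512 : ℝ) ((13809 / 1024 : ℝ) + (33 / 64 : ℝ)) (23 / 2048 : ℝ) C17) := by
  refine ⟨(2415919104 : ℝ), ⟨Q20, List.mem_cons_of_mem _ (List.mem_cons_of_mem _ (List.mem_cons_of_mem _ (List.mem_cons_of_mem _ (List.mem_cons_of_mem _ (List.mem_cons_of_mem _ (List.mem_cons_of_mem _ (List.mem_cons_of_mem _ (List.mem_cons_of_mem _ (List.mem_cons_of_mem _ (List.mem_cons_of_mem _ (List.mem_cons_of_mem _ (List.mem_cons_of_mem _ (List.mem_cons_of_mem _ (List.mem_cons_of_mem _ (List.mem_cons_of_mem _ (List.mem_cons_of_mem _ (List.mem_cons_of_mem _ (List.mem_cons_of_mem _ (List.mem_cons_of_mem _ (List.mem_cons_self)))))))))))))))))))), ?_⟩, by norm_num⟩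
  constructor <;> norm_num [Q20, coCell, C17]

lemma lcell17 : ∀ x1 x2 xc : ℝ, 0 ≤ x1 → x1 ≤ 1 → 0 ≤ x2 → x2 ≤ 1 → C17.l ≤ xc → xc ≤ C17.u →
    (26307 / 65536 : ℝ) * (1 - (1 - x1) ^ 4) + (8325 / 512 : ℝ) * (1 - (1 - x2) ^ 4) - ((13809 / 1024 : ℝ) + (33 / 64 : ℝ)) * (1 - (1 - xc) ^ 4)
      ≤ - C17.a1 * x1 - C17.a2 * x2 + C17.e * xc + C17.f := by
  have h := cell_lines 4 (α1 := (26307 / 65536 : ℝ)) (α2 := (8325 / 512 : ℝ)) (c := (13809 / 1024 : ℝ) + (33 / 64 : ℝ)) (y1 := (10475 / 262144 : ℝ)) (y2 := (6339 / 131072 : ℝ))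
    (A1 := (1489775 / 1048576 : ℝ)) (B1 := (978155 / 268435456 : ℝ)) (A2 := (117548883 / 2097152 : ℝ)) (B2 := (28687389 / 134217728 : ℝ)) (l := (13689 / 262144 : ℝ)) (u := (15087 / 262144 : ℝ))
    (E := (-99152681 / 2097152 : ℝ)) (F := (-3932103 / 16777216 : ℝ)) (by norm_num) (by norm_num) (by norm_num) (by norm_num) (by norm_num)
    (by norm_num) (by norm_num) (by norm_num) (by norm_num) (by norm_num) (by norm_num) (by norm_num) (by norm_num) (by norm_num) (by norm_num)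
  have e1 : C17.l = (13689 / 262144 : ℝ) := rfl
  have e2 : C17.u = (15087 / 262144 : ℝ) := rfl
  have e3 : C17.a1 = -(1489775 / 1048576 : ℝ) := by norm_num [C17]
  have e4 : C17.a2 = -(117548883 / 2097152 : ℝ) := by norm_num [C17]
  have e5 : C17.e = (-99152681 / 2097152 : ℝ) := rfl
  have e6 : C17.f = (978155 / 268435456 : ℝ) + (28687389 / 134217728 : ℝ) + (-3932103 / 16777216 : ℝ) := by norm_num [C17]
  rw [e1, e2, e3, e4, e5, e6]
  exact h

lemma rcell18 : ∃ N : ℝ, Rw4 P.r2 N (coCell (26307 / 65536 : ℝ) (8325 / 512 : ℝ) ((13809 / 1024 : ℝ) + (33 / 64 : ℝ)) (23 / 2048 : ℝ) C18) := by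
  refine ⟨(2415919104 : ℝ), ⟨Q21, List.mem_cons_of_mem _ (List.mem_cons_of_mem _ (List.mem_cons_of_mem _ (List.mem_cons_of_mem _ (List.mem_cons_of_mem _ (List.mem_cons_of_mem _ (List.mem_cons_of_mem _ (List.mem_cons_of_mem _ (List.mem_cons_of_mem _ (List.mem_cons_of_mem _ (List.mem_cons_of_mem _ (List.mem_cons_of_mem _ (List.mem_cons_of_mem _ (List.mem_cons_of_mem _ (List.mem_cons_of_mem _ (List.mem_cons_of_mem _ (List.mem_cons_of_mem _ (List.mem_cons_of_mem _ (List.mem_cons_of_mem _ (List.mem_cons_of_mem _ (List.mem_cons_of_mem _ (List.mem_cons_self))))))))))))))))))))), ?_⟩, by norm_num⟩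
  constructor <;> norm_num [Q21, coCell, C18]

lemma lcell18 : ∀ x1 x2 xc : ℝ, 0 ≤ x1 → x1 ≤ 1 → 0 ≤ x2 → x2 ≤ 1 → C18.l ≤ xc → xc ≤ C18.u →
    (26307 / 65536 : ℝ) * (1 - (1 - x1) ^ 4) + (8325 / 512 : ℝ) * (1 - (1 - x2) ^ 4) - ((13809 / 1024 : ℝ) + (33 / 64 : ℝ)) * (1 - (1 - xc) ^ 4)
      ≤ - C18.a1 * x1 - C18.a2 * x2 + C18.e * xc + C18.f := by
  have h := cell_lines 4 (α1 := (26307 / 65536 : ℝ)) (α2 := (8325 / 512 : ℝ)) (c := (13809 / 1024 : ℝ) + (33 / 64 : ℝ)) (y1 := (5647 / 131072 : ℝ)) (y2 := (13895 / 262144 : ℝ))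
    (A1 := (737639 / 524288 : ℝ)) (B1 := (1132225 / 268435456 : ℝ)) (A2 := (231673807 / 4194304 : ℝ)) (B2 := (17120125 / 67108864 : ℝ)) (l := (15087 / 262144 : ℝ)) (u := (16627 / 262144 : ℝ))
    (E := (-6087475 / 131072 : ℝ)) (F := (-18957017 / 67108864 : ℝ)) (by norm_num) (by norm_num) (by norm_num) (by norm_num) (by norm_num)
    (by norm_num) (by norm_num) (by norm_num) (by norm_num) (by norm_num) (by norm_num) (by norm_num) (by norm_num) (by norm_num) (by norm_num)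
  have e1 : C18.l = (15087 / 262144 : ℝ) := rfl
  have e2 : C18.u = (16627 / 262144 : ℝ) := rfl
  have e3 : C18.a1 = -(737639 / 524288 : ℝ) := by norm_num [C18]
  have e4 : C18.a2 = -(231673807 / 4194304 : ℝ) := by norm_num [C18]
  have e5 : C18.e = (-6087475 / 131072 : ℝ) := rfl
  have e6 : C18.f = (1132225 / 268435456 : ℝ) + (17120125 / 67108864 : ℝ) + (-18957017 / 67108864 : ℝ) := by norm_num [C18]
  rw [e1, e2, e3, e4, e5, e6]
  exact h

lemma rcell19 : ∃ N : ℝ, Rw4 P.r2 N (coCell (26307 / 65536 : ℝ) (8325 / 512 : ℝ) ((13809 / 1024 : ℝ) + (33 / 64 : ℝ)) (23 / 2048 : ℝ) C19) := by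
  refine ⟨(2415919104 : ℝ), ⟨Q22, List.mem_cons_of_mem _ (List.mem_cons_of_mem _ (List.mem_cons_of_mem _ (List.mem_cons_of_mem _ (List.mem_cons_of_mem _ (List.mem_cons_of_mem _ (List.mem_cons_of_mem _ (List.mem_cons_of_mem _ (List.mem_cons_of_mem _ (List.mem_cons_of_mem _ (List.mem_cons_of_mem _ (List.mem_cons_of_mem _ (List.mem_cons_of_mem _ (List.mem_cons_of_mem _ (List.mem_cons_of_mem _ (List.mem_cons_of_mem _ (List.mem_cons_of_mem _ (List.mem_cons_of_mem _ (List.mem_cons_of_mem _ (List.mem_cons_of_mem _ (List.mem_cons_of_mem _ (List.mem_cons_of_mem _ (List.mem_cons_self)))))))))))))))))))))), ?_⟩, by norm_num⟩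
  constructor <;> norm_num [Q22, coCell, C19]

lemma lcell19 : ∀ x1 x2 xc : ℝ, 0 ≤ x1 → x1 ≤ 1 → 0 ≤ x2 → x2 ≤ 1 → C19.l ≤ xc → xc ≤ C19.u →
    (26307 / 65536 : ℝ) * (1 - (1 - x1) ^ 4) + (8325 / 512 : ℝ) * (1 - (1 - x2) ^ 4) - ((13809 / 1024 : ℝ) + (33 / 64 : ℝ)) * (1 - (1 - xc) ^ 4)
      ≤ - C19.a1 * x1 - C19.a2 * x2 + C19.e * xc + C19.f := by
  have h := cell_lines 4 (α1 := (26307 / 65536 : ℝ)) (α2 := (8325 / 512 : ℝ)) (c := (13809 / 1024 : ℝ) + (33 / 64 : ℝ)) (y1 := (12305 / 262144 : ℝ)) (y2 := (1877 / 32768 : ℝ))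
    (A1 := (5830049 / 4194304 : ℝ)) (B1 := (668471 / 134217728 : ℝ)) (A2 := (57137375 / 1048576 : ℝ)) (B2 := (79506081 / 268435456 : ℝ)) (l := (16627 / 262144 : ℝ)) (u := (18325 / 262144 : ℝ))
    (E := (-190983217 / 4194304 : ℝ)) (F := (-22829597 / 67108864 : ℝ)) (by norm_num) (by norm_num) (by norm_num) (by norm_num) (by norm_num)
    (by norm_num) (by norm_num) (by norm_num) (by norm_num) (by norm_num) (by norm_num) (by norm_num) (by norm_num) (by norm_num) (by norm_num)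
  have e1 : C19.l = (16627 / 262144 : ℝ) := rfl
  have e2 : C19.u = (18325 / 262144 : ℝ) := rfl
  have e3 : C19.a1 = -(5830049 / 4194304 : ℝ) := by norm_num [C19]
  have e4 : C19.a2 = -(57137375 / 1048576 : ℝ) := by norm_num [C19]
  have e5 : C19.e = (-190983217 / 4194304 : ℝ) := rfl
  have e6 : C19.f = (668471 / 134217728 : ℝ) + (79506081 / 268435456 : ℝ) + (-22829597 / 67108864 : ℝ) := by norm_num [C19]
  rw [e1, e2, e3, e4, e5, e6]
  exact h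

lemma rcell20 : ∃ N : ℝ, Rw4 P.r2 N (coCell (26307 / 65536 : ℝ) (8325 / 512 : ℝ) ((13809 / 1024 : ℝ) + (33 / 64 : ℝ)) (23 / 2048 : ℝ) C20) := by
  refine ⟨(2415919104 : ℝ), ⟨Q23, List.mem_cons_of_mem _ (List.mem_cons_of_mem _ (List.mem_cons_of_mem _ (List.mem_cons_of_mem _ (List.mem_cons_of_mem _ (List.mem_cons_of_mem _ (List.mem_cons_of_mem _ (List.mem_cons_of_mem _ (List.mem_cons_of_mem _ (List.mem_cons_of_mem _ (List.mem_cons_of_mem _ (List.mem_cons_of_mem _ (List.mem_cons_of_mem _ (List.mem_cons_of_mem _ (List.mem_cons_of_mem _ (List.mem_cons_of_mem _ (List.mem_cons_of_mem _ (List.mem_cons_of_mem _ (List.mem_cons_of_mem _ (List.mem_cons_of_mem _ (List.mem_cons_of_mem _ (List.mem_cons_of_mem _ (List.mem_cons_of_mem _ (List.mem_cons_self))))))))))))))))))))))), ?_⟩, by norm_num⟩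
  constructor <;> norm_num [Q23, coCell, C20]

lemma lcell20 : ∀ x1 x2 xc : ℝ, 0 ≤ x1 → x1 ≤ 1 → 0 ≤ x2 → x2 ≤ 1 → C20.l ≤ xc → xc ≤ C20.u →
    (26307 / 65536 : ℝ) * (1 - (1 - x1) ^ 4) + (8325 / 512 : ℝ) * (1 - (1 - x2) ^ 4) - ((13809 / 1024 : ℝ) + (33 / 64 : ℝ)) * (1 - (1 - xc) ^ 4)
      ≤ - C20.a1 * x1 - C20.a2 * x2 + C20.e * xc + C20.f := by
  have h := cell_lines 4 (α1 := (26307 / 65536 : ℝ)) (α2 := (8325 / 512 : ℝ)) (c := (13809 / 1024 : ℝ) + (33 / 64 : ℝ)) (y1 := (1607 / 32768 : ℝ)) (y2 := (15777 / 262144 : ℝ))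
    (A1 := (5791561 / 4194304 : ℝ)) (B1 := (1455145 / 268435456 : ℝ)) (A2 := (226444625 / 4194304 : ℝ)) (B2 := (87417923 / 268435456 : ℝ)) (l := (18325 / 262144 : ℝ)) (u := (5049 / 65536 : ℝ))
    (E := (-93417651 / 2097152 : ℝ)) (F := (-109875649 / 268435456 : ℝ)) (by norm_num) (by norm_num) (by norm_num) (by norm_num) (by norm_num)
    (by norm_num) (by norm_num) (by norm_num) (by norm_num) (by norm_num) (by norm_num) (by norm_num) (by norm_num) (by norm_num) (by norm_num)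
  have e1 : C20.l = (18325 / 262144 : ℝ) := rfl
  have e2 : C20.u = (5049 / 65536 : ℝ) := rfl
  have e3 : C20.a1 = -(5791561 / 4194304 : ℝ) := by norm_num [C20]
  have e4 : C20.a2 = -(226444625 / 4194304 : ℝ) := by norm_num [C20]
  have e5 : C20.e = (-93417651 / 2097152 : ℝ) := rfl
  have e6 : C20.f = (1455145 / 268435456 : ℝ) + (87417923 / 268435456 : ℝ) + (-109875649 / 268435456 : ℝ) := by norm_num [C20]
  rw [e1, e2, e3, e4, e5, e6]
  exact h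

lemma rcell21 : ∃ N : ℝ, Rw4 P.r2 N (coCell (26307 / 65536 : ℝ) (8325 / 512 : ℝ) ((13809 / 1024 : ℝ) + (33 / 64 : ℝ)) (23 / 2048 : ℝ) C21) := by
  refine ⟨(603979776 : ℝ), ⟨Q24, List.mem_cons_of_mem _ (List.mem_cons_of_mem _ (List.mem_cons_of_mem _ (List.mem_cons_of_mem _ (List.mem_cons_of_mem _ (List.mem_cons_of_mem _ (List.mem_cons_of_mem _ (List.mem_cons_of_mem _ (List.mem_cons_of_mem _ (List.mem_cons_of_mem _ (List.mem_cons_of_mem _ (List.mem_cons_of_mem _ (List.mem_cons_of_mem _ (List.mem_cons_of_mem _ (List.mem_cons_of_mem _ (List.mem_cons_of_mem _ (List.mem_cons_of_mem _ (List.mem_cons_of_mem _ (List.mem_cons_of_mem _ (List.mem_cons_of_mem _ (List.mem_cons_of_mem _ (List.mem_cons_of_mem _ (List.mem_cons_of_mem _ (List.mem_cons_of_mem _ (List.mem_cons_self)))))))))))))))))))))))), ?_⟩, by norm_num⟩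
  constructor <;> norm_num [Q24, coCell, C21]

lemma lcell21 : ∀ x1 x2 xc : ℝ, 0 ≤ x1 → x1 ≤ 1 → 0 ≤ x2 → x2 ≤ 1 → C21.l ≤ xc → xc ≤ C21.u →
    (26307 / 65536 : ℝ) * (1 - (1 - x1) ^ 4) + (8325 / 512 : ℝ) * (1 - (1 - x2) ^ 4) - ((13809 / 1024 : ℝ) + (33 / 64 : ℝ)) * (1 - (1 - xc) ^ 4)
      ≤ - C21.a1 * x1 - C21.a2 * x2 + C21.e * xc + C21.f := by
  have h := cell_lines 4 (α1 := (26307 / 65536 : ℝ)) (α2 := (8325 / 512 : ℝ)) (c := (13809 / 1024 : ℝ) + (33 / 64 : ℝ)) (y1 := (1835 / 32768 : ℝ)) (y2 := (4463 / 65536 : ℝ))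
    (A1 := (5665361 / 4194304 : ℝ)) (B1 := (1879285 / 268435456 : ℝ)) (A2 := (110385531 / 2097152 : ℝ)) (B2 := (110704423 / 268435456 : ℝ)) (l := (5049 / 65536 : ℝ)) (u := (22259 / 262144 : ℝ))
    (E := (-182333327 / 4194304 : ℝ)) (F := (-4127293 / 8388608 : ℝ)) (by norm_num) (by norm_num) (by norm_num) (by norm_num) (by norm_num)
    (by norm_num) (by norm_num) (by norm_num) (by norm_num) (by norm_num) (by norm_num) (by norm_num) (by norm_num) (by norm_num) (by norm_num)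
  have e1 : C21.l = (5049 / 65536 : ℝ) := rfl
  have e2 : C21.u = (22259 / 262144 : ℝ) := rfl
  have e3 : C21.a1 = -(5665361 / 4194304 : ℝ) := by norm_num [C21]
  have e4 : C21.a2 = -(110385531 / 2097152 : ℝ) := by norm_num [C21]
  have e5 : C21.e = (-182333327 / 4194304 : ℝ) := rfl
  have e6 : C21.f = (1879285 / 268435456 : ℝ) + (110704423 / 268435456 : ℝ) + (-4127293 / 8388608 : ℝ) := by norm_num [C21]
  rw [e1, e2, e3, e4, e5, e6]
  exact h

lemma rcell22 : ∃ N : ℝ, Rw4 P.r2 N (coCell (26307 / 65536 : ℝ) (8325 / 512 : ℝ) ((13809 / 1024 : ℝ) + (33 / 64 : ℝ)) (23 / 2048 : ℝ) C22) := by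
  refine ⟨(2415919104 : ℝ), ⟨Q25, List.mem_cons_of_mem _ (List.mem_cons_of_mem _ (List.mem_cons_of_mem _ (List.mem_cons_of_mem _ (List.mem_cons_of_mem _ (List.mem_cons_of_mem _ (List.mem_cons_of_mem _ (List.mem_cons_of_mem _ (List.mem_cons_of_mem _ (List.mem_cons_of_mem _ (List.mem_cons_of_mem _ (List.mem_cons_of_mem _ (List.mem_cons_of_mem _ (List.mem_cons_of_mem _ (List.mem_cons_of_mem _ (List.mem_cons_of_mem _ (List.mem_cons_of_mem _ (List.mem_cons_of_mem _ (List.mem_cons_of_mem _ (List.mem_cons_of_mem _ (List.mem_cons_of_mem _ (List.mem_cons_of_mem _ (List.mem_cons_of_mem _ (List.mem_cons_of_mem _ (List.mem_cons_of_mem _ (List.mem_cons_self))))))))))))))))))))))))), ?_⟩, by norm_num⟩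
  constructor <;> norm_num [Q25, coCell, C22]

lemma lcell22 : ∀ x1 x2 xc : ℝ, 0 ≤ x1 → x1 ≤ 1 → 0 ≤ x2 → x2 ≤ 1 → C22.l ≤ xc → xc ≤ C22.u →
    (26307 / 65536 : ℝ) * (1 - (1 - x1) ^ 4) + (8325 / 512 : ℝ) * (1 - (1 - x2) ^ 4) - ((13809 / 1024 : ℝ) + (33 / 64 : ℝ)) * (1 - (1 - xc) ^ 4)
      ≤ - C22.a1 * x1 - C22.a2 * x2 + C22.e * xc + C22.f := by
  have h := cell_lines 4 (α1 := (26307 / 65536 : ℝ)) (α2 := (8325 / 512 : ℝ)) (c := (13809 / 1024 : ℝ) + (33 / 64 : ℝ)) (y1 := (1983 / 32768 : ℝ)) (y2 := (5031 / 65536 : ℝ))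
    (A1 := (5584431 / 4194304 : ℝ)) (B1 := (2181021 / 268435456 : ℝ)) (A2 := (214668431 / 4194304 : ℝ)) (B2 := (138989377 / 268435456 : ℝ)) (l := (22259 / 262144 : ℝ)) (u := (6133 / 65536 : ℝ))
    (E := (-177455823 / 4194304 : ℝ)) (F := (-158579323 / 268435456 : ℝ)) (by norm_num) (by norm_num) (by norm_num) (by norm_num) (by norm_num)
    (by norm_num) (by norm_num) (by norm_num) (by norm_num) (by norm_num) (by norm_num) (by norm_num) (by norm_num) (by norm_num) (by norm_num)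
  have e1 : C22.l = (22259 / 262144 : ℝ) := rfl
  have e2 : C22.u = (6133 / 65536 : ℝ) := rfl
  have e3 : C22.a1 = -(5584431 / 4194304 : ℝ) := by norm_num [C22]
  have e4 : C22.a2 = -(214668431 / 4194304 : ℝ) := by norm_num [C22]
  have e5 : C22.e = (-177455823 / 4194304 : ℝ) := rfl
  have e6 : C22.f = (2181021 / 268435456 : ℝ) + (138989377 / 268435456 : ℝ) + (-158579323 / 268435456 : ℝ) := by norm_num [C22]
  rw [e1, e2, e3, e4, e5, e6]
  exact h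

lemma rcell23 : ∃ N : ℝ, Rw4 P.r2 N (coCell (26307 / 65536 : ℝ) (8325 / 512 : ℝ) ((13809 / 1024 : ℝ) + (33 / 64 : ℝ)) (23 / 2048 : ℝ) C23) := by
  refine ⟨(2415919104 : ℝ), ⟨Q26, List.mem_cons_of_mem _ (List.mem_cons_of_mem _ (List.mem_cons_of_mem _ (List.mem_cons_of_mem _ (List.mem_cons_of_mem _ (List.mem_cons_of_mem _ (List.mem_cons_of_mem _ (List.mem_cons_of_mem _ (List.mem_cons_of_mem _ (List.mem_cons_of_mem _ (List.mem_cons_of_mem _ (List.mem_cons_of_mem _ (List.mem_cons_of_mem _ (List.mem_cons_of_mem _ (List.mem_cons_of_mem _ (List.mem_cons_of_mem _ (List.mem_cons_of_mem _ (List.mem_cons_of_mem _ (List.mem_cons_of_mem _ (List.mem_cons_of_mem _ (List.mem_cons_of_mem _ (List.mem_cons_of_mem _ (List.mem_cons_of_mem _ (List.mem_cons_of_mem _ (List.mem_cons_of_mem _ (List.mem_cons_of_mem _ (List.mem_cons_self)))))))))))))))))))))))))), ?_⟩, by norm_num⟩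
  constructor <;> norm_num [Q26, coCell, C23]

lemma lcell23 : ∀ x1 x2 xc : ℝ, 0 ≤ x1 → x1 ≤ 1 → 0 ≤ x2 → x2 ≤ 1 → C23.l ≤ xc → xc ≤ C23.u →
    (26307 / 65536 : ℝ) * (1 - (1 - x1) ^ 4) + (8325 / 512 : ℝ) * (1 - (1 - x2) ^ 4) - ((13809 / 1024 : ℝ) + (33 / 64 : ℝ)) * (1 - (1 - xc) ^ 4)
      ≤ - C23.a1 * x1 - C23.a2 * x2 + C23.e * xc + C23.f := by
  have h := cell_lines 4 (α1 := (26307 / 65536 : ℝ)) (α2 := (8325 / 512 : ℝ)) (c := (13809 / 1024 : ℝ) + (33 / 64 : ℝ)) (y1 := (9879 / 131072 : ℝ)) (y2 := (22425 / 262144 : ℝ))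
    (A1 := (5323707 / 4194304 : ℝ)) (B1 := (3314071 / 268435456 : ℝ)) (A2 := (26075449 / 524288 : ℝ)) (B2 := (85242283 / 134217728 : ℝ)) (l := (6133 / 65536 : ℝ)) (u := (27037 / 262144 : ℝ))
    (E := (-86091415 / 2097152 : ℝ)) (F := (-95080319 / 134217728 : ℝ)) (by norm_num) (by norm_num) (by norm_num) (by norm_num) (by norm_num)
    (by norm_num) (by norm_num) (by norm_num) (by norm_num) (by norm_num) (by norm_num) (by norm_num) (by norm_num) (by norm_num) (by norm_num)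
  have e1 : C23.l = (6133 / 65536 : ℝ) := rfl
  have e2 : C23.u = (27037 / 262144 : ℝ) := rfl
  have e3 : C23.a1 = -(5323707 / 4194304 : ℝ) := by norm_num [C23]
  have e4 : C23.a2 = -(26075449 / 524288 : ℝ) := by norm_num [C23]
  have e5 : C23.e = (-86091415 / 2097152 : ℝ) := rfl
  have e6 : C23.f = (3314071 / 268435456 : ℝ) + (85242283 / 134217728 : ℝ) + (-95080319 / 134217728 : ℝ) := by norm_num [C23]
  rw [e1, e2, e3, e4, e5, e6]
  exact h

lemma rcell24 : ∃ N : ℝ, Rw4 P.r2 N (coCell (26307 / 65536 : ℝ) (8325 / 512 : ℝ) ((13809 / 1024 : ℝ) + (33 / 64 : ℝ)) (23 / 2048 : ℝ) C24) := by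
  refine ⟨(2415919104 : ℝ), ⟨Q27, List.mem_cons_of_mem _ (List.mem_cons_of_mem _ (List.mem_cons_of_mem _ (List.mem_cons_of_mem _ (List.mem_cons_of_mem _ (List.mem_cons_of_mem _ (List.mem_cons_of_mem _ (List.mem_cons_of_mem _ (List.mem_cons_of_mem _ (List.mem_cons_of_mem _ (List.mem_cons_of_mem _ (List.mem_cons_of_mem _ (List.mem_cons_of_mem _ (List.mem_cons_of_mem _ (List.mem_cons_of_mem _ (List.mem_cons_of_mem _ (List.mem_cons_of_mem _ (List.mem_cons_of_mem _ (List.mem_cons_of_mem _ (List.mem_cons_of_mem _ (List.mem_cons_of_mem _ (List.mem_cons_of_mem _ (List.mem_cons_of_mem _ (List.mem_cons_of_mem _ (List.mem_cons_of_mem _ (List.mem_cons_of_mem _ (List.mem_cons_of_mem _ (List.mem_cons_self))))))))))))))))))))))))))), ?_⟩, by norm_num⟩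
  constructor <;> norm_num [Q27, coCell, C24]

lemma lcell24 : ∀ x1 x2 xc : ℝ, 0 ≤ x1 → x1 ≤ 1 → 0 ≤ x2 → x2 ≤ 1 → C24.l ≤ xc → xc ≤ C24.u →
    (26307 / 65536 : ℝ) * (1 - (1 - x1) ^ 4) + (8325 / 512 : ℝ) * (1 - (1 - x2) ^ 4) - ((13809 / 1024 : ℝ) + (33 / 64 : ℝ)) * (1 - (1 - xc) ^ 4)
      ≤ - C24.a1 * x1 - C24.a2 * x2 + C24.e * xc + C24.f := by
  have h := cell_lines 4 (α1 := (26307 / 65536 : ℝ)) (α2 := (8325 / 512 : ℝ)) (c := (13809 / 1024 : ℝ) + (33 / 64 : ℝ)) (y1 := (21323 / 262144 : ℝ)) (y2 := (24931 / 262144 : ℝ))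
    (A1 := (5221251 / 4194304 : ℝ)) (B1 := (1913917 / 134217728 : ℝ)) (A2 := (101064789 / 2097152 : ℝ)) (B2 := (1624237 / 2097152 : ℝ)) (l := (27037 / 262144 : ℝ)) (u := (29797 / 262144 : ℝ))
    (E := (-83247319 / 2097152 : ℝ)) (F := (-227707427 / 268435456 : ℝ)) (by norm_num) (by norm_num) (by norm_num) (by norm_num) (by norm_num)
    (by norm_num) (by norm_num) (by norm_num) (by norm_num) (by norm_num) (by norm_num) (by norm_num) (by norm_num) (by norm_num) (by norm_num)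
  have e1 : C24.l = (27037 / 262144 : ℝ) := rfl
  have e2 : C24.u = (29797 / 262144 : ℝ) := rfl
  have e3 : C24.a1 = -(5221251 / 4194304 : ℝ) := by norm_num [C24]
  have e4 : C24.a2 = -(101064789 / 2097152 : ℝ) := by norm_num [C24]
  have e5 : C24.e = (-83247319 / 2097152 : ℝ) := rfl
  have e6 : C24.f = (1913917 / 134217728 : ℝ) + (1624237 / 2097152 : ℝ) + (-227707427 / 268435456 : ℝ) := by norm_num [C24]
  rw [e1, e2, e3, e4, e5, e6]
  exact h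

lemma rcell25 : ∃ N : ℝ, Rw4 P.r2 N (coCell (26307 / 65536 : ℝ) (8325 / 512 : ℝ) ((13809 / 1024 : ℝ) + (33 / 64 : ℝ)) (23 / 2048 : ℝ) C25) := by
  refine ⟨(1207959552 : ℝ), ⟨Q28, List.mem_cons_of_mem _ (List.mem_cons_of_mem _ (List.mem_cons_of_mem _ (List.mem_cons_of_mem _ (List.mem_cons_of_mem _ (List.mem_cons_of_mem _ (List.mem_cons_of_mem _ (List.mem_cons_of_mem _ (List.mem_cons_of_mem _ (List.mem_cons_of_mem _ (List.mem_cons_of_mem _ (List.mem_cons_of_mem _ (List.mem_cons_of_mem _ (List.mem_cons_of_mem _ (List.mem_cons_of_mem _ (List.mem_cons_of_mem _ (List.mem_cons_of_mem _ (List.mem_cons_of_mem _ (List.mem_cons_of_mem _ (List.mem_cons_of_mem _ (List.mem_cons_of_mem _ (List.mem_cons_of_mem _ (List.mem_cons_of_mem _ (List.mem_cons_of_mem _ (List.mem_cons_of_mem _ (List.mem_cons_of_mem _ (List.mem_cons_of_mem _ (List.mem_cons_of_mem _ (List.mem_cons_self)))))))))))))))))))))))))))),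 ?_⟩, by norm_num⟩
  constructor <;> norm_num [Q28, coCell, C25]

lemma lcell25 : ∀ x1 x2 xc : ℝ, 0 ≤ x1 → x1 ≤ 1 → 0 ≤ x2 → x2 ≤ 1 → C25.l ≤ xc → xc ≤ C25.u →
    (26307 / 65536 : ℝ) * (1 - (1 - x1) ^ 4) + (8325 / 512 : ℝ) * (1 - (1 - x2) ^ 4) - ((13809 / 1024 : ℝ) + (33 / 64 : ℝ)) * (1 - (1 - xc) ^ 4)
      ≤ - C25.a1 * x1 - C25.a2 * x2 + C25.e * xc + C25.f := by
  have h := cell_lines 4 (α1 := (26307 / 65536 : ℝ)) (α2 := (8325 / 512 : ℝ)) (c := (13809 / 1024 : ℝ) + (33 / 64 : ℝ)) (y1 := (22969 / 262144 : ℝ)) (y2 := (6851 / 65536 : ℝ))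
    (A1 := (639365 / 524288 : ℝ)) (B1 := (2201347 / 134217728 : ℝ)) (A2 := (195873513 / 4194304 : ℝ)) (B2 := (123931461 / 134217728 : ℝ)) (l := (29797 / 262144 : ℝ)) (u := (4105 / 32768 : ℝ))
    (E := (-160372051 / 4194304 : ℝ)) (F := (-136123577 / 134217728 : ℝ)) (by norm_num) (by norm_num) (by norm_num) (by norm_num) (by norm_num)
    (by norm_num) (by norm_num) (by norm_num) (by norm_num) (by norm_num) (by norm_num) (by norm_num) (by norm_num) (by norm_num) (by norm_num)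
  have e1 : C25.l = (29797 / 262144 : ℝ) := rfl
  have e2 : C25.u = (4105 / 32768 : ℝ) := rfl
  have e3 : C25.a1 = -(639365 / 524288 : ℝ) := by norm_num [C25]
  have e4 : C25.a2 = -(195873513 / 4194304 : ℝ) := by norm_num [C25]
  have e5 : C25.e = (-160372051 / 4194304 : ℝ) := rfl
  have e6 : C25.f = (2201347 / 134217728 : ℝ) + (123931461 / 134217728 : ℝ) + (-136123577 / 134217728 : ℝ) := by norm_num [C25]
  rw [e1, e2, e3, e4, e5, e6]
  exact h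

lemma rcell26 : ∃ N : ℝ, Rw4 P.r2 N (coCell (26307 / 65536 : ℝ) (8325 / 512 : ℝ) ((13809 / 1024 : ℝ) + (33 / 64 : ℝ)) (23 / 2048 : ℝ) C26) := by
  refine ⟨(2415919104 : ℝ), ⟨Q29, List.mem_cons_of_mem _ (List.mem_cons_of_mem _ (List.mem_cons_of_mem _ (List.mem_cons_of_mem _ (List.mem_cons_of_mem _ (List.mem_cons_of_mem _ (List.mem_cons_of_mem _ (List.mem_cons_of_mem _ (List.mem_cons_of_mem _ (List.mem_cons_of_mem _ (List.mem_cons_of_mem _ (List.mem_cons_of_mem _ (List.mem_cons_of_mem _ (List.mem_cons_of_mem _ (List.mem_cons_of_mem _ (List.mem_cons_of_mem _ (List.mem_cons_of_mem _ (List.mem_cons_of_mem _ (List.mem_cons_of_mem _ (List.mem_cons_of_mem _ (List.mem_cons_of_mem _ (List.mem_cons_of_mem _ (List.mem_cons_of_mem _ (List.mem_cons_of_mem _ (List.mem_cons_of_mem _ (List.mem_cons_of_mem _ (List.mem_cons_of_mem _ (List.mem_cons_of_mem _ (List.mem_cons_of_mem _ (List.mem_cons_self))))))))))))))))))))))))))))),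 ?_⟩, by norm_num⟩
  constructor <;> norm_num [Q29, coCell, C26]

lemma lcell26 : ∀ x1 x2 xc : ℝ, 0 ≤ x1 → x1 ≤ 1 → 0 ≤ x2 → x2 ≤ 1 → C26.l ≤ xc → xc ≤ C26.u →
    (26307 / 65536 : ℝ) * (1 - (1 - x1) ^ 4) + (8325 / 512 : ℝ) * (1 - (1 - x2) ^ 4) - ((13809 / 1024 : ℝ) + (33 / 64 : ℝ)) * (1 - (1 - xc) ^ 4)
      ≤ - C26.a1 * x1 - C26.a2 * x2 + C26.e * xc + C26.f := by
  have h := cell_lines 4 (α1 := (26307 / 65536 : ℝ)) (α2 := (8325 / 512 : ℝ)) (c := (13809 / 1024 : ℝ) + (33 / 64 : ℝ)) (y1 := (6257 / 65536 : ℝ)) (y2 := (1859 / 16384 : ℝ))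
    (A1 := (4983955 / 4194304 : ℝ)) (B1 := (2584953 / 134217728 : ℝ)) (A2 := (95037015 / 2097152 : ℝ)) (B2 := (144157507 / 134217728 : ℝ)) (l := (4105 / 32768 : ℝ)) (u := (36193 / 262144 : ℝ))
    (E := (-153799953 / 4194304 : ℝ)) (F := (-324939463 / 268435456 : ℝ)) (by norm_num) (by norm_num) (by norm_num) (by norm_num) (by norm_num)
    (by norm_num) (by norm_num) (by norm_num) (by norm_num) (by norm_num) (by norm_num) (by norm_num) (by norm_num) (by norm_num) (by norm_num)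
  have e1 : C26.l = (4105 / 32768 : ℝ) := rfl
  have e2 : C26.u = (36193 / 262144 : ℝ) := rfl
  have e3 : C26.a1 = -(4983955 / 4194304 : ℝ) := by norm_num [C26]
  have e4 : C26.a2 = -(95037015 / 2097152 : ℝ) := by norm_num [C26]
  have e5 : C26.e = (-153799953 / 4194304 : ℝ) := rfl
  have e6 : C26.f = (2584953 / 134217728 : ℝ) + (144157507 / 134217728 : ℝ) + (-324939463 / 268435456 : ℝ) := by norm_num [C26]
  rw [e1, e2, e3, e4, e5, e6]
  exact h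

lemma rcell27 : ∃ N : ℝ, Rw4 P.r2 N (coCell (26307 / 65536 : ℝ) (8325 / 512 : ℝ) ((13809 / 1024 : ℝ) + (33 / 64 : ℝ)) (23 / 2048 : ℝ) C27) := by
  refine ⟨(2415919104 : ℝ), ⟨Q30, List.mem_cons_of_mem _ (List.mem_cons_of_mem _ (List.mem_cons_of_mem _ (List.mem_cons_of_mem _ (List.mem_cons_of_mem _ (List.mem_cons_of_mem _ (List.mem_cons_of_mem _ (List.mem_cons_of_mem _ (List.mem_cons_of_mem _ (List.mem_cons_of_mem _ (List.mem_cons_of_mem _ (List.mem_cons_of_mem _ (List.mem_cons_of_mem _ (List.mem_cons_of_mem _ (List.mem_cons_of_mem _ (List.mem_cons_of_mem _ (List.mem_cons_of_mem _ (List.mem_cons_of_mem _ (List.mem_cons_of_mem _ (List.mem_cons_of_mem _ (List.mem_cons_of_mem _ (List.mem_cons_of_mem _ (List.mem_cons_of_mem _ (List.mem_cons_of_mem _ (List.mem_cons_of_mem _ (List.mem_cons_of_mem _ (List.mem_cons_of_mem _ (List.mem_cons_of_mem _ (List.mem_cons_of_mem _ (List.mem_cons_of_mem _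 (List.mem_cons_self)))))))))))))))))))))))))))))), ?_⟩, by norm_num⟩
  constructor <;> norm_num [Q30, coCell, C27]

lemma lcell27 : ∀ x1 x2 xc : ℝ, 0 ≤ x1 → x1 ≤ 1 → 0 ≤ x2 → x2 ≤ 1 → C27.l ≤ xc → xc ≤ C27.u →
    (26307 / 65536 : ℝ) * (1 - (1 - x1) ^ 4) + (8325 / 512 : ℝ) * (1 - (1 - x2) ^ 4) - ((13809 / 1024 : ℝ) + (33 / 64 : ℝ)) * (1 - (1 - xc) ^ 4)
      ≤ - C27.a1 * x1 - C27.a2 * x2 + C27.e * xc + C27.f := by
  have h := cell_lines 4 (α1 := (26307 / 65536 : ℝ)) (α2 := (8325 / 512 : ℝ)) (c := (13809 / 1024 : ℝ) + (33 / 64 : ℝ)) (y1 := (28013 / 262144 : ℝ)) (y2 := (32011 / 262144 : ℝ))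
    (A1 := (4798089 / 4194304 : ℝ)) (B1 := (6373053 / 268435456 : ℝ)) (A2 := (46141437 / 1048576 : ℝ)) (B2 := (329833975 / 268435456 : ℝ)) (l := (36193 / 262144 : ℝ)) (u := (39889 / 262144 : ℝ))
    (E := (-146767873 / 4194304 : ℝ)) (F := (-387076199 / 268435456 : ℝ)) (by norm_num) (by norm_num) (by norm_num) (by norm_num) (by norm_num)
    (by norm_num) (by norm_num) (by norm_num) (by norm_num) (by norm_num) (by norm_num) (by norm_num) (by norm_num) (by norm_num) (by norm_num)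
  have e1 : C27.l = (36193 / 262144 : ℝ) := rfl
  have e2 : C27.u = (39889 / 262144 : ℝ) := rfl
  have e3 : C27.a1 = -(4798089 / 4194304 : ℝ) := by norm_num [C27]
  have e4 : C27.a2 = -(46141437 / 1048576 : ℝ) := by norm_num [C27]
  have e5 : C27.e = (-146767873 / 4194304 : ℝ) := rfl
  have e6 : C27.f = (6373053 / 268435456 : ℝ) + (329833975 / 268435456 : ℝ) + (-387076199 / 268435456 : ℝ) := by norm_num [C27]
  rw [e1, e2, e3, e4, e5, e6]
  exact h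

lemma rcell28 : ∃ N : ℝ, Rw4 P.r2 N (coCell (26307 / 65536 : ℝ) (8325 / 512 : ℝ) ((13809 / 1024 : ℝ) + (33 / 64 : ℝ)) (23 / 2048 : ℝ) C28) := by
  refine ⟨(2415919104 : ℝ), ⟨Q31, List.mem_cons_of_mem _ (List.mem_cons_of_mem _ (List.mem_cons_of_mem _ (List.mem_cons_of_mem _ (List.mem_cons_of_mem _ (List.mem_cons_of_mem _ (List.mem_cons_of_mem _ (List.mem_cons_of_mem _ (List.mem_cons_of_mem _ (List.mem_cons_of_mem _ (List.mem_cons_of_mem _ (List.mem_cons_of_mem _ (List.mem_cons_of_mem _ (List.mem_cons_of_mem _ (List.mem_cons_of_mem _ (List.mem_cons_of_mem _ (List.mem_cons_of_mem _ (List.mem_cons_of_mem _ (List.mem_cons_of_mem _ (List.mem_cons_of_mem _ (List.mem_cons_of_mem _ (List.mem_cons_of_mem _ (List.mem_cons_of_mem _ (List.mem_cons_of_mem _ (List.mem_cons_of_mem _ (List.mem_cons_of_mem _ (List.mem_cons_of_mem _ (List.mem_cons_of_mem _ (List.mem_cons_of_mem _ (List.mem_cons_of_mem _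 (List.mem_cons_of_mem _ (List.mem_cons_self))))))))))))))))))))))))))))))), ?_⟩, by norm_num⟩
  constructor <;> norm_num [Q31, coCell, C28]

lemma lcell28 : ∀ x1 x2 xc : ℝ, 0 ≤ x1 → x1 ≤ 1 → 0 ≤ x2 → x2 ≤ 1 → C28.l ≤ xc → xc ≤ C28.u →
    (26307 / 65536 : ℝ) * (1 - (1 - x1) ^ 4) + (8325 / 512 : ℝ) * (1 - (1 - x2) ^ 4) - ((13809 / 1024 : ℝ) + (33 / 64 : ℝ)) * (1 - (1 - xc) ^ 4)
      ≤ - C28.a1 * x1 - C28.a2 * x2 + C28.e * xc + C28.f := by
  have h := cell_lines 4 (α1 := (26307 / 65536 : ℝ)) (α2 := (8325 / 512 : ℝ)) (c := (13809 / 1024 : ℝ) + (33 / 64 : ℝ)) (y1 := (7643 / 65536 : ℝ)) (y2 := (34973 / 262144 : ℝ))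
    (A1 := (1160619 / 1048576 : ℝ)) (B1 := (7485739 / 268435456 : ℝ)) (A2 := (177530543 / 4194304 : ℝ)) (B2 := (193674069 / 134217728 : ℝ)) (l := (39889 / 262144 : ℝ)) (u := (21981 / 131072 : ℝ))
    (E := (-139269815 / 4194304 : ℝ)) (F := (-115024057 / 67108864 : ℝ)) (by norm_num) (by norm_num) (by norm_num) (by norm_num) (by norm_num)
    (by norm_num) (by norm_num) (by norm_num) (by norm_num) (by norm_num) (by norm_num) (by norm_num) (by norm_num) (by norm_num) (by norm_num)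
  have e1 : C28.l = (39889 / 262144 : ℝ) := rfl
  have e2 : C28.u = (21981 / 131072 : ℝ) := rfl
  have e3 : C28.a1 = -(1160619 / 1048576 : ℝ) := by norm_num [C28]
  have e4 : C28.a2 = -(177530543 / 4194304 : ℝ) := by norm_num [C28]
  have e5 : C28.e = (-139269815 / 4194304 : ℝ) := rfl
  have e6 : C28.f = (7485739 / 268435456 : ℝ) + (193674069 / 134217728 : ℝ) + (-115024057 / 67108864 : ℝ) := by norm_num [C28]
  rw [e1, e2, e3, e4, e5, e6]
  exact h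

lemma rcell29 : ∃ N : ℝ, Rw4 P.r2 N (coCell (26307 / 65536 : ℝ) (8325 / 512 : ℝ) ((13809 / 1024 : ℝ) + (33 / 64 : ℝ)) (23 / 2048 : ℝ) C29) := by
  refine ⟨(2415919104 : ℝ), ⟨Q32, List.mem_cons_of_mem _ (List.mem_cons_of_mem _ (List.mem_cons_of_mem _ (List.mem_cons_of_mem _ (List.mem_cons_of_mem _ (List.mem_cons_of_mem _ (List.mem_cons_of_mem _ (List.mem_cons_of_mem _ (List.mem_cons_of_mem _ (List.mem_cons_of_mem _ (List.mem_cons_of_mem _ (List.mem_cons_of_mem _ (List.mem_cons_of_mem _ (List.mem_cons_of_mem _ (List.mem_cons_of_mem _ (List.mem_cons_of_mem _ (List.mem_cons_of_mem _ (List.mem_cons_of_mem _ (List.mem_cons_of_mem _ (List.mem_cons_of_mem _ (List.mem_cons_of_mem _ (List.mem_cons_of_mem _ (List.mem_cons_of_mem _ (List.mem_cons_of_mem _ (List.mem_cons_of_mem _ (List.mem_cons_of_mem _ (List.mem_cons_of_mem _ (List.mem_cons_of_mem _ (List.mem_cons_of_mem _ (List.mem_cons_of_mem _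 (List.mem_cons_of_mem _ (List.mem_cons_of_mem _ (List.mem_cons_self)))))))))))))))))))))))))))))))), ?_⟩, by norm_num⟩
  constructor <;> norm_num [Q32, coCell, C29]

lemma lcell29 : ∀ x1 x2 xc : ℝ, 0 ≤ x1 → x1 ≤ 1 → 0 ≤ x2 → x2 ≤ 1 → C29.l ≤ xc → xc ≤ C29.u →
    (26307 / 65536 : ℝ) * (1 - (1 - x1) ^ 4) + (8325 / 512 : ℝ) * (1 - (1 - x2) ^ 4) - ((13809 / 1024 : ℝ) + (33 / 64 : ℝ)) * (1 - (1 - xc) ^ 4)
      ≤ - C29.a1 * x1 - C29.a2 * x2 + C29.e * xc + C29.f := by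
  have h := cell_lines 4 (α1 := (26307 / 65536 : ℝ)) (α2 := (8325 / 512 : ℝ)) (c := (13809 / 1024 : ℝ) + (33 / 64 : ℝ)) (y1 := (16937 / 131072 : ℝ)) (y2 := (37073 / 262144 : ℝ))
    (A1 := (2223351 / 2097152 : ℝ)) (B1 := (9025513 / 268435456 : ℝ)) (A2 := (43163141 / 1048576 : ℝ)) (B2 := (430244531 / 268435456 : ℝ)) (l := (21981 / 131072 : ℝ)) (u := (48451 / 262144 : ℝ))
    (E := (-32826879 / 1048576 : ℝ)) (F := (-545554867 / 268435456 : ℝ)) (by norm_num) (by norm_num) (by norm_num) (by norm_num) (by norm_num)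
    (by norm_num) (by norm_num) (by norm_num) (by norm_num) (by norm_num) (by norm_num) (by norm_num) (by norm_num) (by norm_num) (by norm_num)
  have e1 : C29.l = (21981 / 131072 : ℝ) := rfl
  have e2 : C29.u = (48451 / 262144 : ℝ) := rfl
  have e3 : C29.a1 = -(2223351 / 2097152 : ℝ) := by norm_num [C29]
  have e4 : C29.a2 = -(43163141 / 1048576 : ℝ) := by norm_num [C29]
  have e5 : C29.e = (-32826879 / 1048576 : ℝ) := rfl
  have e6 : C29.f = (9025513 / 268435456 : ℝ) + (430244531 / 268435456 : ℝ) + (-545554867 / 268435456 : ℝ) := by norm_num [C29]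
  rw [e1, e2, e3, e4, e5, e6]
  exact h

lemma rcell30 : ∃ N : ℝ, Rw4 P.r2 N (coCell (26307 / 65536 : ℝ) (8325 / 512 : ℝ) ((13809 / 1024 : ℝ) + (33 / 64 : ℝ)) (23 / 2048 : ℝ) C30) := by
  refine ⟨(2415919104 : ℝ), ⟨Q33, List.mem_cons_of_mem _ (List.mem_cons_of_mem _ (List.mem_cons_of_mem _ (List.mem_cons_of_mem _ (List.mem_cons_of_mem _ (List.mem_cons_of_mem _ (List.mem_cons_of_mem _ (List.mem_cons_of_mem _ (List.mem_cons_of_mem _ (List.mem_cons_of_mem _ (List.mem_cons_of_mem _ (List.mem_cons_of_mem _ (List.mem_cons_of_mem _ (List.mem_cons_of_mem _ (List.mem_cons_of_mem _ (List.mem_cons_of_mem _ (List.mem_cons_of_mem _ (List.mem_cons_of_mem _ (List.mem_cons_of_mem _ (List.mem_cons_of_mem _ (List.mem_cons_of_mem _ (List.mem_cons_of_mem _ (List.mem_cons_of_mem _ (List.mem_cons_of_mem _ (List.mem_cons_of_mem _ (List.mem_cons_of_mem _ (List.mem_cons_of_mem _ (List.mem_cons_of_mem _ (List.mem_cons_of_mem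 _ (List.mem_cons_of_mem _ (List.mem_cons_of_mem _ (List.mem_cons_of_mem _ (List.mem_cons_of_mem _ (List.mem_cons_self))))))))))))))))))))))))))))))))), ?_⟩, by norm_num⟩
  constructor <;> norm_num [Q33, coCell, C30]

lemma lcell30 : ∀ x1 x2 xc : ℝ, 0 ≤ x1 → x1 ≤ 1 → 0 ≤ x2 → x2 ≤ 1 → C30.l ≤ xc → xc ≤ C30.u →
    (26307 / 65536 : ℝ) * (1 - (1 - x1) ^ 4) + (8325 / 512 : ℝ) * (1 - (1 - x2) ^ 4) - ((13809 / 1024 : ℝ) + (33 / 64 : ℝ)) * (1 - (1 - xc) ^ 4)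
      ≤ - C30.a1 * x1 - C30.a2 * x2 + C30.e * xc + C30.f := by
  have h := cell_lines 4 (α1 := (26307 / 65536 : ℝ)) (α2 := (8325 / 512 : ℝ)) (c := (13809 / 1024 : ℝ) + (33 / 64 : ℝ)) (y1 := (17355 / 131072 : ℝ)) (y2 := (19729 / 131072 : ℝ))
    (A1 := (4398025 / 4194304 : ℝ)) (B1 := (9433025 / 268435456 : ℝ)) (A2 := (41805475 / 1048576 : ℝ)) (B2 := (480973065 / 268435456 : ℝ)) (l := (48451 / 262144 : ℝ)) (u := (209 / 1024 : ℝ))
    (E := (-122799243 / 4194304 : ℝ)) (F := (-646198015 / 268435456 : ℝ)) (by norm_num) (by norm_num) (by norm_num) (by norm_num) (by norm_num)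
    (by norm_num) (by norm_num) (by norm_num) (by norm_num) (by norm_num) (by norm_num) (by norm_num) (by norm_num) (by norm_num) (by norm_num)
  have e1 : C30.l = (48451 / 262144 : ℝ) := rfl
  have e2 : C30.u = (209 / 1024 : ℝ) := rfl
  have e3 : C30.a1 = -(4398025 / 4194304 : ℝ) := by norm_num [C30]
  have e4 : C30.a2 = -(41805475 / 1048576 : ℝ) := by norm_num [C30]
  have e5 : C30.e = (-122799243 / 4194304 : ℝ) := rfl
  have e6 : C30.f = (9433025 / 268435456 : ℝ) + (480973065 / 268435456 : ℝ) + (-646198015 / 268435456 : ℝ) := by norm_num [C30]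
  rw [e1, e2, e3, e4, e5, e6]
  exact h

/-- The whole chain. -/
lemma chain {lam : ℝ} (h0 : -(1 / 2) < lam) (h1 : lam < 1) (hB : BoxS lam P 0 HH 0 HH) :
    ∃ n, 1 - En 4 lam n mc ≤ (209 / 1024 : ℝ) := (start_of_box h0 h1 hB _ rc3)

/-- The hypotheses at the origin. -/
lemma horig (lam : ℝ) (hd : (4 : ℝ) * lam ^ 2 = 1) (hb : |lam| ≤ (549755813889 / 1099511627776 : ℝ)) :
    OriginH 4 lam (26307 / 65536 : ℝ) (8325 / 512 : ℝ) (13809 / 1024 : ℝ) (33 / 64 : ℝ) (23 / 2048 : ℝ) (23 / 1024 : ℝ) (2229 / 2048 : ℝ) (1 / 256 : ℝ) 3298534883328 := by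
  refine originH_of_num (d := 4) (by push_cast; exact hd) hb (by norm_num) (by norm_num) (by norm_num) (by norm_num)
    (by norm_num) (by norm_num) (by norm_num) (by norm_num) (by norm_num) (by norm_num) (by norm_num [S]) (by norm_num) ?_ ?_
  · rw [hch]
    norm_num [abs_of_pos, abs_of_neg]
  · norm_num [abs_of_pos, abs_of_neg]

/-- Nonreconstruction at the bound. -/
theorem main : Tendsto (reconError 3 4 (1 / Real.sqrt 4)) atTop (𝓝 0) := by
  have hsq' : Real.sqrt (4 : ℝ) ^ 2 = 4 := by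
    rw [Real.sq_sqrt (by positivity)]
  have hs0 : 0 < Real.sqrt (4 : ℝ) := Real.sqrt_pos.2 (by norm_num)
  have hl2 : ((4 : ℝ)) * (1 / Real.sqrt 4) ^ 2 = 1 := by
    have : (1 / Real.sqrt (4 : ℝ)) ^ 2 = 1 / 4 := by
      rw [div_pow, hsq']; norm_num
    rw [this]; norm_num
  have hb : |(1 / Real.sqrt (4 : ℝ))| ≤ (549755813889 / 1099511627776 : ℝ) := by
    rw [abs_of_pos (by positivity)]
    rw [div_le_iff₀ hs0]
    have h1 : (1 : ℝ) ^ 2 ≤ ((549755813889 / 1099511627776 : ℝ) * Real.sqrt 4) ^ 2 := by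
      rw [mul_pow, hsq']; norm_num
    exact le_of_sq_le_sq h1 (by positivity)
  have hb2 : (-(1 / 2) : ℝ) < 1 / Real.sqrt (4 : ℝ) := by
    have : 0 < 1 / Real.sqrt (4 : ℝ) := by positivity
    linarith
  have h1 : (1 / Real.sqrt (4 : ℝ)) < 1 := by
    have h2 := (abs_le.1 hb).2
    have h3 : ((549755813889 / 1099511627776 : ℝ) : ℝ) < 1 := by norm_num
    linarith
  have hlam : |(S : ℝ) * (1 / Real.sqrt (4 : ℝ)) - ((P.lp : ℝ) - P.ln)| ≤ ((1 : ℕ) : ℝ) := by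
    have h := lam_enc_pos 4 36028797018963968 (by norm_num) (by norm_num [S]) (by norm_num [S])
    have e : ((4 : ℕ) : ℝ) = (4 : ℝ) := by norm_num
    rw [e] at h
    exact h
  obtain ⟨hOa, hON⟩ := horig _ hl2 hb
  have hB := box hlam
  refine final_of_boxB (d := 4) (by norm_num) hb2 h1 hB (26307 / 65536 : ℝ) (8325 / 512 : ℝ) (13809 / 1024 : ℝ) (33 / 64 : ℝ) (23 / 1024 : ℝ) (2229 / 2048 : ℝ) (5243 / 524288 : ℝ) (1947 / 16384 : ℝ) (23 / 2048 : ℝ) (209 / 1024 : ℝ) cellsL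
    (by norm_num) (by norm_num) (by norm_num) (by norm_num) (by norm_num) (by norm_num) (by norm_num) (by norm_num)
    (by norm_num) (by norm_num) (by norm_num) (by norm_num) (by norm_num) hOa hON rTa rTb rc1 rc2
    (forall_cons rcell0 (forall_cons rcell1 (forall_cons rcell2 (forall_cons rcell3 (forall_cons rcell4 (forall_cons rcell5 (forall_cons rcell6 (forall_cons rcell7 (forall_cons rcell8 (forall_cons rcell9 (forall_cons rcell10 (forall_cons rcell11 (forall_cons rcell12 (forall_cons rcell13 (forall_cons rcell14 (forall_cons rcell15 (forall_cons rcell16 (forall_cons rcell17 (forall_cons rcell18 (forall_cons rcell19 (forall_cons rcell20 (forall_cons rcell21 (forall_cons rcell22 (forall_cons rcell23 (forall_cons rcell24 (forall_cons rcell25 (forall_cons rcell26 (forall_cons rcell27 (forall_cons rcell28 (forall_cons rcell29 (forall_cons rcell30 (forall_nil))))))))))))))))))))))))))))))))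 hcover (forall_cons lcell0 (forall_cons lcell1 (forall_cons lcell2 (forall_cons lcell3 (forall_cons lcell4 (forall_cons lcell5 (forall_cons lcell6 (forall_cons lcell7 (forall_cons lcell8 (forall_cons lcell9 (forall_cons lcell10 (forall_cons lcell11 (forall_cons lcell12 (forall_cons lcell13 (forall_cons lcell14 (forall_cons lcell15 (forall_cons lcell16 (forall_cons lcell17 (forall_cons lcell18 (forall_cons lcell19 (forall_cons lcell20 (forall_cons lcell21 (forall_cons lcell22 (forall_cons lcell23 (forall_cons lcell24 (forall_cons lcell25 (forall_cons lcell26 (forall_cons lcell27 (forall_cons lcell28 (forall_cons lcell29 (forall_cons lcell30 (forall_nil)))))))))))))))))))))))))))))))) (chain hb2 h1 hB)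

end Vale.Agent.P154H.Tm.P4
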