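import Vale.Agent.P154H.D.DP5
import Vale.Agent.P154H.PosEnc
import Vale.Agent.P154H.OriginW

open Filter Topology

set_option maxRecDepth 100000

/-!
Nonreconstruction at the Kesten-Stigum bound for `d = 5`, positive eigenvalue, by a chain of
potentials along the monotone quantity `1 - En`.
-/

namespace Vale.Agent.P154H.Tm.P5

open Vale.Agent.P154 Vale.Agent.P154H

/-- A chord cell. -/
noncomputable def C0 : Cell := ⟨(15729 / 1048576 : ℝ), (4283 / 262144 : ℝ), (-17412859 / 4194304 : ℝ), (-292442007 / 4194304 : ℝ), (-127980979 / 2097152 : ℝ), (-320595 / 268435456 : ℝ)⟩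

/-- A chord cell. -/
noncomputable def C1 : Cell := ⟨(4283 / 262144 : ℝ), (2333 / 131072 : ℝ), (-17319261 / 4194304 : ℝ), (-291005325 / 4194304 : ℝ), (-254509403 / 4194304 : ℝ), (-103495 / 67108864 : ℝ)⟩

/-- A chord cell. -/
noncomputable def C2 : Cell := ⟨(2333 / 131072 : ℝ), (2541 / 131072 : ℝ), (-8623421 / 2097152 : ℝ), (-289317935 / 4194304 : ℝ), (-252934719 / 4194304 : ℝ), (-207045 / 134217728 : ℝ)⟩

/-- A chord cell. -/
noncomputable def C3 : Cell := ⟨(2541 / 131072 : ℝ), (173 / 8192 : ℝ), (-17172789 / 4194304 : ℝ), (-287588723 / 4194304 : ℝ), (-125614219 / 2097152 : ℝ), (-16483 / 8388608 : ℝ)⟩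

/-- A chord cell. -/
noncomputable def C4 : Cell := ⟨(173 / 8192 : ℝ), (3015 / 131072 : ℝ), (-4266267 / 1048576 : ℝ), (-285747151 / 4194304 : ℝ), (-62344757 / 1048576 : ℝ), (-678387 / 268435456 : ℝ)⟩

/-- A chord cell. -/
noncomputable def C5 : Cell := ⟨(3015 / 131072 : ℝ), (821 / 32768 : ℝ), (-2124115 / 524288 : ℝ), (-141791285 / 2097152 : ℝ), (-123688691 / 2097152 : ℝ), (-337269 / 134217728 : ℝ)⟩

/-- A chord cell. -/
noncomputable def C6 : Cell := ⟨(821 / 32768 : ℝ), (7155 / 262144 : ℝ), (-1051477 / 262144 : ℝ), (-281456697 / 4194304 : ℝ), (-7662785 / 131072 : ℝ), (-877131 / 268435456 : ℝ)⟩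

/-- A chord cell. -/
noncomputable def C7 : Cell := ⟨(7155 / 262144 : ℝ), (3897 / 131072 : ℝ), (-521447 / 131072 : ℝ), (-279119827 / 4194304 : ℝ), (-60715617 / 1048576 : ℝ), (-562899 / 134217728 : ℝ)⟩

/-- A chord cell. -/
noncomputable def C8 : Cell := ⟨(3897 / 131072 : ℝ), (8489 / 262144 : ℝ), (-16609395 / 4194304 : ℝ), (-276389489 / 4194304 : ℝ), (-240328283 / 4194304 : ℝ), (-1165833 / 268435456 : ℝ)⟩

/-- A chord cell. -/
noncomputable def C9 : Cell := ⟨(8489 / 262144 : ℝ), (9247 / 262144 : ℝ), (-16419057 / 4194304 : ℝ), (-273653393 / 4194304 : ℝ), (-59397669 / 1048576 : ℝ), (-720353 / 134217728 : ℝ)⟩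

/-- A chord cell. -/
noncomputable def C10 : Cell := ⟨(9247 / 262144 : ℝ), (10073 / 262144 : ℝ), (-4077127 / 1048576 : ℝ), (-270689841 / 4194304 : ℝ), (-234632985 / 4194304 : ℝ), (-962111 / 134217728 : ℝ)⟩

/-- A chord cell. -/
noncomputable def C11 : Cell := ⟨(10073 / 262144 : ℝ), (2743 / 65536 : ℝ), (-2020745 / 524288 : ℝ), (-33410061 / 524288 : ℝ), (-231443535 / 4194304 : ℝ), (-1977877 / 268435456 : ℝ)⟩

/-- A chord cell. -/
noncomputable def C12 : Cell := ⟨(2743 / 65536 : ℝ), (747 / 16384 : ℝ), (-15980207 / 4194304 : ℝ), (-65974813 / 1048576 : ℝ), (-114003247 / 2097152 : ℝ), (-671639 / 67108864 : ℝ)⟩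

/-- A chord cell. -/
noncomputable def C13 : Cell := ⟨(747 / 16384 : ℝ), (13019 / 262144 : ℝ), (-15832061 / 4194304 : ℝ), (-65048355 / 1048576 : ℝ), (-224305895 / 4194304 : ℝ), (-1745579 / 134217728 : ℝ)⟩

/-- A chord cell. -/
noncomputable def C14 : Cell := ⟨(13019 / 262144 : ℝ), (14181 / 262144 : ℝ), (-7819019 / 2097152 : ℝ), (-128265429 / 2097152 : ℝ), (-220327737 / 4194304 : ℝ), (-2664989 / 134217728 : ℝ)⟩

/-- A chord cell. -/
noncomputable def C15 : Cell := ⟨(14181 / 262144 : ℝ), (15447 / 262144 : ℝ), (-15595687 / 4194304 : ℝ), (-15970961 / 262144 : ℝ), (-108027463 / 2097152 : ℝ), (-17067525 / 268435456 : ℝ)⟩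

/-- A chord cell. -/
noncomputable def C16 : Cell := ⟨(15447 / 262144 : ℝ), (8413 / 131072 : ℝ), (-3849613 / 1048576 : ℝ), (-31493309 / 524288 : ℝ), (-211471335 / 4194304 : ℝ), (-22714011 / 268435456 : ℝ)⟩

/-- A chord cell. -/
noncomputable def C17 : Cell := ⟨(8413 / 131072 : ℝ), (2291 / 32768 : ℝ), (-14912473 / 4194304 : ℝ), (-246096855 / 4194304 : ℝ), (-51640557 / 1048576 : ℝ), (-42297 / 524288 : ℝ)⟩

/-- A chord cell. -/
noncomputable def C18 : Cell := ⟨(2291 / 32768 : ℝ), (4991 / 65536 : ℝ), (-3630115 / 1048576 : ℝ), (-239549771 / 4194304 : ℝ), (-50328263 / 1048576 : ℝ), (-2394817 / 33554432 : ℝ)⟩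

/-- A chord cell. -/
noncomputable def C19 : Cell := ⟨(4991 / 65536 : ℝ), (21747 / 262144 : ℝ), (-1783895 / 524288 : ℝ), (-116452581 / 2097152 : ℝ), (-195708481 / 4194304 : ℝ), (-17768149 / 268435456 : ℝ)⟩

/-- A chord cell. -/
noncomputable def C20 : Cell := ⟨(21747 / 262144 : ℝ), (2961 / 32768 : ℝ), (-3484559 / 1048576 : ℝ), (-28271029 / 524288 : ℝ), (-94869025 / 2097152 : ℝ), (-4270147 / 67108864 : ℝ)⟩

/-- A chord cell. -/
noncomputable def C21 : Cell := ⟨(2961 / 32768 : ℝ), (25803 / 262144 : ℝ), (-105417 / 32768 : ℝ), (-219812273 / 4194304 : ℝ), (-91696005 / 2097152 : ℝ), (-19800307 / 268435456 : ℝ)⟩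

/-- A chord cell. -/
noncomputable def C22 : Cell := ⟨(25803 / 262144 : ℝ), (14053 / 131072 : ℝ), (-832609 / 262144 : ℝ), (-107142905 / 2097152 : ℝ), (-176662279 / 4194304 : ℝ), (-1958925 / 16777216 : ℝ)⟩

/-- A chord cell. -/
noncomputable def C23 : Cell := ⟨(14053 / 131072 : ℝ), (3827 / 32768 : ℝ), (-12879991 / 4194304 : ℝ), (-207335265 / 4194304 : ℝ), (-169543671 / 4194304 : ℝ), (-9302639 / 67108864 : ℝ)⟩

/-- A chord cell. -/
noncomputable def C24 : Cell := ⟨(3827 / 32768 : ℝ), (33349 / 262144 : ℝ), (-12546549 / 4194304 : ℝ), (-201566753 / 4194304 : ℝ), (-162036415 / 4194304 : ℝ), (-55118209 / 268435456 : ℝ)⟩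

/-- A chord cell. -/
noncomputable def C25 : Cell := ⟨(33349 / 262144 : ℝ), (18163 / 131072 : ℝ), (-12212619 / 4194304 : ℝ), (-97716957 / 2097152 : ℝ), (-154147313 / 4194304 : ℝ), (-19027775 / 67108864 : ℝ)⟩

/-- A chord cell. -/
noncomputable def C26 : Cell := ⟨(18163 / 131072 : ℝ), (39569 / 262144 : ℝ), (-5894415 / 2097152 : ℝ), (-23660659 / 524288 : ℝ), (-72942735 / 2097152 : ℝ), (-12820117 / 33554432 : ℝ)⟩

/-- A chord cell. -/
noncomputable def C27 : Cell := ⟨(39569 / 262144 : ℝ), (169 / 1024 : ℝ), (-11616687 / 4194304 : ℝ), (-92213457 / 2097152 : ℝ), (-68534291 / 2097152 : ℝ), (-74857279 / 134217728 : ℝ)⟩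

/-- The chord cells. -/
noncomputable def cellsL : List Cell := [C0, C1, C2, C3, C4, C5, C6, C7, C8, C9, C10, C11, C12, C13, C14, C15, C16, C17, C18, C19, C20, C21, C22, C23, C24, C25, C26, C27]

lemma hcover : ∀ x : ℝ, (15729 / 1048576 : ℝ) ≤ x → x ≤ (169 / 1024 : ℝ) → ∃ D ∈ cellsL, D.l ≤ x ∧ x ≤ D.u := by
  refine cover_of_chain ?_ (by norm_num [C0])
  simp only [ChainP, C0, C1, C2, C3, C4, C5, C6, C7, C8, C9, C10, C11, C12, C13, C14, C15, C16, C17, C18, C19, C20, C21, C22, C23, C24, C25, C26, C27]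
  norm_num

lemma hch : ((Nat.choose 5 2 : ℕ) : ℝ) = 10 := by norm_num [Nat.choose]

lemma rTa : Rw4 P.r1 (1179648 : ℝ) (coTa 5 (56943 / 65536 : ℝ) (967365 / 65536 : ℝ) (410789 / 32768 : ℝ) (119 / 256 : ℝ) (19 / 1024 : ℝ)) := by
  refine ⟨⟨Ra, List.mem_cons_self, ?_⟩, by norm_num⟩
  constructor <;> norm_num [Ra, coTa, hch]

lemma rTb : Rw4 P.r1 (9895604649984 : ℝ) (coTb 5 (56943 / 65536 : ℝ) (967365 / 65536 : ℝ) (410789 / 32768 : ℝ) (119 / 256 : ℝ) (19 / 1024 : ℝ) (27 / 512 : ℝ) (2177 / 2048 : ℝ) (2403 / 8192 : ℝ)) := by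
  refine ⟨⟨Rb, List.mem_cons_of_mem _ (List.mem_cons_self), ?_⟩, by norm_num⟩
  constructor <;> norm_num [Rb, coTb, hch]

lemma rc1 : Rw4 P.r2 (16777216 : ℝ) ⟨0, 0, 0, -(56943 / 65536 : ℝ), 0, 0, 0, 0, (410789 / 32768 : ℝ) * (27 / 512 : ℝ)⟩ := by
  refine ⟨⟨Q0, List.mem_cons_self, ?_⟩, by norm_num⟩
  constructor <;> norm_num [Q0]

lemma rc2 : Rw4 P.r2 (67108864 : ℝ) ⟨0, 0, 0, 0, -(967365 / 65536 : ℝ), 0, 0, 0, (410789 / 32768 : ℝ) * (2177 / 2048 : ℝ)⟩ := by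
  refine ⟨⟨Q1, List.mem_cons_of_mem _ (List.mem_cons_self), ?_⟩, by norm_num⟩
  constructor <;> norm_num [Q1]

lemma rc3 : Rw4 P.r2 (3072 : ℝ) ⟨0, 0, 0, 0, 0, -1, 0, 0, (169 / 1024 : ℝ)⟩ := by
  refine ⟨⟨Q2, List.mem_cons_of_mem _ (List.mem_cons_of_mem _ (List.mem_cons_self)), ?_⟩, by norm_num⟩
  constructor <;> norm_num [Q2]

lemma rcell0 : ∃ N : ℝ, Rw4 P.r2 N (coCell (56943 / 65536 : ℝ) (967365 / 65536 : ℝ) ((410789 / 32768 : ℝ) + (119 / 256 : ℝ)) (19 / 1024 : ℝ) C0) := by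
  refine ⟨(2415919104 : ℝ), ⟨Q3, List.mem_cons_of_mem _ (List.mem_cons_of_mem _ (List.mem_cons_of_mem _ (List.mem_cons_self))), ?_⟩, by norm_num⟩
  constructor <;> norm_num [Q3, coCell, C0]

lemma lcell0 : ∀ x1 x2 xc : ℝ, 0 ≤ x1 → x1 ≤ 1 → 0 ≤ x2 → x2 ≤ 1 → C0.l ≤ xc → xc ≤ C0.u →
    (56943 / 65536 : ℝ) * (1 - (1 - x1) ^ 5) + (967365 / 65536 : ℝ) * (1 - (1 - x2) ^ 5) - ((410789 / 32768 : ℝ) + (119 / 256 : ℝ)) * (1 - (1 - xc) ^ 5)
      ≤ - C0.a1 * x1 - C0.a2 * x2 + C0.e * xc + C0.f := by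
  have h := cell_lines 5 (α1 := (56943 / 65536 : ℝ)) (α2 := (967365 / 65536 : ℝ)) (c := (410789 / 32768 : ℝ) + (119 / 256 : ℝ)) (y1 := (2959 / 262144 : ℝ)) (y2 := (3701 / 262144 : ℝ))
    (A1 := (17412859 / 4194304 : ℝ)) (B1 := (290537 / 268435456 : ℝ)) (A2 := (292442007 / 4194304 : ℝ)) (B2 := (959649 / 33554432 : ℝ)) (l := (15729 / 1048576 : ℝ)) (u := (4283 / 262144 : ℝ))
    (E := (-127980979 / 2097152 : ℝ)) (F := (-2072081 / 67108864 : ℝ)) (by norm_num) (by norm_num) (by norm_num) (by norm_num) (by norm_num)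
    (by norm_num) (by norm_num) (by norm_num) (by norm_num) (by norm_num) (by norm_num) (by norm_num) (by norm_num) (by norm_num) (by norm_num)
  have e1 : C0.l = (15729 / 1048576 : ℝ) := rfl
  have e2 : C0.u = (4283 / 262144 : ℝ) := rfl
  have e3 : C0.a1 = -(17412859 / 4194304 : ℝ) := by norm_num [C0]
  have e4 : C0.a2 = -(292442007 / 4194304 : ℝ) := by norm_num [C0]
  have e5 : C0.e = (-127980979 / 2097152 : ℝ) := rfl
  have e6 : C0.f = (290537 / 268435456 : ℝ) + (959649 / 33554432 : ℝ) + (-2072081 / 67108864 : ℝ) := by norm_num [C0]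
  rw [e1, e2, e3, e4, e5, e6]
  exact h

lemma rcell1 : ∃ N : ℝ, Rw4 P.r2 N (coCell (56943 / 65536 : ℝ) (967365 / 65536 : ℝ) ((410789 / 32768 : ℝ) + (119 / 256 : ℝ)) (19 / 1024 : ℝ) C1) := by
  refine ⟨(603979776 : ℝ), ⟨Q4, List.mem_cons_of_mem _ (List.mem_cons_of_mem _ (List.mem_cons_of_mem _ (List.mem_cons_of_mem _ (List.mem_cons_self)))), ?_⟩, by norm_num⟩
  constructor <;> norm_num [Q4, coCell, C1]

lemma lcell1 : ∀ x1 x2 xc : ℝ, 0 ≤ x1 → x1 ≤ 1 → 0 ≤ x2 → x2 ≤ 1 → C1.l ≤ xc → xc ≤ C1.u →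
    (56943 / 65536 : ℝ) * (1 - (1 - x1) ^ 5) + (967365 / 65536 : ℝ) * (1 - (1 - x2) ^ 5) - ((410789 / 32768 : ℝ) + (119 / 256 : ℝ)) * (1 - (1 - xc) ^ 5)
      ≤ - C1.a1 * x1 - C1.a2 * x2 + C1.e * xc + C1.f := by
  have h := cell_lines 5 (α1 := (56943 / 65536 : ℝ)) (α2 := (967365 / 65536 : ℝ)) (c := (410789 / 32768 : ℝ) + (119 / 256 : ℝ)) (y1 := (827 / 65536 : ℝ)) (y2 := (4019 / 262144 : ℝ))
    (A1 := (17319261 / 4194304 : ℝ)) (B1 := (362123 / 268435456 : ℝ)) (A2 := (291005325 / 4194304 : ℝ)) (B2 := (9031091 / 268435456 : ℝ)) (l := (4283 / 262144 : ℝ)) (u := (2333 / 131072 : ℝ))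
    (E := (-254509403 / 4194304 : ℝ)) (F := (-4903597 / 134217728 : ℝ)) (by norm_num) (by norm_num) (by norm_num) (by norm_num) (by norm_num)
    (by norm_num) (by norm_num) (by norm_num) (by norm_num) (by norm_num) (by norm_num) (by norm_num) (by norm_num) (by norm_num) (by norm_num)
  have e1 : C1.l = (4283 / 262144 : ℝ) := rfl
  have e2 : C1.u = (2333 / 131072 : ℝ) := rfl
  have e3 : C1.a1 = -(17319261 / 4194304 : ℝ) := by norm_num [C1]
  have e4 : C1.a2 = -(291005325 / 4194304 : ℝ) := by norm_num [C1]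
  have e5 : C1.e = (-254509403 / 4194304 : ℝ) := rfl
  have e6 : C1.f = (362123 / 268435456 : ℝ) + (9031091 / 268435456 : ℝ) + (-4903597 / 134217728 : ℝ) := by norm_num [C1]
  rw [e1, e2, e3, e4, e5, e6]
  exact h

lemma rcell2 : ∃ N : ℝ, Rw4 P.r2 N (coCell (56943 / 65536 : ℝ) (967365 / 65536 : ℝ) ((410789 / 32768 : ℝ) + (119 / 256 : ℝ)) (19 / 1024 : ℝ) C2) := by
  refine ⟨(1207959552 : ℝ), ⟨Q5, List.mem_cons_of_mem _ (List.mem_cons_of_mem _ (List.mem_cons_of_mem _ (List.mem_cons_of_mem _ (List.mem_cons_of_mem _ (List.mem_cons_self))))), ?_⟩, by norm_num⟩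
  constructor <;> norm_num [Q5, coCell, C2]

lemma lcell2 : ∀ x1 x2 xc : ℝ, 0 ≤ x1 → x1 ≤ 1 → 0 ≤ x2 → x2 ≤ 1 → C2.l ≤ xc → xc ≤ C2.u →
    (56943 / 65536 : ℝ) * (1 - (1 - x1) ^ 5) + (967365 / 65536 : ℝ) * (1 - (1 - x2) ^ 5) - ((410789 / 32768 : ℝ) + (119 / 256 : ℝ)) * (1 - (1 - xc) ^ 5)
      ≤ - C2.a1 * x1 - C2.a2 * x2 + C2.e * xc + C2.f := by
  have h := cell_lines 5 (α1 := (56943 / 65536 : ℝ)) (α2 := (967365 / 65536 : ℝ)) (c := (410789 / 32768 : ℝ) + (119 / 256 : ℝ)) (y1 := (3579 / 262144 : ℝ)) (y2 := (2197 / 131072 : ℝ))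
    (A1 := (8623421 / 2097152 : ℝ)) (B1 := (423005 / 268435456 : ℝ)) (A2 := (289317935 / 4194304 : ℝ)) (B2 := (10763917 / 268435456 : ℝ)) (l := (2333 / 131072 : ℝ)) (u := (2541 / 131072 : ℝ))
    (E := (-252934719 / 4194304 : ℝ)) (F := (-2900253 / 67108864 : ℝ)) (by norm_num) (by norm_num) (by norm_num) (by norm_num) (by norm_num)
    (by norm_num) (by norm_num) (by norm_num) (by norm_num) (by norm_num) (by norm_num) (by norm_num) (by norm_num) (by norm_num) (by norm_num)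
  have e1 : C2.l = (2333 / 131072 : ℝ) := rfl
  have e2 : C2.u = (2541 / 131072 : ℝ) := rfl
  have e3 : C2.a1 = -(8623421 / 2097152 : ℝ) := by norm_num [C2]
  have e4 : C2.a2 = -(289317935 / 4194304 : ℝ) := by norm_num [C2]
  have e5 : C2.e = (-252934719 / 4194304 : ℝ) := rfl
  have e6 : C2.f = (423005 / 268435456 : ℝ) + (10763917 / 268435456 : ℝ) + (-2900253 / 67108864 : ℝ) := by norm_num [C2]
  rw [e1, e2, e3, e4, e5, e6]
  exact h

lemma rcell3 : ∃ N : ℝ, Rw4 P.r2 N (coCell (56943 / 65536 : ℝ) (967365 / 65536 : ℝ) ((410789 / 32768 : ℝ) + (119 / 256 : ℝ)) (19 / 1024 : ℝ) C3) := by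
  refine ⟨(75497472 : ℝ), ⟨Q6, List.mem_cons_of_mem _ (List.mem_cons_of_mem _ (List.mem_cons_of_mem _ (List.mem_cons_of_mem _ (List.mem_cons_of_mem _ (List.mem_cons_of_mem _ (List.mem_cons_self)))))), ?_⟩, by norm_num⟩
  constructor <;> norm_num [Q6, coCell, C3]

lemma lcell3 : ∀ x1 x2 xc : ℝ, 0 ≤ x1 → x1 ≤ 1 → 0 ≤ x2 → x2 ≤ 1 → C3.l ≤ xc → xc ≤ C3.u →
    (56943 / 65536 : ℝ) * (1 - (1 - x1) ^ 5) + (967365 / 65536 : ℝ) * (1 - (1 - x2) ^ 5) - ((410789 / 32768 : ℝ) + (119 / 256 : ℝ)) * (1 - (1 - xc) ^ 5)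
      ≤ - C3.a1 * x1 - C3.a2 * x2 + C3.e * xc + C3.f := by
  have h := cell_lines 5 (α1 := (56943 / 65536 : ℝ)) (α2 := (967365 / 65536 : ℝ)) (c := (410789 / 32768 : ℝ) + (119 / 256 : ℝ)) (y1 := (3857 / 262144 : ℝ)) (y2 := (1195 / 65536 : ℝ))
    (A1 := (17172789 / 4194304 : ℝ)) (B1 := (490223 / 268435456 : ℝ)) (A2 := (287588723 / 4194304 : ℝ)) (B2 := (6350177 / 134217728 : ℝ)) (l := (2541 / 131072 : ℝ)) (u := (173 / 8192 : ℝ))
    (E := (-125614219 / 2097152 : ℝ)) (F := (-13718033 / 268435456 : ℝ)) (by norm_num) (by norm_num) (by norm_num) (by norm_num) (by norm_num)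
    (by norm_num) (by norm_num) (by norm_num) (by norm_num) (by norm_num) (by norm_num) (by norm_num) (by norm_num) (by norm_num) (by norm_num)
  have e1 : C3.l = (2541 / 131072 : ℝ) := rfl
  have e2 : C3.u = (173 / 8192 : ℝ) := rfl
  have e3 : C3.a1 = -(17172789 / 4194304 : ℝ) := by norm_num [C3]
  have e4 : C3.a2 = -(287588723 / 4194304 : ℝ) := by norm_num [C3]
  have e5 : C3.e = (-125614219 / 2097152 : ℝ) := rfl
  have e6 : C3.f = (490223 / 268435456 : ℝ) + (6350177 / 134217728 : ℝ) + (-13718033 / 268435456 : ℝ) := by norm_num [C3]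
  rw [e1, e2, e3, e4, e5, e6]
  exact h

lemma rcell4 : ∃ N : ℝ, Rw4 P.r2 N (coCell (56943 / 65536 : ℝ) (967365 / 65536 : ℝ) ((410789 / 32768 : ℝ) + (119 / 256 : ℝ)) (19 / 1024 : ℝ) C4) := by
  refine ⟨(2415919104 : ℝ), ⟨Q7, List.mem_cons_of_mem _ (List.mem_cons_of_mem _ (List.mem_cons_of_mem _ (List.mem_cons_of_mem _ (List.mem_cons_of_mem _ (List.mem_cons_of_mem _ (List.mem_cons_of_mem _ (List.mem_cons_self))))))), ?_⟩, by norm_num⟩
  constructor <;> norm_num [Q7, coCell, C4]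

lemma lcell4 : ∀ x1 x2 xc : ℝ, 0 ≤ x1 → x1 ≤ 1 → 0 ≤ x2 → x2 ≤ 1 → C4.l ≤ xc → xc ≤ C4.u →
    (56943 / 65536 : ℝ) * (1 - (1 - x1) ^ 5) + (967365 / 65536 : ℝ) * (1 - (1 - x2) ^ 5) - ((410789 / 32768 : ℝ) + (119 / 256 : ℝ)) * (1 - (1 - xc) ^ 5)
      ≤ - C4.a1 * x1 - C4.a2 * x2 + C4.e * xc + C4.f := by
  have h := cell_lines 5 (α1 := (56943 / 65536 : ℝ)) (α2 := (967365 / 65536 : ℝ)) (c := (410789 / 32768 : ℝ) + (119 / 256 : ℝ)) (y1 := (4263 / 262144 : ℝ)) (y2 := (5193 / 262144 : ℝ))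
    (A1 := (4266267 / 1048576 : ℝ)) (B1 := (596993 / 268435456 : ℝ)) (A2 := (285747151 / 4194304 : ℝ)) (B2 := (7471123 / 134217728 : ℝ)) (l := (173 / 8192 : ℝ)) (u := (3015 / 131072 : ℝ))
    (E := (-62344757 / 1048576 : ℝ)) (F := (-8108813 / 134217728 : ℝ)) (by norm_num) (by norm_num) (by norm_num) (by norm_num) (by norm_num)
    (by norm_num) (by norm_num) (by norm_num) (by norm_num) (by norm_num) (by norm_num) (by norm_num) (by norm_num) (by norm_num) (by norm_num)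
  have e1 : C4.l = (173 / 8192 : ℝ) := rfl
  have e2 : C4.u = (3015 / 131072 : ℝ) := rfl
  have e3 : C4.a1 = -(4266267 / 1048576 : ℝ) := by norm_num [C4]
  have e4 : C4.a2 = -(285747151 / 4194304 : ℝ) := by norm_num [C4]
  have e5 : C4.e = (-62344757 / 1048576 : ℝ) := rfl
  have e6 : C4.f = (596993 / 268435456 : ℝ) + (7471123 / 134217728 : ℝ) + (-8108813 / 134217728 : ℝ) := by norm_num [C4]
  rw [e1, e2, e3, e4, e5, e6]
  exact h

lemma rcell5 : ∃ N : ℝ, Rw4 P.r2 N (coCell (56943 / 65536 : ℝ) (967365 / 65536 : ℝ) ((410789 / 32768 : ℝ) + (119 / 256 : ℝ)) (19 / 1024 : ℝ) C5) := by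
  refine ⟨(1207959552 : ℝ), ⟨Q8, List.mem_cons_of_mem _ (List.mem_cons_of_mem _ (List.mem_cons_of_mem _ (List.mem_cons_of_mem _ (List.mem_cons_of_mem _ (List.mem_cons_of_mem _ (List.mem_cons_of_mem _ (List.mem_cons_of_mem _ (List.mem_cons_self)))))))), ?_⟩, by norm_num⟩
  constructor <;> norm_num [Q8, coCell, C5]

lemma lcell5 : ∀ x1 x2 xc : ℝ, 0 ≤ x1 → x1 ≤ 1 → 0 ≤ x2 → x2 ≤ 1 → C5.l ≤ xc → xc ≤ C5.u →
    (56943 / 65536 : ℝ) * (1 - (1 - x1) ^ 5) + (967365 / 65536 : ℝ) * (1 - (1 - x2) ^ 5) - ((410789 / 32768 : ℝ) + (119 / 256 : ℝ)) * (1 - (1 - xc) ^ 5)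
      ≤ - C5.a1 * x1 - C5.a2 * x2 + C5.e * xc + C5.f := by
  have h := cell_lines 5 (α1 := (56943 / 65536 : ℝ)) (α2 := (967365 / 65536 : ℝ)) (c := (410789 / 32768 : ℝ) + (119 / 256 : ℝ)) (y1 := (567 / 32768 : ℝ)) (y2 := (5681 / 262144 : ℝ))
    (A1 := (2124115 / 524288 : ℝ)) (B1 := (337249 / 134217728 : ℝ)) (A2 := (141791285 / 2097152 : ℝ)) (B2 := (8907675 / 134217728 : ℝ)) (l := (3015 / 131072 : ℝ)) (u := (821 / 32768 : ℝ))
    (E := (-123688691 / 2097152 : ℝ)) (F := (-9582193 / 134217728 : ℝ)) (by norm_num) (by norm_num) (by norm_num) (by norm_num) (by norm_num)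
    (by norm_num) (by norm_num) (by norm_num) (by norm_num) (by norm_num) (by norm_num) (by norm_num) (by norm_num) (by norm_num) (by norm_num)
  have e1 : C5.l = (3015 / 131072 : ℝ) := rfl
  have e2 : C5.u = (821 / 32768 : ℝ) := rfl
  have e3 : C5.a1 = -(2124115 / 524288 : ℝ) := by norm_num [C5]
  have e4 : C5.a2 = -(141791285 / 2097152 : ℝ) := by norm_num [C5]
  have e5 : C5.e = (-123688691 / 2097152 : ℝ) := rfl
  have e6 : C5.f = (337249 / 134217728 : ℝ) + (8907675 / 134217728 : ℝ) + (-9582193 / 134217728 : ℝ) := by norm_num [C5]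
  rw [e1, e2, e3, e4, e5, e6]
  exact h

lemma rcell6 : ∃ N : ℝ, Rw4 P.r2 N (coCell (56943 / 65536 : ℝ) (967365 / 65536 : ℝ) ((410789 / 32768 : ℝ) + (119 / 256 : ℝ)) (19 / 1024 : ℝ) C6) := by
  refine ⟨(2415919104 : ℝ), ⟨Q9, List.mem_cons_of_mem _ (List.mem_cons_of_mem _ (List.mem_cons_of_mem _ (List.mem_cons_of_mem _ (List.mem_cons_of_mem _ (List.mem_cons_of_mem _ (List.mem_cons_of_mem _ (List.mem_cons_of_mem _ (List.mem_cons_of_mem _ (List.mem_cons_self))))))))), ?_⟩, by norm_num⟩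
  constructor <;> norm_num [Q9, coCell, C6]

lemma lcell6 : ∀ x1 x2 xc : ℝ, 0 ≤ x1 → x1 ≤ 1 → 0 ≤ x2 → x2 ≤ 1 → C6.l ≤ xc → xc ≤ C6.u →
    (56943 / 65536 : ℝ) * (1 - (1 - x1) ^ 5) + (967365 / 65536 : ℝ) * (1 - (1 - x2) ^ 5) - ((410789 / 32768 : ℝ) + (119 / 256 : ℝ)) * (1 - (1 - xc) ^ 5)
      ≤ - C6.a1 * x1 - C6.a2 * x2 + C6.e * xc + C6.f := by
  have h := cell_lines 5 (α1 := (56943 / 65536 : ℝ)) (α2 := (967365 / 65536 : ℝ)) (c := (410789 / 32768 : ℝ) + (119 / 256 : ℝ)) (y1 := (1295 / 65536 : ℝ)) (y2 := (6163 / 262144 : ℝ))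
    (A1 := (1051477 / 262144 : ℝ)) (B1 := (218819 / 67108864 : ℝ)) (A2 := (281456697 / 4194304 : ℝ)) (B2 := (20888821 / 268435456 : ℝ)) (l := (821 / 32768 : ℝ)) (u := (7155 / 262144 : ℝ))
    (E := (-7662785 / 131072 : ℝ)) (F := (-5660307 / 67108864 : ℝ)) (by norm_num) (by norm_num) (by norm_num) (by norm_num) (by norm_num)
    (by norm_num) (by norm_num) (by norm_num) (by norm_num) (by norm_num) (by norm_num) (by norm_num) (by norm_num) (by norm_num) (by norm_num)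
  have e1 : C6.l = (821 / 32768 : ℝ) := rfl
  have e2 : C6.u = (7155 / 262144 : ℝ) := rfl
  have e3 : C6.a1 = -(1051477 / 262144 : ℝ) := by norm_num [C6]
  have e4 : C6.a2 = -(281456697 / 4194304 : ℝ) := by norm_num [C6]
  have e5 : C6.e = (-7662785 / 131072 : ℝ) := rfl
  have e6 : C6.f = (218819 / 67108864 : ℝ) + (20888821 / 268435456 : ℝ) + (-5660307 / 67108864 : ℝ) := by norm_num [C6]
  rw [e1, e2, e3, e4, e5, e6]
  exact h

lemma rcell7 : ∃ N : ℝ, Rw4 P.r2 N (coCell (56943 / 65536 : ℝ) (967365 / 65536 : ℝ) ((410789 / 32768 : ℝ) + (119 / 256 : ℝ)) (19 / 1024 : ℝ) C7) := by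
  refine ⟨(1207959552 : ℝ), ⟨Q10, List.mem_cons_of_mem _ (List.mem_cons_of_mem _ (List.mem_cons_of_mem _ (List.mem_cons_of_mem _ (List.mem_cons_of_mem _ (List.mem_cons_of_mem _ (List.mem_cons_of_mem _ (List.mem_cons_of_mem _ (List.mem_cons_of_mem _ (List.mem_cons_of_mem _ (List.mem_cons_self)))))))))), ?_⟩, by norm_num⟩
  constructor <;> norm_num [Q10, coCell, C7]

lemma lcell7 : ∀ x1 x2 xc : ℝ, 0 ≤ x1 → x1 ≤ 1 → 0 ≤ x2 → x2 ≤ 1 → C7.l ≤ xc → xc ≤ C7.u →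
    (56943 / 65536 : ℝ) * (1 - (1 - x1) ^ 5) + (967365 / 65536 : ℝ) * (1 - (1 - x2) ^ 5) - ((410789 / 32768 : ℝ) + (119 / 256 : ℝ)) * (1 - (1 - xc) ^ 5)
      ≤ - C7.a1 * x1 - C7.a2 * x2 + C7.e * xc + C7.f := by
  have h := cell_lines 5 (α1 := (56943 / 65536 : ℝ)) (α2 := (967365 / 65536 : ℝ)) (c := (410789 / 32768 : ℝ) + (119 / 256 : ℝ)) (y1 := (2853 / 131072 : ℝ)) (y2 := (837 / 32768 : ℝ))
    (A1 := (521447 / 131072 : ℝ)) (B1 := (264437 / 67108864 : ℝ)) (A2 := (279119827 / 4194304 : ℝ)) (B2 := (24556875 / 268435456 : ℝ)) (l := (7155 / 262144 : ℝ)) (u := (3897 / 131072 : ℝ))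
    (E := (-60715617 / 1048576 : ℝ)) (F := (-26740421 / 268435456 : ℝ)) (by norm_num) (by norm_num) (by norm_num) (by norm_num) (by norm_num)
    (by norm_num) (by norm_num) (by norm_num) (by norm_num) (by norm_num) (by norm_num) (by norm_num) (by norm_num) (by norm_num) (by norm_num)
  have e1 : C7.l = (7155 / 262144 : ℝ) := rfl
  have e2 : C7.u = (3897 / 131072 : ℝ) := rfl
  have e3 : C7.a1 = -(521447 / 131072 : ℝ) := by norm_num [C7]
  have e4 : C7.a2 = -(279119827 / 4194304 : ℝ) := by norm_num [C7]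
  have e5 : C7.e = (-60715617 / 1048576 : ℝ) := rfl
  have e6 : C7.f = (264437 / 67108864 : ℝ) + (24556875 / 268435456 : ℝ) + (-26740421 / 268435456 : ℝ) := by norm_num [C7]
  rw [e1, e2, e3, e4, e5, e6]
  exact h

lemma rcell8 : ∃ N : ℝ, Rw4 P.r2 N (coCell (56943 / 65536 : ℝ) (967365 / 65536 : ℝ) ((410789 / 32768 : ℝ) + (119 / 256 : ℝ)) (19 / 1024 : ℝ) C8) := by
  refine ⟨(2415919104 : ℝ), ⟨Q11, List.mem_cons_of_mem _ (List.mem_cons_of_mem _ (List.mem_cons_of_mem _ (List.mem_cons_of_mem _ (List.mem_cons_of_mem _ (List.mem_cons_of_mem _ (List.mem_cons_of_mem _ (List.mem_cons_of_mem _ (List.mem_cons_of_mem _ (List.mem_cons_of_mem _ (List.mem_cons_of_mem _ (List.mem_cons_self))))))))))), ?_⟩, by norm_num⟩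
  constructor <;> norm_num [Q11, coCell, C8]

lemma lcell8 : ∀ x1 x2 xc : ℝ, 0 ≤ x1 → x1 ≤ 1 → 0 ≤ x2 → x2 ≤ 1 → C8.l ≤ xc → xc ≤ C8.u →
    (56943 / 65536 : ℝ) * (1 - (1 - x1) ^ 5) + (967365 / 65536 : ℝ) * (1 - (1 - x2) ^ 5) - ((410789 / 32768 : ℝ) + (119 / 256 : ℝ)) * (1 - (1 - xc) ^ 5)
      ≤ - C8.a1 * x1 - C8.a2 * x2 + C8.e * xc + C8.f := by
  have h := cell_lines 5 (α1 := (56943 / 65536 : ℝ)) (α2 := (967365 / 65536 : ℝ)) (c := (410789 / 32768 : ℝ) + (119 / 256 : ℝ)) (y1 := (3001 / 131072 : ℝ)) (y2 := (7323 / 262144 : ℝ))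
    (A1 := (16609395 / 4194304 : ℝ)) (B1 := (1167661 / 268435456 : ℝ)) (A2 := (276389489 / 4194304 : ℝ)) (B2 := (29229055 / 268435456 : ℝ)) (l := (3897 / 131072 : ℝ)) (u := (8489 / 262144 : ℝ))
    (E := (-240328283 / 4194304 : ℝ)) (F := (-31562549 / 268435456 : ℝ)) (by norm_num) (by norm_num) (by norm_num) (by norm_num) (by norm_num)
    (by norm_num) (by norm_num) (by norm_num) (by norm_num) (by norm_num) (by norm_num) (by norm_num) (by norm_num) (by norm_num) (by norm_num)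
  have e1 : C8.l = (3897 / 131072 : ℝ) := rfl
  have e2 : C8.u = (8489 / 262144 : ℝ) := rfl
  have e3 : C8.a1 = -(16609395 / 4194304 : ℝ) := by norm_num [C8]
  have e4 : C8.a2 = -(276389489 / 4194304 : ℝ) := by norm_num [C8]
  have e5 : C8.e = (-240328283 / 4194304 : ℝ) := rfl
  have e6 : C8.f = (1167661 / 268435456 : ℝ) + (29229055 / 268435456 : ℝ) + (-31562549 / 268435456 : ℝ) := by norm_num [C8]
  rw [e1, e2, e3, e4, e5, e6]
  exact h

lemma rcell9 : ∃ N : ℝ, Rw4 P.r2 N (coCell (56943 / 65536 : ℝ) (967365 / 65536 : ℝ) ((410789 / 32768 : ℝ) + (119 / 256 : ℝ)) (19 / 1024 : ℝ) C9) := by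
  refine ⟨(1207959552 : ℝ), ⟨Q12, List.mem_cons_of_mem _ (List.mem_cons_of_mem _ (List.mem_cons_of_mem _ (List.mem_cons_of_mem _ (List.mem_cons_of_mem _ (List.mem_cons_of_mem _ (List.mem_cons_of_mem _ (List.mem_cons_of_mem _ (List.mem_cons_of_mem _ (List.mem_cons_of_mem _ (List.mem_cons_of_mem _ (List.mem_cons_of_mem _ (List.mem_cons_self)))))))))))), ?_⟩, by norm_num⟩
  constructor <;> norm_num [Q12, coCell, C9]

lemma lcell9 : ∀ x1 x2 xc : ℝ, 0 ≤ x1 → x1 ≤ 1 → 0 ≤ x2 → x2 ≤ 1 → C9.l ≤ xc → xc ≤ C9.u →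
    (56943 / 65536 : ℝ) * (1 - (1 - x1) ^ 5) + (967365 / 65536 : ℝ) * (1 - (1 - x2) ^ 5) - ((410789 / 32768 : ℝ) + (119 / 256 : ℝ)) * (1 - (1 - xc) ^ 5)
      ≤ - C9.a1 * x1 - C9.a2 * x2 + C9.e * xc + C9.f := by
  have h := cell_lines 5 (α1 := (56943 / 65536 : ℝ)) (α2 := (967365 / 65536 : ℝ)) (c := (410789 / 32768 : ℝ) + (119 / 256 : ℝ)) (y1 := (6739 / 262144 : ℝ)) (y2 := (1989 / 65536 : ℝ))
    (A1 := (16419057 / 4194304 : ℝ)) (B1 := (91479 / 16777216 : ℝ)) (A2 := (273653393 / 4194304 : ℝ)) (B2 := (4291487 / 33554432 : ℝ)) (l := (8489 / 262144 : ℝ)) (u := (9247 / 262144 : ℝ))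
    (E := (-59397669 / 1048576 : ℝ)) (F := (-18618133 / 134217728 : ℝ)) (by norm_num) (by norm_num) (by norm_num) (by norm_num) (by norm_num)
    (by norm_num) (by norm_num) (by norm_num) (by norm_num) (by norm_num) (by norm_num) (by norm_num) (by norm_num) (by norm_num) (by norm_num)
  have e1 : C9.l = (8489 / 262144 : ℝ) := rfl
  have e2 : C9.u = (9247 / 262144 : ℝ) := rfl
  have e3 : C9.a1 = -(16419057 / 4194304 : ℝ) := by norm_num [C9]
  have e4 : C9.a2 = -(273653393 / 4194304 : ℝ) := by norm_num [C9]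
  have e5 : C9.e = (-59397669 / 1048576 : ℝ) := rfl
  have e6 : C9.f = (91479 / 16777216 : ℝ) + (4291487 / 33554432 : ℝ) + (-18618133 / 134217728 : ℝ) := by norm_num [C9]
  rw [e1, e2, e3, e4, e5, e6]
  exact h

lemma rcell10 : ∃ N : ℝ, Rw4 P.r2 N (coCell (56943 / 65536 : ℝ) (967365 / 65536 : ℝ) ((410789 / 32768 : ℝ) + (119 / 256 : ℝ)) (19 / 1024 : ℝ) C10) := by
  refine ⟨(1207959552 : ℝ), ⟨Q13, List.mem_cons_of_mem _ (List.mem_cons_of_mem _ (List.mem_cons_of_mem _ (List.mem_cons_of_mem _ (List.mem_cons_of_mem _ (List.mem_cons_of_mem _ (List.mem_cons_of_mem _ (List.mem_cons_of_mem _ (List.mem_cons_of_mem _ (List.mem_cons_of_mem _ (List.mem_cons_of_mem _ (List.mem_cons_of_mem _ (List.mem_cons_of_mem _ (List.mem_cons_self))))))))))))), ?_⟩, by norm_num⟩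
  constructor <;> norm_num [Q13, coCell, C10]

lemma lcell10 : ∀ x1 x2 xc : ℝ, 0 ≤ x1 → x1 ≤ 1 → 0 ≤ x2 → x2 ≤ 1 → C10.l ≤ xc → xc ≤ C10.u →
    (56943 / 65536 : ℝ) * (1 - (1 - x1) ^ 5) + (967365 / 65536 : ℝ) * (1 - (1 - x2) ^ 5) - ((410789 / 32768 : ℝ) + (119 / 256 : ℝ)) * (1 - (1 - xc) ^ 5)
      ≤ - C10.a1 * x1 - C10.a2 * x2 + C10.e * xc + C10.f := by
  have h := cell_lines 5 (α1 := (56943 / 65536 : ℝ)) (α2 := (967365 / 65536 : ℝ)) (c := (410789 / 32768 : ℝ) + (119 / 256 : ℝ)) (y1 := (3585 / 131072 : ℝ)) (y2 := (8647 / 262144 : ℝ))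
    (A1 := (4077127 / 1048576 : ℝ)) (B1 := (1651349 / 268435456 : ℝ)) (A2 := (270689841 / 4194304 : ℝ)) (B2 := (40337885 / 268435456 : ℝ)) (l := (9247 / 262144 : ℝ)) (u := (10073 / 262144 : ℝ))
    (E := (-234632985 / 4194304 : ℝ)) (F := (-2744591 / 16777216 : ℝ)) (by norm_num) (by norm_num) (by norm_num) (by norm_num) (by norm_num)
    (by norm_num) (by norm_num) (by norm_num) (by norm_num) (by norm_num) (by norm_num) (by norm_num) (by norm_num) (by norm_num) (by norm_num)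
  have e1 : C10.l = (9247 / 262144 : ℝ) := rfl
  have e2 : C10.u = (10073 / 262144 : ℝ) := rfl
  have e3 : C10.a1 = -(4077127 / 1048576 : ℝ) := by norm_num [C10]
  have e4 : C10.a2 = -(270689841 / 4194304 : ℝ) := by norm_num [C10]
  have e5 : C10.e = (-234632985 / 4194304 : ℝ) := rfl
  have e6 : C10.f = (1651349 / 268435456 : ℝ) + (40337885 / 268435456 : ℝ) + (-2744591 / 16777216 : ℝ) := by norm_num [C10]
  rw [e1, e2, e3, e4, e5, e6]
  exact h

lemma rcell11 : ∃ N : ℝ, Rw4 P.r2 N (coCell (56943 / 65536 : ℝ) (967365 / 65536 : ℝ) ((410789 / 32768 : ℝ) + (119 / 256 : ℝ)) (19 / 1024 : ℝ) C11) := by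
  refine ⟨(2415919104 : ℝ), ⟨Q14, List.mem_cons_of_mem _ (List.mem_cons_of_mem _ (List.mem_cons_of_mem _ (List.mem_cons_of_mem _ (List.mem_cons_of_mem _ (List.mem_cons_of_mem _ (List.mem_cons_of_mem _ (List.mem_cons_of_mem _ (List.mem_cons_of_mem _ (List.mem_cons_of_mem _ (List.mem_cons_of_mem _ (List.mem_cons_of_mem _ (List.mem_cons_of_mem _ (List.mem_cons_of_mem _ (List.mem_cons_self)))))))))))))), ?_⟩, by norm_num⟩
  constructor <;> norm_num [Q14, coCell, C11]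

lemma lcell11 : ∀ x1 x2 xc : ℝ, 0 ≤ x1 → x1 ≤ 1 → 0 ≤ x2 → x2 ≤ 1 → C11.l ≤ xc → xc ≤ C11.u →
    (56943 / 65536 : ℝ) * (1 - (1 - x1) ^ 5) + (967365 / 65536 : ℝ) * (1 - (1 - x2) ^ 5) - ((410789 / 32768 : ℝ) + (119 / 256 : ℝ)) * (1 - (1 - xc) ^ 5)
      ≤ - C11.a1 * x1 - C11.a2 * x2 + C11.e * xc + C11.f := by
  have h := cell_lines 5 (α1 := (56943 / 65536 : ℝ)) (α2 := (967365 / 65536 : ℝ)) (c := (410789 / 32768 : ℝ) + (119 / 256 : ℝ)) (y1 := (7729 / 262144 : ℝ)) (y2 := (9449 / 262144 : ℝ))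
    (A1 := (2020745 / 524288 : ℝ)) (B1 := (955297 / 134217728 : ℝ)) (A2 := (33410061 / 524288 : ℝ)) (B2 := (47868571 / 268435456 : ℝ)) (l := (10073 / 262144 : ℝ)) (u := (2743 / 65536 : ℝ))
    (E := (-231443535 / 4194304 : ℝ)) (F := (-25878521 / 134217728 : ℝ)) (by norm_num) (by norm_num) (by norm_num) (by norm_num) (by norm_num)
    (by norm_num) (by norm_num) (by norm_num) (by norm_num) (by norm_num) (by norm_num) (by norm_num) (by norm_num) (by norm_num) (by norm_num)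
  have e1 : C11.l = (10073 / 262144 : ℝ) := rfl
  have e2 : C11.u = (2743 / 65536 : ℝ) := rfl
  have e3 : C11.a1 = -(2020745 / 524288 : ℝ) := by norm_num [C11]
  have e4 : C11.a2 = -(33410061 / 524288 : ℝ) := by norm_num [C11]
  have e5 : C11.e = (-231443535 / 4194304 : ℝ) := rfl
  have e6 : C11.f = (955297 / 134217728 : ℝ) + (47868571 / 268435456 : ℝ) + (-25878521 / 134217728 : ℝ) := by norm_num [C11]
  rw [e1, e2, e3, e4, e5, e6]
  exact h

lemma rcell12 : ∃ N : ℝ, Rw4 P.r2 N (coCell (56943 / 65536 : ℝ) (967365 / 65536 : ℝ) ((410789 / 32768 : ℝ) + (119 / 256 : ℝ)) (19 / 1024 : ℝ) C12) := by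
  refine ⟨(603979776 : ℝ), ⟨Q15, List.mem_cons_of_mem _ (List.mem_cons_of_mem _ (List.mem_cons_of_mem _ (List.mem_cons_of_mem _ (List.mem_cons_of_mem _ (List.mem_cons_of_mem _ (List.mem_cons_of_mem _ (List.mem_cons_of_mem _ (List.mem_cons_of_mem _ (List.mem_cons_of_mem _ (List.mem_cons_of_mem _ (List.mem_cons_of_mem _ (List.mem_cons_of_mem _ (List.mem_cons_of_mem _ (List.mem_cons_of_mem _ (List.mem_cons_self))))))))))))))), ?_⟩, by norm_num⟩
  constructor <;> norm_num [Q15, coCell, C12]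

lemma lcell12 : ∀ x1 x2 xc : ℝ, 0 ≤ x1 → x1 ≤ 1 → 0 ≤ x2 → x2 ≤ 1 → C12.l ≤ xc → xc ≤ C12.u →
    (56943 / 65536 : ℝ) * (1 - (1 - x1) ^ 5) + (967365 / 65536 : ℝ) * (1 - (1 - x2) ^ 5) - ((410789 / 32768 : ℝ) + (119 / 256 : ℝ)) * (1 - (1 - xc) ^ 5)
      ≤ - C12.a1 * x1 - C12.a2 * x2 + C12.e * xc + C12.f := by
  have h := cell_lines 5 (α1 := (56943 / 65536 : ℝ)) (α2 := (967365 / 65536 : ℝ)) (c := (410789 / 32768 : ℝ) + (119 / 256 : ℝ)) (y1 := (8463 / 262144 : ℝ)) (y2 := (2563 / 65536 : ℝ))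
    (A1 := (15980207 / 4194304 : ℝ)) (B1 := (1138861 / 134217728 : ℝ)) (A2 := (65974813 / 1048576 : ℝ)) (B2 := (55999603 / 268435456 : ℝ)) (l := (2743 / 65536 : ℝ)) (u := (747 / 16384 : ℝ))
    (E := (-114003247 / 2097152 : ℝ)) (F := (-60963881 / 268435456 : ℝ)) (by norm_num) (by norm_num) (by norm_num) (by norm_num) (by norm_num)
    (by norm_num) (by norm_num) (by norm_num) (by norm_num) (by norm_num) (by norm_num) (by norm_num) (by norm_num) (by norm_num) (by norm_num)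
  have e1 : C12.l = (2743 / 65536 : ℝ) := rfl
  have e2 : C12.u = (747 / 16384 : ℝ) := rfl
  have e3 : C12.a1 = -(15980207 / 4194304 : ℝ) := by norm_num [C12]
  have e4 : C12.a2 = -(65974813 / 1048576 : ℝ) := by norm_num [C12]
  have e5 : C12.e = (-114003247 / 2097152 : ℝ) := rfl
  have e6 : C12.f = (1138861 / 134217728 : ℝ) + (55999603 / 268435456 : ℝ) + (-60963881 / 268435456 : ℝ) := by norm_num [C12]
  rw [e1, e2, e3, e4, e5, e6]
  exact h

lemma rcell13 : ∃ N : ℝ, Rw4 P.r2 N (coCell (56943 / 65536 : ℝ) (967365 / 65536 : ℝ) ((410789 / 32768 : ℝ) + (119 / 256 : ℝ)) (19 / 1024 : ℝ) C13) := by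
  refine ⟨(1207959552 : ℝ), ⟨Q16, List.mem_cons_of_mem _ (List.mem_cons_of_mem _ (List.mem_cons_of_mem _ (List.mem_cons_of_mem _ (List.mem_cons_of_mem _ (List.mem_cons_of_mem _ (List.mem_cons_of_mem _ (List.mem_cons_of_mem _ (List.mem_cons_of_mem _ (List.mem_cons_of_mem _ (List.mem_cons_of_mem _ (List.mem_cons_of_mem _ (List.mem_cons_of_mem _ (List.mem_cons_of_mem _ (List.mem_cons_of_mem _ (List.mem_cons_of_mem _ (List.mem_cons_self)))))))))))))))), ?_⟩, by norm_num⟩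
  constructor <;> norm_num [Q16, coCell, C13]

lemma lcell13 : ∀ x1 x2 xc : ℝ, 0 ≤ x1 → x1 ≤ 1 → 0 ≤ x2 → x2 ≤ 1 → C13.l ≤ xc → xc ≤ C13.u →
    (56943 / 65536 : ℝ) * (1 - (1 - x1) ^ 5) + (967365 / 65536 : ℝ) * (1 - (1 - x2) ^ 5) - ((410789 / 32768 : ℝ) + (119 / 256 : ℝ)) * (1 - (1 - xc) ^ 5)
      ≤ - C13.a1 * x1 - C13.a2 * x2 + C13.e * xc + C13.f := by
  have h := cell_lines 5 (α1 := (56943 / 65536 : ℝ)) (α2 := (967365 / 65536 : ℝ)) (c := (410789 / 32768 : ℝ) + (119 / 256 : ℝ)) (y1 := (9053 / 262144 : ℝ)) (y2 := (11141 / 262144 : ℝ))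
    (A1 := (15832061 / 4194304 : ℝ)) (B1 := (2594473 / 268435456 : ℝ)) (A2 := (65048355 / 1048576 : ℝ)) (B2 := (65676483 / 268435456 : ℝ)) (l := (747 / 16384 : ℝ)) (u := (13019 / 262144 : ℝ))
    (E := (-224305895 / 4194304 : ℝ)) (F := (-35881057 / 134217728 : ℝ)) (by norm_num) (by norm_num) (by norm_num) (by norm_num) (by norm_num)
    (by norm_num) (by norm_num) (by norm_num) (by norm_num) (by norm_num) (by norm_num) (by norm_num) (by norm_num) (by norm_num) (by norm_num)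
  have e1 : C13.l = (747 / 16384 : ℝ) := rfl
  have e2 : C13.u = (13019 / 262144 : ℝ) := rfl
  have e3 : C13.a1 = -(15832061 / 4194304 : ℝ) := by norm_num [C13]
  have e4 : C13.a2 = -(65048355 / 1048576 : ℝ) := by norm_num [C13]
  have e5 : C13.e = (-224305895 / 4194304 : ℝ) := rfl
  have e6 : C13.f = (2594473 / 268435456 : ℝ) + (65676483 / 268435456 : ℝ) + (-35881057 / 134217728 : ℝ) := by norm_num [C13]
  rw [e1, e2, e3, e4, e5, e6]
  exact h

lemma rcell14 : ∃ N : ℝ, Rw4 P.r2 N (coCell (56943 / 65536 : ℝ) (967365 / 65536 : ℝ) ((410789 / 32768 : ℝ) + (119 / 256 : ℝ)) (19 / 1024 : ℝ) C14) := by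
  refine ⟨(1207959552 : ℝ), ⟨Q17, List.mem_cons_of_mem _ (List.mem_cons_of_mem _ (List.mem_cons_of_mem _ (List.mem_cons_of_mem _ (List.mem_cons_of_mem _ (List.mem_cons_of_mem _ (List.mem_cons_of_mem _ (List.mem_cons_of_mem _ (List.mem_cons_of_mem _ (List.mem_cons_of_mem _ (List.mem_cons_of_mem _ (List.mem_cons_of_mem _ (List.mem_cons_of_mem _ (List.mem_cons_of_mem _ (List.mem_cons_of_mem _ (List.mem_cons_of_mem _ (List.mem_cons_of_mem _ (List.mem_cons_self))))))))))))))))), ?_⟩, by norm_num⟩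
  constructor <;> norm_num [Q17, coCell, C14]

lemma lcell14 : ∀ x1 x2 xc : ℝ, 0 ≤ x1 → x1 ≤ 1 → 0 ≤ x2 → x2 ≤ 1 → C14.l ≤ xc → xc ≤ C14.u →
    (56943 / 65536 : ℝ) * (1 - (1 - x1) ^ 5) + (967365 / 65536 : ℝ) * (1 - (1 - x2) ^ 5) - ((410789 / 32768 : ℝ) + (119 / 256 : ℝ)) * (1 - (1 - xc) ^ 5)
      ≤ - C14.a1 * x1 - C14.a2 * x2 + C14.e * xc + C14.f := by
  have h := cell_lines 5 (α1 := (56943 / 65536 : ℝ)) (α2 := (967365 / 65536 : ℝ)) (c := (410789 / 32768 : ℝ) + (119 / 256 : ℝ)) (y1 := (1229 / 32768 : ℝ)) (y2 := (12029 / 262144 : ℝ))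
    (A1 := (7819019 / 2097152 : ℝ)) (B1 := (3041725 / 268435456 : ℝ)) (A2 := (128265429 / 2097152 : ℝ)) (B2 := (38017427 / 134217728 : ℝ)) (l := (13019 / 262144 : ℝ)) (u := (14181 / 262144 : ℝ))
    (E := (-220327737 / 4194304 : ℝ)) (F := (-84406557 / 268435456 : ℝ)) (by norm_num) (by norm_num) (by norm_num) (by norm_num) (by norm_num)
    (by norm_num) (by norm_num) (by norm_num) (by norm_num) (by norm_num) (by norm_num) (by norm_num) (by norm_num) (by norm_num) (by norm_num)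
  have e1 : C14.l = (13019 / 262144 : ℝ) := rfl
  have e2 : C14.u = (14181 / 262144 : ℝ) := rfl
  have e3 : C14.a1 = -(7819019 / 2097152 : ℝ) := by norm_num [C14]
  have e4 : C14.a2 = -(128265429 / 2097152 : ℝ) := by norm_num [C14]
  have e5 : C14.e = (-220327737 / 4194304 : ℝ) := rfl
  have e6 : C14.f = (3041725 / 268435456 : ℝ) + (38017427 / 134217728 : ℝ) + (-84406557 / 268435456 : ℝ) := by norm_num [C14]
  rw [e1, e2, e3, e4, e5, e6]
  exact h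

lemma rcell15 : ∃ N : ℝ, Rw4 P.r2 N (coCell (56943 / 65536 : ℝ) (967365 / 65536 : ℝ) ((410789 / 32768 : ℝ) + (119 / 256 : ℝ)) (19 / 1024 : ℝ) C15) := by
  refine ⟨(2415919104 : ℝ), ⟨Q18, List.mem_cons_of_mem _ (List.mem_cons_of_mem _ (List.mem_cons_of_mem _ (List.mem_cons_of_mem _ (List.mem_cons_of_mem _ (List.mem_cons_of_mem _ (List.mem_cons_of_mem _ (List.mem_cons_of_mem _ (List.mem_cons_of_mem _ (List.mem_cons_of_mem _ (List.mem_cons_of_mem _ (List.mem_cons_of_mem _ (List.mem_cons_of_mem _ (List.mem_cons_of_mem _ (List.mem_cons_of_mem _ (List.mem_cons_of_mem _ (List.mem_cons_of_mem _ (List.mem_cons_of_mem _ (List.mem_cons_self)))))))))))))))))), ?_⟩, by norm_num⟩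
  constructor <;> norm_num [Q18, coCell, C15]

lemma lcell15 : ∀ x1 x2 xc : ℝ, 0 ≤ x1 → x1 ≤ 1 → 0 ≤ x2 → x2 ≤ 1 → C15.l ≤ xc → xc ≤ C15.u →
    (56943 / 65536 : ℝ) * (1 - (1 - x1) ^ 5) + (967365 / 65536 : ℝ) * (1 - (1 - x2) ^ 5) - ((410789 / 32768 : ℝ) + (119 / 256 : ℝ)) * (1 - (1 - xc) ^ 5)
      ≤ - C15.a1 * x1 - C15.a2 * x2 + C15.e * xc + C15.f := by
  have h := cell_lines 5 (α1 := (56943 / 65536 : ℝ)) (α2 := (967365 / 65536 : ℝ)) (c := (410789 / 32768 : ℝ) + (119 / 256 : ℝ)) (y1 := (10003 / 262144 : ℝ)) (y2 := (767 / 16384 : ℝ))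
    (A1 := (15595687 / 4194304 : ℝ)) (B1 := (786071 / 67108864 : ℝ)) (A2 := (15970961 / 262144 : ℝ)) (B2 := (78987895 / 268435456 : ℝ)) (l := (14181 / 262144 : ℝ)) (u := (15447 / 262144 : ℝ))
    (E := (-108027463 / 2097152 : ℝ)) (F := (-12399963 / 33554432 : ℝ)) (by norm_num) (by norm_num) (by norm_num) (by norm_num) (by norm_num)
    (by norm_num) (by norm_num) (by norm_num) (by norm_num) (by norm_num) (by norm_num) (by norm_num) (by norm_num) (by norm_num) (by norm_num)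
  have e1 : C15.l = (14181 / 262144 : ℝ) := rfl
  have e2 : C15.u = (15447 / 262144 : ℝ) := rfl
  have e3 : C15.a1 = -(15595687 / 4194304 : ℝ) := by norm_num [C15]
  have e4 : C15.a2 = -(15970961 / 262144 : ℝ) := by norm_num [C15]
  have e5 : C15.e = (-108027463 / 2097152 : ℝ) := rfl
  have e6 : C15.f = (786071 / 67108864 : ℝ) + (78987895 / 268435456 : ℝ) + (-12399963 / 33554432 : ℝ) := by norm_num [C15]
  rw [e1, e2, e3, e4, e5, e6]
  exact h

lemma rcell16 : ∃ N : ℝ, Rw4 P.r2 N (coCell (56943 / 65536 : ℝ) (967365 / 65536 : ℝ) ((410789 / 32768 : ℝ) + (119 / 256 : ℝ)) (19 / 1024 : ℝ) C16) := by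
  refine ⟨(2415919104 : ℝ), ⟨Q19, List.mem_cons_of_mem _ (List.mem_cons_of_mem _ (List.mem_cons_of_mem _ (List.mem_cons_of_mem _ (List.mem_cons_of_mem _ (List.mem_cons_of_mem _ (List.mem_cons_of_mem _ (List.mem_cons_of_mem _ (List.mem_cons_of_mem _ (List.mem_cons_of_mem _ (List.mem_cons_of_mem _ (List.mem_cons_of_mem _ (List.mem_cons_of_mem _ (List.mem_cons_of_mem _ (List.mem_cons_of_mem _ (List.mem_cons_of_mem _ (List.mem_cons_of_mem _ (List.mem_cons_of_mem _ (List.mem_cons_of_mem _ (List.mem_cons_self))))))))))))))))))), ?_⟩, by norm_num⟩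
  constructor <;> norm_num [Q19, coCell, C16]

lemma lcell16 : ∀ x1 x2 xc : ℝ, 0 ≤ x1 → x1 ≤ 1 → 0 ≤ x2 → x2 ≤ 1 → C16.l ≤ xc → xc ≤ C16.u →
    (56943 / 65536 : ℝ) * (1 - (1 - x1) ^ 5) + (967365 / 65536 : ℝ) * (1 - (1 - x2) ^ 5) - ((410789 / 32768 : ℝ) + (119 / 256 : ℝ)) * (1 - (1 - xc) ^ 5)
      ≤ - C16.a1 * x1 - C16.a2 * x2 + C16.e * xc + C16.f := by
  have h := cell_lines 5 (α1 := (56943 / 65536 : ℝ)) (α2 := (967365 / 65536 : ℝ)) (c := (410789 / 32768 : ℝ) + (119 / 256 : ℝ)) (y1 := (2701 / 65536 : ℝ)) (y2 := (6577 / 131072 : ℝ))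
    (A1 := (3849613 / 1048576 : ℝ)) (B1 := (3645227 / 268435456 : ℝ)) (A2 := (31493309 / 524288 : ℝ)) (B2 := (90126289 / 268435456 : ℝ)) (l := (15447 / 262144 : ℝ)) (u := (8413 / 131072 : ℝ))
    (E := (-211471335 / 4194304 : ℝ)) (F := (-116485527 / 268435456 : ℝ)) (by norm_num) (by norm_num) (by norm_num) (by norm_num) (by norm_num)
    (by norm_num) (by norm_num) (by norm_num) (by norm_num) (by norm_num) (by norm_num) (by norm_num) (by norm_num) (by norm_num) (by norm_num)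
  have e1 : C16.l = (15447 / 262144 : ℝ) := rfl
  have e2 : C16.u = (8413 / 131072 : ℝ) := rfl
  have e3 : C16.a1 = -(3849613 / 1048576 : ℝ) := by norm_num [C16]
  have e4 : C16.a2 = -(31493309 / 524288 : ℝ) := by norm_num [C16]
  have e5 : C16.e = (-211471335 / 4194304 : ℝ) := rfl
  have e6 : C16.f = (3645227 / 268435456 : ℝ) + (90126289 / 268435456 : ℝ) + (-116485527 / 268435456 : ℝ) := by norm_num [C16]
  rw [e1, e2, e3, e4, e5, e6]
  exact h

lemma rcell17 : ∃ N : ℝ, Rw4 P.r2 N (coCell (56943 / 65536 : ℝ) (967365 / 65536 : ℝ) ((410789 / 32768 : ℝ) + (119 / 256 : ℝ)) (19 / 1024 : ℝ) C17) := by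
  refine ⟨(75497472 : ℝ), ⟨Q20, List.mem_cons_of_mem _ (List.mem_cons_of_mem _ (List.mem_cons_of_mem _ (List.mem_cons_of_mem _ (List.mem_cons_of_mem _ (List.mem_cons_of_mem _ (List.mem_cons_of_mem _ (List.mem_cons_of_mem _ (List.mem_cons_of_mem _ (List.mem_cons_of_mem _ (List.mem_cons_of_mem _ (List.mem_cons_of_mem _ (List.mem_cons_of_mem _ (List.mem_cons_of_mem _ (List.mem_cons_of_mem _ (List.mem_cons_of_mem _ (List.mem_cons_of_mem _ (List.mem_cons_of_mem _ (List.mem_cons_of_mem _ (List.mem_cons_of_mem _ (List.mem_cons_self)))))))))))))))))))), ?_⟩, by norm_num⟩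
  constructor <;> norm_num [Q20, coCell, C17]

lemma lcell17 : ∀ x1 x2 xc : ℝ, 0 ≤ x1 → x1 ≤ 1 → 0 ≤ x2 → x2 ≤ 1 → C17.l ≤ xc → xc ≤ C17.u →
    (56943 / 65536 : ℝ) * (1 - (1 - x1) ^ 5) + (967365 / 65536 : ℝ) * (1 - (1 - x2) ^ 5) - ((410789 / 32768 : ℝ) + (119 / 256 : ℝ)) * (1 - (1 - xc) ^ 5)
      ≤ - C17.a1 * x1 - C17.a2 * x2 + C17.e * xc + C17.f := by
  have h := cell_lines 5 (α1 := (56943 / 65536 : ℝ)) (α2 := (967365 / 65536 : ℝ)) (c := (410789 / 32768 : ℝ) + (119 / 256 : ℝ)) (y1 := (12811 / 262144 : ℝ)) (y2 := (3653 / 65536 : ℝ))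
    (A1 := (14912473 / 4194304 : ℝ)) (B1 := (5045677 / 268435456 : ℝ)) (A2 := (246096855 / 4194304 : ℝ)) (B2 := (109949957 / 268435456 : ℝ)) (l := (8413 / 131072 : ℝ)) (u := (2291 / 32768 : ℝ))
    (E := (-51640557 / 1048576 : ℝ)) (F := (-68325849 / 134217728 : ℝ)) (by norm_num) (by norm_num) (by norm_num) (by norm_num) (by norm_num)
    (by norm_num) (by norm_num) (by norm_num) (by norm_num) (by norm_num) (by norm_num) (by norm_num) (by norm_num) (by norm_num) (by norm_num)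
  have e1 : C17.l = (8413 / 131072 : ℝ) := rfl
  have e2 : C17.u = (2291 / 32768 : ℝ) := rfl
  have e3 : C17.a1 = -(14912473 / 4194304 : ℝ) := by norm_num [C17]
  have e4 : C17.a2 = -(246096855 / 4194304 : ℝ) := by norm_num [C17]
  have e5 : C17.e = (-51640557 / 1048576 : ℝ) := rfl
  have e6 : C17.f = (5045677 / 268435456 : ℝ) + (109949957 / 268435456 : ℝ) + (-68325849 / 134217728 : ℝ) := by norm_num [C17]
  rw [e1, e2, e3, e4, e5, e6]
  exact h

lemma rcell18 : ∃ N : ℝ, Rw4 P.r2 N (coCell (56943 / 65536 : ℝ) (967365 / 65536 : ℝ) ((410789 / 32768 : ℝ) + (119 / 256 : ℝ)) (19 / 1024 : ℝ) C18) := by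
  refine ⟨(301989888 : ℝ), ⟨Q21, List.mem_cons_of_mem _ (List.mem_cons_of_mem _ (List.mem_cons_of_mem _ (List.mem_cons_of_mem _ (List.mem_cons_of_mem _ (List.mem_cons_of_mem _ (List.mem_cons_of_mem _ (List.mem_cons_of_mem _ (List.mem_cons_of_mem _ (List.mem_cons_of_mem _ (List.mem_cons_of_mem _ (List.mem_cons_of_mem _ (List.mem_cons_of_mem _ (List.mem_cons_of_mem _ (List.mem_cons_of_mem _ (List.mem_cons_of_mem _ (List.mem_cons_of_mem _ (List.mem_cons_of_mem _ (List.mem_cons_of_mem _ (List.mem_cons_of_mem _ (List.mem_cons_of_mem _ (List.mem_cons_self))))))))))))))))))))), ?_⟩, by norm_num⟩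
  constructor <;> norm_num [Q21, coCell, C18]

lemma lcell18 : ∀ x1 x2 xc : ℝ, 0 ≤ x1 → x1 ≤ 1 → 0 ≤ x2 → x2 ≤ 1 → C18.l ≤ xc → xc ≤ C18.u →
    (56943 / 65536 : ℝ) * (1 - (1 - x1) ^ 5) + (967365 / 65536 : ℝ) * (1 - (1 - x2) ^ 5) - ((410789 / 32768 : ℝ) + (119 / 256 : ℝ)) * (1 - (1 - xc) ^ 5)
      ≤ - C18.a1 * x1 - C18.a2 * x2 + C18.e * xc + C18.f := by
  have h := cell_lines 5 (α1 := (56943 / 65536 : ℝ)) (α2 := (967365 / 65536 : ℝ)) (c := (410789 / 32768 : ℝ) + (119 / 256 : ℝ)) (y1 := (7233 / 131072 : ℝ)) (y2 := (16275 / 262144 : ℝ))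
    (A1 := (3630115 / 1048576 : ℝ)) (B1 := (6350675 / 268435456 : ℝ)) (A2 := (239549771 / 4194304 : ℝ)) (B2 := (134630499 / 268435456 : ℝ)) (l := (2291 / 32768 : ℝ)) (u := (4991 / 65536 : ℝ))
    (E := (-50328263 / 1048576 : ℝ)) (F := (-80069855 / 134217728 : ℝ)) (by norm_num) (by norm_num) (by norm_num) (by norm_num) (by norm_num)
    (by norm_num) (by norm_num) (by norm_num) (by norm_num) (by norm_num) (by norm_num) (by norm_num) (by norm_num) (by norm_num) (by norm_num)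
  have e1 : C18.l = (2291 / 32768 : ℝ) := rfl
  have e2 : C18.u = (4991 / 65536 : ℝ) := rfl
  have e3 : C18.a1 = -(3630115 / 1048576 : ℝ) := by norm_num [C18]
  have e4 : C18.a2 = -(239549771 / 4194304 : ℝ) := by norm_num [C18]
  have e5 : C18.e = (-50328263 / 1048576 : ℝ) := rfl
  have e6 : C18.f = (6350675 / 268435456 : ℝ) + (134630499 / 268435456 : ℝ) + (-80069855 / 134217728 : ℝ) := by norm_num [C18]
  rw [e1, e2, e3, e4, e5, e6]
  exact h

lemma rcell19 : ∃ N : ℝ, Rw4 P.r2 N (coCell (56943 / 65536 : ℝ) (967365 / 65536 : ℝ) ((410789 / 32768 : ℝ) + (119 / 256 : ℝ)) (19 / 1024 : ℝ) C19) := by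
  refine ⟨(2415919104 : ℝ), ⟨Q22, List.mem_cons_of_mem _ (List.mem_cons_of_mem _ (List.mem_cons_of_mem _ (List.mem_cons_of_mem _ (List.mem_cons_of_mem _ (List.mem_cons_of_mem _ (List.mem_cons_of_mem _ (List.mem_cons_of_mem _ (List.mem_cons_of_mem _ (List.mem_cons_of_mem _ (List.mem_cons_of_mem _ (List.mem_cons_of_mem _ (List.mem_cons_of_mem _ (List.mem_cons_of_mem _ (List.mem_cons_of_mem _ (List.mem_cons_of_mem _ (List.mem_cons_of_mem _ (List.mem_cons_of_mem _ (List.mem_cons_of_mem _ (List.mem_cons_of_mem _ (List.mem_cons_of_mem _ (List.mem_cons_of_mem _ (List.mem_cons_self)))))))))))))))))))))), ?_⟩, by norm_num⟩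
  constructor <;> norm_num [Q22, coCell, C19]

lemma lcell19 : ∀ x1 x2 xc : ℝ, 0 ≤ x1 → x1 ≤ 1 → 0 ≤ x2 → x2 ≤ 1 → C19.l ≤ xc → xc ≤ C19.u →
    (56943 / 65536 : ℝ) * (1 - (1 - x1) ^ 5) + (967365 / 65536 : ℝ) * (1 - (1 - x2) ^ 5) - ((410789 / 32768 : ℝ) + (119 / 256 : ℝ)) * (1 - (1 - xc) ^ 5)
      ≤ - C19.a1 * x1 - C19.a2 * x2 + C19.e * xc + C19.f := by
  have h := cell_lines 5 (α1 := (56943 / 65536 : ℝ)) (α2 := (967365 / 65536 : ℝ)) (c := (410789 / 32768 : ℝ) + (119 / 256 : ℝ)) (y1 := (971 / 16384 : ℝ)) (y2 := (8999 / 131072 : ℝ))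
    (A1 := (1783895 / 524288 : ℝ)) (B1 := (7263635 / 268435456 : ℝ)) (A2 := (116452581 / 2097152 : ℝ)) (B2 := (5075773 / 8388608 : ℝ)) (l := (4991 / 65536 : ℝ)) (u := (21747 / 262144 : ℝ))
    (E := (-195708481 / 4194304 : ℝ)) (F := (-23432065 / 33554432 : ℝ)) (by norm_num) (by norm_num) (by norm_num) (by norm_num) (by norm_num)
    (by norm_num) (by norm_num) (by norm_num) (by norm_num) (by norm_num) (by norm_num) (by norm_num) (by norm_num) (by norm_num) (by norm_num)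
  have e1 : C19.l = (4991 / 65536 : ℝ) := rfl
  have e2 : C19.u = (21747 / 262144 : ℝ) := rfl
  have e3 : C19.a1 = -(1783895 / 524288 : ℝ) := by norm_num [C19]
  have e4 : C19.a2 = -(116452581 / 2097152 : ℝ) := by norm_num [C19]
  have e5 : C19.e = (-195708481 / 4194304 : ℝ) := rfl
  have e6 : C19.f = (7263635 / 268435456 : ℝ) + (5075773 / 8388608 : ℝ) + (-23432065 / 33554432 : ℝ) := by norm_num [C19]
  rw [e1, e2, e3, e4, e5, e6]
  exact h

lemma rcell20 : ∃ N : ℝ, Rw4 P.r2 N (coCell (56943 / 65536 : ℝ) (967365 / 65536 : ℝ) ((410789 / 32768 : ℝ) + (119 / 256 : ℝ)) (19 / 1024 : ℝ) C20) := by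
  refine ⟨(603979776 : ℝ), ⟨Q23, List.mem_cons_of_mem _ (List.mem_cons_of_mem _ (List.mem_cons_of_mem _ (List.mem_cons_of_mem _ (List.mem_cons_of_mem _ (List.mem_cons_of_mem _ (List.mem_cons_of_mem _ (List.mem_cons_of_mem _ (List.mem_cons_of_mem _ (List.mem_cons_of_mem _ (List.mem_cons_of_mem _ (List.mem_cons_of_mem _ (List.mem_cons_of_mem _ (List.mem_cons_of_mem _ (List.mem_cons_of_mem _ (List.mem_cons_of_mem _ (List.mem_cons_of_mem _ (List.mem_cons_of_mem _ (List.mem_cons_of_mem _ (List.mem_cons_of_mem _ (List.mem_cons_of_mem _ (List.mem_cons_of_mem _ (List.mem_cons_of_mem _ (List.mem_cons_self))))))))))))))))))))))), ?_⟩, by norm_num⟩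
  constructor <;> norm_num [Q23, coCell, C20]

lemma lcell20 : ∀ x1 x2 xc : ℝ, 0 ≤ x1 → x1 ≤ 1 → 0 ≤ x2 → x2 ≤ 1 → C20.l ≤ xc → xc ≤ C20.u →
    (56943 / 65536 : ℝ) * (1 - (1 - x1) ^ 5) + (967365 / 65536 : ℝ) * (1 - (1 - x2) ^ 5) - ((410789 / 32768 : ℝ) + (119 / 256 : ℝ)) * (1 - (1 - xc) ^ 5)
      ≤ - C20.a1 * x1 - C20.a2 * x2 + C20.e * xc + C20.f := by
  have h := cell_lines 5 (α1 := (56943 / 65536 : ℝ)) (α2 := (967365 / 65536 : ℝ)) (c := (410789 / 32768 : ℝ) + (119 / 256 : ℝ)) (y1 := (16987 / 262144 : ℝ)) (y2 := (19783 / 262144 : ℝ))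
    (A1 := (3484559 / 1048576 : ℝ)) (B1 := (2146305 / 67108864 : ℝ)) (A2 := (28271029 / 524288 : ℝ)) (B2 := (96744839 / 134217728 : ℝ)) (l := (21747 / 262144 : ℝ)) (u := (2961 / 32768 : ℝ))
    (E := (-94869025 / 2097152 : ℝ)) (F := (-109577743 / 134217728 : ℝ)) (by norm_num) (by norm_num) (by norm_num) (by norm_num) (by norm_num)
    (by norm_num) (by norm_num) (by norm_num) (by norm_num) (by norm_num) (by norm_num) (by norm_num) (by norm_num) (by norm_num) (by norm_num)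
  have e1 : C20.l = (21747 / 262144 : ℝ) := rfl
  have e2 : C20.u = (2961 / 32768 : ℝ) := rfl
  have e3 : C20.a1 = -(3484559 / 1048576 : ℝ) := by norm_num [C20]
  have e4 : C20.a2 = -(28271029 / 524288 : ℝ) := by norm_num [C20]
  have e5 : C20.e = (-94869025 / 2097152 : ℝ) := rfl
  have e6 : C20.f = (2146305 / 67108864 : ℝ) + (96744839 / 134217728 : ℝ) + (-109577743 / 134217728 : ℝ) := by norm_num [C20]
  rw [e1, e2, e3, e4, e5, e6]
  exact h

lemma rcell21 : ∃ N : ℝ, Rw4 P.r2 N (coCell (56943 / 65536 : ℝ) (967365 / 65536 : ℝ) ((410789 / 32768 : ℝ) + (119 / 256 : ℝ)) (19 / 1024 : ℝ) C21) := by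
  refine ⟨(2415919104 : ℝ), ⟨Q24, List.mem_cons_of_mem _ (List.mem_cons_of_mem _ (List.mem_cons_of_mem _ (List.mem_cons_of_mem _ (List.mem_cons_of_mem _ (List.mem_cons_of_mem _ (List.mem_cons_of_mem _ (List.mem_cons_of_mem _ (List.mem_cons_of_mem _ (List.mem_cons_of_mem _ (List.mem_cons_of_mem _ (List.mem_cons_of_mem _ (List.mem_cons_of_mem _ (List.mem_cons_of_mem _ (List.mem_cons_of_mem _ (List.mem_cons_of_mem _ (List.mem_cons_of_mem _ (List.mem_cons_of_mem _ (List.mem_cons_of_mem _ (List.mem_cons_of_mem _ (List.mem_cons_of_mem _ (List.mem_cons_of_mem _ (List.mem_cons_of_mem _ (List.mem_cons_of_mem _ (List.mem_cons_self)))))))))))))))))))))))), ?_⟩, by norm_num⟩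
  constructor <;> norm_num [Q24, coCell, C21]

lemma lcell21 : ∀ x1 x2 xc : ℝ, 0 ≤ x1 → x1 ≤ 1 → 0 ≤ x2 → x2 ≤ 1 → C21.l ≤ xc → xc ≤ C21.u →
    (56943 / 65536 : ℝ) * (1 - (1 - x1) ^ 5) + (967365 / 65536 : ℝ) * (1 - (1 - x2) ^ 5) - ((410789 / 32768 : ℝ) + (119 / 256 : ℝ)) * (1 - (1 - xc) ^ 5)
      ≤ - C21.a1 * x1 - C21.a2 * x2 + C21.e * xc + C21.f := by
  have h := cell_lines 5 (α1 := (56943 / 65536 : ℝ)) (α2 := (967365 / 65536 : ℝ)) (c := (410789 / 32768 : ℝ) + (119 / 256 : ℝ)) (y1 := (18967 / 262144 : ℝ)) (y2 := (21 / 256 : ℝ))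
    (A1 := (105417 / 32768 : ℝ)) (B1 := (10537211 / 268435456 : ℝ)) (A2 := (219812273 / 4194304 : ℝ)) (B2 := (112759203 / 134217728 : ℝ)) (l := (2961 / 32768 : ℝ)) (u := (25803 / 262144 : ℝ))
    (E := (-91696005 / 2097152 : ℝ)) (F := (-63963981 / 67108864 : ℝ)) (by norm_num) (by norm_num) (by norm_num) (by norm_num) (by norm_num)
    (by norm_num) (by norm_num) (by norm_num) (by norm_num) (by norm_num) (by norm_num) (by norm_num) (by norm_num) (by norm_num) (by norm_num)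
  have e1 : C21.l = (2961 / 32768 : ℝ) := rfl
  have e2 : C21.u = (25803 / 262144 : ℝ) := rfl
  have e3 : C21.a1 = -(105417 / 32768 : ℝ) := by norm_num [C21]
  have e4 : C21.a2 = -(219812273 / 4194304 : ℝ) := by norm_num [C21]
  have e5 : C21.e = (-91696005 / 2097152 : ℝ) := rfl
  have e6 : C21.f = (10537211 / 268435456 : ℝ) + (112759203 / 134217728 : ℝ) + (-63963981 / 67108864 : ℝ) := by norm_num [C21]
  rw [e1, e2, e3, e4, e5, e6]
  exact h

lemma rcell22 : ∃ N : ℝ, Rw4 P.r2 N (coCell (56943 / 65536 : ℝ) (967365 / 65536 : ℝ) ((410789 / 32768 : ℝ) + (119 / 256 : ℝ)) (19 / 1024 : ℝ) C22) := by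
  refine ⟨(150994944 : ℝ), ⟨Q25, List.mem_cons_of_mem _ (List.mem_cons_of_mem _ (List.mem_cons_of_mem _ (List.mem_cons_of_mem _ (List.mem_cons_of_mem _ (List.mem_cons_of_mem _ (List.mem_cons_of_mem _ (List.mem_cons_of_mem _ (List.mem_cons_of_mem _ (List.mem_cons_of_mem _ (List.mem_cons_of_mem _ (List.mem_cons_of_mem _ (List.mem_cons_of_mem _ (List.mem_cons_of_mem _ (List.mem_cons_of_mem _ (List.mem_cons_of_mem _ (List.mem_cons_of_mem _ (List.mem_cons_of_mem _ (List.mem_cons_of_mem _ (List.mem_cons_of_mem _ (List.mem_cons_of_mem _ (List.mem_cons_of_mem _ (List.mem_cons_of_mem _ (List.mem_cons_of_mem _ (List.mem_cons_of_mem _ (List.mem_cons_self))))))))))))))))))))))))), ?_⟩, by norm_num⟩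
  constructor <;> norm_num [Q25, coCell, C22]

lemma lcell22 : ∀ x1 x2 xc : ℝ, 0 ≤ x1 → x1 ≤ 1 → 0 ≤ x2 → x2 ≤ 1 → C22.l ≤ xc → xc ≤ C22.u →
    (56943 / 65536 : ℝ) * (1 - (1 - x1) ^ 5) + (967365 / 65536 : ℝ) * (1 - (1 - x2) ^ 5) - ((410789 / 32768 : ℝ) + (119 / 256 : ℝ)) * (1 - (1 - xc) ^ 5)
      ≤ - C22.a1 * x1 - C22.a2 * x2 + C22.e * xc + C22.f := by
  have h := cell_lines 5 (α1 := (56943 / 65536 : ℝ)) (α2 := (967365 / 65536 : ℝ)) (c := (410789 / 32768 : ℝ) + (119 / 256 : ℝ)) (y1 := (617 / 8192 : ℝ)) (y2 := (23031 / 262144 : ℝ))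
    (A1 := (832609 / 262144 : ℝ)) (B1 := (1418531 / 33554432 : ℝ)) (A2 := (107142905 / 2097152 : ℝ)) (B2 := (31944903 / 33554432 : ℝ)) (l := (25803 / 262144 : ℝ)) (u := (14053 / 131072 : ℝ))
    (E := (-176662279 / 4194304 : ℝ)) (F := (-9320321 / 8388608 : ℝ)) (by norm_num) (by norm_num) (by norm_num) (by norm_num) (by norm_num)
    (by norm_num) (by norm_num) (by norm_num) (by norm_num) (by norm_num) (by norm_num) (by norm_num) (by norm_num) (by norm_num) (by norm_num)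
  have e1 : C22.l = (25803 / 262144 : ℝ) := rfl
  have e2 : C22.u = (14053 / 131072 : ℝ) := rfl
  have e3 : C22.a1 = -(832609 / 262144 : ℝ) := by norm_num [C22]
  have e4 : C22.a2 = -(107142905 / 2097152 : ℝ) := by norm_num [C22]
  have e5 : C22.e = (-176662279 / 4194304 : ℝ) := rfl
  have e6 : C22.f = (1418531 / 33554432 : ℝ) + (31944903 / 33554432 : ℝ) + (-9320321 / 8388608 : ℝ) := by norm_num [C22]
  rw [e1, e2, e3, e4, e5, e6]
  exact h

lemma rcell23 : ∃ N : ℝ, Rw4 P.r2 N (coCell (56943 / 65536 : ℝ) (967365 / 65536 : ℝ) ((410789 / 32768 : ℝ) + (119 / 256 : ℝ)) (19 / 1024 : ℝ) C23) := by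
  refine ⟨(603979776 : ℝ), ⟨Q26, List.mem_cons_of_mem _ (List.mem_cons_of_mem _ (List.mem_cons_of_mem _ (List.mem_cons_of_mem _ (List.mem_cons_of_mem _ (List.mem_cons_of_mem _ (List.mem_cons_of_mem _ (List.mem_cons_of_mem _ (List.mem_cons_of_mem _ (List.mem_cons_of_mem _ (List.mem_cons_of_mem _ (List.mem_cons_of_mem _ (List.mem_cons_of_mem _ (List.mem_cons_of_mem _ (List.mem_cons_of_mem _ (List.mem_cons_of_mem _ (List.mem_cons_of_mem _ (List.mem_cons_of_mem _ (List.mem_cons_of_mem _ (List.mem_cons_of_mem _ (List.mem_cons_of_mem _ (List.mem_cons_of_mem _ (List.mem_cons_of_mem _ (List.mem_cons_of_mem _ (List.mem_cons_of_mem _ (List.mem_cons_of_mem _ (List.mem_cons_self)))))))))))))))))))))))))), ?_⟩, by norm_num⟩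
  constructor <;> norm_num [Q26, coCell, C23]

lemma lcell23 : ∀ x1 x2 xc : ℝ, 0 ≤ x1 → x1 ≤ 1 → 0 ≤ x2 → x2 ≤ 1 → C23.l ≤ xc → xc ≤ C23.u →
    (56943 / 65536 : ℝ) * (1 - (1 - x1) ^ 5) + (967365 / 65536 : ℝ) * (1 - (1 - x2) ^ 5) - ((410789 / 32768 : ℝ) + (119 / 256 : ℝ)) * (1 - (1 - xc) ^ 5)
      ≤ - C23.a1 * x1 - C23.a2 * x2 + C23.e * xc + C23.f := by
  have h := cell_lines 5 (α1 := (56943 / 65536 : ℝ)) (α2 := (967365 / 65536 : ℝ)) (c := (410789 / 32768 : ℝ) + (119 / 256 : ℝ)) (y1 := (21779 / 262144 : ℝ)) (y2 := (12497 / 131072 : ℝ))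
    (A1 := (12879991 / 4194304 : ℝ)) (B1 := (13586889 / 268435456 : ℝ)) (A2 := (207335265 / 4194304 : ℝ)) (B2 := (18518713 / 16777216 : ℝ)) (l := (14053 / 131072 : ℝ)) (u := (3827 / 32768 : ℝ))
    (E := (-169543671 / 4194304 : ℝ)) (F := (-347096853 / 268435456 : ℝ)) (by norm_num) (by norm_num) (by norm_num) (by norm_num) (by norm_num)
    (by norm_num) (by norm_num) (by norm_num) (by norm_num) (by norm_num) (by norm_num) (by norm_num) (by norm_num) (by norm_num) (by norm_num)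
  have e1 : C23.l = (14053 / 131072 : ℝ) := rfl
  have e2 : C23.u = (3827 / 32768 : ℝ) := rfl
  have e3 : C23.a1 = -(12879991 / 4194304 : ℝ) := by norm_num [C23]
  have e4 : C23.a2 = -(207335265 / 4194304 : ℝ) := by norm_num [C23]
  have e5 : C23.e = (-169543671 / 4194304 : ℝ) := rfl
  have e6 : C23.f = (13586889 / 268435456 : ℝ) + (18518713 / 16777216 : ℝ) + (-347096853 / 268435456 : ℝ) := by norm_num [C23]
  rw [e1, e2, e3, e4, e5, e6]
  exact h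

lemma rcell24 : ∃ N : ℝ, Rw4 P.r2 N (coCell (56943 / 65536 : ℝ) (967365 / 65536 : ℝ) ((410789 / 32768 : ℝ) + (119 / 256 : ℝ)) (19 / 1024 : ℝ) C24) := by
  refine ⟨(2415919104 : ℝ), ⟨Q27, List.mem_cons_of_mem _ (List.mem_cons_of_mem _ (List.mem_cons_of_mem _ (List.mem_cons_of_mem _ (List.mem_cons_of_mem _ (List.mem_cons_of_mem _ (List.mem_cons_of_mem _ (List.mem_cons_of_mem _ (List.mem_cons_of_mem _ (List.mem_cons_of_mem _ (List.mem_cons_of_mem _ (List.mem_cons_of_mem _ (List.mem_cons_of_mem _ (List.mem_cons_of_mem _ (List.mem_cons_of_mem _ (List.mem_cons_of_mem _ (List.mem_cons_of_mem _ (List.mem_cons_of_mem _ (List.mem_cons_of_mem _ (List.mem_cons_of_mem _ (List.mem_cons_of_mem _ (List.mem_cons_of_mem _ (List.mem_cons_of_mem _ (List.mem_cons_of_mem _ (List.mem_cons_of_mem _ (List.mem_cons_of_mem _ (List.mem_cons_of_mem _ (List.mem_cons_self))))))))))))))))))))))))))), ?_⟩, by norm_num⟩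
  constructor <;> norm_num [Q27, coCell, C24]

lemma lcell24 : ∀ x1 x2 xc : ℝ, 0 ≤ x1 → x1 ≤ 1 → 0 ≤ x2 → x2 ≤ 1 → C24.l ≤ xc → xc ≤ C24.u →
    (56943 / 65536 : ℝ) * (1 - (1 - x1) ^ 5) + (967365 / 65536 : ℝ) * (1 - (1 - x2) ^ 5) - ((410789 / 32768 : ℝ) + (119 / 256 : ℝ)) * (1 - (1 - xc) ^ 5)
      ≤ - C24.a1 * x1 - C24.a2 * x2 + C24.e * xc + C24.f := by
  have h := cell_lines 5 (α1 := (56943 / 65536 : ℝ)) (α2 := (967365 / 65536 : ℝ)) (c := (410789 / 32768 : ℝ) + (119 / 256 : ℝ)) (y1 := (11675 / 131072 : ℝ)) (y2 := (26661 / 262144 : ℝ))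
    (A1 := (12546549 / 4194304 : ℝ)) (B1 := (7711791 / 134217728 : ℝ)) (A2 := (201566753 / 4194304 : ℝ)) (B2 := (332668869 / 268435456 : ℝ)) (l := (3827 / 32768 : ℝ)) (u := (33349 / 262144 : ℝ))
    (E := (-162036415 / 4194304 : ℝ)) (F := (-100802665 / 67108864 : ℝ)) (by norm_num) (by norm_num) (by norm_num) (by norm_num) (by norm_num)
    (by norm_num) (by norm_num) (by norm_num) (by norm_num) (by norm_num) (by norm_num) (by norm_num) (by norm_num) (by norm_num) (by norm_num)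
  have e1 : C24.l = (3827 / 32768 : ℝ) := rfl
  have e2 : C24.u = (33349 / 262144 : ℝ) := rfl
  have e3 : C24.a1 = -(12546549 / 4194304 : ℝ) := by norm_num [C24]
  have e4 : C24.a2 = -(201566753 / 4194304 : ℝ) := by norm_num [C24]
  have e5 : C24.e = (-162036415 / 4194304 : ℝ) := rfl
  have e6 : C24.f = (7711791 / 134217728 : ℝ) + (332668869 / 268435456 : ℝ) + (-100802665 / 67108864 : ℝ) := by norm_num [C24]
  rw [e1, e2, e3, e4, e5, e6]
  exact h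

lemma rcell25 : ∃ N : ℝ, Rw4 P.r2 N (coCell (56943 / 65536 : ℝ) (967365 / 65536 : ℝ) ((410789 / 32768 : ℝ) + (119 / 256 : ℝ)) (19 / 1024 : ℝ) C25) := by
  refine ⟨(603979776 : ℝ), ⟨Q28, List.mem_cons_of_mem _ (List.mem_cons_of_mem _ (List.mem_cons_of_mem _ (List.mem_cons_of_mem _ (List.mem_cons_of_mem _ (List.mem_cons_of_mem _ (List.mem_cons_of_mem _ (List.mem_cons_of_mem _ (List.mem_cons_of_mem _ (List.mem_cons_of_mem _ (List.mem_cons_of_mem _ (List.mem_cons_of_mem _ (List.mem_cons_of_mem _ (List.mem_cons_of_mem _ (List.mem_cons_of_mem _ (List.mem_cons_of_mem _ (List.mem_cons_of_mem _ (List.mem_cons_of_mem _ (List.mem_cons_of_mem _ (List.mem_cons_of_mem _ (List.mem_cons_of_mem _ (List.mem_cons_of_mem _ (List.mem_cons_of_mem _ (List.mem_cons_of_mem _ (List.mem_cons_of_mem _ (List.mem_cons_of_mem _ (List.mem_cons_of_mem _ (List.mem_cons_of_mem _ (List.mem_cons_self)))))))))))))))))))))))))))),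 ?_⟩, by norm_num⟩
  constructor <;> norm_num [Q28, coCell, C25]

lemma lcell25 : ∀ x1 x2 xc : ℝ, 0 ≤ x1 → x1 ≤ 1 → 0 ≤ x2 → x2 ≤ 1 → C25.l ≤ xc → xc ≤ C25.u →
    (56943 / 65536 : ℝ) * (1 - (1 - x1) ^ 5) + (967365 / 65536 : ℝ) * (1 - (1 - x2) ^ 5) - ((410789 / 32768 : ℝ) + (119 / 256 : ℝ)) * (1 - (1 - xc) ^ 5)
      ≤ - C25.a1 * x1 - C25.a2 * x2 + C25.e * xc + C25.f := by
  have h := cell_lines 5 (α1 := (56943 / 65536 : ℝ)) (α2 := (967365 / 65536 : ℝ)) (c := (410789 / 32768 : ℝ) + (119 / 256 : ℝ)) (y1 := (24955 / 262144 : ℝ)) (y2 := (28473 / 262144 : ℝ))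
    (A1 := (12212619 / 4194304 : ℝ)) (B1 := (17392417 / 268435456 : ℝ)) (A2 := (97716957 / 2097152 : ℝ)) (B2 := (186969497 / 134217728 : ℝ)) (l := (33349 / 262144 : ℝ)) (u := (18163 / 131072 : ℝ))
    (E := (-154147313 / 4194304 : ℝ)) (F := (-467442511 / 268435456 : ℝ)) (by norm_num) (by norm_num) (by norm_num) (by norm_num) (by norm_num)
    (by norm_num) (by norm_num) (by norm_num) (by norm_num) (by norm_num) (by norm_num) (by norm_num) (by norm_num) (by norm_num) (by norm_num)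
  have e1 : C25.l = (33349 / 262144 : ℝ) := rfl
  have e2 : C25.u = (18163 / 131072 : ℝ) := rfl
  have e3 : C25.a1 = -(12212619 / 4194304 : ℝ) := by norm_num [C25]
  have e4 : C25.a2 = -(97716957 / 2097152 : ℝ) := by norm_num [C25]
  have e5 : C25.e = (-154147313 / 4194304 : ℝ) := rfl
  have e6 : C25.f = (17392417 / 268435456 : ℝ) + (186969497 / 134217728 : ℝ) + (-467442511 / 268435456 : ℝ) := by norm_num [C25]
  rw [e1, e2, e3, e4, e5, e6]
  exact h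

lemma rcell26 : ∃ N : ℝ, Rw4 P.r2 N (coCell (56943 / 65536 : ℝ) (967365 / 65536 : ℝ) ((410789 / 32768 : ℝ) + (119 / 256 : ℝ)) (19 / 1024 : ℝ) C26) := by
  refine ⟨(301989888 : ℝ), ⟨Q29, List.mem_cons_of_mem _ (List.mem_cons_of_mem _ (List.mem_cons_of_mem _ (List.mem_cons_of_mem _ (List.mem_cons_of_mem _ (List.mem_cons_of_mem _ (List.mem_cons_of_mem _ (List.mem_cons_of_mem _ (List.mem_cons_of_mem _ (List.mem_cons_of_mem _ (List.mem_cons_of_mem _ (List.mem_cons_of_mem _ (List.mem_cons_of_mem _ (List.mem_cons_of_mem _ (List.mem_cons_of_mem _ (List.mem_cons_of_mem _ (List.mem_cons_of_mem _ (List.mem_cons_of_mem _ (List.mem_cons_of_mem _ (List.mem_cons_of_mem _ (List.mem_cons_of_mem _ (List.mem_cons_of_mem _ (List.mem_cons_of_mem _ (List.mem_cons_of_mem _ (List.mem_cons_of_mem _ (List.mem_cons_of_mem _ (List.mem_cons_of_mem _ (List.mem_cons_of_mem _ (List.mem_cons_of_mem _ (List.mem_cons_self))))))))))))))))))))))))))))),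 ?_⟩, by norm_num⟩
  constructor <;> norm_num [Q29, coCell, C26]

lemma lcell26 : ∀ x1 x2 xc : ℝ, 0 ≤ x1 → x1 ≤ 1 → 0 ≤ x2 → x2 ≤ 1 → C26.l ≤ xc → xc ≤ C26.u →
    (56943 / 65536 : ℝ) * (1 - (1 - x1) ^ 5) + (967365 / 65536 : ℝ) * (1 - (1 - x2) ^ 5) - ((410789 / 32768 : ℝ) + (119 / 256 : ℝ)) * (1 - (1 - xc) ^ 5)
      ≤ - C26.a1 * x1 - C26.a2 * x2 + C26.e * xc + C26.f := by
  have h := cell_lines 5 (α1 := (56943 / 65536 : ℝ)) (α2 := (967365 / 65536 : ℝ)) (c := (410789 / 32768 : ℝ) + (119 / 256 : ℝ)) (y1 := (845 / 8192 : ℝ)) (y2 := (30333 / 262144 : ℝ))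
    (A1 := (5894415 / 2097152 : ℝ)) (B1 := (20081749 / 268435456 : ℝ)) (A2 := (23660659 / 524288 : ℝ)) (B2 := (418071239 / 268435456 : ℝ)) (l := (18163 / 131072 : ℝ)) (u := (39569 / 262144 : ℝ))
    (E := (-72942735 / 2097152 : ℝ)) (F := (-135178481 / 67108864 : ℝ)) (by norm_num) (by norm_num) (by norm_num) (by norm_num) (by norm_num)
    (by norm_num) (by norm_num) (by norm_num) (by norm_num) (by norm_num) (by norm_num) (by norm_num) (by norm_num) (by norm_num) (by norm_num)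
  have e1 : C26.l = (18163 / 131072 : ℝ) := rfl
  have e2 : C26.u = (39569 / 262144 : ℝ) := rfl
  have e3 : C26.a1 = -(5894415 / 2097152 : ℝ) := by norm_num [C26]
  have e4 : C26.a2 = -(23660659 / 524288 : ℝ) := by norm_num [C26]
  have e5 : C26.e = (-72942735 / 2097152 : ℝ) := rfl
  have e6 : C26.f = (20081749 / 268435456 : ℝ) + (418071239 / 268435456 : ℝ) + (-135178481 / 67108864 : ℝ) := by norm_num [C26]
  rw [e1, e2, e3, e4, e5, e6]
  exact h

lemma rcell27 : ∃ N : ℝ, Rw4 P.r2 N (coCell (56943 / 65536 : ℝ) (967365 / 65536 : ℝ) ((410789 / 32768 : ℝ) + (119 / 256 : ℝ)) (19 / 1024 : ℝ) C27) := by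
  refine ⟨(1207959552 : ℝ), ⟨Q30, List.mem_cons_of_mem _ (List.mem_cons_of_mem _ (List.mem_cons_of_mem _ (List.mem_cons_of_mem _ (List.mem_cons_of_mem _ (List.mem_cons_of_mem _ (List.mem_cons_of_mem _ (List.mem_cons_of_mem _ (List.mem_cons_of_mem _ (List.mem_cons_of_mem _ (List.mem_cons_of_mem _ (List.mem_cons_of_mem _ (List.mem_cons_of_mem _ (List.mem_cons_of_mem _ (List.mem_cons_of_mem _ (List.mem_cons_of_mem _ (List.mem_cons_of_mem _ (List.mem_cons_of_mem _ (List.mem_cons_of_mem _ (List.mem_cons_of_mem _ (List.mem_cons_of_mem _ (List.mem_cons_of_mem _ (List.mem_cons_of_mem _ (List.mem_cons_of_mem _ (List.mem_cons_of_mem _ (List.mem_cons_of_mem _ (List.mem_cons_of_mem _ (List.mem_cons_of_mem _ (List.mem_cons_of_mem _ (List.mem_cons_of_mem _ (List.mem_cons_self)))))))))))))))))))))))))))))), ?_⟩, by norm_num⟩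
  constructor <;> norm_num [Q30, coCell, C27]

lemma lcell27 : ∀ x1 x2 xc : ℝ, 0 ≤ x1 → x1 ≤ 1 → 0 ≤ x2 → x2 ≤ 1 → C27.l ≤ xc → xc ≤ C27.u →
    (56943 / 65536 : ℝ) * (1 - (1 - x1) ^ 5) + (967365 / 65536 : ℝ) * (1 - (1 - x2) ^ 5) - ((410789 / 32768 : ℝ) + (119 / 256 : ℝ)) * (1 - (1 - xc) ^ 5)
      ≤ - C27.a1 * x1 - C27.a2 * x2 + C27.e * xc + C27.f := by
  have h := cell_lines 5 (α1 := (56943 / 65536 : ℝ)) (α2 := (967365 / 65536 : ℝ)) (c := (410789 / 32768 : ℝ) + (119 / 256 : ℝ)) (y1 := (27903 / 262144 : ℝ)) (y2 := (31835 / 262144 : ℝ))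
    (A1 := (11616687 / 4194304 : ℝ)) (B1 := (5309065 / 67108864 : ℝ)) (A2 := (92213457 / 2097152 : ℝ)) (B2 := (454937775 / 268435456 : ℝ)) (l := (39569 / 262144 : ℝ)) (u := (169 / 1024 : ℝ))
    (E := (-68534291 / 2097152 : ℝ)) (F := (-625888593 / 268435456 : ℝ)) (by norm_num) (by norm_num) (by norm_num) (by norm_num) (by norm_num)
    (by norm_num) (by norm_num) (by norm_num) (by norm_num) (by norm_num) (by norm_num) (by norm_num) (by norm_num) (by norm_num) (by norm_num)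
  have e1 : C27.l = (39569 / 262144 : ℝ) := rfl
  have e2 : C27.u = (169 / 1024 : ℝ) := rfl
  have e3 : C27.a1 = -(11616687 / 4194304 : ℝ) := by norm_num [C27]
  have e4 : C27.a2 = -(92213457 / 2097152 : ℝ) := by norm_num [C27]
  have e5 : C27.e = (-68534291 / 2097152 : ℝ) := rfl
  have e6 : C27.f = (5309065 / 67108864 : ℝ) + (454937775 / 268435456 : ℝ) + (-625888593 / 268435456 : ℝ) := by norm_num [C27]
  rw [e1, e2, e3, e4, e5, e6]
  exact h

/-- The whole chain. -/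
lemma chain {lam : ℝ} (h0 : -(1 / 2) < lam) (h1 : lam < 1) (hB : BoxS lam P 0 HH 0 HH) :
    ∃ n, 1 - En 5 lam n mc ≤ (169 / 1024 : ℝ) := (start_of_box h0 h1 hB _ rc3)

/-- The hypotheses at the origin. -/
lemma horig (lam : ℝ) (hd : (5 : ℝ) * lam ^ 2 = 1) (hb : |lam| ≤ (1920767767 / 4294967296 : ℝ)) :
    OriginH 5 lam (56943 / 65536 : ℝ) (967365 / 65536 : ℝ) (410789 / 32768 : ℝ) (119 / 256 : ℝ) (19 / 1024 : ℝ) (27 / 512 : ℝ) (2177 / 2048 : ℝ) (1 / 256 : ℝ) 3298534883328 := by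
  refine originH_of_num (d := 5) (by push_cast; exact hd) hb (by norm_num) (by norm_num) (by norm_num) (by norm_num)
    (by norm_num) (by norm_num) (by norm_num) (by norm_num) (by norm_num) (by norm_num) (by norm_num [S]) (by norm_num) ?_ ?_
  · rw [hch]
    norm_num [abs_of_pos, abs_of_neg]
  · norm_num [abs_of_pos, abs_of_neg]

/-- Nonreconstruction at the bound. -/
theorem main : Tendsto (reconError 3 5 (1 / Real.sqrt 5)) atTop (𝓝 0) := by
  have hsq' : Real.sqrt (5 : ℝ) ^ 2 = 5 := by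
    rw [Real.sq_sqrt (by positivity)]
  have hs0 : 0 < Real.sqrt (5 : ℝ) := Real.sqrt_pos.2 (by norm_num)
  have hl2 : ((5 : ℝ)) * (1 / Real.sqrt 5) ^ 2 = 1 := by
    have : (1 / Real.sqrt (5 : ℝ)) ^ 2 = 1 / 5 := by
      rw [div_pow, hsq']; norm_num
    rw [this]; norm_num
  have hb : |(1 / Real.sqrt (5 : ℝ))| ≤ (1920767767 / 4294967296 : ℝ) := by
    rw [abs_of_pos (by positivity)]
    rw [div_le_iff₀ hs0]
    have h1 : (1 : ℝ) ^ 2 ≤ ((1920767767 / 4294967296 : ℝ) * Real.sqrt 5) ^ 2 := by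
      rw [mul_pow, hsq']; norm_num
    exact le_of_sq_le_sq h1 (by positivity)
  have hb2 : (-(1 / 2) : ℝ) < 1 / Real.sqrt (5 : ℝ) := by
    have : 0 < 1 / Real.sqrt (5 : ℝ) := by positivity
    linarith
  have h1 : (1 / Real.sqrt (5 : ℝ)) < 1 := by
    have h2 := (abs_le.1 hb).2
    have h3 : ((1920767767 / 4294967296 : ℝ) : ℝ) < 1 := by norm_num
    linarith
  have hlam : |(S : ℝ) * (1 / Real.sqrt (5 : ℝ)) - ((P.lp : ℝ) - P.ln)| ≤ ((1 : ℕ) : ℝ) := by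
    have h := lam_enc_pos 5 32225135712778084 (by norm_num) (by norm_num [S]) (by norm_num [S])
    have e : ((5 : ℕ) : ℝ) = (5 : ℝ) := by norm_num
    rw [e] at h
    exact h
  obtain ⟨hOa, hON⟩ := horig _ hl2 hb
  have hB := box hlam
  refine final_of_boxB (d := 5) (by norm_num) hb2 h1 hB (56943 / 65536 : ℝ) (967365 / 65536 : ℝ) (410789 / 32768 : ℝ) (119 / 256 : ℝ) (27 / 512 : ℝ) (2177 / 2048 : ℝ) (15729 / 1048576 : ℝ) (2403 / 8192 : ℝ) (19 / 1024 : ℝ) (169 / 1024 : ℝ) cellsL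
    (by norm_num) (by norm_num) (by norm_num) (by norm_num) (by norm_num) (by norm_num) (by norm_num) (by norm_num)
    (by norm_num) (by norm_num) (by norm_num) (by norm_num) (by norm_num) hOa hON rTa rTb rc1 rc2
    (forall_cons rcell0 (forall_cons rcell1 (forall_cons rcell2 (forall_cons rcell3 (forall_cons rcell4 (forall_cons rcell5 (forall_cons rcell6 (forall_cons rcell7 (forall_cons rcell8 (forall_cons rcell9 (forall_cons rcell10 (forall_cons rcell11 (forall_cons rcell12 (forall_cons rcell13 (forall_cons rcell14 (forall_cons rcell15 (forall_cons rcell16 (forall_cons rcell17 (forall_cons rcell18 (forall_cons rcell19 (forall_cons rcell20 (forall_cons rcell21 (forall_cons rcell22 (forall_cons rcell23 (forall_cons rcell24 (forall_cons rcell25 (forall_cons rcell26 (forall_cons rcell27 (forall_nil))))))))))))))))))))))))))))) hcover (forall_cons lcell0 (forall_cons lcell1 (forall_cons lcell2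 (forall_cons lcell3 (forall_cons lcell4 (forall_cons lcell5 (forall_cons lcell6 (forall_cons lcell7 (forall_cons lcell8 (forall_cons lcell9 (forall_cons lcell10 (forall_cons lcell11 (forall_cons lcell12 (forall_cons lcell13 (forall_cons lcell14 (forall_cons lcell15 (forall_cons lcell16 (forall_cons lcell17 (forall_cons lcell18 (forall_cons lcell19 (forall_cons lcell20 (forall_cons lcell21 (forall_cons lcell22 (forall_cons lcell23 (forall_cons lcell24 (forall_cons lcell25 (forall_cons lcell26 (forall_cons lcell27 (forall_nil))))))))))))))))))))))))))))) (chain hb2 h1 hB)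

end Vale.Agent.P154H.Tm.P5
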