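import Vale.Agent.P154H.D.DP6
import Vale.Agent.P154H.PosEnc
import Vale.Agent.P154H.OriginW

open Filter Topology

set_option maxRecDepth 100000

/-!
Nonreconstruction at the Kesten-Stigum bound for `d = 6`, positive eigenvalue, by a chain of
potentials along the monotone quantity `1 - En`.
-/

namespace Vale.Agent.P154H.Tm.P6

open Vale.Agent.P154 Vale.Agent.P154H

/-- A chord cell. -/
noncomputable def C0 : Cell := ⟨(5243 / 1048576 : ℝ), (1489 / 262144 : ℝ), (-21441131 / 4194304 : ℝ), (-90660031 / 1048576 : ℝ), (-159270539 / 2097152 : ℝ), (-30611 / 134217728 : ℝ)⟩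

/-- A chord cell. -/
noncomputable def C1 : Cell := ⟨(1489 / 262144 : ℝ), (423 / 65536 : ℝ), (-21382075 / 4194304 : ℝ), (-361453203 / 4194304 : ℝ), (-79344605 / 1048576 : ℝ), (-39379 / 134217728 : ℝ)⟩

/-- A chord cell. -/
noncomputable def C2 : Cell := ⟨(423 / 65536 : ℝ), (961 / 131072 : ℝ), (-21308029 / 4194304 : ℝ), (-360110403 / 4194304 : ℝ), (-158031035 / 2097152 : ℝ), (-6217 / 16777216 : ℝ)⟩

/-- A chord cell. -/
noncomputable def C3 : Cell := ⟨(961 / 131072 : ℝ), (273 / 32768 : ℝ), (-21211385 / 4194304 : ℝ), (-22413321 / 262144 : ℝ), (-314571669 / 4194304 : ℝ), (-131217 / 268435456 : ℝ)⟩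

/-- A chord cell. -/
noncomputable def C4 : Cell := ⟨(273 / 32768 : ℝ), (2481 / 262144 : ℝ), (-10573981 / 2097152 : ℝ), (-178433453 / 2097152 : ℝ), (-312885143 / 4194304 : ℝ), (-10383 / 16777216 : ℝ)⟩

/-- A chord cell. -/
noncomputable def C5 : Cell := ⟨(2481 / 262144 : ℝ), (2819 / 262144 : ℝ), (-164089 / 32768 : ℝ), (-354963481 / 4194304 : ℝ), (-310978121 / 4194304 : ℝ), (-215673 / 268435456 : ℝ)⟩

/-- A chord cell. -/
noncomputable def C6 : Cell := ⟨(2819 / 262144 : ℝ), (3203 / 262144 : ℝ), (-5228473 / 1048576 : ℝ), (-176360685 / 2097152 : ℝ), (-38602643 / 524288 : ℝ), (-263481 / 268435456 : ℝ)⟩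

/-- A chord cell. -/
noncomputable def C7 : Cell := ⟨(3203 / 262144 : ℝ), (3639 / 262144 : ℝ), (-5205773 / 1048576 : ℝ), (-175103319 / 2097152 : ℝ), (-38298243 / 524288 : ℝ), (-341679 / 268435456 : ℝ)⟩

/-- A chord cell. -/
noncomputable def C8 : Cell := ⟨(3639 / 262144 : ℝ), (4135 / 262144 : ℝ), (-1293691 / 262144 : ℝ), (-173691909 / 2097152 : ℝ), (-303636839 / 4194304 : ℝ), (-440767 / 268435456 : ℝ)⟩

/-- A chord cell. -/
noncomputable def C9 : Cell := ⟨(4135 / 262144 : ℝ), (2349 / 131072 : ℝ), (-20522833 / 4194304 : ℝ), (-344232435 / 4194304 : ℝ), (-300537141 / 4194304 : ℝ), (-570593 / 268435456 : ℝ)⟩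

/-- A chord cell. -/
noncomputable def C10 : Cell := ⟨(2349 / 131072 : ℝ), (5337 / 262144 : ℝ), (-20350567 / 4194304 : ℝ), (-85163545 / 1048576 : ℝ), (-297049649 / 4194304 : ℝ), (-726253 / 268435456 : ℝ)⟩

/-- A chord cell. -/
noncomputable def C11 : Cell := ⟨(5337 / 262144 : ℝ), (379 / 16384 : ℝ), (-20153269 / 4194304 : ℝ), (-84158497 / 1048576 : ℝ), (-73281443 / 1048576 : ℝ), (-464847 / 134217728 : ℝ)⟩

/-- A chord cell. -/
noncomputable def C12 : Cell := ⟨(379 / 16384 : ℝ), (6889 / 262144 : ℝ), (-2491443 / 524288 : ℝ), (-166053669 / 2097152 : ℝ), (-288718099 / 4194304 : ℝ), (-36791 / 8388608 : ℝ)⟩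

/-- A chord cell. -/
noncomputable def C13 : Cell := ⟨(6889 / 262144 : ℝ), (7827 / 262144 : ℝ), (-19734047 / 4194304 : ℝ), (-81752103 / 1048576 : ℝ), (-70943945 / 1048576 : ℝ), (-762267 / 134217728 : ℝ)⟩

/-- A chord cell. -/
noncomputable def C14 : Cell := ⟨(7827 / 262144 : ℝ), (8893 / 262144 : ℝ), (-4840193 / 1048576 : ℝ), (-321448147 / 4194304 : ℝ), (-278240403 / 4194304 : ℝ), (-1010875 / 134217728 : ℝ)⟩

/-- A chord cell. -/
noncomputable def C15 : Cell := ⟨(8893 / 262144 : ℝ), (1263 / 32768 : ℝ), (-19115701 / 4194304 : ℝ), (-157577691 / 2097152 : ℝ), (-8501759 / 131072 : ℝ), (-2799385 / 268435456 : ℝ)⟩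

/-- A chord cell. -/
noncomputable def C16 : Cell := ⟨(1263 / 32768 : ℝ), (1435 / 32768 : ℝ), (-18845699 / 4194304 : ℝ), (-77226633 / 1048576 : ℝ), (-8286387 / 131072 : ℝ), (-1402769 / 67108864 : ℝ)⟩

/-- A chord cell. -/
noncomputable def C17 : Cell := ⟨(1435 / 32768 : ℝ), (13043 / 262144 : ℝ), (-18628599 / 4194304 : ℝ), (-152827899 / 2097152 : ℝ), (-257505191 / 4194304 : ℝ), (-18909603 / 268435456 : ℝ)⟩

/-- A chord cell. -/
noncomputable def C18 : Cell := ⟨(13043 / 262144 : ℝ), (7409 / 131072 : ℝ), (-17993559 / 4194304 : ℝ), (-296463575 / 4194304 : ℝ), (-124511115 / 2097152 : ℝ), (-10143443 / 134217728 : ℝ)⟩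

/-- A chord cell. -/
noncomputable def C19 : Cell := ⟨(7409 / 131072 : ℝ), (4209 / 65536 : ℝ), (-17750445 / 4194304 : ℝ), (-284550773 / 4194304 : ℝ), (-239656295 / 4194304 : ℝ), (-16967205 / 268435456 : ℝ)⟩

/-- A chord cell. -/
noncomputable def C20 : Cell := ⟨(4209 / 65536 : ℝ), (2391 / 32768 : ℝ), (-16793657 / 4194304 : ℝ), (-273151445 / 4194304 : ℝ), (-28669815 / 524288 : ℝ), (-15796703 / 268435456 : ℝ)⟩

/-- A chord cell. -/
noncomputable def C21 : Cell := ⟨(2391 / 32768 : ℝ), (5433 / 65536 : ℝ), (-16176871 / 4194304 : ℝ), (-65512683 / 1048576 : ℝ), (-54523491 / 1048576 : ℝ), (-21120159 / 268435456 : ℝ)⟩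

/-- A chord cell. -/
noncomputable def C22 : Cell := ⟨(5433 / 65536 : ℝ), (24691 / 262144 : ℝ), (-15400455 / 4194304 : ℝ), (-250909869 / 4194304 : ℝ), (-102918693 / 2097152 : ℝ), (-8023635 / 67108864 : ℝ)⟩

/-- A chord cell. -/
noncomputable def C23 : Cell := ⟨(24691 / 262144 : ℝ), (28053 / 262144 : ℝ), (-14949911 / 4194304 : ℝ), (-30070789 / 524288 : ℝ), (-192587165 / 4194304 : ℝ), (-57422297 / 268435456 : ℝ)⟩

/-- A chord cell. -/
noncomputable def C24 : Cell := ⟨(28053 / 262144 : ℝ), (31873 / 262144 : ℝ), (-14314565 / 4194304 : ℝ), (-227946929 / 4194304 : ℝ), (-178370883 / 4194304 : ℝ), (-80492493 / 268435456 : ℝ)⟩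

/-- A chord cell. -/
noncomputable def C25 : Cell := ⟨(31873 / 262144 : ℝ), (71 / 512 : ℝ), (-6849499 / 2097152 : ℝ), (-108591575 / 2097152 : ℝ), (-163007073 / 4194304 : ℝ), (-32399461 / 67108864 : ℝ)⟩

/-- The chord cells. -/
noncomputable def cellsL : List Cell := [C0, C1, C2, C3, C4, C5, C6, C7, C8, C9, C10, C11, C12, C13, C14, C15, C16, C17, C18, C19, C20, C21, C22, C23, C24, C25]

lemma hcover : ∀ x : ℝ, (5243 / 1048576 : ℝ) ≤ x → x ≤ (71 / 512 : ℝ) → ∃ D ∈ cellsL, D.l ≤ x ∧ x ≤ D.u := by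
  refine cover_of_chain ?_ (by norm_num [C0])
  simp only [ChainP, C0, C1, C2, C3, C4, C5, C6, C7, C8, C9, C10, C11, C12, C13, C14, C15, C16, C17, C18, C19, C20, C21, C22, C23, C24, C25]
  norm_num

lemma hch : ((Nat.choose 6 2 : ℕ) : ℝ) = 15 := by norm_num [Nat.choose]

lemma rTa : Rw4 P.r1 (1179648 : ℝ) (coTa 6 (56943 / 65536 : ℝ) (967365 / 65536 : ℝ) (410789 / 32768 : ℝ) (119 / 256 : ℝ) (101 / 4096 : ℝ)) := by
  refine ⟨⟨Ra, List.mem_cons_self, ?_⟩, by norm_num⟩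
  constructor <;> norm_num [Ra, coTa, hch]

lemma rTb : Rw4 P.r1 (9895604649984 : ℝ) (coTb 6 (56943 / 65536 : ℝ) (967365 / 65536 : ℝ) (410789 / 32768 : ℝ) (119 / 256 : ℝ) (101 / 4096 : ℝ) (27 / 512 : ℝ) (2177 / 2048 : ℝ) (1217 / 8192 : ℝ)) := by
  refine ⟨⟨Rb, List.mem_cons_of_mem _ (List.mem_cons_self), ?_⟩, by norm_num⟩
  constructor <;> norm_num [Rb, coTb, hch]

lemma rc1 : Rw4 P.r2 (16777216 : ℝ) ⟨0, 0, 0, -(56943 / 65536 : ℝ), 0, 0, 0, 0, (410789 / 32768 : ℝ) * (27 / 512 : ℝ)⟩ := by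
  refine ⟨⟨Q0, List.mem_cons_self, ?_⟩, by norm_num⟩
  constructor <;> norm_num [Q0]

lemma rc2 : Rw4 P.r2 (67108864 : ℝ) ⟨0, 0, 0, 0, -(967365 / 65536 : ℝ), 0, 0, 0, (410789 / 32768 : ℝ) * (2177 / 2048 : ℝ)⟩ := by
  refine ⟨⟨Q1, List.mem_cons_of_mem _ (List.mem_cons_self), ?_⟩, by norm_num⟩
  constructor <;> norm_num [Q1]

lemma rc3 : Rw4 P.r2 (1536 : ℝ) ⟨0, 0, 0, 0, 0, -1, 0, 0, (71 / 512 : ℝ)⟩ := by
  refine ⟨⟨Q2, List.mem_cons_of_mem _ (List.mem_cons_of_mem _ (List.mem_cons_self)), ?_⟩, by norm_num⟩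
  constructor <;> norm_num [Q2]

lemma rcell0 : ∃ N : ℝ, Rw4 P.r2 N (coCell (56943 / 65536 : ℝ) (967365 / 65536 : ℝ) ((410789 / 32768 : ℝ) + (119 / 256 : ℝ)) (101 / 4096 : ℝ) C0) := by
  refine ⟨(1207959552 : ℝ), ⟨Q3, List.mem_cons_of_mem _ (List.mem_cons_of_mem _ (List.mem_cons_of_mem _ (List.mem_cons_self))), ?_⟩, by norm_num⟩
  constructor <;> norm_num [Q3, coCell, C0]

lemma lcell0 : ∀ x1 x2 xc : ℝ, 0 ≤ x1 → x1 ≤ 1 → 0 ≤ x2 → x2 ≤ 1 → C0.l ≤ xc → xc ≤ C0.u →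
    (56943 / 65536 : ℝ) * (1 - (1 - x1) ^ 6) + (967365 / 65536 : ℝ) * (1 - (1 - x2) ^ 6) - ((410789 / 32768 : ℝ) + (119 / 256 : ℝ)) * (1 - (1 - xc) ^ 6)
      ≤ - C0.a1 * x1 - C0.a2 * x2 + C0.e * xc + C0.f := by
  have h := cell_lines 6 (α1 := (56943 / 65536 : ℝ)) (α2 := (967365 / 65536 : ℝ)) (c := (410789 / 32768 : ℝ) + (119 / 256 : ℝ)) (y1 := (1027 / 262144 : ℝ)) (y2 := (629 / 131072 : ℝ))
    (A1 := (21441131 / 4194304 : ℝ)) (B1 := (53157 / 268435456 : ℝ)) (A2 := (90660031 / 1048576 : ℝ)) (B2 := (337839 / 67108864 : ℝ)) (l := (5243 / 1048576 : ℝ)) (u := (1489 / 262144 : ℝ))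
    (E := (-159270539 / 2097152 : ℝ)) (F := (-1465735 / 268435456 : ℝ)) (by norm_num) (by norm_num) (by norm_num) (by norm_num) (by norm_num)
    (by norm_num) (by norm_num) (by norm_num) (by norm_num) (by norm_num) (by norm_num) (by norm_num) (by norm_num) (by norm_num) (by norm_num)
  have e1 : C0.l = (5243 / 1048576 : ℝ) := rfl
  have e2 : C0.u = (1489 / 262144 : ℝ) := rfl
  have e3 : C0.a1 = -(21441131 / 4194304 : ℝ) := by norm_num [C0]
  have e4 : C0.a2 = -(90660031 / 1048576 : ℝ) := by norm_num [C0]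
  have e5 : C0.e = (-159270539 / 2097152 : ℝ) := rfl
  have e6 : C0.f = (53157 / 268435456 : ℝ) + (337839 / 67108864 : ℝ) + (-1465735 / 268435456 : ℝ) := by norm_num [C0]
  rw [e1, e2, e3, e4, e5, e6]
  exact h

lemma rcell1 : ∃ N : ℝ, Rw4 P.r2 N (coCell (56943 / 65536 : ℝ) (967365 / 65536 : ℝ) ((410789 / 32768 : ℝ) + (119 / 256 : ℝ)) (101 / 4096 : ℝ) C1) := by
  refine ⟨(1207959552 : ℝ), ⟨Q4, List.mem_cons_of_mem _ (List.mem_cons_of_mem _ (List.mem_cons_of_mem _ (List.mem_cons_of_mem _ (List.mem_cons_self)))), ?_⟩, by norm_num⟩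
  constructor <;> norm_num [Q4, coCell, C1]

lemma lcell1 : ∀ x1 x2 xc : ℝ, 0 ≤ x1 → x1 ≤ 1 → 0 ≤ x2 → x2 ≤ 1 → C1.l ≤ xc → xc ≤ C1.u →
    (56943 / 65536 : ℝ) * (1 - (1 - x1) ^ 6) + (967365 / 65536 : ℝ) * (1 - (1 - x2) ^ 6) - ((410789 / 32768 : ℝ) + (119 / 256 : ℝ)) * (1 - (1 - xc) ^ 6)
      ≤ - C1.a1 * x1 - C1.a2 * x2 + C1.e * xc + C1.f := by
  have h := cell_lines 6 (α1 := (56943 / 65536 : ℝ)) (α2 := (967365 / 65536 : ℝ)) (c := (410789 / 32768 : ℝ) + (119 / 256 : ℝ)) (y1 := (1171 / 262144 : ℝ)) (y2 := (1429 / 262144 : ℝ))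
    (A1 := (21382075 / 4194304 : ℝ)) (B1 := (8623 / 33554432 : ℝ)) (A2 := (361453203 / 4194304 : ℝ)) (B2 := (1740649 / 268435456 : ℝ)) (l := (1489 / 262144 : ℝ)) (u := (423 / 65536 : ℝ))
    (E := (-79344605 / 1048576 : ℝ)) (F := (-1888391 / 268435456 : ℝ)) (by norm_num) (by norm_num) (by norm_num) (by norm_num) (by norm_num)
    (by norm_num) (by norm_num) (by norm_num) (by norm_num) (by norm_num) (by norm_num) (by norm_num) (by norm_num) (by norm_num) (by norm_num)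
  have e1 : C1.l = (1489 / 262144 : ℝ) := rfl
  have e2 : C1.u = (423 / 65536 : ℝ) := rfl
  have e3 : C1.a1 = -(21382075 / 4194304 : ℝ) := by norm_num [C1]
  have e4 : C1.a2 = -(361453203 / 4194304 : ℝ) := by norm_num [C1]
  have e5 : C1.e = (-79344605 / 1048576 : ℝ) := rfl
  have e6 : C1.f = (8623 / 33554432 : ℝ) + (1740649 / 268435456 : ℝ) + (-1888391 / 268435456 : ℝ) := by norm_num [C1]
  rw [e1, e2, e3, e4, e5, e6]
  exact h

lemma rcell2 : ∃ N : ℝ, Rw4 P.r2 N (coCell (56943 / 65536 : ℝ) (967365 / 65536 : ℝ) ((410789 / 32768 : ℝ) + (119 / 256 : ℝ)) (101 / 4096 : ℝ) C2) := by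
  refine ⟨(150994944 : ℝ), ⟨Q5, List.mem_cons_of_mem _ (List.mem_cons_of_mem _ (List.mem_cons_of_mem _ (List.mem_cons_of_mem _ (List.mem_cons_of_mem _ (List.mem_cons_self))))), ?_⟩, by norm_num⟩
  constructor <;> norm_num [Q5, coCell, C2]

lemma lcell2 : ∀ x1 x2 xc : ℝ, 0 ≤ x1 → x1 ≤ 1 → 0 ≤ x2 → x2 ≤ 1 → C2.l ≤ xc → xc ≤ C2.u →
    (56943 / 65536 : ℝ) * (1 - (1 - x1) ^ 6) + (967365 / 65536 : ℝ) * (1 - (1 - x2) ^ 6) - ((410789 / 32768 : ℝ) + (119 / 256 : ℝ)) * (1 - (1 - xc) ^ 6)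
      ≤ - C2.a1 * x1 - C2.a2 * x2 + C2.e * xc + C2.f := by
  have h := cell_lines 6 (α1 := (56943 / 65536 : ℝ)) (α2 := (967365 / 65536 : ℝ)) (c := (410789 / 32768 : ℝ) + (119 / 256 : ℝ)) (y1 := (169 / 32768 : ℝ)) (y2 := (1623 / 262144 : ℝ))
    (A1 := (21308029 / 4194304 : ℝ)) (B1 := (91801 / 268435456 : ℝ)) (A2 := (360110403 / 4194304 : ℝ)) (B2 := (560221 / 67108864 : ℝ)) (l := (423 / 65536 : ℝ)) (u := (961 / 131072 : ℝ))
    (E := (-158031035 / 2097152 : ℝ)) (F := (-2432157 / 268435456 : ℝ)) (by norm_num) (by norm_num) (by norm_num) (by norm_num) (by norm_num)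
    (by norm_num) (by norm_num) (by norm_num) (by norm_num) (by norm_num) (by norm_num) (by norm_num) (by norm_num) (by norm_num) (by norm_num)
  have e1 : C2.l = (423 / 65536 : ℝ) := rfl
  have e2 : C2.u = (961 / 131072 : ℝ) := rfl
  have e3 : C2.a1 = -(21308029 / 4194304 : ℝ) := by norm_num [C2]
  have e4 : C2.a2 = -(360110403 / 4194304 : ℝ) := by norm_num [C2]
  have e5 : C2.e = (-158031035 / 2097152 : ℝ) := rfl
  have e6 : C2.f = (91801 / 268435456 : ℝ) + (560221 / 67108864 : ℝ) + (-2432157 / 268435456 : ℝ) := by norm_num [C2]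
  rw [e1, e2, e3, e4, e5, e6]
  exact h

lemma rcell3 : ∃ N : ℝ, Rw4 P.r2 N (coCell (56943 / 65536 : ℝ) (967365 / 65536 : ℝ) ((410789 / 32768 : ℝ) + (119 / 256 : ℝ)) (101 / 4096 : ℝ) C3) := by
  refine ⟨(2415919104 : ℝ), ⟨Q6, List.mem_cons_of_mem _ (List.mem_cons_of_mem _ (List.mem_cons_of_mem _ (List.mem_cons_of_mem _ (List.mem_cons_of_mem _ (List.mem_cons_of_mem _ (List.mem_cons_self)))))), ?_⟩, by norm_num⟩
  constructor <;> norm_num [Q6, coCell, C3]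

lemma lcell3 : ∀ x1 x2 xc : ℝ, 0 ≤ x1 → x1 ≤ 1 → 0 ≤ x2 → x2 ≤ 1 → C3.l ≤ xc → xc ≤ C3.u →
    (56943 / 65536 : ℝ) * (1 - (1 - x1) ^ 6) + (967365 / 65536 : ℝ) * (1 - (1 - x2) ^ 6) - ((410789 / 32768 : ℝ) + (119 / 256 : ℝ)) * (1 - (1 - xc) ^ 6)
      ≤ - C3.a1 * x1 - C3.a2 * x2 + C3.e * xc + C3.f := by
  have h := cell_lines 6 (α1 := (56943 / 65536 : ℝ)) (α2 := (967365 / 65536 : ℝ)) (c := (410789 / 32768 : ℝ) + (119 / 256 : ℝ)) (y1 := (1589 / 262144 : ℝ)) (y2 := (115 / 16384 : ℝ))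
    (A1 := (21211385 / 4194304 : ℝ)) (B1 := (126483 / 268435456 : ℝ)) (A2 := (22413321 / 262144 : ℝ)) (B2 := (1436905 / 134217728 : ℝ)) (l := (961 / 131072 : ℝ)) (u := (273 / 32768 : ℝ))
    (E := (-314571669 / 4194304 : ℝ)) (F := (-1565755 / 134217728 : ℝ)) (by norm_num) (by norm_num) (by norm_num) (by norm_num) (by norm_num)
    (by norm_num) (by norm_num) (by norm_num) (by norm_num) (by norm_num) (by norm_num) (by norm_num) (by norm_num) (by norm_num) (by norm_num)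
  have e1 : C3.l = (961 / 131072 : ℝ) := rfl
  have e2 : C3.u = (273 / 32768 : ℝ) := rfl
  have e3 : C3.a1 = -(21211385 / 4194304 : ℝ) := by norm_num [C3]
  have e4 : C3.a2 = -(22413321 / 262144 : ℝ) := by norm_num [C3]
  have e5 : C3.e = (-314571669 / 4194304 : ℝ) := rfl
  have e6 : C3.f = (126483 / 268435456 : ℝ) + (1436905 / 134217728 : ℝ) + (-1565755 / 134217728 : ℝ) := by norm_num [C3]
  rw [e1, e2, e3, e4, e5, e6]
  exact h

lemma rcell4 : ∃ N : ℝ, Rw4 P.r2 N (coCell (56943 / 65536 : ℝ) (967365 / 65536 : ℝ) ((410789 / 32768 : ℝ) + (119 / 256 : ℝ)) (101 / 4096 : ℝ) C4) := by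
  refine ⟨(150994944 : ℝ), ⟨Q7, List.mem_cons_of_mem _ (List.mem_cons_of_mem _ (List.mem_cons_of_mem _ (List.mem_cons_of_mem _ (List.mem_cons_of_mem _ (List.mem_cons_of_mem _ (List.mem_cons_of_mem _ (List.mem_cons_self))))))), ?_⟩, by norm_num⟩
  constructor <;> norm_num [Q7, coCell, C4]

lemma lcell4 : ∀ x1 x2 xc : ℝ, 0 ≤ x1 → x1 ≤ 1 → 0 ≤ x2 → x2 ≤ 1 → C4.l ≤ xc → xc ≤ C4.u →
    (56943 / 65536 : ℝ) * (1 - (1 - x1) ^ 6) + (967365 / 65536 : ℝ) * (1 - (1 - x2) ^ 6) - ((410789 / 32768 : ℝ) + (119 / 256 : ℝ)) * (1 - (1 - xc) ^ 6)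
      ≤ - C4.a1 * x1 - C4.a2 * x2 + C4.e * xc + C4.f := by
  have h := cell_lines 6 (α1 := (56943 / 65536 : ℝ)) (α2 := (967365 / 65536 : ℝ)) (c := (410789 / 32768 : ℝ) + (119 / 256 : ℝ)) (y1 := (1745 / 262144 : ℝ)) (y2 := (1047 / 131072 : ℝ))
    (A1 := (10573981 / 2097152 : ℝ)) (B1 := (76147 / 134217728 : ℝ)) (A2 := (178433453 / 2097152 : ℝ)) (B2 := (3712349 / 268435456 : ℝ)) (l := (273 / 32768 : ℝ)) (u := (2481 / 262144 : ℝ))
    (E := (-312885143 / 4194304 : ℝ)) (F := (-4030771 / 268435456 : ℝ)) (by norm_num) (by norm_num) (by norm_num) (by norm_num) (by norm_num)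
    (by norm_num) (by norm_num) (by norm_num) (by norm_num) (by norm_num) (by norm_num) (by norm_num) (by norm_num) (by norm_num) (by norm_num)
  have e1 : C4.l = (273 / 32768 : ℝ) := rfl
  have e2 : C4.u = (2481 / 262144 : ℝ) := rfl
  have e3 : C4.a1 = -(10573981 / 2097152 : ℝ) := by norm_num [C4]
  have e4 : C4.a2 = -(178433453 / 2097152 : ℝ) := by norm_num [C4]
  have e5 : C4.e = (-312885143 / 4194304 : ℝ) := rfl
  have e6 : C4.f = (76147 / 134217728 : ℝ) + (3712349 / 268435456 : ℝ) + (-4030771 / 268435456 : ℝ) := by norm_num [C4]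
  rw [e1, e2, e3, e4, e5, e6]
  exact h

lemma rcell5 : ∃ N : ℝ, Rw4 P.r2 N (coCell (56943 / 65536 : ℝ) (967365 / 65536 : ℝ) ((410789 / 32768 : ℝ) + (119 / 256 : ℝ)) (101 / 4096 : ℝ) C5) := by
  refine ⟨(2415919104 : ℝ), ⟨Q8, List.mem_cons_of_mem _ (List.mem_cons_of_mem _ (List.mem_cons_of_mem _ (List.mem_cons_of_mem _ (List.mem_cons_of_mem _ (List.mem_cons_of_mem _ (List.mem_cons_of_mem _ (List.mem_cons_of_mem _ (List.mem_cons_self)))))))), ?_⟩, by norm_num⟩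
  constructor <;> norm_num [Q8, coCell, C5]

lemma lcell5 : ∀ x1 x2 xc : ℝ, 0 ≤ x1 → x1 ≤ 1 → 0 ≤ x2 → x2 ≤ 1 → C5.l ≤ xc → xc ≤ C5.u →
    (56943 / 65536 : ℝ) * (1 - (1 - x1) ^ 6) + (967365 / 65536 : ℝ) * (1 - (1 - x2) ^ 6) - ((410789 / 32768 : ℝ) + (119 / 256 : ℝ)) * (1 - (1 - xc) ^ 6)
      ≤ - C5.a1 * x1 - C5.a2 * x2 + C5.e * xc + C5.f := by
  have h := cell_lines 6 (α1 := (56943 / 65536 : ℝ)) (α2 := (967365 / 65536 : ℝ)) (c := (410789 / 32768 : ℝ) + (119 / 256 : ℝ)) (y1 := (1051 / 131072 : ℝ)) (y2 := (593 / 65536 : ℝ))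
    (A1 := (164089 / 32768 : ℝ)) (B1 := (220205 / 268435456 : ℝ)) (A2 := (354963481 / 4194304 : ℝ)) (B2 := (4750001 / 268435456 : ℝ)) (l := (2481 / 262144 : ℝ)) (u := (2819 / 262144 : ℝ))
    (E := (-310978121 / 4194304 : ℝ)) (F := (-5185879 / 268435456 : ℝ)) (by norm_num) (by norm_num) (by norm_num) (by norm_num) (by norm_num)
    (by norm_num) (by norm_num) (by norm_num) (by norm_num) (by norm_num) (by norm_num) (by norm_num) (by norm_num) (by norm_num) (by norm_num)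
  have e1 : C5.l = (2481 / 262144 : ℝ) := rfl
  have e2 : C5.u = (2819 / 262144 : ℝ) := rfl
  have e3 : C5.a1 = -(164089 / 32768 : ℝ) := by norm_num [C5]
  have e4 : C5.a2 = -(354963481 / 4194304 : ℝ) := by norm_num [C5]
  have e5 : C5.e = (-310978121 / 4194304 : ℝ) := rfl
  have e6 : C5.f = (220205 / 268435456 : ℝ) + (4750001 / 268435456 : ℝ) + (-5185879 / 268435456 : ℝ) := by norm_num [C5]
  rw [e1, e2, e3, e4, e5, e6]
  exact h

lemma rcell6 : ∃ N : ℝ, Rw4 P.r2 N (coCell (56943 / 65536 : ℝ) (967365 / 65536 : ℝ) ((410789 / 32768 : ℝ) + (119 / 256 : ℝ)) (101 / 4096 : ℝ) C6) := by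
  refine ⟨(2415919104 : ℝ), ⟨Q9, List.mem_cons_of_mem _ (List.mem_cons_of_mem _ (List.mem_cons_of_mem _ (List.mem_cons_of_mem _ (List.mem_cons_of_mem _ (List.mem_cons_of_mem _ (List.mem_cons_of_mem _ (List.mem_cons_of_mem _ (List.mem_cons_of_mem _ (List.mem_cons_self))))))))), ?_⟩, by norm_num⟩
  constructor <;> norm_num [Q9, coCell, C6]

lemma lcell6 : ∀ x1 x2 xc : ℝ, 0 ≤ x1 → x1 ≤ 1 → 0 ≤ x2 → x2 ≤ 1 → C6.l ≤ xc → xc ≤ C6.u →
    (56943 / 65536 : ℝ) * (1 - (1 - x1) ^ 6) + (967365 / 65536 : ℝ) * (1 - (1 - x2) ^ 6) - ((410789 / 32768 : ℝ) + (119 / 256 : ℝ)) * (1 - (1 - xc) ^ 6)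
      ≤ - C6.a1 * x1 - C6.a2 * x2 + C6.e * xc + C6.f := by
  have h := cell_lines 6 (α1 := (56943 / 65536 : ℝ)) (α2 := (967365 / 65536 : ℝ)) (c := (410789 / 32768 : ℝ) + (119 / 256 : ℝ)) (y1 := (581 / 65536 : ℝ)) (y2 := (2701 / 262144 : ℝ))
    (A1 := (5228473 / 1048576 : ℝ)) (B1 := (134267 / 134217728 : ℝ)) (A2 := (176360685 / 2097152 : ℝ)) (B2 := (6138365 / 268435456 : ℝ)) (l := (2819 / 262144 : ℝ)) (u := (3203 / 262144 : ℝ))
    (E := (-38602643 / 524288 : ℝ)) (F := (-1667595 / 67108864 : ℝ)) (by norm_num) (by norm_num) (by norm_num) (by norm_num) (by norm_num)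
    (by norm_num) (by norm_num) (by norm_num) (by norm_num) (by norm_num) (by norm_num) (by norm_num) (by norm_num) (by norm_num) (by norm_num)
  have e1 : C6.l = (2819 / 262144 : ℝ) := rfl
  have e2 : C6.u = (3203 / 262144 : ℝ) := rfl
  have e3 : C6.a1 = -(5228473 / 1048576 : ℝ) := by norm_num [C6]
  have e4 : C6.a2 = -(176360685 / 2097152 : ℝ) := by norm_num [C6]
  have e5 : C6.e = (-38602643 / 524288 : ℝ) := rfl
  have e6 : C6.f = (134267 / 134217728 : ℝ) + (6138365 / 268435456 : ℝ) + (-1667595 / 67108864 : ℝ) := by norm_num [C6]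
  rw [e1, e2, e3, e4, e5, e6]
  exact h

lemma rcell7 : ∃ N : ℝ, Rw4 P.r2 N (coCell (56943 / 65536 : ℝ) (967365 / 65536 : ℝ) ((410789 / 32768 : ℝ) + (119 / 256 : ℝ)) (101 / 4096 : ℝ) C7) := by
  refine ⟨(2415919104 : ℝ), ⟨Q10, List.mem_cons_of_mem _ (List.mem_cons_of_mem _ (List.mem_cons_of_mem _ (List.mem_cons_of_mem _ (List.mem_cons_of_mem _ (List.mem_cons_of_mem _ (List.mem_cons_of_mem _ (List.mem_cons_of_mem _ (List.mem_cons_of_mem _ (List.mem_cons_of_mem _ (List.mem_cons_self)))))))))), ?_⟩, by norm_num⟩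
  constructor <;> norm_num [Q10, coCell, C7]

lemma lcell7 : ∀ x1 x2 xc : ℝ, 0 ≤ x1 → x1 ≤ 1 → 0 ≤ x2 → x2 ≤ 1 → C7.l ≤ xc → xc ≤ C7.u →
    (56943 / 65536 : ℝ) * (1 - (1 - x1) ^ 6) + (967365 / 65536 : ℝ) * (1 - (1 - x2) ^ 6) - ((410789 / 32768 : ℝ) + (119 / 256 : ℝ)) * (1 - (1 - xc) ^ 6)
      ≤ - C7.a1 * x1 - C7.a2 * x2 + C7.e * xc + C7.f := by
  have h := cell_lines 6 (α1 := (56943 / 65536 : ℝ)) (α2 := (967365 / 65536 : ℝ)) (c := (410789 / 32768 : ℝ) + (119 / 256 : ℝ)) (y1 := (1275 / 131072 : ℝ)) (y2 := (3 / 256 : ℝ))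
    (A1 := (5205773 / 1048576 : ℝ)) (B1 := (322555 / 268435456 : ℝ)) (A2 := (175103319 / 2097152 : ℝ)) (B2 := (3955215 / 134217728 : ℝ)) (l := (3203 / 262144 : ℝ)) (u := (3639 / 262144 : ℝ))
    (E := (-38298243 / 524288 : ℝ)) (F := (-1071833 / 33554432 : ℝ)) (by norm_num) (by norm_num) (by norm_num) (by norm_num) (by norm_num)
    (by norm_num) (by norm_num) (by norm_num) (by norm_num) (by norm_num) (by norm_num) (by norm_num) (by norm_num) (by norm_num) (by norm_num)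
  have e1 : C7.l = (3203 / 262144 : ℝ) := rfl
  have e2 : C7.u = (3639 / 262144 : ℝ) := rfl
  have e3 : C7.a1 = -(5205773 / 1048576 : ℝ) := by norm_num [C7]
  have e4 : C7.a2 = -(175103319 / 2097152 : ℝ) := by norm_num [C7]
  have e5 : C7.e = (-38298243 / 524288 : ℝ) := rfl
  have e6 : C7.f = (322555 / 268435456 : ℝ) + (3955215 / 134217728 : ℝ) + (-1071833 / 33554432 : ℝ) := by norm_num [C7]
  rw [e1, e2, e3, e4, e5, e6]
  exact h

lemma rcell8 : ∃ N : ℝ, Rw4 P.r2 N (coCell (56943 / 65536 : ℝ) (967365 / 65536 : ℝ) ((410789 / 32768 : ℝ) + (119 / 256 : ℝ)) (101 / 4096 : ℝ) C8) := by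
  refine ⟨(2415919104 : ℝ), ⟨Q11, List.mem_cons_of_mem _ (List.mem_cons_of_mem _ (List.mem_cons_of_mem _ (List.mem_cons_of_mem _ (List.mem_cons_of_mem _ (List.mem_cons_of_mem _ (List.mem_cons_of_mem _ (List.mem_cons_of_mem _ (List.mem_cons_of_mem _ (List.mem_cons_of_mem _ (List.mem_cons_of_mem _ (List.mem_cons_self))))))))))), ?_⟩, by norm_num⟩
  constructor <;> norm_num [Q11, coCell, C8]

lemma lcell8 : ∀ x1 x2 xc : ℝ, 0 ≤ x1 → x1 ≤ 1 → 0 ≤ x2 → x2 ≤ 1 → C8.l ≤ xc → xc ≤ C8.u →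
    (56943 / 65536 : ℝ) * (1 - (1 - x1) ^ 6) + (967365 / 65536 : ℝ) * (1 - (1 - x2) ^ 6) - ((410789 / 32768 : ℝ) + (119 / 256 : ℝ)) * (1 - (1 - xc) ^ 6)
      ≤ - C8.a1 * x1 - C8.a2 * x2 + C8.e * xc + C8.f := by
  have h := cell_lines 6 (α1 := (56943 / 65536 : ℝ)) (α2 := (967365 / 65536 : ℝ)) (c := (410789 / 32768 : ℝ) + (119 / 256 : ℝ)) (y1 := (715 / 65536 : ℝ)) (y2 := (3491 / 262144 : ℝ))
    (A1 := (1293691 / 262144 : ℝ)) (B1 := (101123 / 67108864 : ℝ)) (A2 := (173691909 / 2097152 : ℝ)) (B2 := (5085893 / 134217728 : ℝ)) (l := (3639 / 262144 : ℝ)) (u := (4135 / 262144 : ℝ))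
    (E := (-303636839 / 4194304 : ℝ)) (F := (-11017045 / 268435456 : ℝ)) (by norm_num) (by norm_num) (by norm_num) (by norm_num) (by norm_num)
    (by norm_num) (by norm_num) (by norm_num) (by norm_num) (by norm_num) (by norm_num) (by norm_num) (by norm_num) (by norm_num) (by norm_num)
  have e1 : C8.l = (3639 / 262144 : ℝ) := rfl
  have e2 : C8.u = (4135 / 262144 : ℝ) := rfl
  have e3 : C8.a1 = -(1293691 / 262144 : ℝ) := by norm_num [C8]
  have e4 : C8.a2 = -(173691909 / 2097152 : ℝ) := by norm_num [C8]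
  have e5 : C8.e = (-303636839 / 4194304 : ℝ) := rfl
  have e6 : C8.f = (101123 / 67108864 : ℝ) + (5085893 / 134217728 : ℝ) + (-11017045 / 268435456 : ℝ) := by norm_num [C8]
  rw [e1, e2, e3, e4, e5, e6]
  exact h

lemma rcell9 : ∃ N : ℝ, Rw4 P.r2 N (coCell (56943 / 65536 : ℝ) (967365 / 65536 : ℝ) ((410789 / 32768 : ℝ) + (119 / 256 : ℝ)) (101 / 4096 : ℝ) C9) := by
  refine ⟨(2415919104 : ℝ), ⟨Q12, List.mem_cons_of_mem _ (List.mem_cons_of_mem _ (List.mem_cons_of_mem _ (List.mem_cons_of_mem _ (List.mem_cons_of_mem _ (List.mem_cons_of_mem _ (List.mem_cons_of_mem _ (List.mem_cons_of_mem _ (List.mem_cons_of_mem _ (List.mem_cons_of_mem _ (List.mem_cons_of_mem _ (List.mem_cons_of_mem _ (List.mem_cons_self)))))))))))), ?_⟩, by norm_num⟩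
  constructor <;> norm_num [Q12, coCell, C9]

lemma lcell9 : ∀ x1 x2 xc : ℝ, 0 ≤ x1 → x1 ≤ 1 → 0 ≤ x2 → x2 ≤ 1 → C9.l ≤ xc → xc ≤ C9.u →
    (56943 / 65536 : ℝ) * (1 - (1 - x1) ^ 6) + (967365 / 65536 : ℝ) * (1 - (1 - x2) ^ 6) - ((410789 / 32768 : ℝ) + (119 / 256 : ℝ)) * (1 - (1 - xc) ^ 6)
      ≤ - C9.a1 * x1 - C9.a2 * x2 + C9.e * xc + C9.f := by
  have h := cell_lines 6 (α1 := (56943 / 65536 : ℝ)) (α2 := (967365 / 65536 : ℝ)) (c := (410789 / 32768 : ℝ) + (119 / 256 : ℝ)) (y1 := (3303 / 262144 : ℝ)) (y2 := (1981 / 131072 : ℝ))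
    (A1 := (20522833 / 4194304 : ℝ)) (B1 := (268515 / 134217728 : ℝ)) (A2 := (344232435 / 4194304 : ℝ)) (B2 := (6519317 / 134217728 : ℝ)) (l := (4135 / 262144 : ℝ)) (u := (2349 / 131072 : ℝ))
    (E := (-300537141 / 4194304 : ℝ)) (F := (-14146257 / 268435456 : ℝ)) (by norm_num) (by norm_num) (by norm_num) (by norm_num) (by norm_num)
    (by norm_num) (by norm_num) (by norm_num) (by norm_num) (by norm_num) (by norm_num) (by norm_num) (by norm_num) (by norm_num) (by norm_num)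
  have e1 : C9.l = (4135 / 262144 : ℝ) := rfl
  have e2 : C9.u = (2349 / 131072 : ℝ) := rfl
  have e3 : C9.a1 = -(20522833 / 4194304 : ℝ) := by norm_num [C9]
  have e4 : C9.a2 = -(344232435 / 4194304 : ℝ) := by norm_num [C9]
  have e5 : C9.e = (-300537141 / 4194304 : ℝ) := rfl
  have e6 : C9.f = (268515 / 134217728 : ℝ) + (6519317 / 134217728 : ℝ) + (-14146257 / 268435456 : ℝ) := by norm_num [C9]
  rw [e1, e2, e3, e4, e5, e6]
  exact h

lemma rcell10 : ∃ N : ℝ, Rw4 P.r2 N (coCell (56943 / 65536 : ℝ) (967365 / 65536 : ℝ) ((410789 / 32768 : ℝ) + (119 / 256 : ℝ)) (101 / 4096 : ℝ) C10) := by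
  refine ⟨(2415919104 : ℝ), ⟨Q13, List.mem_cons_of_mem _ (List.mem_cons_of_mem _ (List.mem_cons_of_mem _ (List.mem_cons_of_mem _ (List.mem_cons_of_mem _ (List.mem_cons_of_mem _ (List.mem_cons_of_mem _ (List.mem_cons_of_mem _ (List.mem_cons_of_mem _ (List.mem_cons_of_mem _ (List.mem_cons_of_mem _ (List.mem_cons_of_mem _ (List.mem_cons_of_mem _ (List.mem_cons_self))))))))))))), ?_⟩, by norm_num⟩
  constructor <;> norm_num [Q13, coCell, C10]

lemma lcell10 : ∀ x1 x2 xc : ℝ, 0 ≤ x1 → x1 ≤ 1 → 0 ≤ x2 → x2 ≤ 1 → C10.l ≤ xc → xc ≤ C10.u →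
    (56943 / 65536 : ℝ) * (1 - (1 - x1) ^ 6) + (967365 / 65536 : ℝ) * (1 - (1 - x2) ^ 6) - ((410789 / 32768 : ℝ) + (119 / 256 : ℝ)) * (1 - (1 - xc) ^ 6)
      ≤ - C10.a1 * x1 - C10.a2 * x2 + C10.e * xc + C10.f := by
  have h := cell_lines 6 (α1 := (56943 / 65536 : ℝ)) (α2 := (967365 / 65536 : ℝ)) (c := (410789 / 32768 : ℝ) + (119 / 256 : ℝ)) (y1 := (3739 / 262144 : ℝ)) (y2 := (4501 / 262144 : ℝ))
    (A1 := (20350567 / 4194304 : ℝ)) (B1 := (85641 / 33554432 : ℝ)) (A2 := (85163545 / 1048576 : ℝ)) (B2 := (16734933 / 268435456 : ℝ)) (l := (2349 / 131072 : ℝ)) (u := (5337 / 262144 : ℝ))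
    (E := (-297049649 / 4194304 : ℝ)) (F := (-9073157 / 134217728 : ℝ)) (by norm_num) (by norm_num) (by norm_num) (by norm_num) (by norm_num)
    (by norm_num) (by norm_num) (by norm_num) (by norm_num) (by norm_num) (by norm_num) (by norm_num) (by norm_num) (by norm_num) (by norm_num)
  have e1 : C10.l = (2349 / 131072 : ℝ) := rfl
  have e2 : C10.u = (5337 / 262144 : ℝ) := rfl
  have e3 : C10.a1 = -(20350567 / 4194304 : ℝ) := by norm_num [C10]
  have e4 : C10.a2 = -(85163545 / 1048576 : ℝ) := by norm_num [C10]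
  have e5 : C10.e = (-297049649 / 4194304 : ℝ) := rfl
  have e6 : C10.f = (85641 / 33554432 : ℝ) + (16734933 / 268435456 : ℝ) + (-9073157 / 134217728 : ℝ) := by norm_num [C10]
  rw [e1, e2, e3, e4, e5, e6]
  exact h

lemma rcell11 : ∃ N : ℝ, Rw4 P.r2 N (coCell (56943 / 65536 : ℝ) (967365 / 65536 : ℝ) ((410789 / 32768 : ℝ) + (119 / 256 : ℝ)) (101 / 4096 : ℝ) C11) := by
  refine ⟨(1207959552 : ℝ), ⟨Q14, List.mem_cons_of_mem _ (List.mem_cons_of_mem _ (List.mem_cons_of_mem _ (List.mem_cons_of_mem _ (List.mem_cons_of_mem _ (List.mem_cons_of_mem _ (List.mem_cons_of_mem _ (List.mem_cons_of_mem _ (List.mem_cons_of_mem _ (List.mem_cons_of_mem _ (List.mem_cons_of_mem _ (List.mem_cons_of_mem _ (List.mem_cons_of_mem _ (List.mem_cons_of_mem _ (List.mem_cons_self)))))))))))))), ?_⟩, by norm_num⟩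
  constructor <;> norm_num [Q14, coCell, C11]

lemma lcell11 : ∀ x1 x2 xc : ℝ, 0 ≤ x1 → x1 ≤ 1 → 0 ≤ x2 → x2 ≤ 1 → C11.l ≤ xc → xc ≤ C11.u →
    (56943 / 65536 : ℝ) * (1 - (1 - x1) ^ 6) + (967365 / 65536 : ℝ) * (1 - (1 - x2) ^ 6) - ((410789 / 32768 : ℝ) + (119 / 256 : ℝ)) * (1 - (1 - xc) ^ 6)
      ≤ - C11.a1 * x1 - C11.a2 * x2 + C11.e * xc + C11.f := by
  have h := cell_lines 6 (α1 := (56943 / 65536 : ℝ)) (α2 := (967365 / 65536 : ℝ)) (c := (410789 / 32768 : ℝ) + (119 / 256 : ℝ)) (y1 := (2121 / 131072 : ℝ)) (y2 := (639 / 32768 : ℝ))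
    (A1 := (20153269 / 4194304 : ℝ)) (B1 := (219331 / 67108864 : ℝ)) (A2 := (84158497 / 1048576 : ℝ)) (B2 := (2681503 / 33554432 : ℝ)) (l := (5337 / 262144 : ℝ)) (u := (379 / 16384 : ℝ))
    (E := (-73281443 / 1048576 : ℝ)) (F := (-11629521 / 134217728 : ℝ)) (by norm_num) (by norm_num) (by norm_num) (by norm_num) (by norm_num)
    (by norm_num) (by norm_num) (by norm_num) (by norm_num) (by norm_num) (by norm_num) (by norm_num) (by norm_num) (by norm_num) (by norm_num)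
  have e1 : C11.l = (5337 / 262144 : ℝ) := rfl
  have e2 : C11.u = (379 / 16384 : ℝ) := rfl
  have e3 : C11.a1 = -(20153269 / 4194304 : ℝ) := by norm_num [C11]
  have e4 : C11.a2 = -(84158497 / 1048576 : ℝ) := by norm_num [C11]
  have e5 : C11.e = (-73281443 / 1048576 : ℝ) := rfl
  have e6 : C11.f = (219331 / 67108864 : ℝ) + (2681503 / 33554432 : ℝ) + (-11629521 / 134217728 : ℝ) := by norm_num [C11]
  rw [e1, e2, e3, e4, e5, e6]
  exact h

lemma rcell12 : ∃ N : ℝ, Rw4 P.r2 N (coCell (56943 / 65536 : ℝ) (967365 / 65536 : ℝ) ((410789 / 32768 : ℝ) + (119 / 256 : ℝ)) (101 / 4096 : ℝ) C12) := by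
  refine ⟨(75497472 : ℝ), ⟨Q15, List.mem_cons_of_mem _ (List.mem_cons_of_mem _ (List.mem_cons_of_mem _ (List.mem_cons_of_mem _ (List.mem_cons_of_mem _ (List.mem_cons_of_mem _ (List.mem_cons_of_mem _ (List.mem_cons_of_mem _ (List.mem_cons_of_mem _ (List.mem_cons_of_mem _ (List.mem_cons_of_mem _ (List.mem_cons_of_mem _ (List.mem_cons_of_mem _ (List.mem_cons_of_mem _ (List.mem_cons_of_mem _ (List.mem_cons_self))))))))))))))), ?_⟩, by norm_num⟩
  constructor <;> norm_num [Q15, coCell, C12]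

lemma lcell12 : ∀ x1 x2 xc : ℝ, 0 ≤ x1 → x1 ≤ 1 → 0 ≤ x2 → x2 ≤ 1 → C12.l ≤ xc → xc ≤ C12.u →
    (56943 / 65536 : ℝ) * (1 - (1 - x1) ^ 6) + (967365 / 65536 : ℝ) * (1 - (1 - x2) ^ 6) - ((410789 / 32768 : ℝ) + (119 / 256 : ℝ)) * (1 - (1 - xc) ^ 6)
      ≤ - C12.a1 * x1 - C12.a2 * x2 + C12.e * xc + C12.f := by
  have h := cell_lines 6 (α1 := (56943 / 65536 : ℝ)) (α2 := (967365 / 65536 : ℝ)) (c := (410789 / 32768 : ℝ) + (119 / 256 : ℝ)) (y1 := (1203 / 65536 : ℝ)) (y2 := (5807 / 262144 : ℝ))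
    (A1 := (2491443 / 524288 : ℝ)) (B1 := (1122337 / 268435456 : ℝ)) (A2 := (166053669 / 2097152 : ℝ)) (B2 := (27484815 / 268435456 : ℝ)) (l := (379 / 16384 : ℝ)) (u := (6889 / 262144 : ℝ))
    (E := (-288718099 / 4194304 : ℝ)) (F := (-1861529 / 16777216 : ℝ)) (by norm_num) (by norm_num) (by norm_num) (by norm_num) (by norm_num)
    (by norm_num) (by norm_num) (by norm_num) (by norm_num) (by norm_num) (by norm_num) (by norm_num) (by norm_num) (by norm_num) (by norm_num)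
  have e1 : C12.l = (379 / 16384 : ℝ) := rfl
  have e2 : C12.u = (6889 / 262144 : ℝ) := rfl
  have e3 : C12.a1 = -(2491443 / 524288 : ℝ) := by norm_num [C12]
  have e4 : C12.a2 = -(166053669 / 2097152 : ℝ) := by norm_num [C12]
  have e5 : C12.e = (-288718099 / 4194304 : ℝ) := rfl
  have e6 : C12.f = (1122337 / 268435456 : ℝ) + (27484815 / 268435456 : ℝ) + (-1861529 / 16777216 : ℝ) := by norm_num [C12]
  rw [e1, e2, e3, e4, e5, e6]
  exact h

lemma rcell13 : ∃ N : ℝ, Rw4 P.r2 N (coCell (56943 / 65536 : ℝ) (967365 / 65536 : ℝ) ((410789 / 32768 : ℝ) + (119 / 256 : ℝ)) (101 / 4096 : ℝ) C13) := by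
  refine ⟨(1207959552 : ℝ), ⟨Q16, List.mem_cons_of_mem _ (List.mem_cons_of_mem _ (List.mem_cons_of_mem _ (List.mem_cons_of_mem _ (List.mem_cons_of_mem _ (List.mem_cons_of_mem _ (List.mem_cons_of_mem _ (List.mem_cons_of_mem _ (List.mem_cons_of_mem _ (List.mem_cons_of_mem _ (List.mem_cons_of_mem _ (List.mem_cons_of_mem _ (List.mem_cons_of_mem _ (List.mem_cons_of_mem _ (List.mem_cons_of_mem _ (List.mem_cons_of_mem _ (List.mem_cons_self)))))))))))))))), ?_⟩, by norm_num⟩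
  constructor <;> norm_num [Q16, coCell, C13]

lemma lcell13 : ∀ x1 x2 xc : ℝ, 0 ≤ x1 → x1 ≤ 1 → 0 ≤ x2 → x2 ≤ 1 → C13.l ≤ xc → xc ≤ C13.u →
    (56943 / 65536 : ℝ) * (1 - (1 - x1) ^ 6) + (967365 / 65536 : ℝ) * (1 - (1 - x2) ^ 6) - ((410789 / 32768 : ℝ) + (119 / 256 : ℝ)) * (1 - (1 - xc) ^ 6)
      ≤ - C13.a1 * x1 - C13.a2 * x2 + C13.e * xc + C13.f := by
  have h := cell_lines 6 (α1 := (56943 / 65536 : ℝ)) (α2 := (967365 / 65536 : ℝ)) (c := (410789 / 32768 : ℝ) + (119 / 256 : ℝ)) (y1 := (1331 / 65536 : ℝ)) (y2 := (6599 / 262144 : ℝ))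
    (A1 := (19734047 / 4194304 : ℝ)) (B1 := (341677 / 67108864 : ℝ)) (A2 := (81752103 / 1048576 : ℝ)) (B2 := (35205633 / 268435456 : ℝ)) (l := (6889 / 262144 : ℝ)) (u := (7827 / 262144 : ℝ))
    (E := (-70943945 / 1048576 : ℝ)) (F := (-38096875 / 268435456 : ℝ)) (by norm_num) (by norm_num) (by norm_num) (by norm_num) (by norm_num)
    (by norm_num) (by norm_num) (by norm_num) (by norm_num) (by norm_num) (by norm_num) (by norm_num) (by norm_num) (by norm_num) (by norm_num)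
  have e1 : C13.l = (6889 / 262144 : ℝ) := rfl
  have e2 : C13.u = (7827 / 262144 : ℝ) := rfl
  have e3 : C13.a1 = -(19734047 / 4194304 : ℝ) := by norm_num [C13]
  have e4 : C13.a2 = -(81752103 / 1048576 : ℝ) := by norm_num [C13]
  have e5 : C13.e = (-70943945 / 1048576 : ℝ) := rfl
  have e6 : C13.f = (341677 / 67108864 : ℝ) + (35205633 / 268435456 : ℝ) + (-38096875 / 268435456 : ℝ) := by norm_num [C13]
  rw [e1, e2, e3, e4, e5, e6]
  exact h

lemma rcell14 : ∃ N : ℝ, Rw4 P.r2 N (coCell (56943 / 65536 : ℝ) (967365 / 65536 : ℝ) ((410789 / 32768 : ℝ) + (119 / 256 : ℝ)) (101 / 4096 : ℝ) C14) := by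
  refine ⟨(1207959552 : ℝ), ⟨Q17, List.mem_cons_of_mem _ (List.mem_cons_of_mem _ (List.mem_cons_of_mem _ (List.mem_cons_of_mem _ (List.mem_cons_of_mem _ (List.mem_cons_of_mem _ (List.mem_cons_of_mem _ (List.mem_cons_of_mem _ (List.mem_cons_of_mem _ (List.mem_cons_of_mem _ (List.mem_cons_of_mem _ (List.mem_cons_of_mem _ (List.mem_cons_of_mem _ (List.mem_cons_of_mem _ (List.mem_cons_of_mem _ (List.mem_cons_of_mem _ (List.mem_cons_of_mem _ (List.mem_cons_self))))))))))))))))), ?_⟩, by norm_num⟩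
  constructor <;> norm_num [Q17, coCell, C14]

lemma lcell14 : ∀ x1 x2 xc : ℝ, 0 ≤ x1 → x1 ≤ 1 → 0 ≤ x2 → x2 ≤ 1 → C14.l ≤ xc → xc ≤ C14.u →
    (56943 / 65536 : ℝ) * (1 - (1 - x1) ^ 6) + (967365 / 65536 : ℝ) * (1 - (1 - x2) ^ 6) - ((410789 / 32768 : ℝ) + (119 / 256 : ℝ)) * (1 - (1 - xc) ^ 6)
      ≤ - C14.a1 * x1 - C14.a2 * x2 + C14.e * xc + C14.f := by
  have h := cell_lines 6 (α1 := (56943 / 65536 : ℝ)) (α2 := (967365 / 65536 : ℝ)) (c := (410789 / 32768 : ℝ) + (119 / 256 : ℝ)) (y1 := (6303 / 262144 : ℝ)) (y2 := (3737 / 131072 : ℝ))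
    (A1 := (4840193 / 1048576 : ℝ)) (B1 := (1896385 / 268435456 : ℝ)) (A2 := (321448147 / 4194304 : ℝ)) (B2 := (22378115 / 134217728 : ℝ)) (l := (7827 / 262144 : ℝ)) (u := (8893 / 262144 : ℝ))
    (E := (-278240403 / 4194304 : ℝ)) (F := (-48674365 / 268435456 : ℝ)) (by norm_num) (by norm_num) (by norm_num) (by norm_num) (by norm_num)
    (by norm_num) (by norm_num) (by norm_num) (by norm_num) (by norm_num) (by norm_num) (by norm_num) (by norm_num) (by norm_num) (by norm_num)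
  have e1 : C14.l = (7827 / 262144 : ℝ) := rfl
  have e2 : C14.u = (8893 / 262144 : ℝ) := rfl
  have e3 : C14.a1 = -(4840193 / 1048576 : ℝ) := by norm_num [C14]
  have e4 : C14.a2 = -(321448147 / 4194304 : ℝ) := by norm_num [C14]
  have e5 : C14.e = (-278240403 / 4194304 : ℝ) := rfl
  have e6 : C14.f = (1896385 / 268435456 : ℝ) + (22378115 / 134217728 : ℝ) + (-48674365 / 268435456 : ℝ) := by norm_num [C14]
  rw [e1, e2, e3, e4, e5, e6]
  exact h

lemma rcell15 : ∃ N : ℝ, Rw4 P.r2 N (coCell (56943 / 65536 : ℝ) (967365 / 65536 : ℝ) ((410789 / 32768 : ℝ) + (119 / 256 : ℝ)) (101 / 4096 : ℝ) C15) := by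
  refine ⟨(2415919104 : ℝ), ⟨Q18, List.mem_cons_of_mem _ (List.mem_cons_of_mem _ (List.mem_cons_of_mem _ (List.mem_cons_of_mem _ (List.mem_cons_of_mem _ (List.mem_cons_of_mem _ (List.mem_cons_of_mem _ (List.mem_cons_of_mem _ (List.mem_cons_of_mem _ (List.mem_cons_of_mem _ (List.mem_cons_of_mem _ (List.mem_cons_of_mem _ (List.mem_cons_of_mem _ (List.mem_cons_of_mem _ (List.mem_cons_of_mem _ (List.mem_cons_of_mem _ (List.mem_cons_of_mem _ (List.mem_cons_of_mem _ (List.mem_cons_self)))))))))))))))))), ?_⟩, by norm_num⟩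
  constructor <;> norm_num [Q18, coCell, C15]

lemma lcell15 : ∀ x1 x2 xc : ℝ, 0 ≤ x1 → x1 ≤ 1 → 0 ≤ x2 → x2 ≤ 1 → C15.l ≤ xc → xc ≤ C15.u →
    (56943 / 65536 : ℝ) * (1 - (1 - x1) ^ 6) + (967365 / 65536 : ℝ) * (1 - (1 - x2) ^ 6) - ((410789 / 32768 : ℝ) + (119 / 256 : ℝ)) * (1 - (1 - xc) ^ 6)
      ≤ - C15.a1 * x1 - C15.a2 * x2 + C15.e * xc + C15.f := by
  have h := cell_lines 6 (α1 := (56943 / 65536 : ℝ)) (α2 := (967365 / 65536 : ℝ)) (c := (410789 / 32768 : ℝ) + (119 / 256 : ℝ)) (y1 := (3477 / 131072 : ℝ)) (y2 := (8479 / 262144 : ℝ))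
    (A1 := (19115701 / 4194304 : ℝ)) (B1 := (2292927 / 268435456 : ℝ)) (A2 := (157577691 / 2097152 : ℝ)) (B2 := (7126081 / 33554432 : ℝ)) (l := (8893 / 262144 : ℝ)) (u := (1263 / 32768 : ℝ))
    (E := (-8501759 / 131072 : ℝ)) (F := (-1940655 / 8388608 : ℝ)) (by norm_num) (by norm_num) (by norm_num) (by norm_num) (by norm_num)
    (by norm_num) (by norm_num) (by norm_num) (by norm_num) (by norm_num) (by norm_num) (by norm_num) (by norm_num) (by norm_num) (by norm_num)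
  have e1 : C15.l = (8893 / 262144 : ℝ) := rfl
  have e2 : C15.u = (1263 / 32768 : ℝ) := rfl
  have e3 : C15.a1 = -(19115701 / 4194304 : ℝ) := by norm_num [C15]
  have e4 : C15.a2 = -(157577691 / 2097152 : ℝ) := by norm_num [C15]
  have e5 : C15.e = (-8501759 / 131072 : ℝ) := rfl
  have e6 : C15.f = (2292927 / 268435456 : ℝ) + (7126081 / 33554432 : ℝ) + (-1940655 / 8388608 : ℝ) := by norm_num [C15]
  rw [e1, e2, e3, e4, e5, e6]
  exact h

lemma rcell16 : ∃ N : ℝ, Rw4 P.r2 N (coCell (56943 / 65536 : ℝ) (967365 / 65536 : ℝ) ((410789 / 32768 : ℝ) + (119 / 256 : ℝ)) (101 / 4096 : ℝ) C16) := by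
  refine ⟨(603979776 : ℝ), ⟨Q19, List.mem_cons_of_mem _ (List.mem_cons_of_mem _ (List.mem_cons_of_mem _ (List.mem_cons_of_mem _ (List.mem_cons_of_mem _ (List.mem_cons_of_mem _ (List.mem_cons_of_mem _ (List.mem_cons_of_mem _ (List.mem_cons_of_mem _ (List.mem_cons_of_mem _ (List.mem_cons_of_mem _ (List.mem_cons_of_mem _ (List.mem_cons_of_mem _ (List.mem_cons_of_mem _ (List.mem_cons_of_mem _ (List.mem_cons_of_mem _ (List.mem_cons_of_mem _ (List.mem_cons_of_mem _ (List.mem_cons_of_mem _ (List.mem_cons_self))))))))))))))))))), ?_⟩, by norm_num⟩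
  constructor <;> norm_num [Q19, coCell, C16]

lemma lcell16 : ∀ x1 x2 xc : ℝ, 0 ≤ x1 → x1 ≤ 1 → 0 ≤ x2 → x2 ≤ 1 → C16.l ≤ xc → xc ≤ C16.u →
    (56943 / 65536 : ℝ) * (1 - (1 - x1) ^ 6) + (967365 / 65536 : ℝ) * (1 - (1 - x2) ^ 6) - ((410789 / 32768 : ℝ) + (119 / 256 : ℝ)) * (1 - (1 - xc) ^ 6)
      ≤ - C16.a1 * x1 - C16.a2 * x2 + C16.e * xc + C16.f := by
  have h := cell_lines 6 (α1 := (56943 / 65536 : ℝ)) (α2 := (967365 / 65536 : ℝ)) (c := (410789 / 32768 : ℝ) + (119 / 256 : ℝ)) (y1 := (7679 / 262144 : ℝ)) (y2 := (9493 / 262144 : ℝ))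
    (A1 := (18845699 / 4194304 : ℝ)) (B1 := (1387587 / 134217728 : ℝ)) (A2 := (77226633 / 1048576 : ℝ)) (B2 := (70715637 / 268435456 : ℝ)) (l := (1263 / 32768 : ℝ)) (u := (1435 / 32768 : ℝ))
    (E := (-8286387 / 131072 : ℝ)) (F := (-79101887 / 268435456 : ℝ)) (by norm_num) (by norm_num) (by norm_num) (by norm_num) (by norm_num)
    (by norm_num) (by norm_num) (by norm_num) (by norm_num) (by norm_num) (by norm_num) (by norm_num) (by norm_num) (by norm_num) (by norm_num)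
  have e1 : C16.l = (1263 / 32768 : ℝ) := rfl
  have e2 : C16.u = (1435 / 32768 : ℝ) := rfl
  have e3 : C16.a1 = -(18845699 / 4194304 : ℝ) := by norm_num [C16]
  have e4 : C16.a2 = -(77226633 / 1048576 : ℝ) := by norm_num [C16]
  have e5 : C16.e = (-8286387 / 131072 : ℝ) := rfl
  have e6 : C16.f = (1387587 / 134217728 : ℝ) + (70715637 / 268435456 : ℝ) + (-79101887 / 268435456 : ℝ) := by norm_num [C16]
  rw [e1, e2, e3, e4, e5, e6]
  exact h

lemma rcell17 : ∃ N : ℝ, Rw4 P.r2 N (coCell (56943 / 65536 : ℝ) (967365 / 65536 : ℝ) ((410789 / 32768 : ℝ) + (119 / 256 : ℝ)) (101 / 4096 : ℝ) C17) := by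
  refine ⟨(2415919104 : ℝ), ⟨Q20, List.mem_cons_of_mem _ (List.mem_cons_of_mem _ (List.mem_cons_of_mem _ (List.mem_cons_of_mem _ (List.mem_cons_of_mem _ (List.mem_cons_of_mem _ (List.mem_cons_of_mem _ (List.mem_cons_of_mem _ (List.mem_cons_of_mem _ (List.mem_cons_of_mem _ (List.mem_cons_of_mem _ (List.mem_cons_of_mem _ (List.mem_cons_of_mem _ (List.mem_cons_of_mem _ (List.mem_cons_of_mem _ (List.mem_cons_of_mem _ (List.mem_cons_of_mem _ (List.mem_cons_of_mem _ (List.mem_cons_of_mem _ (List.mem_cons_of_mem _ (List.mem_cons_self)))))))))))))))))))), ?_⟩, by norm_num⟩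
  constructor <;> norm_num [Q20, coCell, C17]

lemma lcell17 : ∀ x1 x2 xc : ℝ, 0 ≤ x1 → x1 ≤ 1 → 0 ≤ x2 → x2 ≤ 1 → C17.l ≤ xc → xc ≤ C17.u →
    (56943 / 65536 : ℝ) * (1 - (1 - x1) ^ 6) + (967365 / 65536 : ℝ) * (1 - (1 - x2) ^ 6) - ((410789 / 32768 : ℝ) + (119 / 256 : ℝ)) * (1 - (1 - xc) ^ 6)
      ≤ - C17.a1 * x1 - C17.a2 * x2 + C17.e * xc + C17.f := by
  have h := cell_lines 6 (α1 := (56943 / 65536 : ℝ)) (α2 := (967365 / 65536 : ℝ)) (c := (410789 / 32768 : ℝ) + (119 / 256 : ℝ)) (y1 := (2067 / 65536 : ℝ)) (y2 := (10027 / 262144 : ℝ))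
    (A1 := (18628599 / 4194304 : ℝ)) (B1 := (399721 / 33554432 : ℝ)) (A2 := (152827899 / 2097152 : ℝ)) (B2 := (4903825 / 16777216 : ℝ)) (l := (1435 / 32768 : ℝ)) (u := (13043 / 262144 : ℝ))
    (E := (-257505191 / 4194304 : ℝ)) (F := (-100568571 / 268435456 : ℝ)) (by norm_num) (by norm_num) (by norm_num) (by norm_num) (by norm_num)
    (by norm_num) (by norm_num) (by norm_num) (by norm_num) (by norm_num) (by norm_num) (by norm_num) (by norm_num) (by norm_num) (by norm_num)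
  have e1 : C17.l = (1435 / 32768 : ℝ) := rfl
  have e2 : C17.u = (13043 / 262144 : ℝ) := rfl
  have e3 : C17.a1 = -(18628599 / 4194304 : ℝ) := by norm_num [C17]
  have e4 : C17.a2 = -(152827899 / 2097152 : ℝ) := by norm_num [C17]
  have e5 : C17.e = (-257505191 / 4194304 : ℝ) := rfl
  have e6 : C17.f = (399721 / 33554432 : ℝ) + (4903825 / 16777216 : ℝ) + (-100568571 / 268435456 : ℝ) := by norm_num [C17]
  rw [e1, e2, e3, e4, e5, e6]
  exact h

lemma rcell18 : ∃ N : ℝ, Rw4 P.r2 N (coCell (56943 / 65536 : ℝ) (967365 / 65536 : ℝ) ((410789 / 32768 : ℝ) + (119 / 256 : ℝ)) (101 / 4096 : ℝ) C18) := by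
  refine ⟨(1207959552 : ℝ), ⟨Q21, List.mem_cons_of_mem _ (List.mem_cons_of_mem _ (List.mem_cons_of_mem _ (List.mem_cons_of_mem _ (List.mem_cons_of_mem _ (List.mem_cons_of_mem _ (List.mem_cons_of_mem _ (List.mem_cons_of_mem _ (List.mem_cons_of_mem _ (List.mem_cons_of_mem _ (List.mem_cons_of_mem _ (List.mem_cons_of_mem _ (List.mem_cons_of_mem _ (List.mem_cons_of_mem _ (List.mem_cons_of_mem _ (List.mem_cons_of_mem _ (List.mem_cons_of_mem _ (List.mem_cons_of_mem _ (List.mem_cons_of_mem _ (List.mem_cons_of_mem _ (List.mem_cons_of_mem _ (List.mem_cons_self))))))))))))))))))))), ?_⟩, by norm_num⟩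
  constructor <;> norm_num [Q21, coCell, C18]

lemma lcell18 : ∀ x1 x2 xc : ℝ, 0 ≤ x1 → x1 ≤ 1 → 0 ≤ x2 → x2 ≤ 1 → C18.l ≤ xc → xc ≤ C18.u →
    (56943 / 65536 : ℝ) * (1 - (1 - x1) ^ 6) + (967365 / 65536 : ℝ) * (1 - (1 - x2) ^ 6) - ((410789 / 32768 : ℝ) + (119 / 256 : ℝ)) * (1 - (1 - xc) ^ 6)
      ≤ - C18.a1 * x1 - C18.a2 * x2 + C18.e * xc + C18.f := by
  have h := cell_lines 6 (α1 := (56943 / 65536 : ℝ)) (α2 := (967365 / 65536 : ℝ)) (c := (410789 / 32768 : ℝ) + (119 / 256 : ℝ)) (y1 := (10023 / 262144 : ℝ)) (y2 := (5781 / 131072 : ℝ))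
    (A1 := (17993559 / 4194304 : ℝ)) (B1 := (4615049 / 268435456 : ℝ)) (A2 := (296463575 / 4194304 : ℝ)) (B2 := (51339575 / 134217728 : ℝ)) (l := (13043 / 262144 : ℝ)) (u := (7409 / 131072 : ℝ))
    (E := (-124511115 / 2097152 : ℝ)) (F := (-127581085 / 268435456 : ℝ)) (by norm_num) (by norm_num) (by norm_num) (by norm_num) (by norm_num)
    (by norm_num) (by norm_num) (by norm_num) (by norm_num) (by norm_num) (by norm_num) (by norm_num) (by norm_num) (by norm_num) (by norm_num)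
  have e1 : C18.l = (13043 / 262144 : ℝ) := rfl
  have e2 : C18.u = (7409 / 131072 : ℝ) := rfl
  have e3 : C18.a1 = -(17993559 / 4194304 : ℝ) := by norm_num [C18]
  have e4 : C18.a2 = -(296463575 / 4194304 : ℝ) := by norm_num [C18]
  have e5 : C18.e = (-124511115 / 2097152 : ℝ) := rfl
  have e6 : C18.f = (4615049 / 268435456 : ℝ) + (51339575 / 134217728 : ℝ) + (-127581085 / 268435456 : ℝ) := by norm_num [C18]
  rw [e1, e2, e3, e4, e5, e6]
  exact h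

lemma rcell19 : ∃ N : ℝ, Rw4 P.r2 N (coCell (56943 / 65536 : ℝ) (967365 / 65536 : ℝ) ((410789 / 32768 : ℝ) + (119 / 256 : ℝ)) (101 / 4096 : ℝ) C19) := by
  refine ⟨(2415919104 : ℝ), ⟨Q22, List.mem_cons_of_mem _ (List.mem_cons_of_mem _ (List.mem_cons_of_mem _ (List.mem_cons_of_mem _ (List.mem_cons_of_mem _ (List.mem_cons_of_mem _ (List.mem_cons_of_mem _ (List.mem_cons_of_mem _ (List.mem_cons_of_mem _ (List.mem_cons_of_mem _ (List.mem_cons_of_mem _ (List.mem_cons_of_mem _ (List.mem_cons_of_mem _ (List.mem_cons_of_mem _ (List.mem_cons_of_mem _ (List.mem_cons_of_mem _ (List.mem_cons_of_mem _ (List.mem_cons_of_mem _ (List.mem_cons_of_mem _ (List.mem_cons_of_mem _ (List.mem_cons_of_mem _ (List.mem_cons_of_mem _ (List.mem_cons_self)))))))))))))))))))))), ?_⟩, by norm_num⟩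
  constructor <;> norm_num [Q22, coCell, C19]

lemma lcell19 : ∀ x1 x2 xc : ℝ, 0 ≤ x1 → x1 ≤ 1 → 0 ≤ x2 → x2 ≤ 1 → C19.l ≤ xc → xc ≤ C19.u →
    (56943 / 65536 : ℝ) * (1 - (1 - x1) ^ 6) + (967365 / 65536 : ℝ) * (1 - (1 - x2) ^ 6) - ((410789 / 32768 : ℝ) + (119 / 256 : ℝ)) * (1 - (1 - xc) ^ 6)
      ≤ - C19.a1 * x1 - C19.a2 * x2 + C19.e * xc + C19.f := by
  have h := cell_lines 6 (α1 := (56943 / 65536 : ℝ)) (α2 := (967365 / 65536 : ℝ)) (c := (410789 / 32768 : ℝ) + (119 / 256 : ℝ)) (y1 := (2677 / 65536 : ℝ)) (y2 := (13609 / 262144 : ℝ))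
    (A1 := (17750445 / 4194304 : ℝ)) (B1 := (5230267 / 268435456 : ℝ)) (A2 := (284550773 / 4194304 : ℝ)) (B2 := (69633265 / 134217728 : ℝ)) (l := (7409 / 131072 : ℝ)) (u := (4209 / 65536 : ℝ))
    (E := (-239656295 / 4194304 : ℝ)) (F := (-80732001 / 134217728 : ℝ)) (by norm_num) (by norm_num) (by norm_num) (by norm_num) (by norm_num)
    (by norm_num) (by norm_num) (by norm_num) (by norm_num) (by norm_num) (by norm_num) (by norm_num) (by norm_num) (by norm_num) (by norm_num)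
  have e1 : C19.l = (7409 / 131072 : ℝ) := rfl
  have e2 : C19.u = (4209 / 65536 : ℝ) := rfl
  have e3 : C19.a1 = -(17750445 / 4194304 : ℝ) := by norm_num [C19]
  have e4 : C19.a2 = -(284550773 / 4194304 : ℝ) := by norm_num [C19]
  have e5 : C19.e = (-239656295 / 4194304 : ℝ) := rfl
  have e6 : C19.f = (5230267 / 268435456 : ℝ) + (69633265 / 134217728 : ℝ) + (-80732001 / 134217728 : ℝ) := by norm_num [C19]
  rw [e1, e2, e3, e4, e5, e6]
  exact h

lemma rcell20 : ∃ N : ℝ, Rw4 P.r2 N (coCell (56943 / 65536 : ℝ) (967365 / 65536 : ℝ) ((410789 / 32768 : ℝ) + (119 / 256 : ℝ)) (101 / 4096 : ℝ) C20) := by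
  refine ⟨(2415919104 : ℝ), ⟨Q23, List.mem_cons_of_mem _ (List.mem_cons_of_mem _ (List.mem_cons_of_mem _ (List.mem_cons_of_mem _ (List.mem_cons_of_mem _ (List.mem_cons_of_mem _ (List.mem_cons_of_mem _ (List.mem_cons_of_mem _ (List.mem_cons_of_mem _ (List.mem_cons_of_mem _ (List.mem_cons_of_mem _ (List.mem_cons_of_mem _ (List.mem_cons_of_mem _ (List.mem_cons_of_mem _ (List.mem_cons_of_mem _ (List.mem_cons_of_mem _ (List.mem_cons_of_mem _ (List.mem_cons_of_mem _ (List.mem_cons_of_mem _ (List.mem_cons_of_mem _ (List.mem_cons_of_mem _ (List.mem_cons_of_mem _ (List.mem_cons_of_mem _ (List.mem_cons_self))))))))))))))))))))))), ?_⟩, by norm_num⟩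
  constructor <;> norm_num [Q23, coCell, C20]

lemma lcell20 : ∀ x1 x2 xc : ℝ, 0 ≤ x1 → x1 ≤ 1 → 0 ≤ x2 → x2 ≤ 1 → C20.l ≤ xc → xc ≤ C20.u →
    (56943 / 65536 : ℝ) * (1 - (1 - x1) ^ 6) + (967365 / 65536 : ℝ) * (1 - (1 - x2) ^ 6) - ((410789 / 32768 : ℝ) + (119 / 256 : ℝ)) * (1 - (1 - xc) ^ 6)
      ≤ - C20.a1 * x1 - C20.a2 * x2 + C20.e * xc + C20.f := by
  have h := cell_lines 6 (α1 := (56943 / 65536 : ℝ)) (α2 := (967365 / 65536 : ℝ)) (c := (410789 / 32768 : ℝ) + (119 / 256 : ℝ)) (y1 := (13479 / 262144 : ℝ)) (y2 := (15633 / 262144 : ℝ))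
    (A1 := (16793657 / 4194304 : ℝ)) (B1 := (4026393 / 134217728 : ℝ)) (A2 := (273151445 / 4194304 : ℝ)) (B2 := (44985497 / 67108864 : ℝ)) (l := (4209 / 65536 : ℝ)) (u := (2391 / 32768 : ℝ))
    (E := (-28669815 / 524288 : ℝ)) (F := (-203791477 / 268435456 : ℝ)) (by norm_num) (by norm_num) (by norm_num) (by norm_num) (by norm_num)
    (by norm_num) (by norm_num) (by norm_num) (by norm_num) (by norm_num) (by norm_num) (by norm_num) (by norm_num) (by norm_num) (by norm_num)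
  have e1 : C20.l = (4209 / 65536 : ℝ) := rfl
  have e2 : C20.u = (2391 / 32768 : ℝ) := rfl
  have e3 : C20.a1 = -(16793657 / 4194304 : ℝ) := by norm_num [C20]
  have e4 : C20.a2 = -(273151445 / 4194304 : ℝ) := by norm_num [C20]
  have e5 : C20.e = (-28669815 / 524288 : ℝ) := rfl
  have e6 : C20.f = (4026393 / 134217728 : ℝ) + (44985497 / 67108864 : ℝ) + (-203791477 / 268435456 : ℝ) := by norm_num [C20]
  rw [e1, e2, e3, e4, e5, e6]
  exact h

lemma rcell21 : ∃ N : ℝ, Rw4 P.r2 N (coCell (56943 / 65536 : ℝ) (967365 / 65536 : ℝ) ((410789 / 32768 : ℝ) + (119 / 256 : ℝ)) (101 / 4096 : ℝ) C21) := by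
  refine ⟨(2415919104 : ℝ), ⟨Q24, List.mem_cons_of_mem _ (List.mem_cons_of_mem _ (List.mem_cons_of_mem _ (List.mem_cons_of_mem _ (List.mem_cons_of_mem _ (List.mem_cons_of_mem _ (List.mem_cons_of_mem _ (List.mem_cons_of_mem _ (List.mem_cons_of_mem _ (List.mem_cons_of_mem _ (List.mem_cons_of_mem _ (List.mem_cons_of_mem _ (List.mem_cons_of_mem _ (List.mem_cons_of_mem _ (List.mem_cons_of_mem _ (List.mem_cons_of_mem _ (List.mem_cons_of_mem _ (List.mem_cons_of_mem _ (List.mem_cons_of_mem _ (List.mem_cons_of_mem _ (List.mem_cons_of_mem _ (List.mem_cons_of_mem _ (List.mem_cons_of_mem _ (List.mem_cons_of_mem _ (List.mem_cons_self)))))))))))))))))))))))), ?_⟩, by norm_num⟩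
  constructor <;> norm_num [Q24, coCell, C21]

lemma lcell21 : ∀ x1 x2 xc : ℝ, 0 ≤ x1 → x1 ≤ 1 → 0 ≤ x2 → x2 ≤ 1 → C21.l ≤ xc → xc ≤ C21.u →
    (56943 / 65536 : ℝ) * (1 - (1 - x1) ^ 6) + (967365 / 65536 : ℝ) * (1 - (1 - x2) ^ 6) - ((410789 / 32768 : ℝ) + (119 / 256 : ℝ)) * (1 - (1 - xc) ^ 6)
      ≤ - C21.a1 * x1 - C21.a2 * x2 + C21.e * xc + C21.f := by
  have h := cell_lines 6 (α1 := (56943 / 65536 : ℝ)) (α2 := (967365 / 65536 : ℝ)) (c := (410789 / 32768 : ℝ) + (119 / 256 : ℝ)) (y1 := (15333 / 262144 : ℝ)) (y2 := (8835 / 131072 : ℝ))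
    (A1 := (16176871 / 4194304 : ℝ)) (B1 := (10221381 / 268435456 : ℝ)) (A2 := (65512683 / 1048576 : ℝ)) (B2 := (225054533 / 268435456 : ℝ)) (l := (2391 / 32768 : ℝ)) (u := (5433 / 65536 : ℝ))
    (E := (-54523491 / 1048576 : ℝ)) (F := (-256396073 / 268435456 : ℝ)) (by norm_num) (by norm_num) (by norm_num) (by norm_num) (by norm_num)
    (by norm_num) (by norm_num) (by norm_num) (by norm_num) (by norm_num) (by norm_num) (by norm_num) (by norm_num) (by norm_num) (by norm_num)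
  have e1 : C21.l = (2391 / 32768 : ℝ) := rfl
  have e2 : C21.u = (5433 / 65536 : ℝ) := rfl
  have e3 : C21.a1 = -(16176871 / 4194304 : ℝ) := by norm_num [C21]
  have e4 : C21.a2 = -(65512683 / 1048576 : ℝ) := by norm_num [C21]
  have e5 : C21.e = (-54523491 / 1048576 : ℝ) := rfl
  have e6 : C21.f = (10221381 / 268435456 : ℝ) + (225054533 / 268435456 : ℝ) + (-256396073 / 268435456 : ℝ) := by norm_num [C21]
  rw [e1, e2, e3, e4, e5, e6]
  exact h

lemma rcell22 : ∃ N : ℝ, Rw4 P.r2 N (coCell (56943 / 65536 : ℝ) (967365 / 65536 : ℝ) ((410789 / 32768 : ℝ) + (119 / 256 : ℝ)) (101 / 4096 : ℝ) C22) := by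
  refine ⟨(603979776 : ℝ), ⟨Q25, List.mem_cons_of_mem _ (List.mem_cons_of_mem _ (List.mem_cons_of_mem _ (List.mem_cons_of_mem _ (List.mem_cons_of_mem _ (List.mem_cons_of_mem _ (List.mem_cons_of_mem _ (List.mem_cons_of_mem _ (List.mem_cons_of_mem _ (List.mem_cons_of_mem _ (List.mem_cons_of_mem _ (List.mem_cons_of_mem _ (List.mem_cons_of_mem _ (List.mem_cons_of_mem _ (List.mem_cons_of_mem _ (List.mem_cons_of_mem _ (List.mem_cons_of_mem _ (List.mem_cons_of_mem _ (List.mem_cons_of_mem _ (List.mem_cons_of_mem _ (List.mem_cons_of_mem _ (List.mem_cons_of_mem _ (List.mem_cons_of_mem _ (List.mem_cons_of_mem _ (List.mem_cons_of_mem _ (List.mem_cons_self))))))))))))))))))))))))), ?_⟩, by norm_num⟩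
  constructor <;> norm_num [Q25, coCell, C22]

lemma lcell22 : ∀ x1 x2 xc : ℝ, 0 ≤ x1 → x1 ≤ 1 → 0 ≤ x2 → x2 ≤ 1 → C22.l ≤ xc → xc ≤ C22.u →
    (56943 / 65536 : ℝ) * (1 - (1 - x1) ^ 6) + (967365 / 65536 : ℝ) * (1 - (1 - x2) ^ 6) - ((410789 / 32768 : ℝ) + (119 / 256 : ℝ)) * (1 - (1 - xc) ^ 6)
      ≤ - C22.a1 * x1 - C22.a2 * x2 + C22.e * xc + C22.f := by
  have h := cell_lines 6 (α1 := (56943 / 65536 : ℝ)) (α2 := (967365 / 65536 : ℝ)) (c := (410789 / 32768 : ℝ) + (119 / 256 : ℝ)) (y1 := (17749 / 262144 : ℝ)) (y2 := (19785 / 262144 : ℝ))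
    (A1 := (15400455 / 4194304 : ℝ)) (B1 := (1669413 / 33554432 : ℝ)) (A2 := (250909869 / 4194304 : ℝ)) (B2 := (275975515 / 268435456 : ℝ)) (l := (5433 / 65536 : ℝ)) (u := (24691 / 262144 : ℝ))
    (E := (-102918693 / 2097152 : ℝ)) (F := (-321425359 / 268435456 : ℝ)) (by norm_num) (by norm_num) (by norm_num) (by norm_num) (by norm_num)
    (by norm_num) (by norm_num) (by norm_num) (by norm_num) (by norm_num) (by norm_num) (by norm_num) (by norm_num) (by norm_num) (by norm_num)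
  have e1 : C22.l = (5433 / 65536 : ℝ) := rfl
  have e2 : C22.u = (24691 / 262144 : ℝ) := rfl
  have e3 : C22.a1 = -(15400455 / 4194304 : ℝ) := by norm_num [C22]
  have e4 : C22.a2 = -(250909869 / 4194304 : ℝ) := by norm_num [C22]
  have e5 : C22.e = (-102918693 / 2097152 : ℝ) := rfl
  have e6 : C22.f = (1669413 / 33554432 : ℝ) + (275975515 / 268435456 : ℝ) + (-321425359 / 268435456 : ℝ) := by norm_num [C22]
  rw [e1, e2, e3, e4, e5, e6]
  exact h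

lemma rcell23 : ∃ N : ℝ, Rw4 P.r2 N (coCell (56943 / 65536 : ℝ) (967365 / 65536 : ℝ) ((410789 / 32768 : ℝ) + (119 / 256 : ℝ)) (101 / 4096 : ℝ) C23) := by
  refine ⟨(2415919104 : ℝ), ⟨Q26, List.mem_cons_of_mem _ (List.mem_cons_of_mem _ (List.mem_cons_of_mem _ (List.mem_cons_of_mem _ (List.mem_cons_of_mem _ (List.mem_cons_of_mem _ (List.mem_cons_of_mem _ (List.mem_cons_of_mem _ (List.mem_cons_of_mem _ (List.mem_cons_of_mem _ (List.mem_cons_of_mem _ (List.mem_cons_of_mem _ (List.mem_cons_of_mem _ (List.mem_cons_of_mem _ (List.mem_cons_of_mem _ (List.mem_cons_of_mem _ (List.mem_cons_of_mem _ (List.mem_cons_of_mem _ (List.mem_cons_of_mem _ (List.mem_cons_of_mem _ (List.mem_cons_of_mem _ (List.mem_cons_of_mem _ (List.mem_cons_of_mem _ (List.mem_cons_of_mem _ (List.mem_cons_of_mem _ (List.mem_cons_of_mem _ (List.mem_cons_self)))))))))))))))))))))))))), ?_⟩, by norm_num⟩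
  constructor <;> norm_num [Q26, coCell, C23]

lemma lcell23 : ∀ x1 x2 xc : ℝ, 0 ≤ x1 → x1 ≤ 1 → 0 ≤ x2 → x2 ≤ 1 → C23.l ≤ xc → xc ≤ C23.u →
    (56943 / 65536 : ℝ) * (1 - (1 - x1) ^ 6) + (967365 / 65536 : ℝ) * (1 - (1 - x2) ^ 6) - ((410789 / 32768 : ℝ) + (119 / 256 : ℝ)) * (1 - (1 - xc) ^ 6)
      ≤ - C23.a1 * x1 - C23.a2 * x2 + C23.e * xc + C23.f := by
  have h := cell_lines 6 (α1 := (56943 / 65536 : ℝ)) (α2 := (967365 / 65536 : ℝ)) (c := (410789 / 32768 : ℝ) + (119 / 256 : ℝ)) (y1 := (4799 / 65536 : ℝ)) (y2 := (21817 / 262144 : ℝ))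
    (A1 := (14949911 / 4194304 : ℝ)) (B1 := (15386891 / 268435456 : ℝ)) (A2 := (30070789 / 524288 : ℝ)) (B2 := (41061189 / 33554432 : ℝ)) (l := (24691 / 262144 : ℝ)) (u := (28053 / 262144 : ℝ))
    (E := (-192587165 / 4194304 : ℝ)) (F := (-100324675 / 67108864 : ℝ)) (by norm_num) (by norm_num) (by norm_num) (by norm_num) (by norm_num)
    (by norm_num) (by norm_num) (by norm_num) (by norm_num) (by norm_num) (by norm_num) (by norm_num) (by norm_num) (by norm_num) (by norm_num)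
  have e1 : C23.l = (24691 / 262144 : ℝ) := rfl
  have e2 : C23.u = (28053 / 262144 : ℝ) := rfl
  have e3 : C23.a1 = -(14949911 / 4194304 : ℝ) := by norm_num [C23]
  have e4 : C23.a2 = -(30070789 / 524288 : ℝ) := by norm_num [C23]
  have e5 : C23.e = (-192587165 / 4194304 : ℝ) := rfl
  have e6 : C23.f = (15386891 / 268435456 : ℝ) + (41061189 / 33554432 : ℝ) + (-100324675 / 67108864 : ℝ) := by norm_num [C23]
  rw [e1, e2, e3, e4, e5, e6]
  exact h

lemma rcell24 : ∃ N : ℝ, Rw4 P.r2 N (coCell (56943 / 65536 : ℝ) (967365 / 65536 : ℝ) ((410789 / 32768 : ℝ) + (119 / 256 : ℝ)) (101 / 4096 : ℝ) C24) := by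
  refine ⟨(2415919104 : ℝ), ⟨Q27, List.mem_cons_of_mem _ (List.mem_cons_of_mem _ (List.mem_cons_of_mem _ (List.mem_cons_of_mem _ (List.mem_cons_of_mem _ (List.mem_cons_of_mem _ (List.mem_cons_of_mem _ (List.mem_cons_of_mem _ (List.mem_cons_of_mem _ (List.mem_cons_of_mem _ (List.mem_cons_of_mem _ (List.mem_cons_of_mem _ (List.mem_cons_of_mem _ (List.mem_cons_of_mem _ (List.mem_cons_of_mem _ (List.mem_cons_of_mem _ (List.mem_cons_of_mem _ (List.mem_cons_of_mem _ (List.mem_cons_of_mem _ (List.mem_cons_of_mem _ (List.mem_cons_of_mem _ (List.mem_cons_of_mem _ (List.mem_cons_of_mem _ (List.mem_cons_of_mem _ (List.mem_cons_of_mem _ (List.mem_cons_of_mem _ (List.mem_cons_of_mem _ (List.mem_cons_self))))))))))))))))))))))))))), ?_⟩, by norm_num⟩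
  constructor <;> norm_num [Q27, coCell, C24]

lemma lcell24 : ∀ x1 x2 xc : ℝ, 0 ≤ x1 → x1 ≤ 1 → 0 ≤ x2 → x2 ≤ 1 → C24.l ≤ xc → xc ≤ C24.u →
    (56943 / 65536 : ℝ) * (1 - (1 - x1) ^ 6) + (967365 / 65536 : ℝ) * (1 - (1 - x2) ^ 6) - ((410789 / 32768 : ℝ) + (119 / 256 : ℝ)) * (1 - (1 - xc) ^ 6)
      ≤ - C24.a1 * x1 - C24.a2 * x2 + C24.e * xc + C24.f := by
  have h := cell_lines 6 (α1 := (56943 / 65536 : ℝ)) (α2 := (967365 / 65536 : ℝ)) (c := (410789 / 32768 : ℝ) + (119 / 256 : ℝ)) (y1 := (21297 / 262144 : ℝ)) (y2 := (24393 / 262144 : ℝ))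
    (A1 := (14314565 / 4194304 : ℝ)) (B1 := (18526475 / 268435456 : ℝ)) (A2 := (227946929 / 4194304 : ℝ)) (B2 := (199822649 / 134217728 : ℝ)) (l := (28053 / 262144 : ℝ)) (u := (31873 / 262144 : ℝ))
    (E := (-178370883 / 4194304 : ℝ)) (F := (-249332133 / 134217728 : ℝ)) (by norm_num) (by norm_num) (by norm_num) (by norm_num) (by norm_num)
    (by norm_num) (by norm_num) (by norm_num) (by norm_num) (by norm_num) (by norm_num) (by norm_num) (by norm_num) (by norm_num) (by norm_num)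
  have e1 : C24.l = (28053 / 262144 : ℝ) := rfl
  have e2 : C24.u = (31873 / 262144 : ℝ) := rfl
  have e3 : C24.a1 = -(14314565 / 4194304 : ℝ) := by norm_num [C24]
  have e4 : C24.a2 = -(227946929 / 4194304 : ℝ) := by norm_num [C24]
  have e5 : C24.e = (-178370883 / 4194304 : ℝ) := rfl
  have e6 : C24.f = (18526475 / 268435456 : ℝ) + (199822649 / 134217728 : ℝ) + (-249332133 / 134217728 : ℝ) := by norm_num [C24]
  rw [e1, e2, e3, e4, e5, e6]
  exact h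

lemma rcell25 : ∃ N : ℝ, Rw4 P.r2 N (coCell (56943 / 65536 : ℝ) (967365 / 65536 : ℝ) ((410789 / 32768 : ℝ) + (119 / 256 : ℝ)) (101 / 4096 : ℝ) C25) := by
  refine ⟨(603979776 : ℝ), ⟨Q28, List.mem_cons_of_mem _ (List.mem_cons_of_mem _ (List.mem_cons_of_mem _ (List.mem_cons_of_mem _ (List.mem_cons_of_mem _ (List.mem_cons_of_mem _ (List.mem_cons_of_mem _ (List.mem_cons_of_mem _ (List.mem_cons_of_mem _ (List.mem_cons_of_mem _ (List.mem_cons_of_mem _ (List.mem_cons_of_mem _ (List.mem_cons_of_mem _ (List.mem_cons_of_mem _ (List.mem_cons_of_mem _ (List.mem_cons_of_mem _ (List.mem_cons_of_mem _ (List.mem_cons_of_mem _ (List.mem_cons_of_mem _ (List.mem_cons_of_mem _ (List.mem_cons_of_mem _ (List.mem_cons_of_mem _ (List.mem_cons_of_mem _ (List.mem_cons_of_mem _ (List.mem_cons_of_mem _ (List.mem_cons_of_mem _ (List.mem_cons_of_mem _ (List.mem_cons_of_mem _ (List.mem_cons_self)))))))))))))))))))))))))))),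 ?_⟩, by norm_num⟩
  constructor <;> norm_num [Q28, coCell, C25]

lemma lcell25 : ∀ x1 x2 xc : ℝ, 0 ≤ x1 → x1 ≤ 1 → 0 ≤ x2 → x2 ≤ 1 → C25.l ≤ xc → xc ≤ C25.u →
    (56943 / 65536 : ℝ) * (1 - (1 - x1) ^ 6) + (967365 / 65536 : ℝ) * (1 - (1 - x2) ^ 6) - ((410789 / 32768 : ℝ) + (119 / 256 : ℝ)) * (1 - (1 - xc) ^ 6)
      ≤ - C25.a1 * x1 - C25.a2 * x2 + C25.e * xc + C25.f := by
  have h := cell_lines 6 (α1 := (56943 / 65536 : ℝ)) (α2 := (967365 / 65536 : ℝ)) (c := (410789 / 32768 : ℝ) + (119 / 256 : ℝ)) (y1 := (23405 / 262144 : ℝ)) (y2 := (13341 / 131072 : ℝ))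
    (A1 := (6849499 / 2097152 : ℝ)) (B1 := (21884563 / 268435456 : ℝ)) (A2 := (108591575 / 2097152 : ℝ)) (B2 := (58341907 / 33554432 : ℝ)) (l := (31873 / 262144 : ℝ)) (u := (71 / 512 : ℝ))
    (E := (-163007073 / 4194304 : ℝ)) (F := (-618217663 / 268435456 : ℝ)) (by norm_num) (by norm_num) (by norm_num) (by norm_num) (by norm_num)
    (by norm_num) (by norm_num) (by norm_num) (by norm_num) (by norm_num) (by norm_num) (by norm_num) (by norm_num) (by norm_num) (by norm_num)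
  have e1 : C25.l = (31873 / 262144 : ℝ) := rfl
  have e2 : C25.u = (71 / 512 : ℝ) := rfl
  have e3 : C25.a1 = -(6849499 / 2097152 : ℝ) := by norm_num [C25]
  have e4 : C25.a2 = -(108591575 / 2097152 : ℝ) := by norm_num [C25]
  have e5 : C25.e = (-163007073 / 4194304 : ℝ) := rfl
  have e6 : C25.f = (21884563 / 268435456 : ℝ) + (58341907 / 33554432 : ℝ) + (-618217663 / 268435456 : ℝ) := by norm_num [C25]
  rw [e1, e2, e3, e4, e5, e6]
  exact h

/-- The whole chain. -/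
lemma chain {lam : ℝ} (h0 : -(1 / 2) < lam) (h1 : lam < 1) (hB : BoxS lam P 0 HH 0 HH) :
    ∃ n, 1 - En 6 lam n mc ≤ (71 / 512 : ℝ) := (start_of_box h0 h1 hB _ rc3)

/-- The hypotheses at the origin. -/
lemma horig (lam : ℝ) (hd : (6 : ℝ) * lam ^ 2 = 1) (hb : |lam| ≤ (448873742385 / 1099511627776 : ℝ)) :
    OriginH 6 lam (56943 / 65536 : ℝ) (967365 / 65536 : ℝ) (410789 / 32768 : ℝ) (119 / 256 : ℝ) (101 / 4096 : ℝ) (27 / 512 : ℝ) (2177 / 2048 : ℝ) (1 / 256 : ℝ) 3298534883328 := by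
  refine originH_of_num (d := 6) (by push_cast; exact hd) hb (by norm_num) (by norm_num) (by norm_num) (by norm_num)
    (by norm_num) (by norm_num) (by norm_num) (by norm_num) (by norm_num) (by norm_num) (by norm_num [S]) (by norm_num) ?_ ?_
  · rw [hch]
    norm_num [abs_of_pos, abs_of_neg]
  · norm_num [abs_of_pos, abs_of_neg]

/-- Nonreconstruction at the bound. -/
theorem main : Tendsto (reconError 3 6 (1 / Real.sqrt 6)) atTop (𝓝 0) := by
  have hsq' : Real.sqrt (6 : ℝ) ^ 2 = 6 := by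
    rw [Real.sq_sqrt (by positivity)]
  have hs0 : 0 < Real.sqrt (6 : ℝ) := Real.sqrt_pos.2 (by norm_num)
  have hl2 : ((6 : ℝ)) * (1 / Real.sqrt 6) ^ 2 = 1 := by
    have : (1 / Real.sqrt (6 : ℝ)) ^ 2 = 1 / 6 := by
      rw [div_pow, hsq']; norm_num
    rw [this]; norm_num
  have hb : |(1 / Real.sqrt (6 : ℝ))| ≤ (448873742385 / 1099511627776 : ℝ) := by
    rw [abs_of_pos (by positivity)]
    rw [div_le_iff₀ hs0]
    have h1 : (1 : ℝ) ^ 2 ≤ ((448873742385 / 1099511627776 : ℝ) * Real.sqrt 6) ^ 2 := by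
      rw [mul_pow, hsq']; norm_num
    exact le_of_sq_le_sq h1 (by positivity)
  have hb2 : (-(1 / 2) : ℝ) < 1 / Real.sqrt (6 : ℝ) := by
    have : 0 < 1 / Real.sqrt (6 : ℝ) := by positivity
    linarith
  have h1 : (1 / Real.sqrt (6 : ℝ)) < 1 := by
    have h2 := (abs_le.1 hb).2
    have h3 : ((448873742385 / 1099511627776 : ℝ) : ℝ) < 1 := by norm_num
    linarith
  have hlam : |(S : ℝ) * (1 / Real.sqrt (6 : ℝ)) - ((P.lp : ℝ) - P.ln)| ≤ ((1 : ℕ) : ℝ) := by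
    have h := lam_enc_pos 6 29417389580923127 (by norm_num) (by norm_num [S]) (by norm_num [S])
    have e : ((6 : ℕ) : ℝ) = (6 : ℝ) := by norm_num
    rw [e] at h
    exact h
  obtain ⟨hOa, hON⟩ := horig _ hl2 hb
  have hB := box hlam
  refine final_of_boxB (d := 6) (by norm_num) hb2 h1 hB (56943 / 65536 : ℝ) (967365 / 65536 : ℝ) (410789 / 32768 : ℝ) (119 / 256 : ℝ) (27 / 512 : ℝ) (2177 / 2048 : ℝ) (5243 / 1048576 : ℝ) (1217 / 8192 : ℝ) (101 / 4096 : ℝ) (71 / 512 : ℝ) cellsL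
    (by norm_num) (by norm_num) (by norm_num) (by norm_num) (by norm_num) (by norm_num) (by norm_num) (by norm_num)
    (by norm_num) (by norm_num) (by norm_num) (by norm_num) (by norm_num) hOa hON rTa rTb rc1 rc2
    (forall_cons rcell0 (forall_cons rcell1 (forall_cons rcell2 (forall_cons rcell3 (forall_cons rcell4 (forall_cons rcell5 (forall_cons rcell6 (forall_cons rcell7 (forall_cons rcell8 (forall_cons rcell9 (forall_cons rcell10 (forall_cons rcell11 (forall_cons rcell12 (forall_cons rcell13 (forall_cons rcell14 (forall_cons rcell15 (forall_cons rcell16 (forall_cons rcell17 (forall_cons rcell18 (forall_cons rcell19 (forall_cons rcell20 (forall_cons rcell21 (forall_cons rcell22 (forall_cons rcell23 (forall_cons rcell24 (forall_cons rcell25 (forall_nil))))))))))))))))))))))))))) hcover (forall_cons lcell0 (forall_cons lcell1 (forall_cons lcell2 (forall_cons lcell3 (forall_cons lcell4 (forall_cons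 lcell5 (forall_cons lcell6 (forall_cons lcell7 (forall_cons lcell8 (forall_cons lcell9 (forall_cons lcell10 (forall_cons lcell11 (forall_cons lcell12 (forall_cons lcell13 (forall_cons lcell14 (forall_cons lcell15 (forall_cons lcell16 (forall_cons lcell17 (forall_cons lcell18 (forall_cons lcell19 (forall_cons lcell20 (forall_cons lcell21 (forall_cons lcell22 (forall_cons lcell23 (forall_cons lcell24 (forall_cons lcell25 (forall_nil))))))))))))))))))))))))))) (chain hb2 h1 hB)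

end Vale.Agent.P154H.Tm.P6
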