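import Vale.Agent.P154H.D.DP7
import Vale.Agent.P154H.PosEnc
import Vale.Agent.P154H.OriginW

open Filter Topology

set_option maxRecDepth 100000

/-!
Nonreconstruction at the Kesten-Stigum bound for `d = 7`, positive eigenvalue, by a chain of
potentials along the monotone quantity `1 - En`.
-/

namespace Vale.Agent.P154H.Tm.P7

open Vale.Agent.P154 Vale.Agent.P154H

/-- A chord cell. -/
noncomputable def C0 : Cell := ⟨(5243 / 524288 : ℝ), (721 / 65536 : ℝ), (-30901881 / 4194304 : ℝ), (-97133735 / 1048576 : ℝ), (-344451471 / 4194304 : ℝ), (-297231 / 268435456 : ℝ)⟩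

/-- A chord cell. -/
noncomputable def C1 : Cell := ⟨(721 / 65536 : ℝ), (793 / 65536 : ℝ), (-7683511 / 1048576 : ℝ), (-386295921 / 4194304 : ℝ), (-342264307 / 4194304 : ℝ), (-327715 / 268435456 : ℝ)⟩

/-- A chord cell. -/
noncomputable def C2 : Cell := ⟨(793 / 65536 : ℝ), (3489 / 262144 : ℝ), (-30593111 / 4194304 : ℝ), (-191927159 / 2097152 : ℝ), (-169936993 / 2097152 : ℝ), (-391101 / 268435456 : ℝ)⟩

/-- A chord cell. -/
noncomputable def C3 : Cell := ⟨(3489 / 262144 : ℝ), (1919 / 131072 : ℝ), (-30344439 / 4194304 : ℝ), (-381292999 / 4194304 : ℝ), (-337258773 / 4194304 : ℝ), (-123131 / 67108864 : ℝ)⟩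

/-- A chord cell. -/
noncomputable def C4 : Cell := ⟨(1919 / 131072 : ℝ), (2111 / 131072 : ℝ), (-30245583 / 4194304 : ℝ), (-47293827 / 524288 : ℝ), (-334399889 / 4194304 : ℝ), (-309629 / 134217728 : ℝ)⟩

/-- A chord cell. -/
noncomputable def C5 : Cell := ⟨(2111 / 131072 : ℝ), (4645 / 262144 : ℝ), (-29994401 / 4194304 : ℝ), (-187565321 / 2097152 : ℝ), (-331275791 / 4194304 : ℝ), (-163683 / 67108864 : ℝ)⟩

/-- A chord cell. -/
noncomputable def C6 : Cell := ⟨(4645 / 262144 : ℝ), (5109 / 262144 : ℝ), (-14892861 / 2097152 : ℝ), (-371682559 / 4194304 : ℝ), (-327870101 / 4194304 : ℝ), (-813851 / 268435456 : ℝ)⟩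

/-- A chord cell. -/
noncomputable def C7 : Cell := ⟨(5109 / 262144 : ℝ), (1405 / 65536 : ℝ), (-1845293 / 262144 : ℝ), (-367960537 / 4194304 : ℝ), (-40520035 / 524288 : ℝ), (-507709 / 134217728 : ℝ)⟩

/-- A chord cell. -/
noncomputable def C8 : Cell := ⟨(1405 / 65536 : ℝ), (6183 / 262144 : ℝ), (-1830631 / 262144 : ℝ), (-181926469 / 2097152 : ℝ), (-160057179 / 2097152 : ℝ), (-313443 / 67108864 : ℝ)⟩

/-- A chord cell. -/
noncomputable def C9 : Cell := ⟨(6183 / 262144 : ℝ), (6801 / 262144 : ℝ), (-28979273 / 4194304 : ℝ), (-359295507 / 4194304 : ℝ), (-39464255 / 524288 : ℝ), (-676123 / 134217728 : ℝ)⟩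

/-- A chord cell. -/
noncomputable def C10 : Cell := ⟨(6801 / 262144 : ℝ), (7481 / 262144 : ℝ), (-28544873 / 4194304 : ℝ), (-354486225 / 4194304 : ℝ), (-310936105 / 4194304 : ℝ), (-193615 / 33554432 : ℝ)⟩

/-- A chord cell. -/
noncomputable def C11 : Cell := ⟨(7481 / 262144 : ℝ), (4115 / 131072 : ℝ), (-7081849 / 1048576 : ℝ), (-87258063 / 1048576 : ℝ), (-76436465 / 1048576 : ℝ), (-437667 / 67108864 : ℝ)⟩

/-- A chord cell. -/
noncomputable def C12 : Cell := ⟨(4115 / 131072 : ℝ), (9053 / 262144 : ℝ), (-27945709 / 4194304 : ℝ), (-343648385 / 4194304 : ℝ), (-300119875 / 4194304 : ℝ), (-172379 / 16777216 : ℝ)⟩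

/-- A chord cell. -/
noncomputable def C13 : Cell := ⟨(9053 / 262144 : ℝ), (9959 / 262144 : ℝ), (-27526217 / 4194304 : ℝ), (-42231773 / 524288 : ℝ), (-294031991 / 4194304 : ℝ), (-510077 / 33554432 : ℝ)⟩

/-- A chord cell. -/
noncomputable def C14 : Cell := ⟨(9959 / 262144 : ℝ), (10955 / 262144 : ℝ), (-13671127 / 2097152 : ℝ), (-83459741 / 1048576 : ℝ), (-287454269 / 4194304 : ℝ), (-2804479 / 67108864 : ℝ)⟩

/-- A chord cell. -/
noncomputable def C15 : Cell := ⟨(10955 / 262144 : ℝ), (12051 / 262144 : ℝ), (-27131805 / 4194304 : ℝ), (-332299213 / 4194304 : ℝ), (-280361661 / 4194304 : ℝ), (-26400443 / 268435456 : ℝ)⟩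

/-- A chord cell. -/
noncomputable def C16 : Cell := ⟨(12051 / 262144 : ℝ), (1657 / 32768 : ℝ), (-13051705 / 2097152 : ℝ), (-321708785 / 4194304 : ℝ), (-272729615 / 4194304 : ℝ), (-21318201 / 268435456 : ℝ)⟩

/-- A chord cell. -/
noncomputable def C17 : Cell := ⟨(1657 / 32768 : ℝ), (7291 / 131072 : ℝ), (-25747503 / 4194304 : ℝ), (-2432763 / 32768 : ℝ), (-264535623 / 4194304 : ℝ), (-18815005 / 268435456 : ℝ)⟩

/-- A chord cell. -/
noncomputable def C18 : Cell := ⟨(7291 / 131072 : ℝ), (16041 / 262144 : ℝ), (-3173019 / 524288 : ℝ), (-150597931 / 2097152 : ℝ), (-255757615 / 4194304 : ℝ), (-17874311 / 268435456 : ℝ)⟩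

/-- A chord cell. -/
noncomputable def C19 : Cell := ⟨(16041 / 262144 : ℝ), (17645 / 262144 : ℝ), (-6022195 / 1048576 : ℝ), (-291334393 / 4194304 : ℝ), (-246385235 / 4194304 : ℝ), (-8677891 / 134217728 : ℝ)⟩

/-- A chord cell. -/
noncomputable def C20 : Cell := ⟨(17645 / 262144 : ℝ), (9705 / 131072 : ℝ), (-23367587 / 4194304 : ℝ), (-140504679 / 2097152 : ℝ), (-236409131 / 4194304 : ℝ), (-9616105 / 134217728 : ℝ)⟩

/-- A chord cell. -/
noncomputable def C21 : Cell := ⟨(9705 / 131072 : ℝ), (2669 / 32768 : ℝ), (-11311885 / 2097152 : ℝ), (-272150093 / 4194304 : ℝ), (-112911871 / 2097152 : ℝ), (-15233283 / 134217728 : ℝ)⟩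

/-- A chord cell. -/
noncomputable def C22 : Cell := ⟨(2669 / 32768 : ℝ), (367 / 4096 : ℝ), (-22008079 / 4194304 : ℝ), (-32972283 / 524288 : ℝ), (-214638561 / 4194304 : ℝ), (-6184219 / 33554432 : ℝ)⟩

/-- A chord cell. -/
noncomputable def C23 : Cell := ⟨(367 / 4096 : ℝ), (25837 / 262144 : ℝ), (-21228039 / 4194304 : ℝ), (-253281447 / 4194304 : ℝ), (-202874455 / 4194304 : ℝ), (-63651497 / 268435456 : ℝ)⟩

/-- A chord cell. -/
noncomputable def C24 : Cell := ⟨(25837 / 262144 : ℝ), (28421 / 262144 : ℝ), (-20887341 / 4194304 : ℝ), (-246255685 / 4194304 : ℝ), (-190561285 / 4194304 : ℝ), (-12992841 / 33554432 : ℝ)⟩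

/-- A chord cell. -/
noncomputable def C25 : Cell := ⟨(28421 / 262144 : ℝ), (123 / 1024 : ℝ), (-20101261 / 4194304 : ℝ), (-236588523 / 4194304 : ℝ), (-22154183 / 524288 : ℝ), (-140154691 / 268435456 : ℝ)⟩

/-- The chord cells. -/
noncomputable def cellsL : List Cell := [C0, C1, C2, C3, C4, C5, C6, C7, C8, C9, C10, C11, C12, C13, C14, C15, C16, C17, C18, C19, C20, C21, C22, C23, C24, C25]

lemma hcover : ∀ x : ℝ, (5243 / 524288 : ℝ) ≤ x → x ≤ (123 / 1024 : ℝ) → ∃ D ∈ cellsL, D.l ≤ x ∧ x ≤ D.u := by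
  refine cover_of_chain ?_ (by norm_num [C0])
  simp only [ChainP, C0, C1, C2, C3, C4, C5, C6, C7, C8, C9, C10, C11, C12, C13, C14, C15, C16, C17, C18, C19, C20, C21, C22, C23, C24, C25]
  norm_num

lemma hch : ((Nat.choose 7 2 : ℕ) : ℝ) = 21 := by norm_num [Nat.choose]

lemma rTa : Rw4 P.r1 (1179648 : ℝ) (coTa 7 (72261 / 65536 : ℝ) (918081 / 65536 : ℝ) (395105 / 32768 : ℝ) (113 / 256 : ℝ) (109 / 4096 : ℝ)) := by
  refine ⟨⟨Ra, List.mem_cons_self, ?_⟩, by norm_num⟩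
  constructor <;> norm_num [Ra, coTa, hch]

lemma rTb : Rw4 P.r1 (2473901162496 : ℝ) (coTb 7 (72261 / 65536 : ℝ) (918081 / 65536 : ℝ) (395105 / 32768 : ℝ) (113 / 256 : ℝ) (109 / 4096 : ℝ) (285 / 4096 : ℝ) (537 / 512 : ℝ) (839 / 2048 : ℝ)) := by
  refine ⟨⟨Rb, List.mem_cons_of_mem _ (List.mem_cons_self), ?_⟩, by norm_num⟩
  constructor <;> norm_num [Rb, coTb, hch]

lemma rc1 : Rw4 P.r2 (134217728 : ℝ) ⟨0, 0, 0, -(72261 / 65536 : ℝ), 0, 0, 0, 0, (395105 / 32768 : ℝ) * (285 / 4096 : ℝ)⟩ := by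
  refine ⟨⟨Q0, List.mem_cons_self, ?_⟩, by norm_num⟩
  constructor <;> norm_num [Q0]

lemma rc2 : Rw4 P.r2 (16777216 : ℝ) ⟨0, 0, 0, 0, -(918081 / 65536 : ℝ), 0, 0, 0, (395105 / 32768 : ℝ) * (537 / 512 : ℝ)⟩ := by
  refine ⟨⟨Q1, List.mem_cons_of_mem _ (List.mem_cons_self), ?_⟩, by norm_num⟩
  constructor <;> norm_num [Q1]

lemma rc3 : Rw4 P.r2 (3072 : ℝ) ⟨0, 0, 0, 0, 0, -1, 0, 0, (123 / 1024 : ℝ)⟩ := by
  refine ⟨⟨Q2, List.mem_cons_of_mem _ (List.mem_cons_of_mem _ (List.mem_cons_self)), ?_⟩, by norm_num⟩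
  constructor <;> norm_num [Q2]

lemma rcell0 : ∃ N : ℝ, Rw4 P.r2 N (coCell (72261 / 65536 : ℝ) (918081 / 65536 : ℝ) ((395105 / 32768 : ℝ) + (113 / 256 : ℝ)) (109 / 4096 : ℝ) C0) := by
  refine ⟨(2415919104 : ℝ), ⟨Q3, List.mem_cons_of_mem _ (List.mem_cons_of_mem _ (List.mem_cons_of_mem _ (List.mem_cons_self))), ?_⟩, by norm_num⟩
  constructor <;> norm_num [Q3, coCell, C0]

lemma lcell0 : ∀ x1 x2 xc : ℝ, 0 ≤ x1 → x1 ≤ 1 → 0 ≤ x2 → x2 ≤ 1 → C0.l ≤ xc → xc ≤ C0.u →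
    (72261 / 65536 : ℝ) * (1 - (1 - x1) ^ 7) + (918081 / 65536 : ℝ) * (1 - (1 - x2) ^ 7) - ((395105 / 32768 : ℝ) + (113 / 256 : ℝ)) * (1 - (1 - xc) ^ 7)
      ≤ - C0.a1 * x1 - C0.a2 * x2 + C0.e * xc + C0.f := by
  have h := cell_lines 7 (α1 := (72261 / 65536 : ℝ)) (α2 := (918081 / 65536 : ℝ)) (c := (395105 / 32768 : ℝ) + (113 / 256 : ℝ)) (y1 := (253 / 32768 : ℝ)) (y2 := (619 / 65536 : ℝ))
    (A1 := (30901881 / 4194304 : ℝ)) (B1 := (90283 / 67108864 : ℝ)) (A2 := (97133735 / 1048576 : ℝ)) (B2 := (6826325 / 268435456 : ℝ)) (l := (5243 / 524288 : ℝ)) (u := (721 / 65536 : ℝ))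
    (E := (-344451471 / 4194304 : ℝ)) (F := (-467793 / 16777216 : ℝ)) (by norm_num) (by norm_num) (by norm_num) (by norm_num) (by norm_num)
    (by norm_num) (by norm_num) (by norm_num) (by norm_num) (by norm_num) (by norm_num) (by norm_num) (by norm_num) (by norm_num) (by norm_num)
  have e1 : C0.l = (5243 / 524288 : ℝ) := rfl
  have e2 : C0.u = (721 / 65536 : ℝ) := rfl
  have e3 : C0.a1 = -(30901881 / 4194304 : ℝ) := by norm_num [C0]
  have e4 : C0.a2 = -(97133735 / 1048576 : ℝ) := by norm_num [C0]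
  have e5 : C0.e = (-344451471 / 4194304 : ℝ) := rfl
  have e6 : C0.f = (90283 / 67108864 : ℝ) + (6826325 / 268435456 : ℝ) + (-467793 / 16777216 : ℝ) := by norm_num [C0]
  rw [e1, e2, e3, e4, e5, e6]
  exact h

lemma rcell1 : ∃ N : ℝ, Rw4 P.r2 N (coCell (72261 / 65536 : ℝ) (918081 / 65536 : ℝ) ((395105 / 32768 : ℝ) + (113 / 256 : ℝ)) (109 / 4096 : ℝ) C1) := by
  refine ⟨(2415919104 : ℝ), ⟨Q4, List.mem_cons_of_mem _ (List.mem_cons_of_mem _ (List.mem_cons_of_mem _ (List.mem_cons_of_mem _ (List.mem_cons_self)))), ?_⟩, by norm_num⟩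
  constructor <;> norm_num [Q4, coCell, C1]

lemma lcell1 : ∀ x1 x2 xc : ℝ, 0 ≤ x1 → x1 ≤ 1 → 0 ≤ x2 → x2 ≤ 1 → C1.l ≤ xc → xc ≤ C1.u →
    (72261 / 65536 : ℝ) * (1 - (1 - x1) ^ 7) + (918081 / 65536 : ℝ) * (1 - (1 - x2) ^ 7) - ((395105 / 32768 : ℝ) + (113 / 256 : ℝ)) * (1 - (1 - xc) ^ 7)
      ≤ - C1.a1 * x1 - C1.a2 * x2 + C1.e * xc + C1.f := by
  have h := cell_lines 7 (α1 := (72261 / 65536 : ℝ)) (α2 := (918081 / 65536 : ℝ)) (c := (395105 / 32768 : ℝ) + (113 / 256 : ℝ)) (y1 := (565 / 65536 : ℝ)) (y2 := (1363 / 131072 : ℝ))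
    (A1 := (7683511 / 1048576 : ℝ)) (B1 := (56109 / 33554432 : ℝ)) (A2 := (386295921 / 4194304 : ℝ)) (B2 := (4124043 / 134217728 : ℝ)) (l := (721 / 65536 : ℝ)) (u := (793 / 65536 : ℝ))
    (E := (-342264307 / 4194304 : ℝ)) (F := (-9024673 / 268435456 : ℝ)) (by norm_num) (by norm_num) (by norm_num) (by norm_num) (by norm_num)
    (by norm_num) (by norm_num) (by norm_num) (by norm_num) (by norm_num) (by norm_num) (by norm_num) (by norm_num) (by norm_num) (by norm_num)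
  have e1 : C1.l = (721 / 65536 : ℝ) := rfl
  have e2 : C1.u = (793 / 65536 : ℝ) := rfl
  have e3 : C1.a1 = -(7683511 / 1048576 : ℝ) := by norm_num [C1]
  have e4 : C1.a2 = -(386295921 / 4194304 : ℝ) := by norm_num [C1]
  have e5 : C1.e = (-342264307 / 4194304 : ℝ) := rfl
  have e6 : C1.f = (56109 / 33554432 : ℝ) + (4124043 / 134217728 : ℝ) + (-9024673 / 268435456 : ℝ) := by norm_num [C1]
  rw [e1, e2, e3, e4, e5, e6]
  exact h

lemma rcell2 : ∃ N : ℝ, Rw4 P.r2 N (coCell (72261 / 65536 : ℝ) (918081 / 65536 : ℝ) ((395105 / 32768 : ℝ) + (113 / 256 : ℝ)) (109 / 4096 : ℝ) C2) := by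
  refine ⟨(2415919104 : ℝ), ⟨Q5, List.mem_cons_of_mem _ (List.mem_cons_of_mem _ (List.mem_cons_of_mem _ (List.mem_cons_of_mem _ (List.mem_cons_of_mem _ (List.mem_cons_self))))), ?_⟩, by norm_num⟩
  constructor <;> norm_num [Q5, coCell, C2]

lemma lcell2 : ∀ x1 x2 xc : ℝ, 0 ≤ x1 → x1 ≤ 1 → 0 ≤ x2 → x2 ≤ 1 → C2.l ≤ xc → xc ≤ C2.u →
    (72261 / 65536 : ℝ) * (1 - (1 - x1) ^ 7) + (918081 / 65536 : ℝ) * (1 - (1 - x2) ^ 7) - ((395105 / 32768 : ℝ) + (113 / 256 : ℝ)) * (1 - (1 - xc) ^ 7)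
      ≤ - C2.a1 * x1 - C2.a2 * x2 + C2.e * xc + C2.f := by
  have h := cell_lines 7 (α1 := (72261 / 65536 : ℝ)) (α2 := (918081 / 65536 : ℝ)) (c := (395105 / 32768 : ℝ) + (113 / 256 : ℝ)) (y1 := (2459 / 262144 : ℝ)) (y2 := (375 / 32768 : ℝ))
    (A1 := (30593111 / 4194304 : ℝ)) (B1 := (265027 / 134217728 : ℝ)) (A2 := (191927159 / 2097152 : ℝ)) (B2 := (1244327 / 33554432 : ℝ)) (l := (793 / 65536 : ℝ)) (u := (3489 / 262144 : ℝ))
    (E := (-169936993 / 2097152 : ℝ)) (F := (-10875771 / 268435456 : ℝ)) (by norm_num) (by norm_num) (by norm_num) (by norm_num) (by norm_num)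
    (by norm_num) (by norm_num) (by norm_num) (by norm_num) (by norm_num) (by norm_num) (by norm_num) (by norm_num) (by norm_num) (by norm_num)
  have e1 : C2.l = (793 / 65536 : ℝ) := rfl
  have e2 : C2.u = (3489 / 262144 : ℝ) := rfl
  have e3 : C2.a1 = -(30593111 / 4194304 : ℝ) := by norm_num [C2]
  have e4 : C2.a2 = -(191927159 / 2097152 : ℝ) := by norm_num [C2]
  have e5 : C2.e = (-169936993 / 2097152 : ℝ) := rfl
  have e6 : C2.f = (265027 / 134217728 : ℝ) + (1244327 / 33554432 : ℝ) + (-10875771 / 268435456 : ℝ) := by norm_num [C2]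
  rw [e1, e2, e3, e4, e5, e6]
  exact h

lemma rcell3 : ∃ N : ℝ, Rw4 P.r2 N (coCell (72261 / 65536 : ℝ) (918081 / 65536 : ℝ) ((395105 / 32768 : ℝ) + (113 / 256 : ℝ)) (109 / 4096 : ℝ) C3) := by
  refine ⟨(603979776 : ℝ), ⟨Q6, List.mem_cons_of_mem _ (List.mem_cons_of_mem _ (List.mem_cons_of_mem _ (List.mem_cons_of_mem _ (List.mem_cons_of_mem _ (List.mem_cons_of_mem _ (List.mem_cons_self)))))), ?_⟩, by norm_num⟩
  constructor <;> norm_num [Q6, coCell, C3]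

lemma lcell3 : ∀ x1 x2 xc : ℝ, 0 ≤ x1 → x1 ≤ 1 → 0 ≤ x2 → x2 ≤ 1 → C3.l ≤ xc → xc ≤ C3.u →
    (72261 / 65536 : ℝ) * (1 - (1 - x1) ^ 7) + (918081 / 65536 : ℝ) * (1 - (1 - x2) ^ 7) - ((395105 / 32768 : ℝ) + (113 / 256 : ℝ)) * (1 - (1 - xc) ^ 7)
      ≤ - C3.a1 * x1 - C3.a2 * x2 + C3.e * xc + C3.f := by
  have h := cell_lines 7 (α1 := (72261 / 65536 : ℝ)) (α2 := (918081 / 65536 : ℝ)) (c := (395105 / 32768 : ℝ) + (113 / 256 : ℝ)) (y1 := (703 / 65536 : ℝ)) (y2 := (3289 / 262144 : ℝ))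
    (A1 := (30344439 / 4194304 : ℝ)) (B1 := (345023 / 134217728 : ℝ)) (A2 := (381292999 / 4194304 : ℝ)) (B2 := (11920857 / 268435456 : ℝ)) (l := (3489 / 262144 : ℝ)) (u := (1919 / 131072 : ℝ))
    (E := (-337258773 / 4194304 : ℝ)) (F := (-13103427 / 268435456 : ℝ)) (by norm_num) (by norm_num) (by norm_num) (by norm_num) (by norm_num)
    (by norm_num) (by norm_num) (by norm_num) (by norm_num) (by norm_num) (by norm_num) (by norm_num) (by norm_num) (by norm_num) (by norm_num)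
  have e1 : C3.l = (3489 / 262144 : ℝ) := rfl
  have e2 : C3.u = (1919 / 131072 : ℝ) := rfl
  have e3 : C3.a1 = -(30344439 / 4194304 : ℝ) := by norm_num [C3]
  have e4 : C3.a2 = -(381292999 / 4194304 : ℝ) := by norm_num [C3]
  have e5 : C3.e = (-337258773 / 4194304 : ℝ) := rfl
  have e6 : C3.f = (345023 / 134217728 : ℝ) + (11920857 / 268435456 : ℝ) + (-13103427 / 268435456 : ℝ) := by norm_num [C3]
  rw [e1, e2, e3, e4, e5, e6]
  exact h

lemma rcell4 : ∃ N : ℝ, Rw4 P.r2 N (coCell (72261 / 65536 : ℝ) (918081 / 65536 : ℝ) ((395105 / 32768 : ℝ) + (113 / 256 : ℝ)) (109 / 4096 : ℝ) C4) := by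
  refine ⟨(1207959552 : ℝ), ⟨Q7, List.mem_cons_of_mem _ (List.mem_cons_of_mem _ (List.mem_cons_of_mem _ (List.mem_cons_of_mem _ (List.mem_cons_of_mem _ (List.mem_cons_of_mem _ (List.mem_cons_of_mem _ (List.mem_cons_self))))))), ?_⟩, by norm_num⟩
  constructor <;> norm_num [Q7, coCell, C4]

lemma lcell4 : ∀ x1 x2 xc : ℝ, 0 ≤ x1 → x1 ≤ 1 → 0 ≤ x2 → x2 ≤ 1 → C4.l ≤ xc → xc ≤ C4.u →
    (72261 / 65536 : ℝ) * (1 - (1 - x1) ^ 7) + (918081 / 65536 : ℝ) * (1 - (1 - x2) ^ 7) - ((395105 / 32768 : ℝ) + (113 / 256 : ℝ)) * (1 - (1 - xc) ^ 7)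
      ≤ - C4.a1 * x1 - C4.a2 * x2 + C4.e * xc + C4.f := by
  have h := cell_lines 7 (α1 := (72261 / 65536 : ℝ)) (α2 := (918081 / 65536 : ℝ)) (c := (395105 / 32768 : ℝ) + (113 / 256 : ℝ)) (y1 := (2953 / 262144 : ℝ)) (y2 := (3623 / 262144 : ℝ))
    (A1 := (30245583 / 4194304 : ℝ)) (B1 := (759613 / 268435456 : ℝ)) (A2 := (47293827 / 524288 : ℝ)) (B2 := (3600841 / 67108864 : ℝ)) (l := (1919 / 131072 : ℝ)) (u := (2111 / 131072 : ℝ))
    (E := (-334399889 / 4194304 : ℝ)) (F := (-15782235 / 268435456 : ℝ)) (by norm_num) (by norm_num) (by norm_num) (by norm_num) (by norm_num)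
    (by norm_num) (by norm_num) (by norm_num) (by norm_num) (by norm_num) (by norm_num) (by norm_num) (by norm_num) (by norm_num) (by norm_num)
  have e1 : C4.l = (1919 / 131072 : ℝ) := rfl
  have e2 : C4.u = (2111 / 131072 : ℝ) := rfl
  have e3 : C4.a1 = -(30245583 / 4194304 : ℝ) := by norm_num [C4]
  have e4 : C4.a2 = -(47293827 / 524288 : ℝ) := by norm_num [C4]
  have e5 : C4.e = (-334399889 / 4194304 : ℝ) := rfl
  have e6 : C4.f = (759613 / 268435456 : ℝ) + (3600841 / 67108864 : ℝ) + (-15782235 / 268435456 : ℝ) := by norm_num [C4]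
  rw [e1, e2, e3, e4, e5, e6]
  exact h

lemma rcell5 : ∃ N : ℝ, Rw4 P.r2 N (coCell (72261 / 65536 : ℝ) (918081 / 65536 : ℝ) ((395105 / 32768 : ℝ) + (113 / 256 : ℝ)) (109 / 4096 : ℝ) C5) := by
  refine ⟨(603979776 : ℝ), ⟨Q8, List.mem_cons_of_mem _ (List.mem_cons_of_mem _ (List.mem_cons_of_mem _ (List.mem_cons_of_mem _ (List.mem_cons_of_mem _ (List.mem_cons_of_mem _ (List.mem_cons_of_mem _ (List.mem_cons_of_mem _ (List.mem_cons_self)))))))), ?_⟩, by norm_num⟩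
  constructor <;> norm_num [Q8, coCell, C5]

lemma lcell5 : ∀ x1 x2 xc : ℝ, 0 ≤ x1 → x1 ≤ 1 → 0 ≤ x2 → x2 ≤ 1 → C5.l ≤ xc → xc ≤ C5.u →
    (72261 / 65536 : ℝ) * (1 - (1 - x1) ^ 7) + (918081 / 65536 : ℝ) * (1 - (1 - x2) ^ 7) - ((395105 / 32768 : ℝ) + (113 / 256 : ℝ)) * (1 - (1 - xc) ^ 7)
      ≤ - C5.a1 * x1 - C5.a2 * x2 + C5.e * xc + C5.f := by
  have h := cell_lines 7 (α1 := (72261 / 65536 : ℝ)) (α2 := (918081 / 65536 : ℝ)) (c := (395105 / 32768 : ℝ) + (113 / 256 : ℝ)) (y1 := (3313 / 262144 : ℝ)) (y2 := (3991 / 262144 : ℝ))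
    (A1 := (29994401 / 4194304 : ℝ)) (B1 := (59483 / 16777216 : ℝ)) (A2 := (187565321 / 2097152 : ℝ)) (B2 := (2174497 / 33554432 : ℝ)) (l := (2111 / 131072 : ℝ)) (u := (4645 / 262144 : ℝ))
    (E := (-331275791 / 4194304 : ℝ)) (F := (-4750609 / 67108864 : ℝ)) (by norm_num) (by norm_num) (by norm_num) (by norm_num) (by norm_num)
    (by norm_num) (by norm_num) (by norm_num) (by norm_num) (by norm_num) (by norm_num) (by norm_num) (by norm_num) (by norm_num) (by norm_num)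
  have e1 : C5.l = (2111 / 131072 : ℝ) := rfl
  have e2 : C5.u = (4645 / 262144 : ℝ) := rfl
  have e3 : C5.a1 = -(29994401 / 4194304 : ℝ) := by norm_num [C5]
  have e4 : C5.a2 = -(187565321 / 2097152 : ℝ) := by norm_num [C5]
  have e5 : C5.e = (-331275791 / 4194304 : ℝ) := rfl
  have e6 : C5.f = (59483 / 16777216 : ℝ) + (2174497 / 33554432 : ℝ) + (-4750609 / 67108864 : ℝ) := by norm_num [C5]
  rw [e1, e2, e3, e4, e5, e6]
  exact h

lemma rcell6 : ∃ N : ℝ, Rw4 P.r2 N (coCell (72261 / 65536 : ℝ) (918081 / 65536 : ℝ) ((395105 / 32768 : ℝ) + (113 / 256 : ℝ)) (109 / 4096 : ℝ) C6) := by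
  refine ⟨(2415919104 : ℝ), ⟨Q9, List.mem_cons_of_mem _ (List.mem_cons_of_mem _ (List.mem_cons_of_mem _ (List.mem_cons_of_mem _ (List.mem_cons_of_mem _ (List.mem_cons_of_mem _ (List.mem_cons_of_mem _ (List.mem_cons_of_mem _ (List.mem_cons_of_mem _ (List.mem_cons_self))))))))), ?_⟩, by norm_num⟩
  constructor <;> norm_num [Q9, coCell, C6]

lemma lcell6 : ∀ x1 x2 xc : ℝ, 0 ≤ x1 → x1 ≤ 1 → 0 ≤ x2 → x2 ≤ 1 → C6.l ≤ xc → xc ≤ C6.u →
    (72261 / 65536 : ℝ) * (1 - (1 - x1) ^ 7) + (918081 / 65536 : ℝ) * (1 - (1 - x2) ^ 7) - ((395105 / 32768 : ℝ) + (113 / 256 : ℝ)) * (1 - (1 - xc) ^ 7)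
      ≤ - C6.a1 * x1 - C6.a2 * x2 + C6.e * xc + C6.f := by
  have h := cell_lines 7 (α1 := (72261 / 65536 : ℝ)) (α2 := (918081 / 65536 : ℝ)) (c := (395105 / 32768 : ℝ) + (113 / 256 : ℝ)) (y1 := (1807 / 131072 : ℝ)) (y2 := (1097 / 65536 : ℝ))
    (A1 := (14892861 / 2097152 : ℝ)) (B1 := (1128175 / 268435456 : ℝ)) (A2 := (371682559 / 4194304 : ℝ)) (B2 := (20922575 / 268435456 : ℝ)) (l := (4645 / 262144 : ℝ)) (u := (5109 / 262144 : ℝ))
    (E := (-327870101 / 4194304 : ℝ)) (F := (-22864601 / 268435456 : ℝ)) (by norm_num) (by norm_num) (by norm_num) (by norm_num) (by norm_num)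
    (by norm_num) (by norm_num) (by norm_num) (by norm_num) (by norm_num) (by norm_num) (by norm_num) (by norm_num) (by norm_num) (by norm_num)
  have e1 : C6.l = (4645 / 262144 : ℝ) := rfl
  have e2 : C6.u = (5109 / 262144 : ℝ) := rfl
  have e3 : C6.a1 = -(14892861 / 2097152 : ℝ) := by norm_num [C6]
  have e4 : C6.a2 = -(371682559 / 4194304 : ℝ) := by norm_num [C6]
  have e5 : C6.e = (-327870101 / 4194304 : ℝ) := rfl
  have e6 : C6.f = (1128175 / 268435456 : ℝ) + (20922575 / 268435456 : ℝ) + (-22864601 / 268435456 : ℝ) := by norm_num [C6]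
  rw [e1, e2, e3, e4, e5, e6]
  exact h

lemma rcell7 : ∃ N : ℝ, Rw4 P.r2 N (coCell (72261 / 65536 : ℝ) (918081 / 65536 : ℝ) ((395105 / 32768 : ℝ) + (113 / 256 : ℝ)) (109 / 4096 : ℝ) C7) := by
  refine ⟨(1207959552 : ℝ), ⟨Q10, List.mem_cons_of_mem _ (List.mem_cons_of_mem _ (List.mem_cons_of_mem _ (List.mem_cons_of_mem _ (List.mem_cons_of_mem _ (List.mem_cons_of_mem _ (List.mem_cons_of_mem _ (List.mem_cons_of_mem _ (List.mem_cons_of_mem _ (List.mem_cons_of_mem _ (List.mem_cons_self)))))))))), ?_⟩, by norm_num⟩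
  constructor <;> norm_num [Q10, coCell, C7]

lemma lcell7 : ∀ x1 x2 xc : ℝ, 0 ≤ x1 → x1 ≤ 1 → 0 ≤ x2 → x2 ≤ 1 → C7.l ≤ xc → xc ≤ C7.u →
    (72261 / 65536 : ℝ) * (1 - (1 - x1) ^ 7) + (918081 / 65536 : ℝ) * (1 - (1 - x2) ^ 7) - ((395105 / 32768 : ℝ) + (113 / 256 : ℝ)) * (1 - (1 - xc) ^ 7)
      ≤ - C7.a1 * x1 - C7.a2 * x2 + C7.e * xc + C7.f := by
  have h := cell_lines 7 (α1 := (72261 / 65536 : ℝ)) (α2 := (918081 / 65536 : ℝ)) (c := (395105 / 32768 : ℝ) + (113 / 256 : ℝ)) (y1 := (3993 / 262144 : ℝ)) (y2 := (1205 / 65536 : ℝ))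
    (A1 := (1845293 / 262144 : ℝ)) (B1 := (685283 / 134217728 : ℝ)) (A2 := (367960537 / 4194304 : ℝ)) (B2 := (25105931 / 268435456 : ℝ)) (l := (5109 / 262144 : ℝ)) (u := (1405 / 65536 : ℝ))
    (E := (-40520035 / 524288 : ℝ)) (F := (-27491915 / 268435456 : ℝ)) (by norm_num) (by norm_num) (by norm_num) (by norm_num) (by norm_num)
    (by norm_num) (by norm_num) (by norm_num) (by norm_num) (by norm_num) (by norm_num) (by norm_num) (by norm_num) (by norm_num) (by norm_num)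
  have e1 : C7.l = (5109 / 262144 : ℝ) := rfl
  have e2 : C7.u = (1405 / 65536 : ℝ) := rfl
  have e3 : C7.a1 = -(1845293 / 262144 : ℝ) := by norm_num [C7]
  have e4 : C7.a2 = -(367960537 / 4194304 : ℝ) := by norm_num [C7]
  have e5 : C7.e = (-40520035 / 524288 : ℝ) := rfl
  have e6 : C7.f = (685283 / 134217728 : ℝ) + (25105931 / 268435456 : ℝ) + (-27491915 / 268435456 : ℝ) := by norm_num [C7]
  rw [e1, e2, e3, e4, e5, e6]
  exact h

lemma rcell8 : ∃ N : ℝ, Rw4 P.r2 N (coCell (72261 / 65536 : ℝ) (918081 / 65536 : ℝ) ((395105 / 32768 : ℝ) + (113 / 256 : ℝ)) (109 / 4096 : ℝ) C8) := by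
  refine ⟨(603979776 : ℝ), ⟨Q11, List.mem_cons_of_mem _ (List.mem_cons_of_mem _ (List.mem_cons_of_mem _ (List.mem_cons_of_mem _ (List.mem_cons_of_mem _ (List.mem_cons_of_mem _ (List.mem_cons_of_mem _ (List.mem_cons_of_mem _ (List.mem_cons_of_mem _ (List.mem_cons_of_mem _ (List.mem_cons_of_mem _ (List.mem_cons_self))))))))))), ?_⟩, by norm_num⟩
  constructor <;> norm_num [Q11, coCell, C8]

lemma lcell8 : ∀ x1 x2 xc : ℝ, 0 ≤ x1 → x1 ≤ 1 → 0 ≤ x2 → x2 ≤ 1 → C8.l ≤ xc → xc ≤ C8.u →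
    (72261 / 65536 : ℝ) * (1 - (1 - x1) ^ 7) + (918081 / 65536 : ℝ) * (1 - (1 - x2) ^ 7) - ((395105 / 32768 : ℝ) + (113 / 256 : ℝ)) * (1 - (1 - xc) ^ 7)
      ≤ - C8.a1 * x1 - C8.a2 * x2 + C8.e * xc + C8.f := by
  have h := cell_lines 7 (α1 := (72261 / 65536 : ℝ)) (α2 := (918081 / 65536 : ℝ)) (c := (395105 / 32768 : ℝ) + (113 / 256 : ℝ)) (y1 := (271 / 16384 : ℝ)) (y2 := (5301 / 262144 : ℝ))
    (A1 := (1830631 / 262144 : ℝ)) (B1 := (804529 / 134217728 : ℝ)) (A2 := (181926469 / 2097152 : ℝ)) (B2 := (15090187 / 134217728 : ℝ)) (l := (1405 / 65536 : ℝ)) (u := (6183 / 262144 : ℝ))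
    (E := (-160057179 / 2097152 : ℝ)) (F := (-8260801 / 67108864 : ℝ)) (by norm_num) (by norm_num) (by norm_num) (by norm_num) (by norm_num)
    (by norm_num) (by norm_num) (by norm_num) (by norm_num) (by norm_num) (by norm_num) (by norm_num) (by norm_num) (by norm_num) (by norm_num)
  have e1 : C8.l = (1405 / 65536 : ℝ) := rfl
  have e2 : C8.u = (6183 / 262144 : ℝ) := rfl
  have e3 : C8.a1 = -(1830631 / 262144 : ℝ) := by norm_num [C8]
  have e4 : C8.a2 = -(181926469 / 2097152 : ℝ) := by norm_num [C8]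
  have e5 : C8.e = (-160057179 / 2097152 : ℝ) := rfl
  have e6 : C8.f = (804529 / 134217728 : ℝ) + (15090187 / 134217728 : ℝ) + (-8260801 / 67108864 : ℝ) := by norm_num [C8]
  rw [e1, e2, e3, e4, e5, e6]
  exact h

lemma rcell9 : ∃ N : ℝ, Rw4 P.r2 N (coCell (72261 / 65536 : ℝ) (918081 / 65536 : ℝ) ((395105 / 32768 : ℝ) + (113 / 256 : ℝ)) (109 / 4096 : ℝ) C9) := by
  refine ⟨(1207959552 : ℝ), ⟨Q12, List.mem_cons_of_mem _ (List.mem_cons_of_mem _ (List.mem_cons_of_mem _ (List.mem_cons_of_mem _ (List.mem_cons_of_mem _ (List.mem_cons_of_mem _ (List.mem_cons_of_mem _ (List.mem_cons_of_mem _ (List.mem_cons_of_mem _ (List.mem_cons_of_mem _ (List.mem_cons_of_mem _ (List.mem_cons_of_mem _ (List.mem_cons_self)))))))))))), ?_⟩, by norm_num⟩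
  constructor <;> norm_num [Q12, coCell, C9]

lemma lcell9 : ∀ x1 x2 xc : ℝ, 0 ≤ x1 → x1 ≤ 1 → 0 ≤ x2 → x2 ≤ 1 → C9.l ≤ xc → xc ≤ C9.u →
    (72261 / 65536 : ℝ) * (1 - (1 - x1) ^ 7) + (918081 / 65536 : ℝ) * (1 - (1 - x2) ^ 7) - ((395105 / 32768 : ℝ) + (113 / 256 : ℝ)) * (1 - (1 - xc) ^ 7)
      ≤ - C9.a1 * x1 - C9.a2 * x2 + C9.e * xc + C9.f := by
  have h := cell_lines 7 (α1 := (72261 / 65536 : ℝ)) (α2 := (918081 / 65536 : ℝ)) (c := (395105 / 32768 : ℝ) + (113 / 256 : ℝ)) (y1 := (2397 / 131072 : ℝ)) (y2 := (365 / 16384 : ℝ))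
    (A1 := (28979273 / 4194304 : ℝ)) (B1 := (1955445 / 268435456 : ℝ)) (A2 := (359295507 / 4194304 : ℝ)) (B2 := (1136809 / 8388608 : ℝ)) (l := (6183 / 262144 : ℝ)) (u := (6801 / 262144 : ℝ))
    (E := (-39464255 / 524288 : ℝ)) (F := (-39685579 / 268435456 : ℝ)) (by norm_num) (by norm_num) (by norm_num) (by norm_num) (by norm_num)
    (by norm_num) (by norm_num) (by norm_num) (by norm_num) (by norm_num) (by norm_num) (by norm_num) (by norm_num) (by norm_num) (by norm_num)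
  have e1 : C9.l = (6183 / 262144 : ℝ) := rfl
  have e2 : C9.u = (6801 / 262144 : ℝ) := rfl
  have e3 : C9.a1 = -(28979273 / 4194304 : ℝ) := by norm_num [C9]
  have e4 : C9.a2 = -(359295507 / 4194304 : ℝ) := by norm_num [C9]
  have e5 : C9.e = (-39464255 / 524288 : ℝ) := rfl
  have e6 : C9.f = (1955445 / 268435456 : ℝ) + (1136809 / 8388608 : ℝ) + (-39685579 / 268435456 : ℝ) := by norm_num [C9]
  rw [e1, e2, e3, e4, e5, e6]
  exact h

lemma rcell10 : ∃ N : ℝ, Rw4 P.r2 N (coCell (72261 / 65536 : ℝ) (918081 / 65536 : ℝ) ((395105 / 32768 : ℝ) + (113 / 256 : ℝ)) (109 / 4096 : ℝ) C10) := by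
  refine ⟨(301989888 : ℝ), ⟨Q13, List.mem_cons_of_mem _ (List.mem_cons_of_mem _ (List.mem_cons_of_mem _ (List.mem_cons_of_mem _ (List.mem_cons_of_mem _ (List.mem_cons_of_mem _ (List.mem_cons_of_mem _ (List.mem_cons_of_mem _ (List.mem_cons_of_mem _ (List.mem_cons_of_mem _ (List.mem_cons_of_mem _ (List.mem_cons_of_mem _ (List.mem_cons_of_mem _ (List.mem_cons_self))))))))))))), ?_⟩, by norm_num⟩
  constructor <;> norm_num [Q13, coCell, C10]

lemma lcell10 : ∀ x1 x2 xc : ℝ, 0 ≤ x1 → x1 ≤ 1 → 0 ≤ x2 → x2 ≤ 1 → C10.l ≤ xc → xc ≤ C10.u →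
    (72261 / 65536 : ℝ) * (1 - (1 - x1) ^ 7) + (918081 / 65536 : ℝ) * (1 - (1 - x2) ^ 7) - ((395105 / 32768 : ℝ) + (113 / 256 : ℝ)) * (1 - (1 - xc) ^ 7)
      ≤ - C10.a1 * x1 - C10.a2 * x2 + C10.e * xc + C10.f := by
  have h := cell_lines 7 (α1 := (72261 / 65536 : ℝ)) (α2 := (918081 / 65536 : ℝ)) (c := (395105 / 32768 : ℝ) + (113 / 256 : ℝ)) (y1 := (5441 / 262144 : ℝ)) (y2 := (6415 / 262144 : ℝ))
    (A1 := (28544873 / 4194304 : ℝ)) (B1 := (624527 / 67108864 : ℝ)) (A2 := (354486225 / 4194304 : ℝ)) (B2 := (10892959 / 67108864 : ℝ)) (l := (6801 / 262144 : ℝ)) (u := (7481 / 262144 : ℝ))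
    (E := (-310936105 / 4194304 : ℝ)) (F := (-2976179 / 16777216 : ℝ)) (by norm_num) (by norm_num) (by norm_num) (by norm_num) (by norm_num)
    (by norm_num) (by norm_num) (by norm_num) (by norm_num) (by norm_num) (by norm_num) (by norm_num) (by norm_num) (by norm_num) (by norm_num)
  have e1 : C10.l = (6801 / 262144 : ℝ) := rfl
  have e2 : C10.u = (7481 / 262144 : ℝ) := rfl
  have e3 : C10.a1 = -(28544873 / 4194304 : ℝ) := by norm_num [C10]
  have e4 : C10.a2 = -(354486225 / 4194304 : ℝ) := by norm_num [C10]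
  have e5 : C10.e = (-310936105 / 4194304 : ℝ) := rfl
  have e6 : C10.f = (624527 / 67108864 : ℝ) + (10892959 / 67108864 : ℝ) + (-2976179 / 16777216 : ℝ) := by norm_num [C10]
  rw [e1, e2, e3, e4, e5, e6]
  exact h

lemma rcell11 : ∃ N : ℝ, Rw4 P.r2 N (coCell (72261 / 65536 : ℝ) (918081 / 65536 : ℝ) ((395105 / 32768 : ℝ) + (113 / 256 : ℝ)) (109 / 4096 : ℝ) C11) := by
  refine ⟨(603979776 : ℝ), ⟨Q14, List.mem_cons_of_mem _ (List.mem_cons_of_mem _ (List.mem_cons_of_mem _ (List.mem_cons_of_mem _ (List.mem_cons_of_mem _ (List.mem_cons_of_mem _ (List.mem_cons_of_mem _ (List.mem_cons_of_mem _ (List.mem_cons_of_mem _ (List.mem_cons_of_mem _ (List.mem_cons_of_mem _ (List.mem_cons_of_mem _ (List.mem_cons_of_mem _ (List.mem_cons_of_mem _ (List.mem_cons_self)))))))))))))), ?_⟩, by norm_num⟩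
  constructor <;> norm_num [Q14, coCell, C11]

lemma lcell11 : ∀ x1 x2 xc : ℝ, 0 ≤ x1 → x1 ≤ 1 → 0 ≤ x2 → x2 ≤ 1 → C11.l ≤ xc → xc ≤ C11.u →
    (72261 / 65536 : ℝ) * (1 - (1 - x1) ^ 7) + (918081 / 65536 : ℝ) * (1 - (1 - x2) ^ 7) - ((395105 / 32768 : ℝ) + (113 / 256 : ℝ)) * (1 - (1 - xc) ^ 7)
      ≤ - C11.a1 * x1 - C11.a2 * x2 + C11.e * xc + C11.f := by
  have h := cell_lines 7 (α1 := (72261 / 65536 : ℝ)) (α2 := (918081 / 65536 : ℝ)) (c := (395105 / 32768 : ℝ) + (113 / 256 : ℝ)) (y1 := (721 / 32768 : ℝ)) (y2 := (7075 / 262144 : ℝ))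
    (A1 := (7081849 / 1048576 : ℝ)) (B1 := (2795669 / 268435456 : ℝ)) (A2 := (87258063 / 1048576 : ℝ)) (B2 := (52552073 / 268435456 : ℝ)) (l := (7481 / 262144 : ℝ)) (u := (4115 / 131072 : ℝ))
    (E := (-76436465 / 1048576 : ℝ)) (F := (-28549205 / 134217728 : ℝ)) (by norm_num) (by norm_num) (by norm_num) (by norm_num) (by norm_num)
    (by norm_num) (by norm_num) (by norm_num) (by norm_num) (by norm_num) (by norm_num) (by norm_num) (by norm_num) (by norm_num) (by norm_num)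
  have e1 : C11.l = (7481 / 262144 : ℝ) := rfl
  have e2 : C11.u = (4115 / 131072 : ℝ) := rfl
  have e3 : C11.a1 = -(7081849 / 1048576 : ℝ) := by norm_num [C11]
  have e4 : C11.a2 = -(87258063 / 1048576 : ℝ) := by norm_num [C11]
  have e5 : C11.e = (-76436465 / 1048576 : ℝ) := rfl
  have e6 : C11.f = (2795669 / 268435456 : ℝ) + (52552073 / 268435456 : ℝ) + (-28549205 / 134217728 : ℝ) := by norm_num [C11]
  rw [e1, e2, e3, e4, e5, e6]
  exact h

lemma rcell12 : ∃ N : ℝ, Rw4 P.r2 N (coCell (72261 / 65536 : ℝ) (918081 / 65536 : ℝ) ((395105 / 32768 : ℝ) + (113 / 256 : ℝ)) (109 / 4096 : ℝ) C12) := by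
  refine ⟨(150994944 : ℝ), ⟨Q15, List.mem_cons_of_mem _ (List.mem_cons_of_mem _ (List.mem_cons_of_mem _ (List.mem_cons_of_mem _ (List.mem_cons_of_mem _ (List.mem_cons_of_mem _ (List.mem_cons_of_mem _ (List.mem_cons_of_mem _ (List.mem_cons_of_mem _ (List.mem_cons_of_mem _ (List.mem_cons_of_mem _ (List.mem_cons_of_mem _ (List.mem_cons_of_mem _ (List.mem_cons_of_mem _ (List.mem_cons_of_mem _ (List.mem_cons_self))))))))))))))), ?_⟩, by norm_num⟩
  constructor <;> norm_num [Q15, coCell, C12]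

lemma lcell12 : ∀ x1 x2 xc : ℝ, 0 ≤ x1 → x1 ≤ 1 → 0 ≤ x2 → x2 ≤ 1 → C12.l ≤ xc → xc ≤ C12.u →
    (72261 / 65536 : ℝ) * (1 - (1 - x1) ^ 7) + (918081 / 65536 : ℝ) * (1 - (1 - x2) ^ 7) - ((395105 / 32768 : ℝ) + (113 / 256 : ℝ)) * (1 - (1 - xc) ^ 7)
      ≤ - C12.a1 * x1 - C12.a2 * x2 + C12.e * xc + C12.f := by
  have h := cell_lines 7 (α1 := (72261 / 65536 : ℝ)) (α2 := (918081 / 65536 : ℝ)) (c := (395105 / 32768 : ℝ) + (113 / 256 : ℝ)) (y1 := (6347 / 262144 : ℝ)) (y2 := (7735 / 262144 : ℝ))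
    (A1 := (27945709 / 4194304 : ℝ)) (B1 := (3360089 / 268435456 : ℝ)) (A2 := (343648385 / 4194304 : ℝ)) (B2 := (31142211 / 134217728 : ℝ)) (l := (4115 / 131072 : ℝ)) (u := (9053 / 262144 : ℝ))
    (E := (-300119875 / 4194304 : ℝ)) (F := (-68402575 / 268435456 : ℝ)) (by norm_num) (by norm_num) (by norm_num) (by norm_num) (by norm_num)
    (by norm_num) (by norm_num) (by norm_num) (by norm_num) (by norm_num) (by norm_num) (by norm_num) (by norm_num) (by norm_num) (by norm_num)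
  have e1 : C12.l = (4115 / 131072 : ℝ) := rfl
  have e2 : C12.u = (9053 / 262144 : ℝ) := rfl
  have e3 : C12.a1 = -(27945709 / 4194304 : ℝ) := by norm_num [C12]
  have e4 : C12.a2 = -(343648385 / 4194304 : ℝ) := by norm_num [C12]
  have e5 : C12.e = (-300119875 / 4194304 : ℝ) := rfl
  have e6 : C12.f = (3360089 / 268435456 : ℝ) + (31142211 / 134217728 : ℝ) + (-68402575 / 268435456 : ℝ) := by norm_num [C12]
  rw [e1, e2, e3, e4, e5, e6]
  exact h

lemma rcell13 : ∃ N : ℝ, Rw4 P.r2 N (coCell (72261 / 65536 : ℝ) (918081 / 65536 : ℝ) ((395105 / 32768 : ℝ) + (113 / 256 : ℝ)) (109 / 4096 : ℝ) C13) := by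
  refine ⟨(301989888 : ℝ), ⟨Q16, List.mem_cons_of_mem _ (List.mem_cons_of_mem _ (List.mem_cons_of_mem _ (List.mem_cons_of_mem _ (List.mem_cons_of_mem _ (List.mem_cons_of_mem _ (List.mem_cons_of_mem _ (List.mem_cons_of_mem _ (List.mem_cons_of_mem _ (List.mem_cons_of_mem _ (List.mem_cons_of_mem _ (List.mem_cons_of_mem _ (List.mem_cons_of_mem _ (List.mem_cons_of_mem _ (List.mem_cons_of_mem _ (List.mem_cons_of_mem _ (List.mem_cons_self)))))))))))))))), ?_⟩, by norm_num⟩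
  constructor <;> norm_num [Q16, coCell, C13]

lemma lcell13 : ∀ x1 x2 xc : ℝ, 0 ≤ x1 → x1 ≤ 1 → 0 ≤ x2 → x2 ≤ 1 → C13.l ≤ xc → xc ≤ C13.u →
    (72261 / 65536 : ℝ) * (1 - (1 - x1) ^ 7) + (918081 / 65536 : ℝ) * (1 - (1 - x2) ^ 7) - ((395105 / 32768 : ℝ) + (113 / 256 : ℝ)) * (1 - (1 - xc) ^ 7)
      ≤ - C13.a1 * x1 - C13.a2 * x2 + C13.e * xc + C13.f := by
  have h := cell_lines 7 (α1 := (72261 / 65536 : ℝ)) (α2 := (918081 / 65536 : ℝ)) (c := (395105 / 32768 : ℝ) + (113 / 256 : ℝ)) (y1 := (6991 / 262144 : ℝ)) (y2 := (8455 / 262144 : ℝ))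
    (A1 := (27526217 / 4194304 : ℝ)) (B1 := (2021513 / 134217728 : ℝ)) (A2 := (42231773 / 524288 : ℝ)) (B2 := (73734405 / 268435456 : ℝ)) (l := (9053 / 262144 : ℝ)) (u := (9959 / 262144 : ℝ))
    (E := (-294031991 / 4194304 : ℝ)) (F := (-81858047 / 268435456 : ℝ)) (by norm_num) (by norm_num) (by norm_num) (by norm_num) (by norm_num)
    (by norm_num) (by norm_num) (by norm_num) (by norm_num) (by norm_num) (by norm_num) (by norm_num) (by norm_num) (by norm_num) (by norm_num)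
  have e1 : C13.l = (9053 / 262144 : ℝ) := rfl
  have e2 : C13.u = (9959 / 262144 : ℝ) := rfl
  have e3 : C13.a1 = -(27526217 / 4194304 : ℝ) := by norm_num [C13]
  have e4 : C13.a2 = -(42231773 / 524288 : ℝ) := by norm_num [C13]
  have e5 : C13.e = (-294031991 / 4194304 : ℝ) := rfl
  have e6 : C13.f = (2021513 / 134217728 : ℝ) + (73734405 / 268435456 : ℝ) + (-81858047 / 268435456 : ℝ) := by norm_num [C13]
  rw [e1, e2, e3, e4, e5, e6]
  exact h

lemma rcell14 : ∃ N : ℝ, Rw4 P.r2 N (coCell (72261 / 65536 : ℝ) (918081 / 65536 : ℝ) ((395105 / 32768 : ℝ) + (113 / 256 : ℝ)) (109 / 4096 : ℝ) C14) := by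
  refine ⟨(603979776 : ℝ), ⟨Q17, List.mem_cons_of_mem _ (List.mem_cons_of_mem _ (List.mem_cons_of_mem _ (List.mem_cons_of_mem _ (List.mem_cons_of_mem _ (List.mem_cons_of_mem _ (List.mem_cons_of_mem _ (List.mem_cons_of_mem _ (List.mem_cons_of_mem _ (List.mem_cons_of_mem _ (List.mem_cons_of_mem _ (List.mem_cons_of_mem _ (List.mem_cons_of_mem _ (List.mem_cons_of_mem _ (List.mem_cons_of_mem _ (List.mem_cons_of_mem _ (List.mem_cons_of_mem _ (List.mem_cons_self))))))))))))))))), ?_⟩, by norm_num⟩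
  constructor <;> norm_num [Q17, coCell, C14]

lemma lcell14 : ∀ x1 x2 xc : ℝ, 0 ≤ x1 → x1 ≤ 1 → 0 ≤ x2 → x2 ≤ 1 → C14.l ≤ xc → xc ≤ C14.u →
    (72261 / 65536 : ℝ) * (1 - (1 - x1) ^ 7) + (918081 / 65536 : ℝ) * (1 - (1 - x2) ^ 7) - ((395105 / 32768 : ℝ) + (113 / 256 : ℝ)) * (1 - (1 - xc) ^ 7)
      ≤ - C14.a1 * x1 - C14.a2 * x2 + C14.e * xc + C14.f := by
  have h := cell_lines 7 (α1 := (72261 / 65536 : ℝ)) (α2 := (918081 / 65536 : ℝ)) (c := (395105 / 32768 : ℝ) + (113 / 256 : ℝ)) (y1 := (1819 / 65536 : ℝ)) (y2 := (35 / 1024 : ℝ))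
    (A1 := (13671127 / 2097152 : ℝ)) (B1 := (4363413 / 268435456 : ℝ)) (A2 := (83459741 / 1048576 : ℝ)) (B2 := (10283721 / 33554432 : ℝ)) (l := (9959 / 262144 : ℝ)) (u := (10955 / 262144 : ℝ))
    (E := (-287454269 / 4194304 : ℝ)) (F := (-97851097 / 268435456 : ℝ)) (by norm_num) (by norm_num) (by norm_num) (by norm_num) (by norm_num)
    (by norm_num) (by norm_num) (by norm_num) (by norm_num) (by norm_num) (by norm_num) (by norm_num) (by norm_num) (by norm_num) (by norm_num)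
  have e1 : C14.l = (9959 / 262144 : ℝ) := rfl
  have e2 : C14.u = (10955 / 262144 : ℝ) := rfl
  have e3 : C14.a1 = -(13671127 / 2097152 : ℝ) := by norm_num [C14]
  have e4 : C14.a2 = -(83459741 / 1048576 : ℝ) := by norm_num [C14]
  have e5 : C14.e = (-287454269 / 4194304 : ℝ) := rfl
  have e6 : C14.f = (4363413 / 268435456 : ℝ) + (10283721 / 33554432 : ℝ) + (-97851097 / 268435456 : ℝ) := by norm_num [C14]
  rw [e1, e2, e3, e4, e5, e6]
  exact h

lemma rcell15 : ∃ N : ℝ, Rw4 P.r2 N (coCell (72261 / 65536 : ℝ) (918081 / 65536 : ℝ) ((395105 / 32768 : ℝ) + (113 / 256 : ℝ)) (109 / 4096 : ℝ) C15) := by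
  refine ⟨(2415919104 : ℝ), ⟨Q18, List.mem_cons_of_mem _ (List.mem_cons_of_mem _ (List.mem_cons_of_mem _ (List.mem_cons_of_mem _ (List.mem_cons_of_mem _ (List.mem_cons_of_mem _ (List.mem_cons_of_mem _ (List.mem_cons_of_mem _ (List.mem_cons_of_mem _ (List.mem_cons_of_mem _ (List.mem_cons_of_mem _ (List.mem_cons_of_mem _ (List.mem_cons_of_mem _ (List.mem_cons_of_mem _ (List.mem_cons_of_mem _ (List.mem_cons_of_mem _ (List.mem_cons_of_mem _ (List.mem_cons_of_mem _ (List.mem_cons_self)))))))))))))))))), ?_⟩, by norm_num⟩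
  constructor <;> norm_num [Q18, coCell, C15]

lemma lcell15 : ∀ x1 x2 xc : ℝ, 0 ≤ x1 → x1 ≤ 1 → 0 ≤ x2 → x2 ≤ 1 → C15.l ≤ xc → xc ≤ C15.u →
    (72261 / 65536 : ℝ) * (1 - (1 - x1) ^ 7) + (918081 / 65536 : ℝ) * (1 - (1 - x2) ^ 7) - ((395105 / 32768 : ℝ) + (113 / 256 : ℝ)) * (1 - (1 - xc) ^ 7)
      ≤ - C15.a1 * x1 - C15.a2 * x2 + C15.e * xc + C15.f := by
  have h := cell_lines 7 (α1 := (72261 / 65536 : ℝ)) (α2 := (918081 / 65536 : ℝ)) (c := (395105 / 32768 : ℝ) + (113 / 256 : ℝ)) (y1 := (1901 / 65536 : ℝ)) (y2 := (9155 / 262144 : ℝ))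
    (A1 := (27131805 / 4194304 : ℝ)) (B1 := (2372831 / 134217728 : ℝ)) (A2 := (332299213 / 4194304 : ℝ)) (B2 := (85674601 / 268435456 : ℝ)) (l := (10955 / 262144 : ℝ)) (u := (12051 / 262144 : ℝ))
    (E := (-280361661 / 4194304 : ℝ)) (F := (-58410353 / 134217728 : ℝ)) (by norm_num) (by norm_num) (by norm_num) (by norm_num) (by norm_num)
    (by norm_num) (by norm_num) (by norm_num) (by norm_num) (by norm_num) (by norm_num) (by norm_num) (by norm_num) (by norm_num) (by norm_num)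
  have e1 : C15.l = (10955 / 262144 : ℝ) := rfl
  have e2 : C15.u = (12051 / 262144 : ℝ) := rfl
  have e3 : C15.a1 = -(27131805 / 4194304 : ℝ) := by norm_num [C15]
  have e4 : C15.a2 = -(332299213 / 4194304 : ℝ) := by norm_num [C15]
  have e5 : C15.e = (-280361661 / 4194304 : ℝ) := rfl
  have e6 : C15.f = (2372831 / 134217728 : ℝ) + (85674601 / 268435456 : ℝ) + (-58410353 / 134217728 : ℝ) := by norm_num [C15]
  rw [e1, e2, e3, e4, e5, e6]
  exact h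

lemma rcell16 : ∃ N : ℝ, Rw4 P.r2 N (coCell (72261 / 65536 : ℝ) (918081 / 65536 : ℝ) ((395105 / 32768 : ℝ) + (113 / 256 : ℝ)) (109 / 4096 : ℝ) C16) := by
  refine ⟨(2415919104 : ℝ), ⟨Q19, List.mem_cons_of_mem _ (List.mem_cons_of_mem _ (List.mem_cons_of_mem _ (List.mem_cons_of_mem _ (List.mem_cons_of_mem _ (List.mem_cons_of_mem _ (List.mem_cons_of_mem _ (List.mem_cons_of_mem _ (List.mem_cons_of_mem _ (List.mem_cons_of_mem _ (List.mem_cons_of_mem _ (List.mem_cons_of_mem _ (List.mem_cons_of_mem _ (List.mem_cons_of_mem _ (List.mem_cons_of_mem _ (List.mem_cons_of_mem _ (List.mem_cons_of_mem _ (List.mem_cons_of_mem _ (List.mem_cons_of_mem _ (List.mem_cons_self))))))))))))))))))), ?_⟩, by norm_num⟩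
  constructor <;> norm_num [Q19, coCell, C16]

lemma lcell16 : ∀ x1 x2 xc : ℝ, 0 ≤ x1 → x1 ≤ 1 → 0 ≤ x2 → x2 ≤ 1 → C16.l ≤ xc → xc ≤ C16.u →
    (72261 / 65536 : ℝ) * (1 - (1 - x1) ^ 7) + (918081 / 65536 : ℝ) * (1 - (1 - x2) ^ 7) - ((395105 / 32768 : ℝ) + (113 / 256 : ℝ)) * (1 - (1 - xc) ^ 7)
      ≤ - C16.a1 * x1 - C16.a2 * x2 + C16.e * xc + C16.f := by
  have h := cell_lines 7 (α1 := (72261 / 65536 : ℝ)) (α2 := (918081 / 65536 : ℝ)) (c := (395105 / 32768 : ℝ) + (113 / 256 : ℝ)) (y1 := (4619 / 131072 : ℝ)) (y2 := (10517 / 262144 : ℝ))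
    (A1 := (13051705 / 2097152 : ℝ)) (B1 := (6858847 / 268435456 : ℝ)) (A2 := (321708785 / 4194304 : ℝ)) (B2 := (27774549 / 67108864 : ℝ)) (l := (12051 / 262144 : ℝ)) (u := (1657 / 32768 : ℝ))
    (E := (-272729615 / 4194304 : ℝ)) (F := (-34818811 / 67108864 : ℝ)) (by norm_num) (by norm_num) (by norm_num) (by norm_num) (by norm_num)
    (by norm_num) (by norm_num) (by norm_num) (by norm_num) (by norm_num) (by norm_num) (by norm_num) (by norm_num) (by norm_num) (by norm_num)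
  have e1 : C16.l = (12051 / 262144 : ℝ) := rfl
  have e2 : C16.u = (1657 / 32768 : ℝ) := rfl
  have e3 : C16.a1 = -(13051705 / 2097152 : ℝ) := by norm_num [C16]
  have e4 : C16.a2 = -(321708785 / 4194304 : ℝ) := by norm_num [C16]
  have e5 : C16.e = (-272729615 / 4194304 : ℝ) := rfl
  have e6 : C16.f = (6858847 / 268435456 : ℝ) + (27774549 / 67108864 : ℝ) + (-34818811 / 67108864 : ℝ) := by norm_num [C16]
  rw [e1, e2, e3, e4, e5, e6]
  exact h

lemma rcell17 : ∃ N : ℝ, Rw4 P.r2 N (coCell (72261 / 65536 : ℝ) (918081 / 65536 : ℝ) ((395105 / 32768 : ℝ) + (113 / 256 : ℝ)) (109 / 4096 : ℝ) C17) := by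
  refine ⟨(2415919104 : ℝ), ⟨Q20, List.mem_cons_of_mem _ (List.mem_cons_of_mem _ (List.mem_cons_of_mem _ (List.mem_cons_of_mem _ (List.mem_cons_of_mem _ (List.mem_cons_of_mem _ (List.mem_cons_of_mem _ (List.mem_cons_of_mem _ (List.mem_cons_of_mem _ (List.mem_cons_of_mem _ (List.mem_cons_of_mem _ (List.mem_cons_of_mem _ (List.mem_cons_of_mem _ (List.mem_cons_of_mem _ (List.mem_cons_of_mem _ (List.mem_cons_of_mem _ (List.mem_cons_of_mem _ (List.mem_cons_of_mem _ (List.mem_cons_of_mem _ (List.mem_cons_of_mem _ (List.mem_cons_self)))))))))))))))))))), ?_⟩, by norm_num⟩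
  constructor <;> norm_num [Q20, coCell, C17]

lemma lcell17 : ∀ x1 x2 xc : ℝ, 0 ≤ x1 → x1 ≤ 1 → 0 ≤ x2 → x2 ≤ 1 → C17.l ≤ xc → xc ≤ C17.u →
    (72261 / 65536 : ℝ) * (1 - (1 - x1) ^ 7) + (918081 / 65536 : ℝ) * (1 - (1 - x2) ^ 7) - ((395105 / 32768 : ℝ) + (113 / 256 : ℝ)) * (1 - (1 - xc) ^ 7)
      ≤ - C17.a1 * x1 - C17.a2 * x2 + C17.e * xc + C17.f := by
  have h := cell_lines 7 (α1 := (72261 / 65536 : ℝ)) (α2 := (918081 / 65536 : ℝ)) (c := (395105 / 32768 : ℝ) + (113 / 256 : ℝ)) (y1 := (1227 / 32768 : ℝ)) (y2 := (1485 / 32768 : ℝ))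
    (A1 := (25747503 / 4194304 : ℝ)) (B1 := (7686625 / 268435456 : ℝ)) (A2 := (2432763 / 32768 : ℝ)) (B2 := (139292061 / 268435456 : ℝ)) (l := (1657 / 32768 : ℝ)) (u := (7291 / 131072 : ℝ))
    (E := (-264535623 / 4194304 : ℝ)) (F := (-165793691 / 268435456 : ℝ)) (by norm_num) (by norm_num) (by norm_num) (by norm_num) (by norm_num)
    (by norm_num) (by norm_num) (by norm_num) (by norm_num) (by norm_num) (by norm_num) (by norm_num) (by norm_num) (by norm_num) (by norm_num)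
  have e1 : C17.l = (1657 / 32768 : ℝ) := rfl
  have e2 : C17.u = (7291 / 131072 : ℝ) := rfl
  have e3 : C17.a1 = -(25747503 / 4194304 : ℝ) := by norm_num [C17]
  have e4 : C17.a2 = -(2432763 / 32768 : ℝ) := by norm_num [C17]
  have e5 : C17.e = (-264535623 / 4194304 : ℝ) := rfl
  have e6 : C17.f = (7686625 / 268435456 : ℝ) + (139292061 / 268435456 : ℝ) + (-165793691 / 268435456 : ℝ) := by norm_num [C17]
  rw [e1, e2, e3, e4, e5, e6]
  exact h

lemma rcell18 : ∃ N : ℝ, Rw4 P.r2 N (coCell (72261 / 65536 : ℝ) (918081 / 65536 : ℝ) ((395105 / 32768 : ℝ) + (113 / 256 : ℝ)) (109 / 4096 : ℝ) C18) := by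
  refine ⟨(2415919104 : ℝ), ⟨Q21, List.mem_cons_of_mem _ (List.mem_cons_of_mem _ (List.mem_cons_of_mem _ (List.mem_cons_of_mem _ (List.mem_cons_of_mem _ (List.mem_cons_of_mem _ (List.mem_cons_of_mem _ (List.mem_cons_of_mem _ (List.mem_cons_of_mem _ (List.mem_cons_of_mem _ (List.mem_cons_of_mem _ (List.mem_cons_of_mem _ (List.mem_cons_of_mem _ (List.mem_cons_of_mem _ (List.mem_cons_of_mem _ (List.mem_cons_of_mem _ (List.mem_cons_of_mem _ (List.mem_cons_of_mem _ (List.mem_cons_of_mem _ (List.mem_cons_of_mem _ (List.mem_cons_of_mem _ (List.mem_cons_self))))))))))))))))))))), ?_⟩, by norm_num⟩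
  constructor <;> norm_num [Q21, coCell, C18]

lemma lcell18 : ∀ x1 x2 xc : ℝ, 0 ≤ x1 → x1 ≤ 1 → 0 ≤ x2 → x2 ≤ 1 → C18.l ≤ xc → xc ≤ C18.u →
    (72261 / 65536 : ℝ) * (1 - (1 - x1) ^ 7) + (918081 / 65536 : ℝ) * (1 - (1 - x2) ^ 7) - ((395105 / 32768 : ℝ) + (113 / 256 : ℝ)) * (1 - (1 - xc) ^ 7)
      ≤ - C18.a1 * x1 - C18.a2 * x2 + C18.e * xc + C18.f := by
  have h := cell_lines 7 (α1 := (72261 / 65536 : ℝ)) (α2 := (918081 / 65536 : ℝ)) (c := (395105 / 32768 : ℝ) + (113 / 256 : ℝ)) (y1 := (10413 / 262144 : ℝ)) (y2 := (13265 / 262144 : ℝ))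
    (A1 := (3173019 / 524288 : ℝ)) (B1 := (8583801 / 268435456 : ℝ)) (A2 := (150597931 / 2097152 : ℝ)) (B2 := (85292901 / 134217728 : ℝ)) (l := (7291 / 131072 : ℝ)) (u := (16041 / 262144 : ℝ))
    (E := (-255757615 / 4194304 : ℝ)) (F := (-98521957 / 134217728 : ℝ)) (by norm_num) (by norm_num) (by norm_num) (by norm_num) (by norm_num)
    (by norm_num) (by norm_num) (by norm_num) (by norm_num) (by norm_num) (by norm_num) (by norm_num) (by norm_num) (by norm_num) (by norm_num)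
  have e1 : C18.l = (7291 / 131072 : ℝ) := rfl
  have e2 : C18.u = (16041 / 262144 : ℝ) := rfl
  have e3 : C18.a1 = -(3173019 / 524288 : ℝ) := by norm_num [C18]
  have e4 : C18.a2 = -(150597931 / 2097152 : ℝ) := by norm_num [C18]
  have e5 : C18.e = (-255757615 / 4194304 : ℝ) := rfl
  have e6 : C18.f = (8583801 / 268435456 : ℝ) + (85292901 / 134217728 : ℝ) + (-98521957 / 134217728 : ℝ) := by norm_num [C18]
  rw [e1, e2, e3, e4, e5, e6]
  exact h

lemma rcell19 : ∃ N : ℝ, Rw4 P.r2 N (coCell (72261 / 65536 : ℝ) (918081 / 65536 : ℝ) ((395105 / 32768 : ℝ) + (113 / 256 : ℝ)) (109 / 4096 : ℝ) C19) := by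
  refine ⟨(1207959552 : ℝ), ⟨Q22, List.mem_cons_of_mem _ (List.mem_cons_of_mem _ (List.mem_cons_of_mem _ (List.mem_cons_of_mem _ (List.mem_cons_of_mem _ (List.mem_cons_of_mem _ (List.mem_cons_of_mem _ (List.mem_cons_of_mem _ (List.mem_cons_of_mem _ (List.mem_cons_of_mem _ (List.mem_cons_of_mem _ (List.mem_cons_of_mem _ (List.mem_cons_of_mem _ (List.mem_cons_of_mem _ (List.mem_cons_of_mem _ (List.mem_cons_of_mem _ (List.mem_cons_of_mem _ (List.mem_cons_of_mem _ (List.mem_cons_of_mem _ (List.mem_cons_of_mem _ (List.mem_cons_of_mem _ (List.mem_cons_of_mem _ (List.mem_cons_self)))))))))))))))))))))), ?_⟩, by norm_num⟩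
  constructor <;> norm_num [Q22, coCell, C19]

lemma lcell19 : ∀ x1 x2 xc : ℝ, 0 ≤ x1 → x1 ≤ 1 → 0 ≤ x2 → x2 ≤ 1 → C19.l ≤ xc → xc ≤ C19.u →
    (72261 / 65536 : ℝ) * (1 - (1 - x1) ^ 7) + (918081 / 65536 : ℝ) * (1 - (1 - x2) ^ 7) - ((395105 / 32768 : ℝ) + (113 / 256 : ℝ)) * (1 - (1 - xc) ^ 7)
      ≤ - C19.a1 * x1 - C19.a2 * x2 + C19.e * xc + C19.f := by
  have h := cell_lines 7 (α1 := (72261 / 65536 : ℝ)) (α2 := (918081 / 65536 : ℝ)) (c := (395105 / 32768 : ℝ) + (113 / 256 : ℝ)) (y1 := (12601 / 262144 : ℝ)) (y2 := (7321 / 131072 : ℝ))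
    (A1 := (6022195 / 1048576 : ℝ)) (B1 := (6110203 / 134217728 : ℝ)) (A2 := (291334393 / 4194304 : ℝ)) (B2 := (12760775 / 16777216 : ℝ)) (l := (16041 / 262144 : ℝ)) (u := (17645 / 262144 : ℝ))
    (E := (-246385235 / 4194304 : ℝ)) (F := (-58437147 / 67108864 : ℝ)) (by norm_num) (by norm_num) (by norm_num) (by norm_num) (by norm_num)
    (by norm_num) (by norm_num) (by norm_num) (by norm_num) (by norm_num) (by norm_num) (by norm_num) (by norm_num) (by norm_num) (by norm_num)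
  have e1 : C19.l = (16041 / 262144 : ℝ) := rfl
  have e2 : C19.u = (17645 / 262144 : ℝ) := rfl
  have e3 : C19.a1 = -(6022195 / 1048576 : ℝ) := by norm_num [C19]
  have e4 : C19.a2 = -(291334393 / 4194304 : ℝ) := by norm_num [C19]
  have e5 : C19.e = (-246385235 / 4194304 : ℝ) := rfl
  have e6 : C19.f = (6110203 / 134217728 : ℝ) + (12760775 / 16777216 : ℝ) + (-58437147 / 67108864 : ℝ) := by norm_num [C19]
  rw [e1, e2, e3, e4, e5, e6]
  exact h

lemma rcell20 : ∃ N : ℝ, Rw4 P.r2 N (coCell (72261 / 65536 : ℝ) (918081 / 65536 : ℝ) ((395105 / 32768 : ℝ) + (113 / 256 : ℝ)) (109 / 4096 : ℝ) C20) := by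
  refine ⟨(1207959552 : ℝ), ⟨Q23, List.mem_cons_of_mem _ (List.mem_cons_of_mem _ (List.mem_cons_of_mem _ (List.mem_cons_of_mem _ (List.mem_cons_of_mem _ (List.mem_cons_of_mem _ (List.mem_cons_of_mem _ (List.mem_cons_of_mem _ (List.mem_cons_of_mem _ (List.mem_cons_of_mem _ (List.mem_cons_of_mem _ (List.mem_cons_of_mem _ (List.mem_cons_of_mem _ (List.mem_cons_of_mem _ (List.mem_cons_of_mem _ (List.mem_cons_of_mem _ (List.mem_cons_of_mem _ (List.mem_cons_of_mem _ (List.mem_cons_of_mem _ (List.mem_cons_of_mem _ (List.mem_cons_of_mem _ (List.mem_cons_of_mem _ (List.mem_cons_of_mem _ (List.mem_cons_self))))))))))))))))))))))), ?_⟩, by norm_num⟩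
  constructor <;> norm_num [Q23, coCell, C20]

lemma lcell20 : ∀ x1 x2 xc : ℝ, 0 ≤ x1 → x1 ≤ 1 → 0 ≤ x2 → x2 ≤ 1 → C20.l ≤ xc → xc ≤ C20.u →
    (72261 / 65536 : ℝ) * (1 - (1 - x1) ^ 7) + (918081 / 65536 : ℝ) * (1 - (1 - x2) ^ 7) - ((395105 / 32768 : ℝ) + (113 / 256 : ℝ)) * (1 - (1 - xc) ^ 7)
      ≤ - C20.a1 * x1 - C20.a2 * x2 + C20.e * xc + C20.f := by
  have h := cell_lines 7 (α1 := (72261 / 65536 : ℝ)) (α2 := (918081 / 65536 : ℝ)) (c := (395105 / 32768 : ℝ) + (113 / 256 : ℝ)) (y1 := (6931 / 131072 : ℝ)) (y2 := (8063 / 131072 : ℝ))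
    (A1 := (23367587 / 4194304 : ℝ)) (B1 := (7274821 / 134217728 : ℝ)) (A2 := (140504679 / 2097152 : ℝ)) (B2 := (242942409 / 268435456 : ℝ)) (l := (17645 / 262144 : ℝ)) (u := (9705 / 131072 : ℝ))
    (E := (-236409131 / 4194304 : ℝ)) (F := (-276724261 / 268435456 : ℝ)) (by norm_num) (by norm_num) (by norm_num) (by norm_num) (by norm_num)
    (by norm_num) (by norm_num) (by norm_num) (by norm_num) (by norm_num) (by norm_num) (by norm_num) (by norm_num) (by norm_num) (by norm_num)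
  have e1 : C20.l = (17645 / 262144 : ℝ) := rfl
  have e2 : C20.u = (9705 / 131072 : ℝ) := rfl
  have e3 : C20.a1 = -(23367587 / 4194304 : ℝ) := by norm_num [C20]
  have e4 : C20.a2 = -(140504679 / 2097152 : ℝ) := by norm_num [C20]
  have e5 : C20.e = (-236409131 / 4194304 : ℝ) := rfl
  have e6 : C20.f = (7274821 / 134217728 : ℝ) + (242942409 / 268435456 : ℝ) + (-276724261 / 268435456 : ℝ) := by norm_num [C20]
  rw [e1, e2, e3, e4, e5, e6]
  exact h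

lemma rcell21 : ∃ N : ℝ, Rw4 P.r2 N (coCell (72261 / 65536 : ℝ) (918081 / 65536 : ℝ) ((395105 / 32768 : ℝ) + (113 / 256 : ℝ)) (109 / 4096 : ℝ) C21) := by
  refine ⟨(1207959552 : ℝ), ⟨Q24, List.mem_cons_of_mem _ (List.mem_cons_of_mem _ (List.mem_cons_of_mem _ (List.mem_cons_of_mem _ (List.mem_cons_of_mem _ (List.mem_cons_of_mem _ (List.mem_cons_of_mem _ (List.mem_cons_of_mem _ (List.mem_cons_of_mem _ (List.mem_cons_of_mem _ (List.mem_cons_of_mem _ (List.mem_cons_of_mem _ (List.mem_cons_of_mem _ (List.mem_cons_of_mem _ (List.mem_cons_of_mem _ (List.mem_cons_of_mem _ (List.mem_cons_of_mem _ (List.mem_cons_of_mem _ (List.mem_cons_of_mem _ (List.mem_cons_of_mem _ (List.mem_cons_of_mem _ (List.mem_cons_of_mem _ (List.mem_cons_of_mem _ (List.mem_cons_of_mem _ (List.mem_cons_self)))))))))))))))))))))))), ?_⟩, by norm_num⟩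
  constructor <;> norm_num [Q24, coCell, C21]

lemma lcell21 : ∀ x1 x2 xc : ℝ, 0 ≤ x1 → x1 ≤ 1 → 0 ≤ x2 → x2 ≤ 1 → C21.l ≤ xc → xc ≤ C21.u →
    (72261 / 65536 : ℝ) * (1 - (1 - x1) ^ 7) + (918081 / 65536 : ℝ) * (1 - (1 - x2) ^ 7) - ((395105 / 32768 : ℝ) + (113 / 256 : ℝ)) * (1 - (1 - xc) ^ 7)
      ≤ - C21.a1 * x1 - C21.a2 * x2 + C21.e * xc + C21.f := by
  have h := cell_lines 7 (α1 := (72261 / 65536 : ℝ)) (α2 := (918081 / 65536 : ℝ)) (c := (395105 / 32768 : ℝ) + (113 / 256 : ℝ)) (y1 := (15197 / 262144 : ℝ)) (y2 := (4359 / 65536 : ℝ))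
    (A1 := (11311885 / 2097152 : ℝ)) (B1 := (8593797 / 134217728 : ℝ)) (A2 := (272150093 / 4194304 : ℝ)) (B2 := (69807955 / 67108864 : ℝ)) (l := (9705 / 131072 : ℝ)) (u := (2669 / 32768 : ℝ))
    (E := (-112911871 / 2097152 : ℝ)) (F := (-81721495 / 67108864 : ℝ)) (by norm_num) (by norm_num) (by norm_num) (by norm_num) (by norm_num)
    (by norm_num) (by norm_num) (by norm_num) (by norm_num) (by norm_num) (by norm_num) (by norm_num) (by norm_num) (by norm_num) (by norm_num)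
  have e1 : C21.l = (9705 / 131072 : ℝ) := rfl
  have e2 : C21.u = (2669 / 32768 : ℝ) := rfl
  have e3 : C21.a1 = -(11311885 / 2097152 : ℝ) := by norm_num [C21]
  have e4 : C21.a2 = -(272150093 / 4194304 : ℝ) := by norm_num [C21]
  have e5 : C21.e = (-112911871 / 2097152 : ℝ) := rfl
  have e6 : C21.f = (8593797 / 134217728 : ℝ) + (69807955 / 67108864 : ℝ) + (-81721495 / 67108864 : ℝ) := by norm_num [C21]
  rw [e1, e2, e3, e4, e5, e6]
  exact h

lemma rcell22 : ∃ N : ℝ, Rw4 P.r2 N (coCell (72261 / 65536 : ℝ) (918081 / 65536 : ℝ) ((395105 / 32768 : ℝ) + (113 / 256 : ℝ)) (109 / 4096 : ℝ) C22) := by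
  refine ⟨(301989888 : ℝ), ⟨Q25, List.mem_cons_of_mem _ (List.mem_cons_of_mem _ (List.mem_cons_of_mem _ (List.mem_cons_of_mem _ (List.mem_cons_of_mem _ (List.mem_cons_of_mem _ (List.mem_cons_of_mem _ (List.mem_cons_of_mem _ (List.mem_cons_of_mem _ (List.mem_cons_of_mem _ (List.mem_cons_of_mem _ (List.mem_cons_of_mem _ (List.mem_cons_of_mem _ (List.mem_cons_of_mem _ (List.mem_cons_of_mem _ (List.mem_cons_of_mem _ (List.mem_cons_of_mem _ (List.mem_cons_of_mem _ (List.mem_cons_of_mem _ (List.mem_cons_of_mem _ (List.mem_cons_of_mem _ (List.mem_cons_of_mem _ (List.mem_cons_of_mem _ (List.mem_cons_of_mem _ (List.mem_cons_of_mem _ (List.mem_cons_self))))))))))))))))))))))))), ?_⟩, by norm_num⟩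
  constructor <;> norm_num [Q25, coCell, C22]

lemma lcell22 : ∀ x1 x2 xc : ℝ, 0 ≤ x1 → x1 ≤ 1 → 0 ≤ x2 → x2 ≤ 1 → C22.l ≤ xc → xc ≤ C22.u →
    (72261 / 65536 : ℝ) * (1 - (1 - x1) ^ 7) + (918081 / 65536 : ℝ) * (1 - (1 - x2) ^ 7) - ((395105 / 32768 : ℝ) + (113 / 256 : ℝ)) * (1 - (1 - xc) ^ 7)
      ≤ - C22.a1 * x1 - C22.a2 * x2 + C22.e * xc + C22.f := by
  have h := cell_lines 7 (α1 := (72261 / 65536 : ℝ)) (α2 := (918081 / 65536 : ℝ)) (c := (395105 / 32768 : ℝ) + (113 / 256 : ℝ)) (y1 := (8165 / 131072 : ℝ)) (y2 := (18707 / 262144 : ℝ))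
    (A1 := (22008079 / 4194304 : ℝ)) (B1 := (9778381 / 134217728 : ℝ)) (A2 := (32972283 / 524288 : ℝ)) (B2 := (316162591 / 268435456 : ℝ)) (l := (2669 / 32768 : ℝ)) (u := (367 / 4096 : ℝ))
    (E := (-214638561 / 4194304 : ℝ)) (F := (-385193105 / 268435456 : ℝ)) (by norm_num) (by norm_num) (by norm_num) (by norm_num) (by norm_num)
    (by norm_num) (by norm_num) (by norm_num) (by norm_num) (by norm_num) (by norm_num) (by norm_num) (by norm_num) (by norm_num) (by norm_num)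
  have e1 : C22.l = (2669 / 32768 : ℝ) := rfl
  have e2 : C22.u = (367 / 4096 : ℝ) := rfl
  have e3 : C22.a1 = -(22008079 / 4194304 : ℝ) := by norm_num [C22]
  have e4 : C22.a2 = -(32972283 / 524288 : ℝ) := by norm_num [C22]
  have e5 : C22.e = (-214638561 / 4194304 : ℝ) := rfl
  have e6 : C22.f = (9778381 / 134217728 : ℝ) + (316162591 / 268435456 : ℝ) + (-385193105 / 268435456 : ℝ) := by norm_num [C22]
  rw [e1, e2, e3, e4, e5, e6]
  exact h

lemma rcell23 : ∃ N : ℝ, Rw4 P.r2 N (coCell (72261 / 65536 : ℝ) (918081 / 65536 : ℝ) ((395105 / 32768 : ℝ) + (113 / 256 : ℝ)) (109 / 4096 : ℝ) C23) := by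
  refine ⟨(2415919104 : ℝ), ⟨Q26, List.mem_cons_of_mem _ (List.mem_cons_of_mem _ (List.mem_cons_of_mem _ (List.mem_cons_of_mem _ (List.mem_cons_of_mem _ (List.mem_cons_of_mem _ (List.mem_cons_of_mem _ (List.mem_cons_of_mem _ (List.mem_cons_of_mem _ (List.mem_cons_of_mem _ (List.mem_cons_of_mem _ (List.mem_cons_of_mem _ (List.mem_cons_of_mem _ (List.mem_cons_of_mem _ (List.mem_cons_of_mem _ (List.mem_cons_of_mem _ (List.mem_cons_of_mem _ (List.mem_cons_of_mem _ (List.mem_cons_of_mem _ (List.mem_cons_of_mem _ (List.mem_cons_of_mem _ (List.mem_cons_of_mem _ (List.mem_cons_of_mem _ (List.mem_cons_of_mem _ (List.mem_cons_of_mem _ (List.mem_cons_of_mem _ (List.mem_cons_self)))))))))))))))))))))))))), ?_⟩, by norm_num⟩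
  constructor <;> norm_num [Q26, coCell, C23]

lemma lcell23 : ∀ x1 x2 xc : ℝ, 0 ≤ x1 → x1 ≤ 1 → 0 ≤ x2 → x2 ≤ 1 → C23.l ≤ xc → xc ≤ C23.u →
    (72261 / 65536 : ℝ) * (1 - (1 - x1) ^ 7) + (918081 / 65536 : ℝ) * (1 - (1 - x2) ^ 7) - ((395105 / 32768 : ℝ) + (113 / 256 : ℝ)) * (1 - (1 - xc) ^ 7)
      ≤ - C23.a1 * x1 - C23.a2 * x2 + C23.e * xc + C23.f := by
  have h := cell_lines 7 (α1 := (72261 / 65536 : ℝ)) (α2 := (918081 / 65536 : ℝ)) (c := (395105 / 32768 : ℝ) + (113 / 256 : ℝ)) (y1 := (4451 / 65536 : ℝ)) (y2 := (20349 / 262144 : ℝ))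
    (A1 := (21228039 / 4194304 : ℝ)) (B1 := (11403145 / 134217728 : ℝ)) (A2 := (253281447 / 4194304 : ℝ)) (B2 := (366195113 / 268435456 : ℝ)) (l := (367 / 4096 : ℝ)) (u := (25837 / 262144 : ℝ))
    (E := (-202874455 / 4194304 : ℝ)) (F := (-113163225 / 67108864 : ℝ)) (by norm_num) (by norm_num) (by norm_num) (by norm_num) (by norm_num)
    (by norm_num) (by norm_num) (by norm_num) (by norm_num) (by norm_num) (by norm_num) (by norm_num) (by norm_num) (by norm_num) (by norm_num)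
  have e1 : C23.l = (367 / 4096 : ℝ) := rfl
  have e2 : C23.u = (25837 / 262144 : ℝ) := rfl
  have e3 : C23.a1 = -(21228039 / 4194304 : ℝ) := by norm_num [C23]
  have e4 : C23.a2 = -(253281447 / 4194304 : ℝ) := by norm_num [C23]
  have e5 : C23.e = (-202874455 / 4194304 : ℝ) := rfl
  have e6 : C23.f = (11403145 / 134217728 : ℝ) + (366195113 / 268435456 : ℝ) + (-113163225 / 67108864 : ℝ) := by norm_num [C23]
  rw [e1, e2, e3, e4, e5, e6]
  exact h

lemma rcell24 : ∃ N : ℝ, Rw4 P.r2 N (coCell (72261 / 65536 : ℝ) (918081 / 65536 : ℝ) ((395105 / 32768 : ℝ) + (113 / 256 : ℝ)) (109 / 4096 : ℝ) C24) := by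
  refine ⟨(301989888 : ℝ), ⟨Q27, List.mem_cons_of_mem _ (List.mem_cons_of_mem _ (List.mem_cons_of_mem _ (List.mem_cons_of_mem _ (List.mem_cons_of_mem _ (List.mem_cons_of_mem _ (List.mem_cons_of_mem _ (List.mem_cons_of_mem _ (List.mem_cons_of_mem _ (List.mem_cons_of_mem _ (List.mem_cons_of_mem _ (List.mem_cons_of_mem _ (List.mem_cons_of_mem _ (List.mem_cons_of_mem _ (List.mem_cons_of_mem _ (List.mem_cons_of_mem _ (List.mem_cons_of_mem _ (List.mem_cons_of_mem _ (List.mem_cons_of_mem _ (List.mem_cons_of_mem _ (List.mem_cons_of_mem _ (List.mem_cons_of_mem _ (List.mem_cons_of_mem _ (List.mem_cons_of_mem _ (List.mem_cons_of_mem _ (List.mem_cons_of_mem _ (List.mem_cons_of_mem _ (List.mem_cons_self))))))))))))))))))))))))))), ?_⟩, by norm_num⟩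
  constructor <;> norm_num [Q27, coCell, C24]

lemma lcell24 : ∀ x1 x2 xc : ℝ, 0 ≤ x1 → x1 ≤ 1 → 0 ≤ x2 → x2 ≤ 1 → C24.l ≤ xc → xc ≤ C24.u →
    (72261 / 65536 : ℝ) * (1 - (1 - x1) ^ 7) + (918081 / 65536 : ℝ) * (1 - (1 - x2) ^ 7) - ((395105 / 32768 : ℝ) + (113 / 256 : ℝ)) * (1 - (1 - xc) ^ 7)
      ≤ - C24.a1 * x1 - C24.a2 * x2 + C24.e * xc + C24.f := by
  have h := cell_lines 7 (α1 := (72261 / 65536 : ℝ)) (α2 := (918081 / 65536 : ℝ)) (c := (395105 / 32768 : ℝ) + (113 / 256 : ℝ)) (y1 := (9231 / 131072 : ℝ)) (y2 := (2685 / 32768 : ℝ))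
    (A1 := (20887341 / 4194304 : ℝ)) (B1 := (12157249 / 134217728 : ℝ)) (A2 := (246255685 / 4194304 : ℝ)) (B2 := (402065443 / 268435456 : ℝ)) (l := (25837 / 262144 : ℝ)) (u := (28421 / 262144 : ℝ))
    (E := (-190561285 / 4194304 : ℝ)) (F := (-530322669 / 268435456 : ℝ)) (by norm_num) (by norm_num) (by norm_num) (by norm_num) (by norm_num)
    (by norm_num) (by norm_num) (by norm_num) (by norm_num) (by norm_num) (by norm_num) (by norm_num) (by norm_num) (by norm_num) (by norm_num)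
  have e1 : C24.l = (25837 / 262144 : ℝ) := rfl
  have e2 : C24.u = (28421 / 262144 : ℝ) := rfl
  have e3 : C24.a1 = -(20887341 / 4194304 : ℝ) := by norm_num [C24]
  have e4 : C24.a2 = -(246255685 / 4194304 : ℝ) := by norm_num [C24]
  have e5 : C24.e = (-190561285 / 4194304 : ℝ) := rfl
  have e6 : C24.f = (12157249 / 134217728 : ℝ) + (402065443 / 268435456 : ℝ) + (-530322669 / 268435456 : ℝ) := by norm_num [C24]
  rw [e1, e2, e3, e4, e5, e6]
  exact h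

lemma rcell25 : ∃ N : ℝ, Rw4 P.r2 N (coCell (72261 / 65536 : ℝ) (918081 / 65536 : ℝ) ((395105 / 32768 : ℝ) + (113 / 256 : ℝ)) (109 / 4096 : ℝ) C25) := by
  refine ⟨(2415919104 : ℝ), ⟨Q28, List.mem_cons_of_mem _ (List.mem_cons_of_mem _ (List.mem_cons_of_mem _ (List.mem_cons_of_mem _ (List.mem_cons_of_mem _ (List.mem_cons_of_mem _ (List.mem_cons_of_mem _ (List.mem_cons_of_mem _ (List.mem_cons_of_mem _ (List.mem_cons_of_mem _ (List.mem_cons_of_mem _ (List.mem_cons_of_mem _ (List.mem_cons_of_mem _ (List.mem_cons_of_mem _ (List.mem_cons_of_mem _ (List.mem_cons_of_mem _ (List.mem_cons_of_mem _ (List.mem_cons_of_mem _ (List.mem_cons_of_mem _ (List.mem_cons_of_mem _ (List.mem_cons_of_mem _ (List.mem_cons_of_mem _ (List.mem_cons_of_mem _ (List.mem_cons_of_mem _ (List.mem_cons_of_mem _ (List.mem_cons_of_mem _ (List.mem_cons_of_mem _ (List.mem_cons_of_mem _ (List.mem_cons_self)))))))))))))))))))))))))))),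 ?_⟩, by norm_num⟩
  constructor <;> norm_num [Q28, coCell, C25]

lemma lcell25 : ∀ x1 x2 xc : ℝ, 0 ≤ x1 → x1 ≤ 1 → 0 ≤ x2 → x2 ≤ 1 → C25.l ≤ xc → xc ≤ C25.u →
    (72261 / 65536 : ℝ) * (1 - (1 - x1) ^ 7) + (918081 / 65536 : ℝ) * (1 - (1 - x2) ^ 7) - ((395105 / 32768 : ℝ) + (113 / 256 : ℝ)) * (1 - (1 - xc) ^ 7)
      ≤ - C25.a1 * x1 - C25.a2 * x2 + C25.e * xc + C25.f := by
  have h := cell_lines 7 (α1 := (72261 / 65536 : ℝ)) (α2 := (918081 / 65536 : ℝ)) (c := (395105 / 32768 : ℝ) + (113 / 256 : ℝ)) (y1 := (20015 / 262144 : ℝ)) (y2 := (23081 / 262144 : ℝ))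
    (A1 := (20101261 / 4194304 : ℝ)) (B1 := (14002921 / 134217728 : ℝ)) (A2 := (236588523 / 4194304 : ℝ)) (B2 := (113660041 / 67108864 : ℝ)) (l := (28421 / 262144 : ℝ)) (u := (123 / 1024 : ℝ))
    (E := (-22154183 / 524288 : ℝ)) (F := (-622800697 / 268435456 : ℝ)) (by norm_num) (by norm_num) (by norm_num) (by norm_num) (by norm_num)
    (by norm_num) (by norm_num) (by norm_num) (by norm_num) (by norm_num) (by norm_num) (by norm_num) (by norm_num) (by norm_num) (by norm_num)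
  have e1 : C25.l = (28421 / 262144 : ℝ) := rfl
  have e2 : C25.u = (123 / 1024 : ℝ) := rfl
  have e3 : C25.a1 = -(20101261 / 4194304 : ℝ) := by norm_num [C25]
  have e4 : C25.a2 = -(236588523 / 4194304 : ℝ) := by norm_num [C25]
  have e5 : C25.e = (-22154183 / 524288 : ℝ) := rfl
  have e6 : C25.f = (14002921 / 134217728 : ℝ) + (113660041 / 67108864 : ℝ) + (-622800697 / 268435456 : ℝ) := by norm_num [C25]
  rw [e1, e2, e3, e4, e5, e6]
  exact h

/-- The whole chain. -/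
lemma chain {lam : ℝ} (h0 : -(1 / 2) < lam) (h1 : lam < 1) (hB : BoxS lam P 0 HH 0 HH) :
    ∃ n, 1 - En 7 lam n mc ≤ (123 / 1024 : ℝ) := (start_of_box h0 h1 hB _ rc3)

/-- The hypotheses at the origin. -/
lemma horig (lam : ℝ) (hd : (7 : ℝ) * lam ^ 2 = 1) (hb : |lam| ≤ (12986760405 / 34359738368 : ℝ)) :
    OriginH 7 lam (72261 / 65536 : ℝ) (918081 / 65536 : ℝ) (395105 / 32768 : ℝ) (113 / 256 : ℝ) (109 / 4096 : ℝ) (285 / 4096 : ℝ) (537 / 512 : ℝ) (1 / 256 : ℝ) 3298534883328 := by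
  refine originH_of_num (d := 7) (by push_cast; exact hd) hb (by norm_num) (by norm_num) (by norm_num) (by norm_num)
    (by norm_num) (by norm_num) (by norm_num) (by norm_num) (by norm_num) (by norm_num) (by norm_num [S]) (by norm_num) ?_ ?_
  · rw [hch]
    norm_num [abs_of_pos, abs_of_neg]
  · norm_num [abs_of_pos, abs_of_neg]

/-- Nonreconstruction at the bound. -/
theorem main : Tendsto (reconError 3 7 (1 / Real.sqrt 7)) atTop (𝓝 0) := by
  have hsq' : Real.sqrt (7 : ℝ) ^ 2 = 7 := by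
    rw [Real.sq_sqrt (by positivity)]
  have hs0 : 0 < Real.sqrt (7 : ℝ) := Real.sqrt_pos.2 (by norm_num)
  have hl2 : ((7 : ℝ)) * (1 / Real.sqrt 7) ^ 2 = 1 := by
    have : (1 / Real.sqrt (7 : ℝ)) ^ 2 = 1 / 7 := by
      rw [div_pow, hsq']; norm_num
    rw [this]; norm_num
  have hb : |(1 / Real.sqrt (7 : ℝ))| ≤ (12986760405 / 34359738368 : ℝ) := by
    rw [abs_of_pos (by positivity)]
    rw [div_le_iff₀ hs0]
    have h1 : (1 : ℝ) ^ 2 ≤ ((12986760405 / 34359738368 : ℝ) * Real.sqrt 7) ^ 2 := by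
      rw [mul_pow, hsq']; norm_num
    exact le_of_sq_le_sq h1 (by positivity)
  have hb2 : (-(1 / 2) : ℝ) < 1 / Real.sqrt (7 : ℝ) := by
    have : 0 < 1 / Real.sqrt (7 : ℝ) := by positivity
    linarith
  have h1 : (1 / Real.sqrt (7 : ℝ)) < 1 := by
    have h2 := (abs_le.1 hb).2
    have h3 : ((12986760405 / 34359738368 : ℝ) : ℝ) < 1 := by norm_num
    linarith
  have hlam : |(S : ℝ) * (1 / Real.sqrt (7 : ℝ)) - ((P.lp : ℝ) - P.ln)| ≤ ((1 : ℕ) : ℝ) := by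
    have h := lam_enc_pos 7 27235210556858266 (by norm_num) (by norm_num [S]) (by norm_num [S])
    have e : ((7 : ℕ) : ℝ) = (7 : ℝ) := by norm_num
    rw [e] at h
    exact h
  obtain ⟨hOa, hON⟩ := horig _ hl2 hb
  have hB := box hlam
  refine final_of_boxB (d := 7) (by norm_num) hb2 h1 hB (72261 / 65536 : ℝ) (918081 / 65536 : ℝ) (395105 / 32768 : ℝ) (113 / 256 : ℝ) (285 / 4096 : ℝ) (537 / 512 : ℝ) (5243 / 524288 : ℝ) (839 / 2048 : ℝ) (109 / 4096 : ℝ) (123 / 1024 : ℝ) cellsL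
    (by norm_num) (by norm_num) (by norm_num) (by norm_num) (by norm_num) (by norm_num) (by norm_num) (by norm_num)
    (by norm_num) (by norm_num) (by norm_num) (by norm_num) (by norm_num) hOa hON rTa rTb rc1 rc2
    (forall_cons rcell0 (forall_cons rcell1 (forall_cons rcell2 (forall_cons rcell3 (forall_cons rcell4 (forall_cons rcell5 (forall_cons rcell6 (forall_cons rcell7 (forall_cons rcell8 (forall_cons rcell9 (forall_cons rcell10 (forall_cons rcell11 (forall_cons rcell12 (forall_cons rcell13 (forall_cons rcell14 (forall_cons rcell15 (forall_cons rcell16 (forall_cons rcell17 (forall_cons rcell18 (forall_cons rcell19 (forall_cons rcell20 (forall_cons rcell21 (forall_cons rcell22 (forall_cons rcell23 (forall_cons rcell24 (forall_cons rcell25 (forall_nil))))))))))))))))))))))))))) hcover (forall_cons lcell0 (forall_cons lcell1 (forall_cons lcell2 (forall_cons lcell3 (forall_cons lcell4 (forall_cons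 lcell5 (forall_cons lcell6 (forall_cons lcell7 (forall_cons lcell8 (forall_cons lcell9 (forall_cons lcell10 (forall_cons lcell11 (forall_cons lcell12 (forall_cons lcell13 (forall_cons lcell14 (forall_cons lcell15 (forall_cons lcell16 (forall_cons lcell17 (forall_cons lcell18 (forall_cons lcell19 (forall_cons lcell20 (forall_cons lcell21 (forall_cons lcell22 (forall_cons lcell23 (forall_cons lcell24 (forall_cons lcell25 (forall_nil))))))))))))))))))))))))))) (chain hb2 h1 hB)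

end Vale.Agent.P154H.Tm.P7
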